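import Mathlib
attribute [-instance] ProperSMul.toContinuousSMul IsTopologicalTorsor.toContinuousSMul IdemSemiring.toCanonicallyOrderedAdd IdemSemiring.toMulLeftMono IdemSemiring.toMulRightMono AddQuantale.instAddLeftMono AddQuantale.instAddRightMono Quantale.instMulLeftMono Quantale.instMulRightMono FiniteDimensional.rclike_to_real IsScalarTower.complexToReal FiniteDimensional.complexToReal

set_option linter.all false

section

/-!
Tor toolkit: long exact sequence in the first variable.
-/

namespace Vale.Agent.P177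

open CategoryTheory MonoidalCategory Limits TensorProduct

universe u

variable (R : Type u) [CommRing R]

/-- The n-th Tor module of M and N over R (Mathlib's `CategoryTheory.Tor` in `ModuleCat R`). -/
noncomputable abbrev TorM (n : ℕ) (M N : Type u) [AddCommGroup M] [Module R M]
    [AddCommGroup N] [Module R N] : ModuleCat.{u} R :=
  ((Tor (ModuleCat.{u} R) n).obj (ModuleCat.of R M)).obj (ModuleCat.of R N)

/-- The functor `M ↦ M ⊗ K` for a chain complex `K`. -/
noncomputable def tensorComplex (K : ChainComplex (ModuleCat.{u} R) ℕ) :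
    ModuleCat.{u} R ⥤ ChainComplex (ModuleCat.{u} R) ℕ where
  obj M := (((tensoringLeft (ModuleCat.{u} R)).obj M).mapHomologicalComplex _).obj K
  map f := (NatTrans.mapHomologicalComplex ((tensoringLeft (ModuleCat.{u} R)).map f) _).app K
  map_id M := by
    ext i : 1
    simp
  map_comp f g := by
    ext i : 1
    simp

@[simp]
lemma tensorComplex_map_f (K : ChainComplex (ModuleCat.{u} R) ℕ) {M M' : ModuleCat.{u} R}
    (f : M ⟶ M') (i : ℕ) :
    ((tensorComplex R K).map f).f i = f ▷ K.X i := rfl

instance (K : ChainComplex (ModuleCat.{u} R) ℕ) : (tensorComplex R K).PreservesZeroMorphisms where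
  map_zero M N := by
    ext i : 1
    rw [tensorComplex_map_f]
    exact MonoidalPreadditive.zero_whiskerRight

/-- Tor computed by a resolution of the second variable. -/
noncomputable def torIso (n : ℕ) (M : ModuleCat.{u} R) {N : ModuleCat.{u} R}
    (P : ProjectiveResolution N) :
    ((Tor (ModuleCat.{u} R) n).obj M).obj N ≅ ((tensorComplex R P.complex).obj M).homology n :=
  P.isoLeftDerivedObj _ n

lemma torIso_naturality (n : ℕ) {M M' : ModuleCat.{u} R} (f : M ⟶ M') {N : ModuleCat.{u} R}
    (P : ProjectiveResolution N) :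
    ((Tor (ModuleCat.{u} R) n).map f).app N ≫ (torIso R n M' P).hom =
      (torIso R n M P).hom ≫
        HomologicalComplex.homologyMap ((tensorComplex R P.complex).map f) n := by
  change (NatTrans.leftDerived ((tensoringLeft (ModuleCat.{u} R)).map f) n).app N ≫
    (P.isoLeftDerivedObj ((tensoringLeft (ModuleCat.{u} R)).obj M') n).hom =
    (P.isoLeftDerivedObj ((tensoringLeft (ModuleCat.{u} R)).obj M) n).hom ≫ _
  rw [ProjectiveResolution.leftDerived_app_eq _ P n]
  simp only [Category.assoc, Iso.inv_hom_id, Category.comp_id]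
  rfl

instance flat_of_projective (P : ModuleCat.{u} R) [Projective P] : Module.Flat R P := by
  have : Module.Projective R P := (IsProjective.iff_projective P).mpr inferInstance
  infer_instance

lemma shortExact_whiskerRight {S : ShortComplex (ModuleCat.{u} R)} (hS : S.ShortExact)
    (P : ModuleCat.{u} R) [Module.Flat R P] :
    (S.map (tensorRight P)).ShortExact := by
  have : PreservesFiniteLimits (tensorRight P) := inferInstance
  exact hS.map_of_exact _

/-- The short exact sequence of complexes. -/
lemma shortExact_tensorComplex {S : ShortComplex (ModuleCat.{u} R)} (hS : S.ShortExact)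
    (K : ChainComplex (ModuleCat.{u} R) ℕ) (hK : ∀ i, Module.Flat R (K.X i)) :
    (S.map (tensorComplex R K)).ShortExact := by
  apply HomologicalComplex.shortExact_of_degreewise_shortExact
  intro i
  have := hK i
  exact shortExact_whiskerRight R hS (K.X i)

lemma exact_transport {R : Type u} [CommRing R] {A B C A' B' C' : ModuleCat.{u} R}
    {f : A ⟶ B} {g : B ⟶ C} {f' : A' ⟶ B'} {g' : B' ⟶ C'} (a : A ≅ A') (b : B ≅ B') (c : C ≅ C')
    (h1 : f ≫ b.hom = a.hom ≫ f') (h2 : g ≫ c.hom = b.hom ≫ g') (h : Function.Exact f' g') :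
    Function.Exact f g := by
  have k1 : ∀ x, b.hom (f x) = f' (a.hom x) := fun x => by
    have := congrArg (fun t => t.hom x) h1
    simpa using this
  have k2 : ∀ x, c.hom (g x) = g' (b.hom x) := fun x => by
    have := congrArg (fun t => t.hom x) h2
    simpa using this
  have bi : Function.Injective b.hom := (ConcreteCategory.bijective_of_isIso b.hom).1
  have ci : Function.Injective c.hom := (ConcreteCategory.bijective_of_isIso c.hom).1
  have asj : Function.Surjective a.hom := (ConcreteCategory.bijective_of_isIso a.hom).2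
  intro x
  constructor
  · intro hx
    have : g' (b.hom x) = 0 := by rw [← k2, hx, map_zero]
    obtain ⟨y, hy⟩ := (h (b.hom x)).1 this
    obtain ⟨z, rfl⟩ := asj y
    refine ⟨z, bi ?_⟩
    rw [k1, hy]
  · rintro ⟨z, rfl⟩
    apply ci
    rw [k2, k1, map_zero]
    exact (h _).2 ⟨_, rfl⟩

lemma comp_iso_aux {𝒞 : Type*} [Category 𝒞] {A B C D : 𝒞} (a : A ⟶ B) (δ : B ⟶ C) (b : D ≅ C) :
    (a ≫ δ ≫ b.inv) ≫ b.hom = a ≫ δ := by simp

section LES

variable {R}
variable {S : ShortComplex (ModuleCat.{u} R)}

lemma ses (hS : S.ShortExact) {N : ModuleCat.{u} R} (P : ProjectiveResolution N) :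
    (S.map (tensorComplex R P.complex)).ShortExact :=
  shortExact_tensorComplex R hS P.complex (fun _ => inferInstance)

/-- The connecting map for Tor in the first variable. -/
noncomputable def torDelta (hS : S.ShortExact) (N : ModuleCat.{u} R) (n : ℕ) :
    ((Tor (ModuleCat.{u} R) (n + 1)).obj S.X₃).obj N ⟶ ((Tor (ModuleCat.{u} R) n).obj S.X₁).obj N :=
  (torIso R (n + 1) S.X₃ (projectiveResolution N)).hom ≫
    (ses hS (projectiveResolution N)).δ (n + 1) n (by simp) ≫
      (torIso R n S.X₁ (projectiveResolution N)).inv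

lemma tor_exact₂ (hS : S.ShortExact) (N : ModuleCat.{u} R) (n : ℕ) :
    Function.Exact (((Tor (ModuleCat.{u} R) n).map S.f).app N)
      (((Tor (ModuleCat.{u} R) n).map S.g).app N) := by
  have h := (ses hS (projectiveResolution N)).homology_exact₂ n
  rw [ShortComplex.ShortExact.moduleCat_exact_iff_function_exact] at h
  exact exact_transport _ _ _ (torIso_naturality R n S.f (projectiveResolution N))
    (torIso_naturality R n S.g (projectiveResolution N)) h

lemma tor_exact₁ (hS : S.ShortExact) (N : ModuleCat.{u} R) (n : ℕ) :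
    Function.Exact (torDelta hS N n)
      (((Tor (ModuleCat.{u} R) n).map S.f).app N) := by
  have h := (ses hS (projectiveResolution N)).homology_exact₁ (n + 1) n (by simp)
  rw [ShortComplex.ShortExact.moduleCat_exact_iff_function_exact] at h
  refine exact_transport (torIso R (n + 1) S.X₃ (projectiveResolution N)) _ _ ?_
    (torIso_naturality R n S.f (projectiveResolution N)) h
  exact comp_iso_aux _ _ _

lemma tor_exact₃ (hS : S.ShortExact) (N : ModuleCat.{u} R) (n : ℕ) :
    Function.Exact (((Tor (ModuleCat.{u} R) (n + 1)).map S.g).app N) (torDelta hS N n) := by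
  have h := (ses hS (projectiveResolution N)).homology_exact₃ (n + 1) n (by simp)
  rw [ShortComplex.ShortExact.moduleCat_exact_iff_function_exact] at h
  refine exact_transport _ _ (torIso R n S.X₁ (projectiveResolution N))
    (torIso_naturality R (n + 1) S.g (projectiveResolution N)) ?_ h
  exact comp_iso_aux _ _ _

end LES

end Vale.Agent.P177
end

section

/-!
Unbundled API for Tor.
-/

namespace Vale.Agent.P177

open CategoryTheory MonoidalCategory Limits TensorProduct

universe u

variable {R : Type u} [CommRing R]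
variable {M M' M'' N N' : Type u} [AddCommGroup M] [Module R M] [AddCommGroup M'] [Module R M']
  [AddCommGroup M''] [Module R M''] [AddCommGroup N] [Module R N] [AddCommGroup N'] [Module R N']

/-- Functoriality of Tor in the first variable. -/
noncomputable def torMap (n : ℕ) (f : M →ₗ[R] M') (N : Type u) [AddCommGroup N] [Module R N] :
    TorM R n M N →ₗ[R] TorM R n M' N :=
  (((Tor (ModuleCat.{u} R) n).map (ModuleCat.ofHom f)).app (ModuleCat.of R N)).hom

/-- Functoriality of Tor in the second variable. -/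
noncomputable def torMapRight (n : ℕ) (M : Type u) [AddCommGroup M] [Module R M]
    (f : N →ₗ[R] N') : TorM R n M N →ₗ[R] TorM R n M N' :=
  (((Tor (ModuleCat.{u} R) n).obj (ModuleCat.of R M)).map (ModuleCat.ofHom f)).hom

lemma torMap_id (n : ℕ) : torMap n (LinearMap.id : M →ₗ[R] M) N = LinearMap.id := by
  unfold torMap
  rw [ModuleCat.ofHom_id, (Tor (ModuleCat.{u} R) n).map_id]
  rfl

lemma torMap_comp (n : ℕ) (f : M →ₗ[R] M') (g : M' →ₗ[R] M'') :
    torMap n (g ∘ₗ f) N = torMap n g N ∘ₗ torMap n f N := by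
  unfold torMap
  rw [ModuleCat.ofHom_comp, (Tor (ModuleCat.{u} R) n).map_comp]
  rfl

lemma torMapRight_id (n : ℕ) : torMapRight n M (LinearMap.id : N →ₗ[R] N) = LinearMap.id := by
  unfold torMapRight
  rw [ModuleCat.ofHom_id, ((Tor (ModuleCat.{u} R) n).obj _).map_id]
  rfl

lemma torMapRight_comp {N'' : Type u} [AddCommGroup N''] [Module R N''] (n : ℕ)
    (f : N →ₗ[R] N') (g : N' →ₗ[R] N'') :
    torMapRight n M (g ∘ₗ f) = torMapRight n M g ∘ₗ torMapRight n M f := by
  unfold torMapRight
  rw [ModuleCat.ofHom_comp, ((Tor (ModuleCat.{u} R) n).obj _).map_comp]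
  rfl

/-- Tor respects isomorphisms in the first variable. -/
noncomputable def torCongrLeft (n : ℕ) (e : M ≃ₗ[R] M') (N : Type u) [AddCommGroup N]
    [Module R N] : TorM R n M N ≃ₗ[R] TorM R n M' N :=
  LinearEquiv.ofLinearMap (torMap n e.toLinearMap N) (torMap n e.symm.toLinearMap N)
    (by rw [← torMap_comp, ← LinearEquiv.coe_trans, LinearEquiv.symm_trans_self]; exact torMap_id n)
    (by rw [← torMap_comp, ← LinearEquiv.coe_trans, LinearEquiv.self_trans_symm]; exact torMap_id n)

/-- Tor respects isomorphisms in the second variable. -/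
noncomputable def torCongrRight (n : ℕ) (M : Type u) [AddCommGroup M] [Module R M]
    (e : N ≃ₗ[R] N') : TorM R n M N ≃ₗ[R] TorM R n M N' :=
  LinearEquiv.ofLinearMap (torMapRight n M e.toLinearMap) (torMapRight n M e.symm.toLinearMap)
    (by rw [← torMapRight_comp, ← LinearEquiv.coe_trans, LinearEquiv.symm_trans_self]
        exact torMapRight_id n)
    (by rw [← torMapRight_comp, ← LinearEquiv.coe_trans, LinearEquiv.self_trans_symm]
        exact torMapRight_id n)

/-- The long exact sequence of Tor in the first variable. -/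
theorem exists_torDelta (f : M' →ₗ[R] M) (g : M →ₗ[R] M'') (hf : Function.Injective f)
    (hg : Function.Surjective g) (h : Function.Exact f g) (N : Type u) [AddCommGroup N]
    [Module R N] :
    ∃ δ : ∀ n, TorM R (n + 1) M'' N →ₗ[R] TorM R n M' N,
      (∀ n, Function.Exact (torMap (n + 1) g N) (δ n)) ∧
      (∀ n, Function.Exact (δ n) (torMap n f N)) ∧
      (∀ n, Function.Exact (torMap n f N) (torMap n g N)) := by
  let S : ShortComplex (ModuleCat.{u} R) :=
    ShortComplex.moduleCatMk f g (by ext x; exact (h (f x)).2 ⟨x, rfl⟩)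
  have hS : S.ShortExact := {
    exact := by
      rw [ShortComplex.ShortExact.moduleCat_exact_iff_function_exact]
      exact h
    mono_f := (ModuleCat.mono_iff_injective _).2 hf
    epi_g := (ModuleCat.epi_iff_surjective _).2 hg }
  refine ⟨fun n => (torDelta hS (ModuleCat.of R N) n).hom, ?_, ?_, ?_⟩
  · intro n
    exact tor_exact₃ hS (ModuleCat.of R N) n
  · intro n
    exact tor_exact₁ hS (ModuleCat.of R N) n
  · intro n
    exact tor_exact₂ hS (ModuleCat.of R N) n

/-- Tor vanishes in positive degrees if the first variable is flat. -/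
theorem tor_subsingleton_of_flat [Module.Flat R M] (n : ℕ) :
    Subsingleton (TorM R (n + 1) M N) := by
  let P := projectiveResolution (ModuleCat.of R N)
  have h : IsZero (((tensorComplex R P.complex).obj (ModuleCat.of R M)).homology (n + 1)) := by
    rw [← HomologicalComplex.exactAt_iff_isZero_homology]
    rw [HomologicalComplex.exactAt_iff' _ (n + 2) (n + 1) n (by simp) (by simp)]
    have h1 : (P.complex.sc' (n + 2) (n + 1) n).Exact := P.exact_succ n
    have h2 := Module.Flat.lTensor_shortComplex_exact (ModuleCat.of R M) _ h1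
    exact h2
  have h2 : IsZero (TorM R (n + 1) M N) := h.of_iso (torIso R (n + 1) (ModuleCat.of R M) P)
  exact ModuleCat.subsingleton_of_isZero h2

/-- Tor vanishes in positive degrees if the second variable is projective. -/
theorem tor_subsingleton_of_projective_right [Module.Projective R N] (n : ℕ) :
    Subsingleton (TorM R (n + 1) M N) := by
  have : Projective (ModuleCat.of R N) :=
    (IsProjective.iff_projective (ModuleCat.of R N)).mp inferInstance
  exact ModuleCat.subsingleton_of_isZero
    (isZero_Tor_succ_of_projective (ModuleCat.{u} R) (ModuleCat.of R M) (ModuleCat.of R N) n)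

end Vale.Agent.P177
end

section

/-!
Tor in degree zero, dimension shifting, finiteness, annihilators and symmetry of Tor.
-/

namespace Vale.Agent.P177

open CategoryTheory MonoidalCategory Limits TensorProduct

universe u v

lemma fromLeftDerivedZero_natural {C D : Type*} [Category C] [Category D]
    [Abelian C] [HasProjectiveResolutions C] [Abelian D] {F G : C ⥤ D} [F.Additive] [G.Additive]
    (α : F ⟶ G) (X : C) :
    (NatTrans.leftDerived α 0).app X ≫ G.fromLeftDerivedZero.app X =
      F.fromLeftDerivedZero.app X ≫ α.app X := by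
  let P := projectiveResolution X
  rw [P.fromLeftDerivedZero_eq F, P.fromLeftDerivedZero_eq G, P.leftDerived_app_eq α 0]
  simp only [Category.assoc, Iso.inv_hom_id_assoc]
  congr 1
  have h1 : HomologicalComplex.opcyclesMap
      ((NatTrans.mapHomologicalComplex α (ComplexShape.down ℕ)).app P.complex) 0 ≫
        P.fromLeftDerivedZero' G = P.fromLeftDerivedZero' F ≫ α.app X := by
    rw [← cancel_epi (HomologicalComplex.pOpcycles _ _)]
    simp only [HomologicalComplex.p_opcyclesMap_assoc]
    rw [ProjectiveResolution.pOpcycles_comp_fromLeftDerivedZero']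
    rw [ProjectiveResolution.pOpcycles_comp_fromLeftDerivedZero'_assoc]
    exact (α.naturality _).symm
  refine Eq.trans ?_ (Category.assoc _ _ _).symm
  rw [← h1]
  exact HomologicalComplex.homologyι_naturality_assoc _ _ _

variable {R : Type u} [CommRing R]
variable {M M' M'' N N' K F : Type u} [AddCommGroup M] [Module R M] [AddCommGroup M'] [Module R M']
  [AddCommGroup M''] [Module R M''] [AddCommGroup N] [Module R N] [AddCommGroup N'] [Module R N']
  [AddCommGroup K] [Module R K] [AddCommGroup F] [Module R F]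

/-- `Tor_0(M,N) ≃ M ⊗ N`. -/
noncomputable def torZero (M N : Type u) [AddCommGroup M] [Module R M]
    [AddCommGroup N] [Module R N] : TorM R 0 M N ≃ₗ[R] M ⊗[R] N :=
  (((tensorLeft (ModuleCat.of R M)).leftDerivedZeroIsoSelf).app (ModuleCat.of R N)).toLinearEquiv

theorem torZero_naturality (f : M →ₗ[R] M') (x : TorM R 0 M N) :
    torZero M' N (torMap 0 f N x) = f.rTensor N (torZero M N x) := by
  have h := fromLeftDerivedZero_natural
    ((tensoringLeft (ModuleCat.{u} R)).map (ModuleCat.ofHom f)) (ModuleCat.of R N)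
  have h2 := congrArg (fun t => t.hom x) h
  exact h2

/-- Dimension shifting in the first variable. -/
theorem tor_shift [Module.Flat R F] (f : K →ₗ[R] F) (g : F →ₗ[R] M) (hf : Function.Injective f)
    (hg : Function.Surjective g) (h : Function.Exact f g) (N : Type u) [AddCommGroup N]
    [Module R N] (n : ℕ) : Nonempty (TorM R (n + 2) M N ≃ₗ[R] TorM R (n + 1) K N) := by
  obtain ⟨δ, h1, h2, -⟩ := exists_torDelta f g hf hg h N
  have s1 : Subsingleton (TorM R (n + 2) F N) := tor_subsingleton_of_flat (n + 1)
  have s2 : Subsingleton (TorM R (n + 1) F N) := tor_subsingleton_of_flat n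
  refine ⟨LinearEquiv.ofBijective (δ (n + 1)) ⟨?_, ?_⟩⟩
  · rw [injective_iff_map_eq_zero]
    intro x hx
    obtain ⟨y, rfl⟩ := (h1 (n + 1) x).1 hx
    rw [Subsingleton.elim y 0, map_zero]
  · intro x
    exact (h2 (n + 1) x).1 (Subsingleton.elim _ _)

/-- `Tor_1(M,N)` as a kernel. -/
theorem tor_one [Module.Flat R F] (f : K →ₗ[R] F) (g : F →ₗ[R] M) (hf : Function.Injective f)
    (hg : Function.Surjective g) (h : Function.Exact f g) (N : Type u) [AddCommGroup N]
    [Module R N] : Nonempty (TorM R 1 M N ≃ₗ[R] LinearMap.ker (f.rTensor N)) := by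
  obtain ⟨δ, h1, h2, -⟩ := exists_torDelta f g hf hg h N
  have s1 : Subsingleton (TorM R 1 F N) := tor_subsingleton_of_flat 0
  let φ : TorM R 1 M N →ₗ[R] K ⊗[R] N := (torZero K N).toLinearMap ∘ₗ δ 0
  have hφ : ∀ x, φ x ∈ LinearMap.ker (f.rTensor N) := by
    intro x
    rw [LinearMap.mem_ker]
    change f.rTensor N (torZero K N (δ 0 x)) = 0
    rw [← torZero_naturality, (h2 0 _).2 ⟨x, rfl⟩, map_zero]
  refine ⟨LinearEquiv.ofBijective (φ.codRestrict _ hφ) ⟨?_, ?_⟩⟩
  · rw [injective_iff_map_eq_zero]
    intro x hx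
    have hx' : φ x = 0 := congrArg Subtype.val hx
    have hx2 : δ 0 x = 0 := (torZero K N).injective (by rw [map_zero]; exact hx')
    obtain ⟨y, rfl⟩ := (h1 0 x).1 hx2
    rw [Subsingleton.elim y 0, map_zero]
  · rintro ⟨x, hx⟩
    rw [LinearMap.mem_ker] at hx
    have : torMap 0 f N ((torZero K N).symm x) = 0 := by
      apply (torZero F N).injective
      rw [torZero_naturality, LinearEquiv.apply_symm_apply, hx, map_zero]
    obtain ⟨y, hy⟩ := (h2 0 _).1 this
    refine ⟨y, Subtype.ext ?_⟩
    change torZero K N (δ 0 y) = x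
    rw [hy, LinearEquiv.apply_symm_apply]

/-- Finite presentation step: a short exact sequence with finite free middle term. -/
theorem exists_finite_free_cover [IsNoetherianRing R] (M : Type u) [AddCommGroup M] [Module R M]
    [Module.Finite R M] :
    ∃ (m : ℕ) (K : Submodule R (Fin m → R)) (g : (Fin m → R) →ₗ[R] M),
      Function.Surjective g ∧ Function.Exact K.subtype g := by
  obtain ⟨m, g, hg⟩ := Module.Finite.exists_fin' R M
  refine ⟨m, LinearMap.ker g, g, hg, ?_⟩
  intro x
  simp

/-- Tor is finitely generated. -/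
theorem tor_finite [IsNoetherianRing R] (n : ℕ) (M N : Type u) [AddCommGroup M] [Module R M]
    [AddCommGroup N] [Module R N] [Module.Finite R M] [Module.Finite R N] :
    Module.Finite R (TorM R n M N) := by
  induction n generalizing M with
  | zero => exact Module.Finite.equiv (torZero M N).symm
  | succ n ih =>
    obtain ⟨m, K, g, hg, h⟩ := exists_finite_free_cover (R := R) M
    cases n with
    | zero =>
      obtain ⟨e⟩ := tor_one K.subtype g K.injective_subtype hg h N
      have hK : Module.Finite R K := inferInstance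
      have hKN : Module.Finite R (K ⊗[R] N) := inferInstance
      have hn := isNoetherian_of_isNoetherianRing_of_finite R (K ⊗[R] N)
      exact Module.Finite.of_injective
        ((LinearMap.ker (K.subtype.rTensor N)).subtype ∘ₗ e.toLinearMap)
        ((Submodule.injective_subtype _).comp e.injective)
    | succ n =>
      obtain ⟨e⟩ := tor_shift K.subtype g K.injective_subtype hg h N n
      have := ih K
      exact Module.Finite.equiv e.symm

/-! ### Annihilators -/

/-- An element killing all the terms of a complex kills its homology. -/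
theorem homology_smul_eq_zero (L : ChainComplex (ModuleCat.{u} R) ℕ) (a : R) (n : ℕ)
    (h : ∀ x : L.X n, a • x = 0) (y : L.homology n) : a • y = 0 := by
  have hπ : Function.Surjective (L.homologyπ n) :=
    (ModuleCat.epi_iff_surjective _).1 inferInstance
  have hi : Function.Injective (L.iCycles n) :=
    (ModuleCat.mono_iff_injective _).1 inferInstance
  obtain ⟨z, rfl⟩ := hπ y
  have : a • z = 0 := by
    apply hi
    rw [map_smul, map_zero]
    exact h _
  rw [← map_smul, this, map_zero]

theorem tensor_smul_eq_zero_left (a : R) (h : ∀ m : M, a • m = 0) (y : M ⊗[R] N) :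
    a • y = 0 := by
  induction y using TensorProduct.induction_on with
  | zero => exact smul_zero _
  | tmul m p => rw [TensorProduct.smul_tmul', h, TensorProduct.zero_tmul]
  | add y z hy hz => rw [smul_add, hy, hz, add_zero]

theorem tor_smul_eq_zero_left (a : R) (h : ∀ m : M, a • m = 0) (n : ℕ) (N : Type u)
    [AddCommGroup N] [Module R N] (x : TorM R n M N) : a • x = 0 := by
  let P := projectiveResolution (ModuleCat.of R N)
  let e := (torIso R n (ModuleCat.of R M) P).toLinearEquiv
  apply e.injective
  rw [map_smul, map_zero]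
  apply homology_smul_eq_zero
  intro y
  exact tensor_smul_eq_zero_left (M := M) (N := P.complex.X n) a h y

/-! ### Symmetry -/

/-- The two descriptions of Tor_1 agree. -/
theorem tor_one_symm_aux {F G K L : Type u} [AddCommGroup F] [Module R F] [AddCommGroup G]
    [Module R G] [AddCommGroup K] [Module R K] [AddCommGroup L] [Module R L]
    [Module.Flat R F] [Module.Flat R G]
    (f : K →ₗ[R] F) (g : F →ₗ[R] M) (hf : Function.Injective f)
    (hg : Function.Surjective g) (h : Function.Exact f g)
    (f' : L →ₗ[R] G) (g' : G →ₗ[R] N) (hf' : Function.Injective f')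
    (hg' : Function.Surjective g') (h' : Function.Exact f' g') :
    Nonempty (LinearMap.ker (f.rTensor N) ≃ₗ[R] LinearMap.ker (f'.lTensor M)) := by
  have hrow1 : Function.Exact (f'.lTensor K) (g'.lTensor K) := lTensor_exact K h' hg'
  have hrow2 : Function.Exact (f'.lTensor F) (g'.lTensor F) := lTensor_exact F h' hg'
  have hi2 : Function.Injective (f.rTensor G) := Module.Flat.rTensor_preserves_injective_linearMap f hf
  have hbot : Function.Injective (f'.lTensor F) :=
    Module.Flat.lTensor_preserves_injective_linearMap f' hf'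
  have htop : Function.Surjective (g'.lTensor K) := LinearMap.lTensor_surjective K hg'
  have c1 : (f'.lTensor F).comp (f.rTensor L) = (f.rTensor G).comp (f'.lTensor K) := by
    rw [LinearMap.lTensor_comp_rTensor, LinearMap.rTensor_comp_lTensor]
  have c2 : (g'.lTensor F).comp (f.rTensor G) = (f.rTensor N).comp (g'.lTensor K) := by
    rw [LinearMap.lTensor_comp_rTensor, LinearMap.rTensor_comp_lTensor]
  have hι₃ : Function.Exact (LinearMap.ker (f.rTensor N)).subtype (f.rTensor N) := by
    intro x; simp
  have hι₂ : Function.Exact (0 : PUnit.{1} →ₗ[R] K ⊗[R] G) (f.rTensor G) := by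
    intro x
    constructor
    · intro hx
      exact ⟨PUnit.unit, (hi2 (by rw [hx, LinearMap.zero_apply, map_zero])).symm⟩
    · rintro ⟨y, rfl⟩
      simp
  have hπ₁ : Function.Exact (f.rTensor L) (g.rTensor L) := rTensor_exact L h hg
  have hπ₂ : Function.Exact (f.rTensor G) (g.rTensor G) := rTensor_exact G h hg
  have hπ₁s : Function.Surjective (g.rTensor L) := LinearMap.rTensor_surjective L hg
  let δ := SnakeLemma.δ' (f.rTensor L) (f.rTensor G) (f.rTensor N) (f'.lTensor K) (g'.lTensor K)
    hrow1 (f'.lTensor F) (g'.lTensor F) hrow2 c1 c2 (LinearMap.ker (f.rTensor N)).subtype hι₃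
    (g.rTensor L) hπ₁ htop hbot
  have e1 : Function.Exact (0 : PUnit.{1} →ₗ[R] LinearMap.ker (f.rTensor N)) δ :=
    SnakeLemma.exact_δ'_right _ _ _ _ _ _ _ _ _ _ _ _ hι₂ _ _ _ _ htop hbot _ (by simp)
      (Submodule.injective_subtype _)
  have e2 : Function.Exact δ (f'.lTensor M) :=
    SnakeLemma.exact_δ'_left _ _ _ _ _ _ _ _ _ _ _ _ _ _ _ (g.rTensor G) hπ₂ htop hbot
      (f'.lTensor M) (by rw [LinearMap.lTensor_comp_rTensor, LinearMap.rTensor_comp_lTensor]) hπ₁s
  have dinj : Function.Injective δ := by
    rw [injective_iff_map_eq_zero]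
    intro x hx
    obtain ⟨y, rfl⟩ := (e1 x).1 hx
    simp
  refine ⟨LinearEquiv.ofBijective (δ.codRestrict _ (fun x => ?_)) ⟨?_, ?_⟩⟩
  · rw [LinearMap.mem_ker]
    exact (e2 _).2 ⟨x, rfl⟩
  · intro x y hxy
    exact dinj (congrArg Subtype.val hxy)
  · rintro ⟨x, hx⟩
    obtain ⟨y, hy⟩ := (e2 x).1 hx
    exact ⟨y, Subtype.ext hy⟩

/-- Every module is a quotient of a free module. -/
theorem exists_cover (R : Type u) [CommRing R] (M : Type u) [AddCommGroup M] [Module R M] :
    ∃ (F K : Type u) (_ : AddCommGroup F) (_ : Module R F) (_ : AddCommGroup K) (_ : Module R K)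
      (f : K →ₗ[R] F) (g : F →ₗ[R] M), Module.Free R F ∧ Function.Injective f ∧
        Function.Surjective g ∧ Function.Exact f g := by
  refine ⟨M →₀ R, LinearMap.ker (Finsupp.linearCombination R (id : M → M)), inferInstance,
    inferInstance, inferInstance, inferInstance, Submodule.subtype _,
    Finsupp.linearCombination R (id : M → M), inferInstance, Submodule.injective_subtype _, ?_, ?_⟩
  · intro m
    exact ⟨Finsupp.single m 1, by simp⟩
  · intro x
    simp

lemma ker_comm (f : K →ₗ[R] F) :
    Nonempty (LinearMap.ker (f.rTensor N) ≃ₗ[R] LinearMap.ker (f.lTensor N)) := by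
  refine ⟨LinearEquiv.ofSubmodules (TensorProduct.comm R K N) _ _ ?_⟩
  have h : (f.lTensor N) ∘ₗ (TensorProduct.comm R K N).toLinearMap =
      (TensorProduct.comm R F N).toLinearMap ∘ₗ f.rTensor N := by
    ext; simp
  ext x
  simp only [Submodule.mem_map, LinearMap.mem_ker]
  constructor
  · rintro ⟨y, hy, rfl⟩
    have := LinearMap.congr_fun h y
    simp only [LinearMap.comp_apply] at this
    rw [hy, map_zero] at this
    exact this
  · intro hx
    refine ⟨(TensorProduct.comm R K N).symm x, ?_, by simp⟩
    have := LinearMap.congr_fun h ((TensorProduct.comm R K N).symm x)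
    simp only [LinearMap.comp_apply, LinearEquiv.coe_coe, LinearEquiv.apply_symm_apply] at this
    rw [hx] at this
    exact (TensorProduct.comm R F N).injective (by rw [← this, map_zero])

theorem tor_symm_one (M N : Type u) [AddCommGroup M] [Module R M] [AddCommGroup N] [Module R N] :
    Nonempty (TorM R 1 M N ≃ₗ[R] TorM R 1 N M) := by
  obtain ⟨F, K, _, _, _, _, f, g, hF, hf, hg, h⟩ := exists_cover R M
  obtain ⟨G, L, _, _, _, _, f', g', hG, hf', hg', h'⟩ := exists_cover R N
  obtain ⟨e1⟩ := tor_one f g hf hg h N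
  obtain ⟨e2⟩ := tor_one f' g' hf' hg' h' M
  obtain ⟨e3⟩ := tor_one_symm_aux f g hf hg h f' g' hf' hg' h'
  obtain ⟨e4⟩ := ker_comm (N := M) f'
  exact ⟨e1 ≪≫ₗ e3 ≪≫ₗ e4.symm ≪≫ₗ e2.symm⟩

lemma ker_ker_aux {F G K L : Type u} [AddCommGroup F] [Module R F] [AddCommGroup G]
    [Module R G] [AddCommGroup K] [Module R K] [AddCommGroup L] [Module R L]
    [Module.Flat R F] [Module.Flat R G] (f : K →ₗ[R] F) (hf : Function.Injective f)
    (f' : L →ₗ[R] G) (hf' : Function.Injective f') :
    Nonempty (LinearMap.ker (f'.rTensor K) ≃ₗ[R] LinearMap.ker (f.rTensor L)) := by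
  have h1 : LinearMap.ker (f'.rTensor K) = LinearMap.ker (TensorProduct.map f' f) := by
    have : TensorProduct.map f' f = f.lTensor G ∘ₗ f'.rTensor K := by
      rw [LinearMap.lTensor_comp_rTensor]
    rw [this, LinearMap.ker_comp_of_ker_eq_bot]
    exact LinearMap.ker_eq_bot.2 (Module.Flat.lTensor_preserves_injective_linearMap f hf)
  have h2 : LinearMap.ker (f.rTensor L) = LinearMap.ker (TensorProduct.map f f') := by
    have : TensorProduct.map f f' = f'.lTensor F ∘ₗ f.rTensor L := by
      rw [LinearMap.lTensor_comp_rTensor]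
    rw [this, LinearMap.ker_comp_of_ker_eq_bot]
    exact LinearMap.ker_eq_bot.2 (Module.Flat.lTensor_preserves_injective_linearMap f' hf')
  rw [h1, h2]
  refine ⟨LinearEquiv.ofSubmodules (TensorProduct.comm R L K) _ _ ?_⟩
  have h : (TensorProduct.map f f') ∘ₗ (TensorProduct.comm R L K).toLinearMap =
      (TensorProduct.comm R G F).toLinearMap ∘ₗ (TensorProduct.map f' f) := by
    ext; simp
  ext x
  simp only [Submodule.mem_map, LinearMap.mem_ker]
  constructor
  · rintro ⟨y, hy, rfl⟩
    have := LinearMap.congr_fun h y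
    simp only [LinearMap.comp_apply] at this
    rw [hy, map_zero] at this
    exact this
  · intro hx
    refine ⟨(TensorProduct.comm R L K).symm x, ?_, by simp⟩
    have := LinearMap.congr_fun h ((TensorProduct.comm R L K).symm x)
    simp only [LinearMap.comp_apply, LinearEquiv.coe_coe, LinearEquiv.apply_symm_apply] at this
    rw [hx] at this
    exact (TensorProduct.comm R G F).injective (by rw [← this, map_zero])

/-- Tor is symmetric. -/
theorem tor_symm (n : ℕ) (M N : Type u) [AddCommGroup M] [Module R M]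
    [AddCommGroup N] [Module R N] :
    Nonempty (TorM R n M N ≃ₗ[R] TorM R n N M) := by
  induction n using Nat.strong_induction_on generalizing M N with
  | _ n ih =>
    obtain ⟨F, K, _, _, _, _, f, g, hF, hf, hg, h⟩ := exists_cover R M
    obtain ⟨G, L, _, _, _, _, f', g', hG, hf', hg', h'⟩ := exists_cover R N
    match n, ih with
    | 0, _ => exact ⟨torZero M N ≪≫ₗ TensorProduct.comm R M N ≪≫ₗ (torZero N M).symm⟩
    | 1, _ => exact tor_symm_one M N
    | 2, _ =>
      obtain ⟨e1⟩ := tor_shift f g hf hg h N 0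
      obtain ⟨e2⟩ := tor_symm_one (R := R) K N
      obtain ⟨e3⟩ := tor_one f' g' hf' hg' h' K
      obtain ⟨e4⟩ := ker_ker_aux f hf f' hf'
      obtain ⟨e5⟩ := tor_shift f' g' hf' hg' h' M 0
      obtain ⟨e6⟩ := tor_symm_one (R := R) L M
      obtain ⟨e7⟩ := tor_one f g hf hg h L
      exact ⟨e1 ≪≫ₗ e2 ≪≫ₗ e3 ≪≫ₗ e4 ≪≫ₗ e7.symm ≪≫ₗ e6.symm ≪≫ₗ e5.symm⟩
    | k + 3, ih =>
      obtain ⟨e1⟩ := tor_shift f g hf hg h N (k + 1)
      obtain ⟨e2⟩ := ih (k + 2) (by omega) K N
      obtain ⟨e3⟩ := tor_shift f' g' hf' hg' h' K k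
      obtain ⟨e4⟩ := ih (k + 1) (by omega) L K
      obtain ⟨e5⟩ := tor_shift f g hf hg h L k
      obtain ⟨e6⟩ := ih (k + 2) (by omega) M L
      obtain ⟨e7⟩ := tor_shift f' g' hf' hg' h' M (k + 1)
      exact ⟨e1 ≪≫ₗ e2 ≪≫ₗ e3 ≪≫ₗ e4 ≪≫ₗ e5.symm ≪≫ₗ e6 ≪≫ₗ e7.symm⟩

theorem tor_smul_eq_zero_right (a : R) (h : ∀ m : N, a • m = 0) (n : ℕ) (M : Type u)
    [AddCommGroup M] [Module R M] (x : TorM R n M N) : a • x = 0 := by
  obtain ⟨e⟩ := tor_symm (R := R) n M N
  apply e.injective
  rw [map_smul, map_zero]
  exact tor_smul_eq_zero_left a h n M _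

end Vale.Agent.P177
end

section

/-!
Finite length facts.
-/

namespace Vale.Agent.P177

open IsLocalRing TensorProduct

universe u

section general

variable {R : Type u} [CommRing R]

theorem mem_support_tensorProduct {M N : Type u} [AddCommGroup M] [Module R M]
    [AddCommGroup N] [Module R N] [Module.Finite R M] [Module.Finite R N]
    (p : PrimeSpectrum R) (hM : p ∈ Module.support R M) (hN : p ∈ Module.support R N) :
    p ∈ Module.support R (M ⊗[R] N) := by
  rw [Module.mem_support_iff_nontrivial_residueField_tensorProduct] at hM hN ⊢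
  let e := AlgebraTensorModule.distribBaseChange R p.asIdeal.ResidueField M N
  have : Nontrivial ((p.asIdeal.ResidueField ⊗[R] M) ⊗[p.asIdeal.ResidueField]
    (p.asIdeal.ResidueField ⊗[R] N)) := inferInstance
  exact e.toEquiv.nontrivial

end general

section local_ring

variable {R : Type u} [CommRing R] [IsLocalRing R]

/-- A module of finite length over a local ring is killed by a power of the maximal ideal. -/
theorem exists_pow_smul_eq_zero {T : Type u} [AddCommGroup T] [Module R T]
    (h : IsFiniteLength R T) : ∃ k : ℕ, ∀ a ∈ maximalIdeal R ^ k, ∀ x : T, a • x = 0 := by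
  induction h with
  | of_subsingleton => exact ⟨0, fun a _ x => Subsingleton.elim _ _⟩
  | @of_simple_quotient M _ _ N _ hN ih =>
    obtain ⟨k, hk⟩ := ih
    refine ⟨k + 1, fun a ha x => ?_⟩
    have hm : ∀ b ∈ maximalIdeal R, ∀ y : M, b • y ∈ N := by
      intro b hb y
      have h1 : Module.annihilator R (M ⧸ N) = maximalIdeal R := by
        have : (Module.annihilator R (M ⧸ N)).IsMaximal := by
          exact IsSimpleModule.annihilator_isMaximal
        exact IsLocalRing.eq_maximalIdeal this
      rw [← h1, Module.mem_annihilator] at hb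
      have := hb (Submodule.Quotient.mk y)
      rwa [← Submodule.Quotient.mk_smul, Submodule.Quotient.mk_eq_zero] at this
    rw [pow_succ] at ha
    refine Submodule.mul_induction_on ha ?_ ?_
    · intro b hb c hc
      rw [mul_smul]
      have := hk b hb ⟨c • x, hm c hc x⟩
      exact congrArg Subtype.val this
    · intro b c hb hc
      rw [add_smul, hb, hc, add_zero]

/-- A finitely generated module killed by a power of the maximal ideal has finite length. -/
theorem isFiniteLength_of_pow_smul_eq_zero [IsNoetherianRing R] (k : ℕ) {T : Type u}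
    [AddCommGroup T] [Module R T] [Module.Finite R T]
    (h : ∀ a ∈ maximalIdeal R ^ k, ∀ x : T, a • x = 0) : IsFiniteLength R T := by
  induction k generalizing T with
  | zero =>
    have : Subsingleton T := by
      refine ⟨fun x y => ?_⟩
      have h1 := h 1 (by simp) x
      have h2 := h 1 (by simp) y
      rw [one_smul] at h1 h2
      rw [h1, h2]
    exact IsFiniteLength.of_subsingleton
  | succ k ih =>
    let N : Submodule R T := maximalIdeal R • ⊤
    have hN : IsFiniteLength R N := by
      apply ih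
      rintro a ha ⟨x, hx⟩
      apply Subtype.ext
      change a • x = 0
      refine Submodule.smul_induction_on hx ?_ ?_
      · intro r hr y _
        rw [← mul_smul]
        exact h _ (by rw [pow_succ]; exact Ideal.mul_mem_mul ha hr) y
      · intro y z hy hz
        rw [smul_add, hy, hz, add_zero]
    have hQ : IsFiniteLength R (T ⧸ N) := by
      rw [← Module.length_ne_top_iff]
      let _ : Module (R ⧸ maximalIdeal R) (T ⧸ N) := inferInstance
      have hfin : Module.Finite (R ⧸ maximalIdeal R) (T ⧸ N) := 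
        Module.Finite.of_restrictScalars_finite R _ _
      let _ : Field (R ⧸ maximalIdeal R) := Ideal.Quotient.field _
      rw [Module.length_eq_of_surjective (S := R) (R := R ⧸ maximalIdeal R)
        Ideal.Quotient.mk_surjective]
      have : Module.length (R ⧸ maximalIdeal R) (T ⧸ N) =
        Module.finrank (R ⧸ maximalIdeal R) (T ⧸ N) := Module.length_eq_finrank _ _
      rw [this]
      exact ENat.natCast_ne_top _
    rw [← Module.length_ne_top_iff] at hN hQ ⊢
    rw [Module.length_eq_add_of_exact N.subtype N.mkQ N.injective_subtype N.mkQ_surjective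
      (LinearMap.exact_subtype_mkQ N)]
    exact WithTop.add_ne_top.2 ⟨hN, hQ⟩

/-- If `M ⊗ N` has finite length then a power of the maximal ideal is contained in
`Ann M + Ann N`. -/
theorem exists_pow_le_sup_annihilator [IsNoetherianRing R] (M N : Type u) [AddCommGroup M]
    [Module R M] [AddCommGroup N] [Module R N] [Module.Finite R M] [Module.Finite R N]
    (h : Module.length R (M ⊗[R] N) ≠ ⊤) :
    ∃ k : ℕ, maximalIdeal R ^ k ≤ Module.annihilator R M ⊔ Module.annihilator R N := by
  rw [Module.length_ne_top_iff] at h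
  obtain ⟨k, hk⟩ := exists_pow_smul_eq_zero h
  suffices hs : maximalIdeal R ≤ (Module.annihilator R M ⊔ Module.annihilator R N).radical by
    exact Ideal.exists_pow_le_of_le_radical_of_fg hs (IsNoetherian.noetherian _)
  rw [Ideal.radical_eq_sInf]
  refine le_sInf ?_
  rintro P ⟨hP, hPp⟩
  have h1 : (⟨P, hPp⟩ : PrimeSpectrum R) ∈ Module.support R M := by
    rw [Module.support_eq_zeroLocus]
    exact le_trans le_sup_left hP
  have h2 : (⟨P, hPp⟩ : PrimeSpectrum R) ∈ Module.support R N := by
    rw [Module.support_eq_zeroLocus]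
    exact le_trans le_sup_right hP
  have h3 := mem_support_tensorProduct _ h1 h2
  have h4 : Module.annihilator R (M ⊗[R] N) ≤ P := Module.annihilator_le_of_mem_support h3
  have h5 : maximalIdeal R ^ k ≤ P := by
    intro a ha
    exact h4 (Module.mem_annihilator.2 (hk a ha))
  exact hPp.le_of_pow_le h5

/-- Tor modules have finite length as soon as `M ⊗ N` has. -/
theorem tor_length_ne_top [IsNoetherianRing R] (n : ℕ) (M N : Type u) [AddCommGroup M]
    [Module R M] [AddCommGroup N] [Module R N] [Module.Finite R M] [Module.Finite R N]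
    (h : Module.length R (M ⊗[R] N) ≠ ⊤) : Module.length R (TorM R n M N) ≠ ⊤ := by
  obtain ⟨k, hk⟩ := exists_pow_le_sup_annihilator M N h
  have := tor_finite (R := R) n M N
  rw [Module.length_ne_top_iff]
  refine isFiniteLength_of_pow_smul_eq_zero k ?_
  intro a ha x
  obtain ⟨b, hb, c, hc, rfl⟩ := Submodule.mem_sup.1 (hk ha)
  rw [add_smul, tor_smul_eq_zero_left b (fun m => Module.mem_annihilator.1 hb m) n N x,
    tor_smul_eq_zero_right c (fun m => Module.mem_annihilator.1 hc m) n M x, add_zero]

end local_ring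

end Vale.Agent.P177
end

section

/-!
Change of rings for Tor along a quotient by a regular element.
-/

namespace Vale.Agent.P177

open TensorProduct Function

universe u

section prelim

theorem ker_equiv {A : Type*} [CommRing A] {X X' Y Y' : Type*} [AddCommGroup X] [Module A X]
    [AddCommGroup X'] [Module A X'] [AddCommGroup Y] [Module A Y] [AddCommGroup Y'] [Module A Y']
    (e : X ≃ₗ[A] X') (e' : Y ≃ₗ[A] Y') (φ : X →ₗ[A] Y) (ψ : X' →ₗ[A] Y')
    (h : ∀ x, ψ (e x) = e' (φ x)) : Nonempty (LinearMap.ker φ ≃ₗ[A] LinearMap.ker ψ) := by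
  refine ⟨LinearEquiv.ofSubmodules e _ _ ?_⟩
  ext x
  simp only [Submodule.mem_map, LinearMap.mem_ker]
  constructor
  · rintro ⟨y, hy, rfl⟩
    change ψ (e y) = 0
    rw [h, hy, map_zero]
  · intro hx
    refine ⟨e.symm x, ?_, by simp⟩
    apply e'.injective
    rw [← h, LinearEquiv.apply_symm_apply, hx, map_zero]

theorem length_ker_add_range {A : Type*} [Ring A] {X Y : Type*} [AddCommGroup X] [Module A X]
    [AddCommGroup Y] [Module A Y] (φ : X →ₗ[A] Y) :
    Module.length A X = Module.length A (LinearMap.ker φ) + Module.length A (LinearMap.range φ) :=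
  Module.length_eq_add_of_exact (LinearMap.ker φ).subtype φ.rangeRestrict
    (Submodule.injective_subtype _) (LinearMap.surjective_rangeRestrict φ) (by
      intro x
      rw [Subtype.ext_iff]
      simp)

end prelim

variable {R A : Type u} [CommRing R] [CommRing A] [Algebra R A] {f : R}

/-- Standing hypotheses: `A = R/(f)` with `f` a nonzerodivisor. -/
structure IsHypersurface (R A : Type u) [CommRing R] [CommRing A] [Algebra R A] (f : R) :
    Prop where
  regular : IsSMulRegular R f
  surj : Function.Surjective (algebraMap R A)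
  ker : RingHom.ker (algebraMap R A) = Ideal.span {f}

namespace IsHypersurface

variable (H : IsHypersurface R A f)
include H

lemma algebraMap_f : algebraMap R A f = 0 := by
  have : f ∈ RingHom.ker (algebraMap R A) := by rw [H.ker]; exact Ideal.mem_span_singleton_self f
  exact this

lemma smul_eq_zero {N : Type u} [AddCommGroup N] [Module R N] [Module A N] [IsScalarTower R A N]
    (x : N) : f • x = 0 := by
  rw [← algebraMap_smul A f x, H.algebraMap_f, zero_smul]

lemma one_tmul_surj {X : Type u} [AddCommGroup X] [Module R X] (z : A ⊗[R] X) :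
    ∃ x : X, z = (1 : A) ⊗ₜ[R] x := by
  obtain ⟨x, hx⟩ := TensorProduct.mk_surjective R X A H.surj z
  exact ⟨x, hx.symm⟩

lemma one_tmul_eq_zero {X : Type u} [AddCommGroup X] [Module R X] (x : X)
    (hx : (1 : A) ⊗ₜ[R] x = 0) : ∃ y : X, x = f • y := by
  have hex : Function.Exact (LinearMap.lsmul R R f) (Algebra.linearMap R A) := by
    intro a
    simp only [Algebra.linearMap_apply, LinearMap.lsmul_apply, smul_eq_mul, Set.mem_range]
    constructor
    · intro ha
      have : a ∈ RingHom.ker (algebraMap R A) := ha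
      rw [H.ker, Ideal.mem_span_singleton] at this
      obtain ⟨c, rfl⟩ := this
      exact ⟨c, rfl⟩
    · rintro ⟨c, rfl⟩
      rw [map_mul, H.algebraMap_f, zero_mul]
  have h2 := rTensor_exact X hex H.surj
  have h3 : (Algebra.linearMap R A).rTensor X ((1 : R) ⊗ₜ[R] x) = 0 := by
    simpa using hx
  obtain ⟨w, hw⟩ := (h2 _).1 h3
  refine ⟨TensorProduct.lid R X w, ?_⟩
  have h4 : ∀ w : R ⊗[R] X, TensorProduct.lid R X ((LinearMap.lsmul R R f).rTensor X w) =
      f • TensorProduct.lid R X w := by
    intro w
    induction w using TensorProduct.induction_on with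
    | zero => simp
    | tmul a b => simp [mul_smul]
    | add a b ha hb => rw [map_add, map_add, ha, hb, map_add, smul_add]
  rw [← h4, hw]
  simp

end IsHypersurface

section basechange

/-- Existence of base change as an opaque module. -/
theorem exists_baseChange (A : Type u) [CommRing A] [Algebra R A] (K : Type u) [AddCommGroup K]
    [Module R K] :
    ∃ (X : Type u) (_ : AddCommGroup X) (_ : Module R X) (_ : Module A X)
      (_ : IsScalarTower R A X) (φ : K →ₗ[R] X), IsBaseChange A φ :=
  ⟨A ⊗[R] K, inferInstance, inferInstance, inferInstance, inferInstance,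
    TensorProduct.mk R A K 1, TensorProduct.isBaseChange R K A⟩

variable {K F M X Y N : Type u} [AddCommGroup K] [Module R K] [AddCommGroup F] [Module R F]
  [AddCommGroup M] [Module R M]
  [AddCommGroup X] [Module R X] [Module A X] [IsScalarTower R A X]
  [AddCommGroup Y] [Module R Y] [Module A Y] [IsScalarTower R A Y]
  [AddCommGroup N] [Module R N] [Module A N] [IsScalarTower R A N]

theorem IsHypersurface.baseChange_surj (H : IsHypersurface R A f) {φ : K →ₗ[R] X}
    (hφ : IsBaseChange A φ) : Surjective φ := by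
  intro x
  obtain ⟨k, hk⟩ := H.one_tmul_surj (hφ.equiv.symm x)
  refine ⟨k, ?_⟩
  have := congrArg hφ.equiv hk
  rw [LinearEquiv.apply_symm_apply] at this
  rw [this, IsBaseChange.equiv_tmul, one_smul]

theorem IsHypersurface.baseChange_eq_zero (H : IsHypersurface R A f) {φ : K →ₗ[R] X}
    (hφ : IsBaseChange A φ) (k : K) (hk : φ k = 0) : ∃ k', k = f • k' := by
  apply H.one_tmul_eq_zero k
  apply hφ.equiv.injective
  rw [IsBaseChange.equiv_tmul, one_smul, hk, map_zero]

theorem IsHypersurface.baseChange_smul (H : IsHypersurface R A f) (φ : K →ₗ[R] X)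
    (k : K) : φ (f • k) = 0 := by
  rw [map_smul, H.smul_eq_zero]

/-- `N ⊗[A] X = N ⊗[R] K` for a base change `X` of `K`. -/
theorem exists_cancel {φ : K →ₗ[R] X} (hφ : IsBaseChange A φ) (N : Type u) [AddCommGroup N]
    [Module R N] [Module A N] [IsScalarTower R A N] :
    ∃ e : N ⊗[A] X ≃ₗ[A] N ⊗[R] K, ∀ n k, e (n ⊗ₜ[A] φ k) = n ⊗ₜ[R] k := by
  refine ⟨TensorProduct.congr (LinearEquiv.refl A N) hφ.equiv.symm ≪≫ₗ
    AlgebraTensorModule.cancelBaseChange R A A N K, ?_⟩
  intro n k
  have h1 : hφ.equiv.symm (φ k) = (1 : A) ⊗ₜ[R] k := by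
    rw [LinearEquiv.symm_apply_eq, IsBaseChange.equiv_tmul, one_smul]
  simp [h1]

theorem length_tensor_baseChange (hsurj : Function.Surjective (algebraMap R A))
    {φ : K →ₗ[R] X} (hφ : IsBaseChange A φ) (N : Type u) [AddCommGroup N]
    [Module R N] [Module A N] [IsScalarTower R A N] :
    Module.length R (K ⊗[R] N) = Module.length A (X ⊗[A] N) := by
  obtain ⟨e, -⟩ := exists_cancel hφ N
  rw [(TensorProduct.comm R K N).length_eq, (TensorProduct.comm A X N).length_eq, e.length_eq,
    Module.length_eq_of_surjective (S := R) (R := A) hsurj]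

/-- comparison of degree one kernels. -/
theorem length_ker_baseChange (hsurj : Function.Surjective (algebraMap R A))
    {φ : K →ₗ[R] X} (hφ : IsBaseChange A φ) {ψ : F →ₗ[R] Y} (hψ : IsBaseChange A ψ)
    (i : K →ₗ[R] F) (j : X →ₗ[A] Y) (hij : ∀ k, j (φ k) = ψ (i k))
    (N : Type u) [AddCommGroup N] [Module R N] [Module A N] [IsScalarTower R A N] :
    Module.length R (LinearMap.ker (i.rTensor N)) =
      Module.length A (LinearMap.ker (j.rTensor N)) := by
  obtain ⟨e1⟩ := ker_comm (N := N) i
  obtain ⟨e2⟩ := ker_comm (N := N) j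
  rw [e1.length_eq, e2.length_eq]
  let θ : N ⊗[R] K →ₗ[A] N ⊗[R] F := AlgebraTensorModule.map LinearMap.id i
  have h1 : Module.length R (LinearMap.ker (i.lTensor N)) =
      Module.length R (LinearMap.ker θ) := by
    have : LinearMap.ker (i.lTensor N) = (LinearMap.ker θ).restrictScalars R := by
      ext x
      rfl
    rw [this]
    rfl
  rw [h1, Module.length_eq_of_surjective (S := R) (R := A) hsurj]
  obtain ⟨eX, heX⟩ := exists_cancel hφ N
  obtain ⟨eY, heY⟩ := exists_cancel hψ N
  have hX : ∀ z : N ⊗[R] K, j.lTensor N (eX.symm z) = eY.symm (θ z) := by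
    intro z
    induction z using TensorProduct.induction_on with
    | zero => simp
    | tmul n k =>
      have a1 : eX.symm (n ⊗ₜ[R] k) = n ⊗ₜ[A] φ k := by
        rw [LinearEquiv.symm_apply_eq, heX]
      have a2 : eY.symm (n ⊗ₜ[R] i k) = n ⊗ₜ[A] ψ (i k) := by
        rw [LinearEquiv.symm_apply_eq, heY]
      have a3 : θ (n ⊗ₜ[R] k) = n ⊗ₜ[R] i k := by simp [θ]
      rw [a1, a3, a2, LinearMap.lTensor_tmul, hij]
    | add a b ha hb => rw [map_add, map_add, ha, hb, map_add, map_add]
  obtain ⟨e3⟩ := ker_equiv eX.symm eY.symm θ (j.lTensor N) hX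
  exact e3.length_eq

/-- injectivity of the base change of an inclusion with `f`-regular cokernel. -/
theorem IsHypersurface.baseChange_injective (H : IsHypersurface R A f)
    {φ : K →ₗ[R] X} (hφ : IsBaseChange A φ) {ψ : F →ₗ[R] Y} (hψ : IsBaseChange A ψ)
    (i : K →ₗ[R] F) (j : X →ₗ[A] Y) (hij : ∀ k, j (φ k) = ψ (i k))
    (g : F →ₗ[R] M) (hi : Injective i) (h : Exact i g) (hM : IsSMulRegular M f) :
    Injective j := by
  rw [injective_iff_map_eq_zero]
  intro z hz
  obtain ⟨x, rfl⟩ := H.baseChange_surj hφ z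
  rw [hij] at hz
  obtain ⟨y, hy⟩ := H.baseChange_eq_zero hψ _ hz
  have h1 : f • g y = 0 := by
    rw [← map_smul, ← hy]
    exact (h _).2 ⟨x, rfl⟩
  have h2 : g y = 0 := hM (by simpa using h1)
  obtain ⟨k, hk⟩ := (h y).1 h2
  have h3 : x = f • k := hi (by rw [hy, map_smul, hk])
  rw [h3, H.baseChange_smul]

/-- exactness of the base change. -/
theorem IsHypersurface.baseChange_exact (H : IsHypersurface R A f)
    {φ : K →ₗ[R] X} (hφ : IsBaseChange A φ) {ψ : F →ₗ[R] Y} (hψ : IsBaseChange A ψ)
    {Z : Type u} [AddCommGroup Z] [Module R Z] [Module A Z] [IsScalarTower R A Z]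
    {χ : M →ₗ[R] Z} (hχ : IsBaseChange A χ)
    (i : K →ₗ[R] F) (j : X →ₗ[A] Y) (hij : ∀ k, j (φ k) = ψ (i k))
    (g : F →ₗ[R] M) (hg : Surjective g) (q : Y →ₗ[A] Z) (hq : ∀ y, q (ψ y) = χ (g y))
    (h : Exact i g) : Exact j q ∧ Surjective q := by
  refine ⟨?_, ?_⟩
  · intro y
    constructor
    · intro hy
      obtain ⟨y, rfl⟩ := H.baseChange_surj hψ y
      rw [hq] at hy
      obtain ⟨m, hm⟩ := H.baseChange_eq_zero hχ _ hy
      obtain ⟨y', rfl⟩ := hg m
      have : g (y - f • y') = 0 := by rw [map_sub, map_smul, hm, sub_self]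
      obtain ⟨k, hk⟩ := (h _).1 this
      refine ⟨φ k, ?_⟩
      rw [hij, hk, map_sub, H.baseChange_smul, sub_zero]
    · rintro ⟨x, rfl⟩
      obtain ⟨k, rfl⟩ := H.baseChange_surj hφ x
      rw [hij, hq, (h _).2 ⟨k, rfl⟩, map_zero]
  · intro z
    obtain ⟨m, rfl⟩ := H.baseChange_surj hχ z
    obtain ⟨y, rfl⟩ := hg m
    exact ⟨ψ y, hq y⟩

theorem IsHypersurface.regular_of_flat (H : IsHypersurface R A f) (F : Type u) [AddCommGroup F]
    [Module R F] [Module.Flat R F] : IsSMulRegular F f := by
  apply Module.Flat.isSMulRegular_of_isRegular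
  have h1 : IsLeftRegular f := isLeftRegular_iff.2 H.regular
  exact ⟨h1, fun a b hab => h1 (by simpa [mul_comm] using hab)⟩

/-- Change of rings for Tor: if `f` is regular on `K` then
`Tor^R(K,N)` and `Tor^A(K/fK,N)` have the same length. -/
theorem IsHypersurface.length_tor_baseChange (H : IsHypersurface R A f) (n : ℕ)
    {K X : Type u} [AddCommGroup K] [Module R K]
    [AddCommGroup X] [Module R X] [Module A X] [IsScalarTower R A X]
    {φ : K →ₗ[R] X} (hφ : IsBaseChange A φ) (hK : IsSMulRegular K f)
    (N : Type u) [AddCommGroup N] [Module R N] [Module A N] [IsScalarTower R A N] :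
    Module.length R (TorM R n K N) = Module.length A (TorM A n X N) := by
  induction n generalizing K X with
  | zero =>
    rw [(torZero K N).length_eq, length_tensor_baseChange H.surj hφ N, (torZero X N).length_eq]
  | succ n ih =>
    obtain ⟨F, K1, _, _, _, _, i, g, hF, hi, hg, h⟩ := exists_cover R K
    obtain ⟨Y, _, _, _, _, ψ, hψ⟩ := exists_baseChange (R := R) A F
    obtain ⟨X1, _, _, _, _, φ1, hφ1⟩ := exists_baseChange (R := R) A K1
    let j : X1 →ₗ[A] Y := hφ1.lift (ψ ∘ₗ i)
    have hj : ∀ k, j (φ1 k) = ψ (i k) := fun k => hφ1.lift_eq _ k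
    let q : Y →ₗ[A] X := hψ.lift (φ ∘ₗ g)
    have hq : ∀ y, q (ψ y) = φ (g y) := fun y => hψ.lift_eq _ y
    have hjinj : Injective j := H.baseChange_injective hφ1 hψ i j hj g hi h hK
    obtain ⟨hex, hqs⟩ := H.baseChange_exact hφ1 hψ hφ i j hj g hg q hq h
    have hYflat : Module.Flat A Y := Module.Flat.isBaseChange R A F Y hψ
    have hFr : IsSMulRegular F f := H.regular_of_flat F
    have hK1 : IsSMulRegular K1 f := by
      intro a b hab
      apply hi
      apply hFr
      simpa using congrArg i hab
    cases n with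
    | zero =>
      obtain ⟨e1⟩ := tor_one i g hi hg h N
      obtain ⟨e2⟩ := tor_one j q hjinj hqs hex N
      rw [e1.length_eq, e2.length_eq]
      exact length_ker_baseChange H.surj hφ1 hψ i j hj N
    | succ n =>
      obtain ⟨e1⟩ := tor_shift i g hi hg h N n
      obtain ⟨e2⟩ := tor_shift j q hjinj hqs hex N n
      rw [e1.length_eq, e2.length_eq]
      exact ih hφ1 hK1

end basechange

end Vale.Agent.P177
end

section

/-!
The change of rings numerics: relation between `Tor^R` and `Tor^A`, for `A = R/(f)`.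
-/

namespace Vale.Agent.P177

open TensorProduct Function

universe u

/-- The key exact sequence `0 → M → X → Y → M → 0` where `X`, `Y` are base changes. -/
theorem IsHypersurface.exists_jm {R A : Type u} [CommRing R] [CommRing A] [Algebra R A] {f : R}
    (H : IsHypersurface R A f)
    {M F M1 X Y : Type u} [AddCommGroup M] [Module R M] [Module A M] [IsScalarTower R A M]
    [AddCommGroup F] [Module R F] [Module.Flat R F] [AddCommGroup M1] [Module R M1]
    [AddCommGroup X] [Module R X] [Module A X] [IsScalarTower R A X]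
    [AddCommGroup Y] [Module R Y] [Module A Y] [IsScalarTower R A Y]
    (i : M1 →ₗ[R] F) (g : F →ₗ[R] M) (hi : Injective i) (hg : Surjective g) (h : Exact i g)
    {φ : M1 →ₗ[R] X} (hφ : IsBaseChange A φ) {ψ : F →ₗ[R] Y} (hψ : IsBaseChange A ψ)
    (j : X →ₗ[A] Y) (hj : ∀ k, j (φ k) = ψ (i k)) :
    ∃ jm : M →ₗ[A] X, Injective jm ∧ Exact jm j := by
  have hFr : IsSMulRegular F f := H.regular_of_flat F
  have hgf : ∀ y, g (f • y) = 0 := fun y => by rw [map_smul, H.smul_eq_zero]
  have hex : ∀ y, ∃ k, i k = f • y := fun y => (h _).1 (hgf y)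
  choose s0 hs0 using hex
  let s : F →ₗ[R] M1 :=
    { toFun := s0
      map_add' := fun x y => hi (by rw [map_add, hs0, hs0, hs0, smul_add])
      map_smul' := fun r x => hi (by
        rw [map_smul, hs0, hs0, RingHom.id_apply, smul_comm]) }
  have hs : ∀ y, i (s y) = f • y := hs0
  have hker : LinearMap.ker g ≤ LinearMap.ker (φ ∘ₗ s) := by
    intro y hy
    obtain ⟨k, rfl⟩ := (h y).1 hy
    have h1 : s (i k) = f • k := hi (by rw [hs, map_smul])
    rw [LinearMap.mem_ker, LinearMap.comp_apply, h1, H.baseChange_smul]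
  let t : M →ₗ[R] X := (LinearMap.ker g).liftQ (φ ∘ₗ s) hker ∘ₗ
    (g.quotKerEquivOfSurjective hg).symm.toLinearMap
  have ht : ∀ y, t (g y) = φ (s y) := by
    intro y
    have h1 : (g.quotKerEquivOfSurjective hg).symm (g y) = (LinearMap.ker g).mkQ y := by
      rw [LinearEquiv.symm_apply_eq]
      rfl
    change (LinearMap.ker g).liftQ (φ ∘ₗ s) hker
      ((g.quotKerEquivOfSurjective hg).symm (g y)) = _
    rw [h1, Submodule.mkQ_apply, Submodule.liftQ_apply]
    rfl
  refine ⟨t.extendScalarsOfSurjective H.surj, ?_, ?_⟩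
  · rw [injective_iff_map_eq_zero]
    intro m hm
    obtain ⟨y, rfl⟩ := hg m
    have hm' : φ (s y) = 0 := by rw [← ht]; exact hm
    obtain ⟨k', hk'⟩ := H.baseChange_eq_zero hφ _ hm'
    have h2 : f • y = f • i k' := by rw [← hs, hk', map_smul]
    rw [hFr h2]
    exact (h _).2 ⟨k', rfl⟩
  · intro x
    constructor
    · intro hx
      obtain ⟨k, rfl⟩ := H.baseChange_surj hφ x
      rw [hj] at hx
      obtain ⟨y, hy⟩ := H.baseChange_eq_zero hψ _ hx
      have h3 : k = s y := hi (by rw [hs, hy])
      refine ⟨g y, ?_⟩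
      change t (g y) = _
      rw [ht, h3]
    · rintro ⟨m, rfl⟩
      obtain ⟨y, rfl⟩ := hg m
      change j (t (g y)) = 0
      rw [ht, hj, hs, H.baseChange_smul]

/-- A module over a quotient is its own base change. -/
theorem isBaseChange_id_of_surjective {R A : Type u} [CommRing R] [CommRing A] [Algebra R A]
    (hsurj : Function.Surjective (algebraMap R A))
    (M : Type u) [AddCommGroup M] [Module R M] [Module A M] [IsScalarTower R A M] :
    IsBaseChange A (LinearMap.id : M →ₗ[R] M) := by
  refine IsBaseChange.of_lift_unique _ ?_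
  intro Q _ _ _ _ g
  refine ⟨g.extendScalarsOfSurjective hsurj, ?_, ?_⟩
  · ext x
    rfl
  · intro g' hg'
    ext x
    rw [← hg']
    rfl

/-- length of the kernel of a composite, the first map being surjective -/
theorem length_ker_comp {A : Type*} [Ring A] {X Y Z : Type*} [AddCommGroup X] [Module A X]
    [AddCommGroup Y] [Module A Y] [AddCommGroup Z] [Module A Z] (u : X →ₗ[A] Y) (v : Y →ₗ[A] Z)
    (hu : Surjective u) :
    Module.length A (LinearMap.ker (v ∘ₗ u)) =
      Module.length A (LinearMap.ker u) + Module.length A (LinearMap.ker v) := by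
  have hle : LinearMap.ker u ≤ LinearMap.ker (v ∘ₗ u) := LinearMap.ker_le_ker_comp u v
  have hres : ∀ x ∈ LinearMap.ker (v ∘ₗ u), u x ∈ LinearMap.ker v := fun x hx => hx
  refine Module.length_eq_add_of_exact (Submodule.inclusion hle) (u.restrict hres)
    (Submodule.inclusion_injective hle) ?_ ?_
  · rintro ⟨y, hy⟩
    obtain ⟨x, rfl⟩ := hu y
    exact ⟨⟨x, hy⟩, rfl⟩
  · rintro ⟨x, hx⟩
    constructor
    · intro h
      have h' : u x = 0 := congrArg Subtype.val h
      exact ⟨⟨x, h'⟩, rfl⟩
    · rintro ⟨⟨y, hy⟩, hyx⟩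
      apply Subtype.ext
      have h1 : y = x := congrArg Subtype.val hyx
      subst h1
      exact hy

/-- **Change of rings**, numerical form. -/
theorem IsHypersurface.exists_rho {R A : Type u} [CommRing R] [CommRing A] [Algebra R A] {f : R}
    (H : IsHypersurface R A f)
    (M N : Type u) [AddCommGroup M] [Module R M] [Module A M] [IsScalarTower R A M]
    [AddCommGroup N] [Module R N] [Module A N] [IsScalarTower R A N] :
    ∃ ρ a b : ℕ → ℕ∞, ρ 0 = 0 ∧
      Module.length R (TorM R 0 M N) = Module.length A (TorM A 0 M N) ∧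
      (∀ n, Module.length A (TorM A n M N) = ρ (n + 1) + a n) ∧
      (∀ n, Module.length R (TorM R (n + 1) M N) = a n + b n) ∧
      (∀ n, Module.length A (TorM A (n + 1) M N) = b n + ρ n) := by
  obtain ⟨F, M1, _, _, _, _, i, g, hF, hi, hg, h⟩ := exists_cover R M
  obtain ⟨Y, _, _, _, _, ψ, hψ⟩ := exists_baseChange (R := R) A F
  obtain ⟨X, _, _, _, _, φ, hφ⟩ := exists_baseChange (R := R) A M1
  let j : X →ₗ[A] Y := hφ.lift (ψ ∘ₗ i)
  have hj : ∀ k, j (φ k) = ψ (i k) := fun k => hφ.lift_eq _ k
  let q : Y →ₗ[A] M := hψ.lift g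
  have hq : ∀ y, q (ψ y) = g y := fun y => hψ.lift_eq _ y
  obtain ⟨jm, hjm, hjmj⟩ := H.exists_jm i g hi hg h hφ hψ j hj
  have hYflat : Module.Flat A Y := Module.Flat.isBaseChange R A F Y hψ
  have hFr : IsSMulRegular F f := H.regular_of_flat F
  have hM1r : IsSMulRegular M1 f := by
    intro a b hab
    apply hi
    apply hFr
    simpa using congrArg i hab
  have hqs : Surjective q := by
    intro m
    obtain ⟨y, rfl⟩ := hg m
    exact ⟨ψ y, hq y⟩
  have hqj : ∀ x, q (j x) = 0 := by
    intro x
    obtain ⟨k, rfl⟩ := H.baseChange_surj hφ x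
    rw [hj, hq]
    exact (h _).2 ⟨k, rfl⟩
  let u : X →ₗ[A] LinearMap.ker q := j.codRestrict _ hqj
  have hus : Surjective u := by
    rintro ⟨y, hy⟩
    obtain ⟨y', rfl⟩ := H.baseChange_surj hψ y
    rw [LinearMap.mem_ker, hq] at hy
    obtain ⟨k, rfl⟩ := (h _).1 hy
    exact ⟨φ k, Subtype.ext (hj k)⟩
  have hujm : Exact jm u := by
    intro x
    rw [← hjmj x]
    exact ⟨fun hx => congrArg Subtype.val hx, fun hx => Subtype.ext hx⟩
  have hKY : Exact (LinearMap.ker q).subtype q := by
    intro y
    simp
  obtain ⟨δ, h1, h2, h3⟩ := exists_torDelta jm u hjm hus hujm N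
  have hX : ∀ n, Module.length A (TorM A (n + 1) X N) = Module.length R (TorM R (n + 2) M N) := by
    intro n
    obtain ⟨e⟩ := tor_shift i g hi hg h N n
    rw [e.length_eq]
    exact (H.length_tor_baseChange (n + 1) hφ hM1r N).symm
  have hK : ∀ n, Module.length A (TorM A (n + 2) M N) =
      Module.length A (TorM A (n + 1) (LinearMap.ker q) N) := by
    intro n
    obtain ⟨e⟩ := tor_shift (LinearMap.ker q).subtype q (Submodule.injective_subtype _) hqs hKY N n
    exact e.length_eq
  refine ⟨fun n => Nat.casesOn n 0 (fun n => Module.length A (LinearMap.range (δ n))),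
    fun n => Module.length A (LinearMap.range (torMap n jm N)),
    fun n => Nat.casesOn n (Module.length A (TorM A 1 M N))
      (fun n => Module.length A (LinearMap.range (torMap (n + 1) u N))), rfl, ?_, ?_, ?_, ?_⟩
  · have hid : IsBaseChange A (LinearMap.id : M →ₗ[R] M) :=
      isBaseChange_id_of_surjective H.surj M
    rw [(torZero M N).length_eq, length_tensor_baseChange H.surj hid N, (torZero M N).length_eq]
  · intro n
    rw [length_ker_add_range (torMap n jm N), LinearMap.exact_iff.1 (h2 n)]
  · intro n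
    cases n with
    | zero =>
      obtain ⟨e1⟩ := tor_one i g hi hg h N
      obtain ⟨e2⟩ := tor_one (LinearMap.ker q).subtype q (Submodule.injective_subtype _) hqs hKY N
      rw [e1.length_eq, length_ker_baseChange H.surj hφ hψ i j hj N]
      change _ = Module.length A (LinearMap.range (torMap 0 jm N)) +
        Module.length A (TorM A 1 M N)
      have h5 : Module.length A (TorM A 1 M N) =
          Module.length A (LinearMap.ker ((LinearMap.ker q).subtype.rTensor N)) :=
        LinearEquiv.length_eq e2
      rw [h5, ← LinearMap.exact_iff.1 (h3 0)]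
      obtain ⟨e3⟩ := ker_equiv (torZero X N) (torZero _ N) (torMap 0 u N) (u.rTensor N)
        (fun x => (torZero_naturality u x).symm)
      have h6 : Module.length A (LinearMap.ker (torMap 0 u N)) = _ := e3.length_eq
      rw [h6]
      have hju : j = (LinearMap.ker q).subtype ∘ₗ u := rfl
      rw [hju, LinearMap.rTensor_comp]
      exact length_ker_comp _ _ (LinearMap.rTensor_surjective N hus)
    | succ n =>
      rw [← hX n, length_ker_add_range (torMap (n + 1) u N), LinearMap.exact_iff.1 (h3 (n + 1))]
  · intro n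
    cases n with
    | zero =>
      change _ = Module.length A (TorM A 1 M N) + 0
      rw [add_zero]
    | succ n =>
      rw [hK n, length_ker_add_range (δ n), LinearMap.exact_iff.1 (h1 n)]

end Vale.Agent.P177
end

section

/-!
The transfer principle: `χ^R(M,N)` only depends on the hypersurface `A = R/(f)`.
-/

namespace Vale.Agent.P177

open TensorProduct Function

universe u

/-- Truncated Euler characteristic of Tor. -/
noncomputable def eulerTor (R : Type u) [CommRing R] (n : ℕ) (M N : Type u) [AddCommGroup M]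
    [Module R M] [AddCommGroup N] [Module R N] : ℤ :=
  ∑ i ∈ Finset.range n, (-1) ^ i * ((Module.length R (TorM R i M N)).toNat : ℤ)

theorem numeric {t r ρ a b : ℕ → ℕ∞} (hρ : ρ 0 = 0) (h0 : r 0 = t 0)
    (h1 : ∀ n, t n = ρ (n + 1) + a n) (h2 : ∀ n, r (n + 1) = a n + b n)
    (h3 : ∀ n, t (n + 1) = b n + ρ n) (hfin : ∀ n, t n ≠ ⊤) (n : ℕ) :
    ∑ i ∈ Finset.range (n + 1), (-1) ^ i * ((r i).toNat : ℤ) =
      (-1) ^ n * (((t n).toNat : ℤ) - (ρ n).toNat) := by
  have ha : ∀ n, a n ≠ ⊤ := fun n h => hfin n (by rw [h1, h, add_top])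
  have hb : ∀ n, b n ≠ ⊤ := fun n h => hfin (n + 1) (by rw [h3, h, top_add])
  have hρf : ∀ n, ρ n ≠ ⊤ := fun n h => hfin (n + 1) (by rw [h3, h, add_top])
  have hr : ∀ n, r n ≠ ⊤ := by
    intro n
    cases n with
    | zero => rw [h0]; exact hfin 0
    | succ n => rw [h2]; exact WithTop.add_ne_top.2 ⟨ha n, hb n⟩
  have e1 : ∀ n, ((t n).toNat : ℤ) = (ρ (n + 1)).toNat + (a n).toNat := by
    intro n
    rw [h1, ENat.toNat_add (hρf _) (ha _)]
    push_cast
    ring
  have e2 : ∀ n, ((r (n + 1)).toNat : ℤ) = (a n).toNat + (b n).toNat := by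
    intro n
    rw [h2, ENat.toNat_add (ha _) (hb _)]
    push_cast
    ring
  have e3 : ∀ n, ((t (n + 1)).toNat : ℤ) = (b n).toNat + (ρ n).toNat := by
    intro n
    rw [h3, ENat.toNat_add (hb _) (hρf _)]
    push_cast
    ring
  induction n with
  | zero => simp [hρ, h0]
  | succ n ih =>
    rw [Finset.sum_range_succ, ih, e2, pow_succ]
    have := e1 n
    have := e3 n
    linear_combination (-1) ^ n * e1 n + (-1) ^ n * e3 n

/-- The Euler characteristic over `R` in terms of Tor over `A = R/f`. -/
theorem IsHypersurface.eulerTor_eq {R A : Type u} [CommRing R] [CommRing A] [Algebra R A] {f : R}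
    (H : IsHypersurface R A f)
    (M N : Type u) [AddCommGroup M] [Module R M] [Module A M] [IsScalarTower R A M]
    [AddCommGroup N] [Module R N] [Module A N] [IsScalarTower R A N]
    (hfin : ∀ n, Module.length A (TorM A n M N) ≠ ⊤) (n : ℕ)
    (hn : Module.length R (TorM R (n + 1) M N) = 0) :
    eulerTor R (n + 1) M N = (-1) ^ n * (((Module.length A (TorM A n M N)).toNat : ℤ) -
      (Module.length A (TorM A (n + 1) M N)).toNat) := by
  obtain ⟨ρ, a, b, hρ, h0, h1, h2, h3⟩ := H.exists_rho M N
  unfold eulerTor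
  rw [numeric hρ h0 h1 h2 h3 hfin n, h3 n]
  have hab := h2 n
  rw [hn] at hab
  have hb : b n = 0 := by
    have : b n ≤ 0 := by rw [hab]; exact le_add_self
    exact le_antisymm this bot_le
  rw [hb, zero_add]

end Vale.Agent.P177
end

section

/-!
Flat base change for Tor.
-/

namespace Vale.Agent.P177

open TensorProduct Function

universe u

variable {S B : Type u} [CommRing S] [CommRing B] [Algebra S B]

section

variable {K F M X Y Z : Type u} [AddCommGroup K] [Module S K] [AddCommGroup F] [Module S F]
  [AddCommGroup M] [Module S M]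
  [AddCommGroup X] [Module S X] [Module B X] [IsScalarTower S B X]
  [AddCommGroup Y] [Module S Y] [Module B Y] [IsScalarTower S B Y]
  [AddCommGroup Z] [Module S Z] [Module B Z] [IsScalarTower S B Z]

theorem bc_square {φ : K →ₗ[S] X} (hφ : IsBaseChange B φ) {ψ : F →ₗ[S] Y} (hψ : IsBaseChange B ψ)
    (i : K →ₗ[S] F) (j : X →ₗ[B] Y) (hij : ∀ k, j (φ k) = ψ (i k)) (z : B ⊗[S] K) :
    j (hφ.equiv z) = hψ.equiv (i.lTensor B z) := by
  induction z using TensorProduct.induction_on with
  | zero => simp
  | tmul b k => simp [hij, IsBaseChange.equiv_tmul]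
  | add x y hx hy => rw [map_add, map_add, hx, hy, map_add, map_add]

theorem bc_injective [Module.Flat S B] {φ : K →ₗ[S] X} (hφ : IsBaseChange B φ) {ψ : F →ₗ[S] Y}
    (hψ : IsBaseChange B ψ)
    (i : K →ₗ[S] F) (j : X →ₗ[B] Y) (hij : ∀ k, j (φ k) = ψ (i k)) (hi : Injective i) :
    Injective j := by
  rw [injective_iff_map_eq_zero]
  intro x hx
  obtain ⟨z, rfl⟩ := hφ.equiv.surjective x
  rw [bc_square hφ hψ i j hij] at hx
  have h1 := Module.Flat.lTensor_preserves_injective_linearMap (M := B) i hi
  have h2 : i.lTensor B z = 0 := hψ.equiv.injective (by rw [hx, map_zero])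
  rw [h1 (by rw [h2, map_zero] : i.lTensor B z = i.lTensor B 0), map_zero]

theorem bc_surjective {φ : K →ₗ[S] X} (hφ : IsBaseChange B φ) {ψ : F →ₗ[S] Y}
    (hψ : IsBaseChange B ψ)
    (i : K →ₗ[S] F) (j : X →ₗ[B] Y) (hij : ∀ k, j (φ k) = ψ (i k)) (hi : Surjective i) :
    Surjective j := by
  intro y
  obtain ⟨z, rfl⟩ := hψ.equiv.surjective y
  obtain ⟨w, rfl⟩ := LinearMap.lTensor_surjective B hi z
  exact ⟨hφ.equiv w, bc_square hφ hψ i j hij w⟩

theorem bc_exact {φ : K →ₗ[S] X} (hφ : IsBaseChange B φ) {ψ : F →ₗ[S] Y}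
    (hψ : IsBaseChange B ψ) {χ : M →ₗ[S] Z} (hχ : IsBaseChange B χ)
    (i : K →ₗ[S] F) (j : X →ₗ[B] Y) (hij : ∀ k, j (φ k) = ψ (i k))
    (g : F →ₗ[S] M) (q : Y →ₗ[B] Z) (hq : ∀ y, q (ψ y) = χ (g y)) (hg : Surjective g)
    (h : Exact i g) : Exact j q := by
  intro y
  obtain ⟨z, rfl⟩ := hψ.equiv.surjective y
  rw [bc_square hψ hχ g q hq]
  have h1 := lTensor_exact B h hg
  constructor
  · intro hy
    have h2 : g.lTensor B z = 0 := hχ.equiv.injective (by rw [hy, map_zero])
    obtain ⟨w, rfl⟩ := (h1 z).1 h2
    exact ⟨hφ.equiv w, bc_square hφ hψ i j hij w⟩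
  · rintro ⟨x, hx⟩
    obtain ⟨w, rfl⟩ := hφ.equiv.surjective x
    rw [bc_square hφ hψ i j hij] at hx
    have h3 : i.lTensor B w = z := hψ.equiv.injective hx
    rw [(h1 z).2 ⟨w, h3⟩, map_zero]

end

/-- if `B` acts on `T` through scalars from `S` then the lengths agree. -/
theorem length_eq_of_action (T : Type u) [AddCommGroup T] [Module S T] [Module B T]
    [IsScalarTower S B T] (hT : ∀ b : B, ∃ s : S, ∀ t : T, b • t = s • t) :
    Module.length S T = Module.length B T := by
  have e : Submodule B T ≃o Submodule S T :=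
    { toFun := fun W => W.restrictScalars S
      invFun := fun W =>
        { W.toAddSubmonoid with
          smul_mem' := fun b x hx => by
            obtain ⟨s, hs⟩ := hT b
            rw [hs]
            exact W.smul_mem s hx }
      left_inv := fun W => by ext x; rfl
      right_inv := fun W => by ext x; rfl
      map_rel_iff' := Iff.rfl }
  rw [Module.length_eq_height, Module.length_eq_height, ← Order.height_orderIso e]
  simp

section

variable {K F X Y : Type u} [AddCommGroup K] [Module S K] [AddCommGroup F] [Module S F]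
  [AddCommGroup X] [Module S X] [Module B X] [IsScalarTower S B X]
  [AddCommGroup Y] [Module S Y] [Module B Y] [IsScalarTower S B Y]

theorem action_tensor (N : Type u) [AddCommGroup N] [Module S N] [Module B N]
    [IsScalarTower S B N] (hN : ∀ b : B, ∃ s : S, ∀ t : N, b • t = s • t) (K : Type u)
    [AddCommGroup K] [Module S K] :
    ∀ b : B, ∃ s : S, ∀ t : N ⊗[S] K, b • t = s • t := by
  intro b
  obtain ⟨s, hs⟩ := hN b
  refine ⟨s, fun t => ?_⟩
  induction t using TensorProduct.induction_on with
  | zero => simp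
  | tmul x y => rw [TensorProduct.smul_tmul', TensorProduct.smul_tmul', hs]
  | add x y hx hy => rw [smul_add, smul_add, hx, hy]

theorem length_tensor_bc {φ : K →ₗ[S] X} (hφ : IsBaseChange B φ) (N : Type u) [AddCommGroup N]
    [Module S N] [Module B N] [IsScalarTower S B N]
    (hN : ∀ b : B, ∃ s : S, ∀ t : N, b • t = s • t) :
    Module.length S (K ⊗[S] N) = Module.length B (X ⊗[B] N) := by
  obtain ⟨e, -⟩ := exists_cancel hφ N
  rw [(TensorProduct.comm S K N).length_eq, (TensorProduct.comm B X N).length_eq, e.length_eq]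
  exact length_eq_of_action _ (action_tensor N hN K)

/-- The map `N ⊗[S] K → N ⊗[S] F` as a `B`-linear map, and comparison with `B`-tensor products. -/
theorem exists_ker_bc {φ : K →ₗ[S] X} (hφ : IsBaseChange B φ) {ψ : F →ₗ[S] Y}
    (hψ : IsBaseChange B ψ) (i : K →ₗ[S] F) (j : X →ₗ[B] Y) (hij : ∀ k, j (φ k) = ψ (i k))
    (N : Type u) [AddCommGroup N] [Module S N] [Module B N] [IsScalarTower S B N] :
    ∃ θ : N ⊗[S] K →ₗ[B] N ⊗[S] F, (∀ x, θ x = i.lTensor N x) ∧
      Nonempty (LinearMap.ker θ ≃ₗ[B] LinearMap.ker (j.rTensor N)) := by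
  let θ : N ⊗[S] K →ₗ[B] N ⊗[S] F := AlgebraTensorModule.map LinearMap.id i
  refine ⟨θ, fun x => rfl, ?_⟩
  obtain ⟨e2⟩ := ker_comm (N := N) j
  obtain ⟨eX, heX⟩ := exists_cancel hφ N
  obtain ⟨eY, heY⟩ := exists_cancel hψ N
  have hX : ∀ z : N ⊗[S] K, j.lTensor N (eX.symm z) = eY.symm (θ z) := by
    intro z
    induction z using TensorProduct.induction_on with
    | zero => simp
    | tmul n k =>
      have a1 : eX.symm (n ⊗ₜ[S] k) = n ⊗ₜ[B] φ k := by
        rw [LinearEquiv.symm_apply_eq, heX]
      have a2 : eY.symm (n ⊗ₜ[S] i k) = n ⊗ₜ[B] ψ (i k) := by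
        rw [LinearEquiv.symm_apply_eq, heY]
      have a3 : θ (n ⊗ₜ[S] k) = n ⊗ₜ[S] i k := by simp [θ]
      rw [a1, a3, a2, LinearMap.lTensor_tmul, hij]
    | add a b ha hb => rw [map_add, map_add, ha, hb, map_add, map_add]
  obtain ⟨e3⟩ := ker_equiv eX.symm eY.symm θ (j.lTensor N) hX
  exact ⟨e3 ≪≫ₗ e2.symm⟩

theorem length_ker_bc {φ : K →ₗ[S] X} (hφ : IsBaseChange B φ) {ψ : F →ₗ[S] Y}
    (hψ : IsBaseChange B ψ) (i : K →ₗ[S] F) (j : X →ₗ[B] Y) (hij : ∀ k, j (φ k) = ψ (i k))
    (N : Type u) [AddCommGroup N] [Module S N] [Module B N] [IsScalarTower S B N]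
    (hN : ∀ b : B, ∃ s : S, ∀ t : N, b • t = s • t) :
    Module.length S (LinearMap.ker (i.rTensor N)) =
      Module.length B (LinearMap.ker (j.rTensor N)) := by
  obtain ⟨e1⟩ := ker_comm (N := N) i
  rw [e1.length_eq]
  obtain ⟨θ, hθ, ⟨e⟩⟩ := exists_ker_bc hφ hψ i j hij N
  rw [← e.length_eq]
  have h1 : Module.length S (LinearMap.ker (i.lTensor N)) =
      Module.length S (LinearMap.ker θ) := by
    have : LinearMap.ker (i.lTensor N) = (LinearMap.ker θ).restrictScalars S := by
      ext x
      change i.lTensor N x = 0 ↔ θ x = 0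
      rw [hθ]
    rw [this]
    rfl
  rw [h1]
  apply length_eq_of_action
  intro b
  obtain ⟨s, hs⟩ := action_tensor N hN K b
  exact ⟨s, fun t => Subtype.ext (hs t)⟩

end

/-- Flat base change: vanishing. -/
theorem tor_subsingleton_bc [Module.Flat S B] (n : ℕ) {K X : Type u} [AddCommGroup K] [Module S K]
    [AddCommGroup X] [Module S X] [Module B X] [IsScalarTower S B X]
    {φ : K →ₗ[S] X} (hφ : IsBaseChange B φ)
    (N : Type u) [AddCommGroup N] [Module S N] [Module B N] [IsScalarTower S B N]
    [Module.Flat S N] : Subsingleton (TorM B (n + 1) X N) := by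
  induction n generalizing K X with
  | zero =>
    obtain ⟨F, K1, _, _, _, _, i, g, hF, hi, hg, h⟩ := exists_cover S K
    obtain ⟨Y, _, _, _, _, ψ, hψ⟩ := exists_baseChange (R := S) B F
    obtain ⟨X1, _, _, _, _, φ1, hφ1⟩ := exists_baseChange (R := S) B K1
    let j : X1 →ₗ[B] Y := hφ1.lift (ψ ∘ₗ i)
    have hj : ∀ k, j (φ1 k) = ψ (i k) := fun k => hφ1.lift_eq _ k
    let q : Y →ₗ[B] X := hψ.lift (φ ∘ₗ g)
    have hq : ∀ y, q (ψ y) = φ (g y) := fun y => hψ.lift_eq _ y
    have hjinj : Injective j := bc_injective hφ1 hψ i j hj hi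
    have hqs : Surjective q := bc_surjective hψ hφ g q hq hg
    have hex : Exact j q := bc_exact hφ1 hψ hφ i j hj g q hq hg h
    have hYflat : Module.Flat B Y := Module.Flat.isBaseChange S B F Y hψ
    obtain ⟨e2⟩ := tor_one j q hjinj hqs hex N
    obtain ⟨θ, hθ, ⟨e⟩⟩ := exists_ker_bc hφ1 hψ i j hj N
    have h1 : Injective (i.lTensor N) := Module.Flat.lTensor_preserves_injective_linearMap i hi
    have h2 : Subsingleton (LinearMap.ker θ) := by
      refine ⟨fun x y => Subtype.ext (h1 ?_)⟩
      rw [← hθ, ← hθ]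
      exact x.2.trans y.2.symm
    exact (e2 ≪≫ₗ e.symm).toEquiv.subsingleton
  | succ n ih =>
    obtain ⟨F, K1, _, _, _, _, i, g, hF, hi, hg, h⟩ := exists_cover S K
    obtain ⟨Y, _, _, _, _, ψ, hψ⟩ := exists_baseChange (R := S) B F
    obtain ⟨X1, _, _, _, _, φ1, hφ1⟩ := exists_baseChange (R := S) B K1
    let j : X1 →ₗ[B] Y := hφ1.lift (ψ ∘ₗ i)
    have hj : ∀ k, j (φ1 k) = ψ (i k) := fun k => hφ1.lift_eq _ k
    let q : Y →ₗ[B] X := hψ.lift (φ ∘ₗ g)
    have hq : ∀ y, q (ψ y) = φ (g y) := fun y => hψ.lift_eq _ y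
    have hjinj : Injective j := bc_injective hφ1 hψ i j hj hi
    have hqs : Surjective q := bc_surjective hψ hφ g q hq hg
    have hex : Exact j q := bc_exact hφ1 hψ hφ i j hj g q hq hg h
    have hYflat : Module.Flat B Y := Module.Flat.isBaseChange S B F Y hψ
    obtain ⟨e2⟩ := tor_shift j q hjinj hqs hex N n
    have := ih hφ1
    exact e2.toEquiv.subsingleton

/-- Flat base change: lengths. -/
theorem length_tor_bc [Module.Flat S B] (n : ℕ) {K X : Type u} [AddCommGroup K] [Module S K]
    [AddCommGroup X] [Module S X] [Module B X] [IsScalarTower S B X]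
    {φ : K →ₗ[S] X} (hφ : IsBaseChange B φ)
    (N : Type u) [AddCommGroup N] [Module S N] [Module B N] [IsScalarTower S B N]
    (hN : ∀ b : B, ∃ s : S, ∀ t : N, b • t = s • t) :
    Module.length S (TorM S n K N) = Module.length B (TorM B n X N) := by
  induction n generalizing K X with
  | zero =>
    rw [(torZero K N).length_eq, length_tensor_bc hφ N hN, (torZero X N).length_eq]
  | succ n ih =>
    obtain ⟨F, K1, _, _, _, _, i, g, hF, hi, hg, h⟩ := exists_cover S K
    obtain ⟨Y, _, _, _, _, ψ, hψ⟩ := exists_baseChange (R := S) B F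
    obtain ⟨X1, _, _, _, _, φ1, hφ1⟩ := exists_baseChange (R := S) B K1
    let j : X1 →ₗ[B] Y := hφ1.lift (ψ ∘ₗ i)
    have hj : ∀ k, j (φ1 k) = ψ (i k) := fun k => hφ1.lift_eq _ k
    let q : Y →ₗ[B] X := hψ.lift (φ ∘ₗ g)
    have hq : ∀ y, q (ψ y) = φ (g y) := fun y => hψ.lift_eq _ y
    have hjinj : Injective j := bc_injective hφ1 hψ i j hj hi
    have hqs : Surjective q := bc_surjective hψ hφ g q hq hg
    have hex : Exact j q := bc_exact hφ1 hψ hφ i j hj g q hq hg h
    have hYflat : Module.Flat B Y := Module.Flat.isBaseChange S B F Y hψ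
    cases n with
    | zero =>
      obtain ⟨e1⟩ := tor_one i g hi hg h N
      obtain ⟨e2⟩ := tor_one j q hjinj hqs hex N
      rw [e1.length_eq, e2.length_eq]
      exact length_ker_bc hφ1 hψ i j hj N hN
    | succ n =>
      obtain ⟨e1⟩ := tor_shift i g hi hg h N n
      obtain ⟨e2⟩ := tor_shift j q hjinj hqs hex N n
      rw [e1.length_eq, e2.length_eq]
      exact ih hφ1

end Vale.Agent.P177
end

section

/-!
Multiplication maps on Tor.
-/

namespace Vale.Agent.P177

open CategoryTheory TensorProduct Function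

universe u

variable {R : Type u} [CommRing R]

theorem homologyMap_eq_smul (L : ChainComplex (ModuleCat.{u} R) ℕ) (φ : L ⟶ L) (a : R) (n : ℕ)
    (h : ∀ x : L.X n, φ.f n x = a • x) (y : L.homology n) :
    HomologicalComplex.homologyMap φ n y = a • y := by
  have hπ : Function.Surjective (L.homologyπ n) :=
    (ModuleCat.epi_iff_surjective _).1 inferInstance
  have hi : Function.Injective (L.iCycles n) :=
    (ModuleCat.mono_iff_injective _).1 inferInstance
  obtain ⟨z, rfl⟩ := hπ y
  have h1 : HomologicalComplex.cyclesMap φ n z = a • z := by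
    apply hi
    rw [map_smul, ← h]
    exact congrArg (fun t => t.hom z) (HomologicalComplex.cyclesMap_i φ n)
  have h3 : HomologicalComplex.homologyMap φ n (L.homologyπ n z) =
      L.homologyπ n (HomologicalComplex.cyclesMap φ n z) :=
    congrArg (fun t => t.hom z) (HomologicalComplex.homologyπ_naturality φ n)
  rw [h3, h1, map_smul]

variable {M N : Type u} [AddCommGroup M] [Module R M] [AddCommGroup N] [Module R N]

theorem rTensor_eq_smul (a : R) (f : M →ₗ[R] M) (hf : ∀ m, f m = a • m) (y : M ⊗[R] N) :
    f.rTensor N y = a • y := by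
  induction y using TensorProduct.induction_on with
  | zero => simp
  | tmul m p =>
    rw [LinearMap.rTensor_tmul, hf]
    rfl
  | add y z hy hz => rw [map_add, smul_add, hy, hz]

theorem torMap_smul_id (n : ℕ) (a : R) (f : M →ₗ[R] M) (hf : ∀ m, f m = a • m)
    (x : TorM R n M N) : torMap n f N x = a • x := by
  let P := projectiveResolution (ModuleCat.of R N)
  let e := (torIso R n (ModuleCat.of R M) P).toLinearEquiv
  apply e.injective
  rw [map_smul]
  have h2 : e (torMap n f N x) = HomologicalComplex.homologyMap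
      ((tensorComplex R P.complex).map (ModuleCat.ofHom f)) n (e x) :=
    congrArg (fun t => t.hom x) (torIso_naturality R n (ModuleCat.ofHom f) P)
  rw [h2]
  apply homologyMap_eq_smul
  intro y
  exact rTensor_eq_smul a f hf y

end Vale.Agent.P177
end

section

/-!
The local criterion: vanishing of `Tor^B(B ⊗ M, Z)` for all `M` from the residue field.
-/

namespace Vale.Agent.P177

open CategoryTheory TensorProduct Function IsLocalRing

universe u

section basic

variable {B : Type u} [CommRing B] {M' M M'' : Type u} [AddCommGroup M'] [Module B M']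
  [AddCommGroup M] [Module B M] [AddCommGroup M''] [Module B M'']

theorem tor_subsingleton_mid (f : M' →ₗ[B] M) (g : M →ₗ[B] M'') (hf : Injective f)
    (hg : Surjective g) (h : Exact f g) (Z : Type u) [AddCommGroup Z] [Module B Z] (j : ℕ)
    (h1 : Subsingleton (TorM B j M' Z)) (h2 : Subsingleton (TorM B j M'' Z)) :
    Subsingleton (TorM B j M Z) := by
  obtain ⟨δ, -, -, h3⟩ := exists_torDelta f g hf hg h Z
  refine subsingleton_of_forall_eq 0 fun x => ?_
  obtain ⟨y, rfl⟩ := (h3 j x).1 (Subsingleton.elim _ _)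
  rw [Subsingleton.elim y 0, map_zero]

/-- Nakayama: a surjective multiplication by an element of the maximal ideal. -/
theorem subsingleton_of_smul_surjective [IsLocalRing B] (T : Type u) [AddCommGroup T] [Module B T]
    [Module.Finite B T] (b : B) (hb : b ∈ maximalIdeal B) (h : ∀ t : T, ∃ t' : T, t = b • t') :
    Subsingleton T := by
  have h1 : (⊤ : Submodule B T) = ⊥ := by
    apply Submodule.eq_bot_of_le_smul_of_le_jacobson_bot (Ideal.span {b}) ⊤ Module.Finite.fg_top
    · intro t _
      obtain ⟨t', rfl⟩ := h t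
      exact Submodule.smul_mem_smul (Ideal.mem_span_singleton_self b) trivial
    · rw [IsLocalRing.jacobson_eq_maximalIdeal _ bot_ne_top]
      exact (Ideal.span_singleton_le_iff_mem _).2 hb
  exact (Submodule.subsingleton_iff B).1 (subsingleton_of_bot_eq_top h1.symm)

/-- If `b` is regular on `M`, `M'' = M/bM` and `Tor_j(M'',Z) = 0` then `Tor_j(M,Z) = 0`. -/
theorem tor_subsingleton_of_quot [IsLocalRing B] [IsNoetherianRing B] [Module.Finite B M]
    (b : B) (hb : b ∈ maximalIdeal B) (f : M →ₗ[B] M) (hfb : ∀ m, f m = b • m)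
    (g : M →ₗ[B] M'') (hf : Injective f)
    (hg : Surjective g) (h : Exact f g) (Z : Type u) [AddCommGroup Z] [Module B Z]
    [Module.Finite B Z] (j : ℕ)
    (h2 : Subsingleton (TorM B j M'' Z)) :
    Subsingleton (TorM B j M Z) := by
  obtain ⟨δ, -, -, h3⟩ := exists_torDelta f g hf hg h Z
  have := tor_finite (R := B) j M Z
  apply subsingleton_of_smul_surjective (TorM B j M Z) b hb
  intro x
  obtain ⟨y, rfl⟩ := (h3 j x).1 (Subsingleton.elim _ _)
  exact ⟨y, torMap_smul_id j b f hfb y⟩

end basic

section

variable {S B : Type u} [CommRing S] [CommRing B] [Algebra S B]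

theorem baseChange_ses [Module.Flat S B] {M' M M'' : Type u} [AddCommGroup M'] [Module S M']
    [AddCommGroup M] [Module S M] [AddCommGroup M''] [Module S M'']
    (f : M' →ₗ[S] M) (g : M →ₗ[S] M'') (hf : Injective f)
    (hg : Surjective g) (h : Exact f g) :
    Injective (f.baseChange B) ∧ Surjective (g.baseChange B) ∧
      Exact (f.baseChange B) (g.baseChange B) := by
  rw [LinearMap.baseChange_eq_ltensor, LinearMap.baseChange_eq_ltensor]
  exact ⟨Module.Flat.lTensor_preserves_injective_linearMap f hf, LinearMap.lTensor_surjective B hg,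
    lTensor_exact B h hg⟩

theorem baseChange_smul_eq {M : Type u} [AddCommGroup M] [Module S M] (a : S) (f : M →ₗ[S] M)
    (hf : ∀ m, f m = a • m) (z : B ⊗[S] M) : f.baseChange B z = algebraMap S B a • z := by
  induction z using TensorProduct.induction_on with
  | zero => simp
  | tmul b m => simp [hf, TensorProduct.smul_tmul', Algebra.smul_def]
  | add y z hy hz => rw [map_add, smul_add, hy, hz]

variable [IsLocalRing S] [IsNoetherianRing S] [IsLocalRing B] [IsNoetherianRing B]
  [Module.Flat S B] [IsLocalHom (algebraMap S B)]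

/-- The local criterion. -/
theorem local_crit (j₀ : ℕ) (Z : Type u) [AddCommGroup Z] [Module B Z] [Module.Finite B Z]
    (hk : ∀ j, j₀ ≤ j → Subsingleton (TorM B j (B ⊗[S] (S ⧸ maximalIdeal S)) Z))
    (M : Type u) [AddCommGroup M] [Module S M] [Module.Finite S M] :
    ∀ j, j₀ ≤ j → Subsingleton (TorM B j (B ⊗[S] M) Z) := by
  suffices H : ∀ I : Ideal S, ∀ (M : Type u) [AddCommGroup M] [Module S M] [Module.Finite S M],
      I ≤ Module.annihilator S M → ∀ j, j₀ ≤ j → Subsingleton (TorM B j (B ⊗[S] M) Z) from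
    H ⊥ M bot_le
  intro I
  induction I using IsNoetherian.induction with
  | hgt I ih =>
  intro M _ _ hM hI
  induction hM using IsNoetherianRing.induction_on_isQuotientEquivQuotientPrime S with
  | subsingleton N =>
    intro j _
    have : Subsingleton (B ⊗[S] N) := inferInstance
    have h1 := tor_smul_eq_zero_left (R := B) (M := B ⊗[S] N) 1 (fun m => Subsingleton.elim _ _) j Z
    exact ⟨fun x y => by rw [← one_smul B x, ← one_smul B y, h1, h1]⟩
  | quotient N P e =>
    intro j hj
    have hIP : I ≤ P.1 := by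
      intro a ha
      have h1 := Module.mem_annihilator.1 (hI ha) (e.symm (Ideal.Quotient.mk P.1 1))
      rw [← map_smul, LinearEquiv.map_eq_zero_iff] at h1
      rw [← Ideal.Quotient.eq_zero_iff_mem, ← h1, Algebra.smul_def, map_one, mul_one]
      rfl
    by_cases hP : P.1 = maximalIdeal S
    · have e1 : (B ⊗[S] N) ≃ₗ[B] (B ⊗[S] (S ⧸ maximalIdeal S)) :=
        (e ≪≫ₗ Submodule.quotEquivOfEq _ _ hP).baseChange S B _ _
      have := hk j hj
      exact (torCongrLeft j e1 Z).toEquiv.subsingleton
    · have hlt : P.1 < maximalIdeal S := lt_of_le_of_ne (le_maximalIdeal P.2.ne_top) hP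
      obtain ⟨x, hxm, hxP⟩ := SetLike.exists_of_lt hlt
      let f : (S ⧸ P.1) →ₗ[S] (S ⧸ P.1) := LinearMap.lsmul S (S ⧸ P.1) x
      let g : (S ⧸ P.1) →ₗ[S] QuotSMulTop x (S ⧸ P.1) := Submodule.mkQ _
      have hfi : Injective f := by
        rw [injective_iff_map_eq_zero]
        intro a ha
        obtain ⟨a, rfl⟩ := Ideal.Quotient.mk_surjective a
        have h1 : Ideal.Quotient.mk P.1 (x * a) = 0 := ha
        rw [Ideal.Quotient.eq_zero_iff_mem] at h1 ⊢
        exact (P.2.mem_or_mem h1).resolve_left hxP
      have hgs : Surjective g := Submodule.mkQ_surjective _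
      have hex : Exact f g := by
        intro y
        rw [Submodule.mkQ_apply, Submodule.Quotient.mk_eq_zero]
        rw [Submodule.mem_smul_pointwise_iff_exists]
        simp [f]
      obtain ⟨k1, k2, k3⟩ := baseChange_ses (B := B) f g hfi hgs hex
      have hann : I < I ⊔ Ideal.span {x} := by
        refine lt_of_le_of_ne le_sup_left ?_
        intro h
        apply hxP
        apply hIP
        rw [h]
        exact Ideal.mem_sup_right (Ideal.mem_span_singleton_self x)
      have hq : Subsingleton (TorM B j (B ⊗[S] QuotSMulTop x (S ⧸ P.1)) Z) := by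
        apply ih _ hann _ _ j hj
        rw [sup_le_iff]
        constructor
        · intro a ha
          rw [Module.mem_annihilator]
          intro m
          obtain ⟨m, rfl⟩ := hgs m
          obtain ⟨m, rfl⟩ := Ideal.Quotient.mk_surjective m
          rw [← map_smul, Algebra.smul_def]
          have : (algebraMap S (S ⧸ P.1)) a = 0 := Ideal.Quotient.eq_zero_iff_mem.2 (hIP ha)
          rw [this, zero_mul, map_zero]
        · rw [Ideal.span_singleton_le_iff_mem, Module.mem_annihilator]
          intro m
          obtain ⟨m, rfl⟩ := hgs m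
          rw [← map_smul]
          exact (hex _).2 ⟨m, rfl⟩
      have hle : (maximalIdeal S).map (algebraMap S B) ≤ maximalIdeal B :=
        ((IsLocalRing.local_hom_TFAE (algebraMap S B)).out 0 2).mp ‹_›
      have hb : algebraMap S B x ∈ maximalIdeal B := hle (Ideal.mem_map_of_mem _ hxm)
      have h5 := tor_subsingleton_of_quot (algebraMap S B x) hb (f.baseChange B)
        (baseChange_smul_eq x f (fun m => rfl)) (g.baseChange B) k1 k2 k3 Z j hq
      exact (torCongrLeft j (e.baseChange S B _ _) Z).toEquiv.subsingleton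
  | exact N₁ N₂ N₃ f g hf hg h ih1 ih3 =>
    intro j hj
    obtain ⟨k1, k2, k3⟩ := baseChange_ses (B := B) f g hf hg h
    refine tor_subsingleton_mid _ _ k1 k2 k3 Z j (ih1 ?_ j hj) (ih3 ?_ j hj)
    · exact hI.trans (LinearMap.annihilator_le_of_injective f hf)
    · exact hI.trans (LinearMap.annihilator_le_of_surjective g hg)

end

end Vale.Agent.P177
end

section

/-!
Regular local rings: they are domains, quotients by an element of m not in m^2 are regular,
and a generating list of m of length dim R is a regular sequence.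
-/

namespace Vale.Agent.P177

open IsLocalRing RingTheory.Sequence Pointwise

universe u

lemma exists_nat_eq_ringKrullDim (R : Type*) [CommRing R] [FiniteRingKrullDim R] :
    ∃ n : ℕ, ringKrullDim R = n := by
  obtain ⟨a, ha⟩ := WithBot.ne_bot_iff_exists.mp (ringKrullDim_ne_bot (R := R))
  have htop : a ≠ ⊤ := fun h => ringKrullDim_ne_top (R := R) (by rw [← ha, h]; rfl)
  obtain ⟨n, hn⟩ := ENat.ne_top_iff_exists.mp htop
  exact ⟨n, by rw [← ha, ← hn]; rfl⟩

section exchange

variable {R : Type u} [CommRing R] [IsLocalRing R]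

/-- Exchange lemma. -/
lemma exists_insert_erase_span [DecidableEq R] (s : Finset R)
    (hs : Ideal.span (s : Set R) = maximalIdeal R)
    {y : R} (hy : y ∈ maximalIdeal R) (hy2 : y ∉ maximalIdeal R ^ 2) :
    ∃ r ∈ s, Ideal.span (insert y (s.erase r : Finset R) : Set R) = maximalIdeal R := by
  have hmem : y ∈ Ideal.span (s : Set R) := hs ▸ hy
  obtain ⟨f, -, hf⟩ := Submodule.mem_span_finset.mp hmem
  have hex : ∃ r ∈ s, f r ∉ maximalIdeal R := by
    by_contra hcon
    push Not at hcon
    apply hy2
    rw [← hf, pow_two]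
    refine Submodule.sum_mem _ fun r hr => ?_
    exact Ideal.mul_mem_mul (hcon r hr) (hs ▸ Ideal.subset_span hr)
  obtain ⟨r, hr, hfr⟩ := hex
  refine ⟨r, hr, ?_⟩
  have hu : IsUnit (f r) := by
    by_contra h
    exact hfr ((mem_maximalIdeal _).mpr h)
  obtain ⟨u, hu⟩ := hu
  apply le_antisymm
  · rw [Ideal.span_le]
    intro z hz
    rcases hz with rfl | hz
    · exact hy
    · exact hs ▸ Ideal.subset_span (Finset.mem_of_mem_erase hz)
  · rw [← hs, Ideal.span_le]
    intro z hz
    by_cases hzr : z = r
    · subst hzr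
      have h1 : f z * z = y - ∑ a ∈ s.erase z, f a • a := by
        rw [← hf, ← Finset.add_sum_erase s _ hr]
        simp
      have h2 : z = (↑u⁻¹ : R) * (y - ∑ a ∈ s.erase z, f a • a) := by
        rw [← h1, ← hu, Units.inv_mul_cancel_left]
      have h3 : (↑u⁻¹ : R) * (y - ∑ a ∈ s.erase z, f a • a) ∈
          Ideal.span (insert y (s.erase z : Finset R) : Set R) := by
        apply Ideal.mul_mem_left
        apply Ideal.sub_mem
        · exact Ideal.subset_span (Set.mem_insert _ _)
        · refine Submodule.sum_mem _ fun a ha => ?_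
          exact Ideal.mul_mem_left _ _ (Ideal.subset_span (Set.mem_insert_of_mem _ ha))
      rwa [← h2] at h3
    · exact Ideal.subset_span (Set.mem_insert_of_mem _ (Finset.mem_erase.mpr ⟨hzr, hz⟩))

end exchange

section TaskA
variable (R : Type u) [CommRing R] [IsRegularLocalRing R]

lemma exists_nat_ringKrullDim :
    ringKrullDim R = ((maximalIdeal R).spanFinrank : WithBot ℕ∞) :=
  ((isRegularLocalRing_iff R).mp inferInstance).symm

theorem regular_quotient (y : R) (hy : y ∈ maximalIdeal R) (hy2 : y ∉ maximalIdeal R ^ 2) :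
    IsRegularLocalRing (R ⧸ Ideal.span {y}) ∧
      ringKrullDim (R ⧸ Ideal.span {y}) + 1 = ringKrullDim R := by
  classical
  have hne : Ideal.span {y} ≠ ⊤ := fun h => by
    rw [Ideal.span_singleton_eq_top] at h
    exact (mem_maximalIdeal _).mp hy h
  have : Nontrivial (R ⧸ Ideal.span {y}) := Ideal.Quotient.nontrivial_iff.mpr hne
  have : IsLocalRing (R ⧸ Ideal.span {y}) :=
    .of_surjective' (Ideal.Quotient.mk (Ideal.span {y})) Ideal.Quotient.mk_surjective
  obtain ⟨s, hcard, hs⟩ := Submodule.FG.exists_span_finset_card_eq_spanFinrank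
    ((maximalIdeal R).fg_of_isNoetherianRing)
  change Ideal.span (s : Set R) = maximalIdeal R at hs
  obtain ⟨r, hr, hspan⟩ := exists_insert_erase_span s hs hy hy2
  have hmax : maximalIdeal (R ⧸ Ideal.span {y}) =
      Ideal.span ((s.erase r).image (Ideal.Quotient.mk (Ideal.span {y})) : Set _) := by
    have h1 : (maximalIdeal R).map (Ideal.Quotient.mk (Ideal.span {y})) =
        maximalIdeal (R ⧸ Ideal.span {y}) :=
      map_maximalIdeal_of_surjective _ Ideal.Quotient.mk_surjective
    rw [← h1, ← hspan, Ideal.map_span, Set.image_insert_eq, Ideal.Quotient.mk_singleton_self,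
      Finset.coe_image]
    exact Submodule.span_insert_zero
  have hrank : (maximalIdeal (R ⧸ Ideal.span {y})).spanFinrank + 1 ≤
      (maximalIdeal R).spanFinrank := by
    rw [← hcard, ← Finset.card_erase_add_one hr]
    gcongr
    rw [hmax]
    refine (Submodule.spanFinrank_span_le_ncard_of_finite (Finset.finite_toSet _)).trans ?_
    rw [Set.ncard_coe_finset]
    exact Finset.card_image_le
  have hd := exists_nat_ringKrullDim R
  have h1 := ringKrullDim_le_spanFinrank_maximalIdeal (R ⧸ Ideal.span {y})
  have h2 : ringKrullDim R ≤ ringKrullDim (R ⧸ Ideal.span {y}) + 1 := by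
    have := ringKrullDim_le_ringKrullDim_quotSMulTop_succ hy
    have e : y • (⊤ : Ideal R) = Ideal.span {y} := by
      rw [← Submodule.ideal_span_singleton_smul, smul_eq_mul, Ideal.mul_top]
    rwa [e] at this
  obtain ⟨n, hn⟩ := exists_nat_eq_ringKrullDim (R ⧸ Ideal.span {y})
  rw [hn] at h1 h2
  rw [hd] at h2
  rw [isRegularLocalRing_iff, hn, hd]
  norm_cast at h1 h2 ⊢
  omega

theorem regular_isDomain : IsDomain R := by
  classical
  obtain ⟨n, hn⟩ := exists_nat_eq_ringKrullDim R
  induction n generalizing R with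
  | zero =>
    have h0 : (maximalIdeal R).spanFinrank = 0 := by
      have := exists_nat_ringKrullDim R
      rw [hn] at this
      exact_mod_cast this.symm
    rw [Submodule.spanFinrank_eq_zero_iff_eq_bot ((maximalIdeal R).fg_of_isNoetherianRing)] at h0
    exact (isField_iff_maximalIdeal_eq.mpr h0).isDomain
  | succ n ih =>
    have hfin := minimalPrimes.finite_of_isNoetherianRing R
    -- prime avoidance
    obtain ⟨y, hy, hy2, hymin⟩ : ∃ y ∈ maximalIdeal R, y ∉ maximalIdeal R ^ 2 ∧
        ∀ P ∈ minimalPrimes R, y ∉ P := by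
      by_contra hcon
      push Not at hcon
      have hsub : (maximalIdeal R : Set R) ⊆
          ⋃ i ∈ (↑(insert (maximalIdeal R ^ 2) hfin.toFinset) : Set (Ideal R)),
            ((id i : Ideal R) : Set R) := by
        intro z hz
        by_cases hz2 : z ∈ maximalIdeal R ^ 2
        · exact Set.mem_biUnion (Finset.mem_coe.mpr (Finset.mem_insert_self _ _)) hz2
        · obtain ⟨P, hP, hzP⟩ := hcon z hz hz2
          exact Set.mem_biUnion (Finset.mem_coe.mpr (Finset.mem_insert_of_mem
            (hfin.mem_toFinset.mpr hP))) hzP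
      rw [Ideal.subset_union_prime (f := id) (maximalIdeal R ^ 2) (maximalIdeal R ^ 2)] at hsub
      · obtain ⟨P, hP, hle⟩ := hsub
        rcases Finset.mem_insert.mp hP with rfl | hP
        · have hbot : maximalIdeal R = ⊥ := by
            apply Submodule.eq_bot_of_le_smul_of_le_jacobson_bot (maximalIdeal R) _
              ((maximalIdeal R).fg_of_isNoetherianRing)
            · rw [smul_eq_mul, ← pow_two]; exact hle
            · rw [IsLocalRing.jacobson_eq_maximalIdeal _ bot_ne_top]
          have h1 := exists_nat_ringKrullDim R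
          rw [hbot, Submodule.spanFinrank_bot, hn] at h1
          norm_cast at h1
        · have hPmin := hfin.mem_toFinset.mp hP
          have hPp : P.IsPrime := hPmin.1.1
          have hPeq : P = maximalIdeal R := le_antisymm (le_maximalIdeal hPp.ne_top) hle
          have h1 : (maximalIdeal R).height = 0 := by
            rw [← hPeq]
            exact Ideal.height_eq_zero_iff.mpr hPmin
          have h2 := maximalIdeal_height_eq_ringKrullDim (R := R)
          rw [h1, hn] at h2
          norm_cast at h2
      · intro P hP h1 _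
        rcases Finset.mem_insert.mp hP with rfl | hP
        · exact absurd rfl h1
        · exact (hfin.mem_toFinset.mp hP).1.1
    obtain ⟨hreg, hdim⟩ := regular_quotient R y hy hy2
    have hdom : IsDomain (R ⧸ Ideal.span {y}) := by
      apply ih
      obtain ⟨k, hk⟩ := exists_nat_eq_ringKrullDim (R ⧸ Ideal.span {y})
      rw [hk, hn] at hdim
      rw [hk]
      norm_cast at hdim ⊢
      omega
    have hprime : (Ideal.span {y}).IsPrime := (Ideal.Quotient.isDomain_iff_prime _).mp hdom
    obtain ⟨P, hP, hPle⟩ := Ideal.exists_minimalPrimes_le (I := ⊥) (J := Ideal.span {y}) bot_le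
    have hPp : P.IsPrime := hP.1.1
    have hyP : y ∉ P := hymin P hP
    have hPbot : P = ⊥ := by
      apply Submodule.eq_bot_of_le_smul_of_le_jacobson_bot (maximalIdeal R) P
        P.fg_of_isNoetherianRing
      · intro a ha
        obtain ⟨b, rfl⟩ := Ideal.mem_span_singleton'.mp (hPle ha)
        have hb : b ∈ P := (hPp.mem_or_mem ha).resolve_right hyP
        rw [mul_comm]
        exact Submodule.smul_mem_smul hy hb
      · rw [IsLocalRing.jacobson_eq_maximalIdeal _ bot_ne_top]
    rw [hPbot] at hPp
    exact IsDomain.of_bot_isPrime R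

theorem exists_list_maximalIdeal :
    ∃ rs : List R, Ideal.ofList rs = maximalIdeal R ∧
      (rs.length : WithBot ℕ∞) = ringKrullDim R := by
  obtain ⟨s, hcard, hs⟩ := Submodule.FG.exists_span_finset_card_eq_spanFinrank
    ((maximalIdeal R).fg_of_isNoetherianRing)
  refine ⟨s.toList, ?_, ?_⟩
  · rw [← hs]
    simp [Ideal.ofList, Ideal.span]
  · rw [Finset.length_toList, hcard, exists_nat_ringKrullDim R]

theorem isRegular_of_ofList_eq_maximalIdeal (rs : List R)
    (h : Ideal.ofList rs = maximalIdeal R) (hlen : (rs.length : WithBot ℕ∞) = ringKrullDim R) :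
    IsRegular R rs := by
  obtain ⟨n, hn⟩ : ∃ n, rs.length = n := ⟨_, rfl⟩
  induction n generalizing R with
  | zero =>
    rw [List.length_eq_zero_iff] at hn
    subst hn
    exact IsRegular.nil R R
  | succ n ih =>
    obtain ⟨r, rs, rfl⟩ := List.exists_cons_of_length_eq_add_one hn
    simp only [List.length_cons, Nat.add_right_cancel_iff] at hn
    have : IsDomain R := regular_isDomain R
    have hr : r ∈ maximalIdeal R := by
      rw [← h, Ideal.ofList_cons]
      exact Ideal.mem_sup_left (Ideal.mem_span_singleton_self r)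
    have hr2 : r ∉ maximalIdeal R ^ 2 := by
      intro hcon
      have h1 : Ideal.ofList rs = maximalIdeal R := by
        apply le_antisymm
        · rw [← h, Ideal.ofList_cons]; exact le_sup_right
        · apply Submodule.le_of_le_smul_of_le_jacobson_bot (I := maximalIdeal R)
            ((maximalIdeal R).fg_of_isNoetherianRing)
          · rw [IsLocalRing.jacobson_eq_maximalIdeal _ bot_ne_top]
          · rw [smul_eq_mul, ← pow_two]
            nth_rewrite 1 [← h]
            rw [Ideal.ofList_cons]
            apply sup_le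
            · rw [Ideal.span_singleton_le_iff_mem]
              exact Ideal.mem_sup_right hcon
            · exact le_sup_left
      have h2 : (maximalIdeal R).spanFinrank ≤ rs.length := by
        classical
        rw [← h1]
        have : Ideal.ofList rs = Submodule.span R (rs.toFinset : Set R) := by
          simp [Ideal.ofList, Ideal.span]
        rw [this]
        refine (Submodule.spanFinrank_span_le_ncard_of_finite (Finset.finite_toSet _)).trans ?_
        rw [Set.ncard_coe_finset]
        exact List.toFinset_card_le rs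
      have h3 := exists_nat_ringKrullDim R
      rw [← hlen] at h3
      norm_cast at h3
      simp only [List.length_cons] at h3
      omega
    have hr0 : r ≠ 0 := fun h0 => hr2 (h0 ▸ zero_mem _)
    obtain ⟨hreg, hdim⟩ := regular_quotient R r hr hr2
    rw [isRegular_cons_iff']
    refine ⟨(IsRegular.of_ne_zero hr0).left.isSMulRegular, ?_⟩
    have hQ := ih (R ⧸ Ideal.span {r}) (rs.map (Ideal.Quotient.mk (Ideal.span {r}))) ?_ ?_
      (by simpa using hn)
    · have heq : (Ideal.span {r} : Submodule R R) = r • ⊤ := by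
        rw [← Submodule.ideal_span_singleton_smul, smul_eq_mul, Ideal.mul_top]
      refine (AddEquiv.isRegular_congr
        (e := (Submodule.quotEquivOfEq _ _ heq).toAddEquiv) ?_).mp hQ
      refine List.forall₂_same.mpr fun t _ x => ?_
      obtain ⟨a, rfl⟩ := Ideal.Quotient.mk_surjective t
      change Submodule.quotEquivOfEq _ _ heq (algebraMap R (R ⧸ Ideal.span {r}) a • x) =
        algebraMap R (R ⧸ Ideal.span {r}) a • Submodule.quotEquivOfEq _ _ heq x
      rw [algebraMap_smul, algebraMap_smul, map_smul]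
    · rw [← Ideal.map_ofList, ← map_maximalIdeal_of_surjective _ Ideal.Quotient.mk_surjective,
        ← h, Ideal.ofList_cons, Ideal.map_sup, Ideal.map_span]
      simp
    · obtain ⟨k, hk⟩ := exists_nat_eq_ringKrullDim (R ⧸ Ideal.span {r})
      rw [hk, ← hlen] at hdim
      rw [hk]
      norm_cast at hdim ⊢
      simp only [List.length_cons, List.length_map] at hdim ⊢
      omega

end TaskA

end Vale.Agent.P177
end

section

/-!
Regular sequences and Tor; vanishing of Tor over regular local rings.
-/

namespace Vale.Agent.P177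

open CategoryTheory TensorProduct Function IsLocalRing RingTheory.Sequence Pointwise

universe u

section basic

variable {B : Type u} [CommRing B]

/-- The short exact sequence `0 → Z → Z → Z/zZ → 0`. -/
theorem quot_ses (Z : Type u) [AddCommGroup Z] [Module B Z] (z : B) (hz : IsSMulRegular Z z) :
    ∃ (f : Z →ₗ[B] Z) (g : Z →ₗ[B] QuotSMulTop z Z), (∀ m, f m = z • m) ∧ Injective f ∧
      Surjective g ∧ Exact f g := by
  refine ⟨LinearMap.lsmul B Z z, Submodule.mkQ _, fun m => rfl, hz,
    Submodule.mkQ_surjective _, ?_⟩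
  intro y
  rw [Submodule.mkQ_apply, Submodule.Quotient.mk_eq_zero]
  rw [Submodule.mem_smul_pointwise_iff_exists]
  simp

theorem torMap_zero_surjective {M M' : Type u} [AddCommGroup M] [Module B M]
    [AddCommGroup M'] [Module B M'] (g : M →ₗ[B] M') (hg : Surjective g) (N : Type u)
    [AddCommGroup N] [Module B N] : Surjective (torMap 0 g N) := by
  intro y
  obtain ⟨x, hx⟩ := LinearMap.rTensor_surjective N hg (torZero M' N y)
  refine ⟨(torZero M N).symm x, ?_⟩
  apply (torZero M' N).injective
  rw [torZero_naturality, LinearEquiv.apply_symm_apply, hx]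

/-- identification of a cokernel with `QuotSMulTop`. -/
theorem exists_quotSMulTop_equiv {T T' : Type u} [AddCommGroup T] [Module B T]
    [AddCommGroup T'] [Module B T'] (z : B) (f : T →ₗ[B] T) (hf : ∀ t, f t = z • t)
    (g : T →ₗ[B] T') (hg : Surjective g) (h : Exact f g) :
    Nonempty (QuotSMulTop z T ≃ₗ[B] T') := by
  have h1 : z • (⊤ : Submodule B T) = LinearMap.ker g := by
    rw [LinearMap.exact_iff.1 h]
    ext x
    rw [Submodule.mem_smul_pointwise_iff_exists]
    constructor
    · rintro ⟨y, -, rfl⟩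
      exact ⟨y, hf y⟩
    · rintro ⟨y, rfl⟩
      exact ⟨y, trivial, (hf y).symm⟩
  exact ⟨Submodule.quotEquivOfEq _ _ h1 ≪≫ₗ g.quotKerEquivOfSurjective hg⟩

theorem tor_subsingleton_step (Z : Type u) [AddCommGroup Z] [Module B Z] (z : B)
    (hz : IsSMulRegular Z z) (W : Type u) [AddCommGroup W] [Module B W] (j : ℕ)
    (h1 : Subsingleton (TorM B (j + 1) Z W)) (h0 : Subsingleton (TorM B j Z W)) :
    Subsingleton (TorM B (j + 1) (QuotSMulTop z Z) W) := by
  obtain ⟨f, g, -, hi, hs, hex⟩ := quot_ses Z z hz
  obtain ⟨δ, h2, -, -⟩ := exists_torDelta f g hi hs hex W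
  refine subsingleton_of_forall_eq 0 fun x => ?_
  obtain ⟨y, rfl⟩ := (h2 j x).1 (Subsingleton.elim _ _)
  rw [Subsingleton.elim y 0, map_zero]

theorem tor_subsingleton_list (zs : List B) (Z : Type u) [AddCommGroup Z] [Module B Z]
    (hreg : IsWeaklyRegular Z zs) (W : Type u) [AddCommGroup W] [Module B W] (n₀ : ℕ)
    (h : ∀ j, n₀ ≤ j → Subsingleton (TorM B j Z W)) :
    ∀ j, n₀ + zs.length ≤ j →
      Subsingleton (TorM B j (Z ⧸ (Ideal.ofList zs • ⊤ : Submodule B Z)) W) := by
  induction zs generalizing Z n₀ with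
  | nil =>
    intro j hj
    have := h j hj
    have e : (Z ⧸ (Ideal.ofList ([] : List B) • ⊤ : Submodule B Z)) ≃ₗ[B] Z :=
      Submodule.quotEquivOfEqBot _ (by simp)
    exact (torCongrLeft j e W).toEquiv.subsingleton
  | cons z zs ih =>
    intro j hj
    rw [isWeaklyRegular_cons_iff] at hreg
    have h1 : ∀ j, n₀ + 1 ≤ j → Subsingleton (TorM B j (QuotSMulTop z Z) W) := by
      intro j hj
      obtain ⟨j, rfl⟩ : ∃ k, j = k + 1 := ⟨j - 1, by omega⟩
      exact tor_subsingleton_step Z z hreg.1 W j (h _ (by omega)) (h _ (by omega))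
    have h2 := ih (QuotSMulTop z Z) hreg.2 (n₀ + 1) h1 j
      (by rw [List.length_cons] at hj; omega)
    exact (torCongrLeft j
      (Submodule.quotOfListConsSMulTopEquivQuotSMulTopInner Z z zs) W).toEquiv.subsingleton

end basic

section regular

/-- Tor vanishes in degrees larger than the dimension of a regular local ring. -/
theorem regular_tor_vanish (R : Type u) [CommRing R] [IsRegularLocalRing R] (d : ℕ)
    (hd : ringKrullDim R = d) (M N : Type u) [AddCommGroup M] [Module R M] [Module.Finite R M]
    [AddCommGroup N] [Module R N] [Module.Finite R N] (j : ℕ) (hj : d + 1 ≤ j) :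
    Subsingleton (TorM R j M N) := by
  obtain ⟨rs, hrs, hlen⟩ := exists_list_maximalIdeal R
  have hreg := isRegular_of_ofList_eq_maximalIdeal R rs hrs hlen
  have hlen' : rs.length = d := by
    rw [hd] at hlen
    exact_mod_cast hlen
  have h0 : ∀ j, 1 ≤ j → Subsingleton (TorM R j R N) := by
    intro j hj
    obtain ⟨j, rfl⟩ : ∃ k, j = k + 1 := ⟨j - 1, by omega⟩
    exact tor_subsingleton_of_flat j
  have h1 := tor_subsingleton_list rs R hreg.toIsWeaklyRegular N 1 h0
  have hk : ∀ j, d + 1 ≤ j → Subsingleton (TorM R j (R ⊗[R] (R ⧸ maximalIdeal R)) N) := by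
    intro j hj
    have h2 := h1 j (by omega)
    have e : (R ⊗[R] (R ⧸ maximalIdeal R)) ≃ₗ[R]
        (R ⧸ (Ideal.ofList rs • ⊤ : Submodule R R)) :=
      (TensorProduct.lid R _) ≪≫ₗ Submodule.quotEquivOfEq _ _ (by rw [hrs]; simp)
    exact (torCongrLeft j e N).toEquiv.subsingleton
  have h3 := local_crit (S := R) (B := R) (d + 1) N hk M j hj
  exact (torCongrLeft j (TensorProduct.lid R M).symm N).toEquiv.subsingleton

end regular

section regof

variable {B : Type u} [CommRing B] [IsLocalRing B] [IsNoetherianRing B]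

/-- Rigidity: if `zs` is weakly regular on `Z` and `Tor_j(Z/zs Z, W) = 0` for `j ≥ 1` then
`Tor_j(Z,W) = 0` for `j ≥ 1` and `zs` is weakly regular on `Tor_0(Z,W)`. -/
theorem regular_of_tor_vanish (zs : List B) (hzs : ∀ z ∈ zs, z ∈ maximalIdeal B) (Z : Type u)
    [AddCommGroup Z] [Module B Z] [Module.Finite B Z]
    (hreg : IsWeaklyRegular Z zs) (W : Type u) [AddCommGroup W] [Module B W] [Module.Finite B W]
    (h : ∀ j, 1 ≤ j →
      Subsingleton (TorM B j (Z ⧸ (Ideal.ofList zs • ⊤ : Submodule B Z)) W)) :
    (∀ j, 1 ≤ j → Subsingleton (TorM B j Z W)) ∧ IsWeaklyRegular (TorM B 0 Z W) zs := by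
  induction zs generalizing Z with
  | nil =>
    refine ⟨?_, IsWeaklyRegular.nil _ _⟩
    intro j hj
    have := h j hj
    have e : (Z ⧸ (Ideal.ofList ([] : List B) • ⊤ : Submodule B Z)) ≃ₗ[B] Z :=
      Submodule.quotEquivOfEqBot _ (by simp)
    exact (torCongrLeft j e W).symm.toEquiv.subsingleton
  | cons z zs ih =>
    rw [isWeaklyRegular_cons_iff] at hreg
    obtain ⟨h1, h2⟩ := ih (fun y hy => hzs y (List.mem_cons_of_mem _ hy)) (QuotSMulTop z Z)
      hreg.2 (fun j hj => by
        have := h j hj
        exact (torCongrLeft j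
          (Submodule.quotOfListConsSMulTopEquivQuotSMulTopInner Z z zs) W).symm.toEquiv.subsingleton)
    obtain ⟨f, g, hf, hi, hs, hex⟩ := quot_ses Z z hreg.1
    refine ⟨fun j hj => tor_subsingleton_of_quot z (hzs z (List.mem_cons_self))
      f hf g hi hs hex W j (h1 j hj), ?_⟩
    obtain ⟨δ, -, h4, h5⟩ := exists_torDelta f g hi hs hex W
    have h6 := h1 1 le_rfl
    rw [isWeaklyRegular_cons_iff]
    constructor
    · rw [isSMulRegular_iff_right_eq_zero_of_smul]
      intro x hx
      have h7 : torMap 0 f W x = 0 := by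
        rw [torMap_smul_id 0 z f hf, hx]
      obtain ⟨y, rfl⟩ := (h4 0 x).1 h7
      rw [Subsingleton.elim y 0, map_zero]
    · obtain ⟨e⟩ := exists_quotSMulTop_equiv z (torMap 0 f W)
        (torMap_smul_id 0 z f hf) (torMap 0 g W) (torMap_zero_surjective g hs W) (h5 0)
      exact (e.isWeaklyRegular_congr zs).2 h2

end regof

end Vale.Agent.P177
end

section

/-!
The recursive (Koszul) Euler characteristic: additivity and positivity.
-/

namespace Vale.Agent.P177

open CategoryTheory TensorProduct Function IsLocalRing RingTheory.Sequence Pointwise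

universe u

section

variable {B : Type u} [CommRing B]

/-- Recursive Koszul Euler characteristic of a list of elements. -/
noncomputable def eul : List B → ∀ (X : Type u) [AddCommGroup X] [Module B X], ℤ
  | [], X, _, _ => ((Module.length B X).toNat : ℤ)
  | z :: zs, X, _, _ => eul zs (QuotSMulTop z X) - eul zs (Submodule.torsionBy B X z)

theorem torsionBy_equiv {X Y : Type u} [AddCommGroup X] [Module B X] [AddCommGroup Y]
    [Module B Y] (z : B) (e : X ≃ₗ[B] Y) :
    Nonempty (Submodule.torsionBy B X z ≃ₗ[B] Submodule.torsionBy B Y z) := by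
  refine ⟨LinearEquiv.ofSubmodules e _ _ ?_⟩
  ext y
  simp only [Submodule.mem_map, Submodule.mem_torsionBy_iff]
  constructor
  · rintro ⟨x, hx, rfl⟩
    change z • e x = 0
    rw [← map_smul, hx, map_zero]
  · intro hy
    refine ⟨e.symm y, ?_, by simp⟩
    rw [← map_smul, hy, map_zero]

theorem eul_congr (zs : List B) {X Y : Type u} [AddCommGroup X] [Module B X] [AddCommGroup Y]
    [Module B Y] (e : X ≃ₗ[B] Y) : eul zs X = eul zs Y := by
  induction zs generalizing X Y with
  | nil =>
    unfold eul
    rw [e.length_eq]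
  | cons z zs ih =>
    unfold eul
    obtain ⟨e2⟩ := torsionBy_equiv z e
    rw [ih (QuotSMulTop.congr z e), ih e2]

theorem eul_subsingleton (zs : List B) (X : Type u) [AddCommGroup X] [Module B X]
    [Subsingleton X] : eul zs X = 0 := by
  induction zs generalizing X with
  | nil =>
    unfold eul
    rw [Module.length_eq_zero]
    rfl
  | cons z zs ih =>
    unfold eul
    have : Subsingleton (QuotSMulTop z X) := (Submodule.mkQ_surjective _).subsingleton
    rw [ih, ih, sub_zero]

/-- The six term kernel-cokernel sequence for multiplication by `z`. -/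
theorem six_term (z : B) {X' X X'' : Type u} [AddCommGroup X'] [Module B X']
    [AddCommGroup X] [Module B X] [AddCommGroup X''] [Module B X'']
    (f : X' →ₗ[B] X) (g : X →ₗ[B] X'') (hf : Injective f) (hg : Surjective g) (h : Exact f g) :
    ∃ (k1 : Submodule.torsionBy B X' z →ₗ[B] Submodule.torsionBy B X z)
      (k2 : Submodule.torsionBy B X z →ₗ[B] Submodule.torsionBy B X'' z)
      (δ : Submodule.torsionBy B X'' z →ₗ[B] QuotSMulTop z X')
      (c1 : QuotSMulTop z X' →ₗ[B] QuotSMulTop z X)
      (c2 : QuotSMulTop z X →ₗ[B] QuotSMulTop z X''),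
      Injective k1 ∧ Exact k1 k2 ∧ Exact k2 δ ∧ Exact δ c1 ∧ Exact c1 c2 ∧ Surjective c2 := by
  have hk1 : ∀ x ∈ Submodule.torsionBy B X' z, f x ∈ Submodule.torsionBy B X z := by
    intro x hx
    rw [Submodule.mem_torsionBy_iff] at hx ⊢
    rw [← map_smul, hx, map_zero]
  have hk2 : ∀ x ∈ Submodule.torsionBy B X z, g x ∈ Submodule.torsionBy B X'' z := by
    intro x hx
    rw [Submodule.mem_torsionBy_iff] at hx ⊢
    rw [← map_smul, hx, map_zero]
  let k1 := f.restrict hk1
  let k2 := g.restrict hk2
  have hex : ∀ (Y : Type u) [AddCommGroup Y] [Module B Y],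
      Exact (Submodule.torsionBy B Y z).subtype (LinearMap.lsmul B Y z) := by
    intro Y _ _ y
    simp
  have hex' : ∀ (Y : Type u) [AddCommGroup Y] [Module B Y],
      Exact (LinearMap.lsmul B Y z) (Submodule.mkQ (z • (⊤ : Submodule B Y)) :
        Y →ₗ[B] QuotSMulTop z Y) := by
    intro Y _ _ y
    rw [Submodule.mkQ_apply, Submodule.Quotient.mk_eq_zero]
    rw [Submodule.mem_smul_pointwise_iff_exists]
    simp
  have h1 : f.comp (LinearMap.lsmul B X' z) = (LinearMap.lsmul B X z).comp f := by
    ext x
    simp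
  have h2 : g.comp (LinearMap.lsmul B X z) = (LinearMap.lsmul B X'' z).comp g := by
    ext x
    simp
  refine ⟨k1, k2, SnakeLemma.δ' (LinearMap.lsmul B X' z) (LinearMap.lsmul B X z)
    (LinearMap.lsmul B X'' z) f g h f g h h1 h2 (Submodule.torsionBy B X'' z).subtype
    (hex X'') (Submodule.mkQ _) (hex' X') hg hf, QuotSMulTop.map z f, QuotSMulTop.map z g,
    ?_, ?_, ?_, ?_, ?_, ?_⟩
  · intro x y hxy
    apply Subtype.ext
    apply hf
    exact congrArg Subtype.val hxy
  · rintro ⟨x, hx⟩
    constructor
    · intro hgx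
      have hgx' : g x = 0 := congrArg Subtype.val hgx
      obtain ⟨y, rfl⟩ := (h x).1 hgx'
      refine ⟨⟨y, ?_⟩, rfl⟩
      rw [Submodule.mem_torsionBy_iff] at hx ⊢
      apply hf
      rw [map_smul, hx, map_zero]
    · rintro ⟨⟨y, hy⟩, hyx⟩
      have hyx' : f y = x := congrArg Subtype.val hyx
      apply Subtype.ext
      change g x = 0
      rw [← hyx']
      exact (h _).2 ⟨y, rfl⟩
  · exact SnakeLemma.exact_δ'_right _ _ _ _ _ _ _ _ _ _ _ (Submodule.torsionBy B X z).subtype
      (hex X) _ _ _ _ _ _ k2 rfl (Submodule.injective_subtype _)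
  · exact SnakeLemma.exact_δ'_left _ _ _ _ _ _ _ _ _ _ _ _ _ _ _ (Submodule.mkQ _)
      (hex' X) _ _ (QuotSMulTop.map z f) rfl (Submodule.mkQ_surjective _)
  · exact QuotSMulTop.map_exact z h hg
  · exact QuotSMulTop.map_surjective z hg

end

section FL

variable {B : Type u} [CommRing B] [IsLocalRing B]

/-- `X` has finite length modulo `zs` (in terms of annihilators). -/
def FL (zs : List B) (X : Type u) [AddCommGroup X] [Module B X] : Prop :=
  maximalIdeal B ≤ (Module.annihilator B X ⊔ Ideal.ofList zs).radical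

theorem FL.mono {ws zs : List B} {X Y : Type u} [AddCommGroup X] [Module B X] [AddCommGroup Y]
    [Module B Y] (hX : FL ws X)
    (h : Module.annihilator B X ⊔ Ideal.ofList ws ≤ Module.annihilator B Y ⊔ Ideal.ofList zs) :
    FL zs Y := hX.trans (Ideal.radical_mono h)

theorem FL.of_injective {zs : List B} {X Y : Type u} [AddCommGroup X] [Module B X]
    [AddCommGroup Y] [Module B Y] (hX : FL zs X) (f : Y →ₗ[B] X) (hf : Injective f) : FL zs Y :=
  hX.mono (sup_le_sup_right (LinearMap.annihilator_le_of_injective f hf) _)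

theorem FL.of_surjective {zs : List B} {X Y : Type u} [AddCommGroup X] [Module B X]
    [AddCommGroup Y] [Module B Y] (hX : FL zs X) (f : X →ₗ[B] Y) (hf : Surjective f) : FL zs Y :=
  hX.mono (sup_le_sup_right (LinearMap.annihilator_le_of_surjective f hf) _)

theorem FL.quot {z : B} {zs : List B} {X : Type u} [AddCommGroup X] [Module B X]
    (hX : FL (z :: zs) X) : FL zs (QuotSMulTop z X) := by
  refine hX.mono ?_
  rw [Ideal.ofList_cons, ← sup_assoc]
  refine sup_le_sup_right (sup_le ?_ ?_) _
  · exact LinearMap.annihilator_le_of_surjective _ (Submodule.mkQ_surjective _)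
  · rw [Ideal.span_singleton_le_iff_mem]
    exact QuotSMulTop.mem_annihilator X z

theorem FL.torsionBy {z : B} {zs : List B} {X : Type u} [AddCommGroup X] [Module B X]
    (hX : FL (z :: zs) X) : FL zs (Submodule.torsionBy B X z) := by
  refine hX.mono ?_
  rw [Ideal.ofList_cons, ← sup_assoc]
  refine sup_le_sup_right (sup_le ?_ ?_) _
  · exact LinearMap.annihilator_le_of_injective _ (Submodule.injective_subtype _)
  · rw [Ideal.span_singleton_le_iff_mem, Module.mem_annihilator]
    rintro ⟨x, hx⟩
    apply Subtype.ext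
    exact hx

variable [IsNoetherianRing B]

theorem FL.length_ne_top {X : Type u} [AddCommGroup X] [Module B X] [Module.Finite B X]
    (hX : FL ([] : List B) X) : Module.length B X ≠ ⊤ := by
  unfold FL at hX
  rw [Ideal.ofList_nil, sup_bot_eq] at hX
  obtain ⟨k, hk⟩ := Ideal.exists_pow_le_of_le_radical_of_fg hX (IsNoetherian.noetherian _)
  rw [Module.length_ne_top_iff]
  exact isFiniteLength_of_pow_smul_eq_zero k (fun a ha x => Module.mem_annihilator.1 (hk ha) x)

/-- additivity of `eul` -/
theorem eul_add (zs : List B) {X' X X'' : Type u} [AddCommGroup X'] [Module B X']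
    [AddCommGroup X] [Module B X] [AddCommGroup X''] [Module B X''] [Module.Finite B X']
    [Module.Finite B X] [Module.Finite B X'']
    (f : X' →ₗ[B] X) (g : X →ₗ[B] X'') (hf : Injective f) (hg : Surjective g) (h : Exact f g)
    (hX : FL zs X) : eul zs X = eul zs X' + eul zs X'' := by
  induction zs generalizing X' X X'' with
  | nil =>
    unfold eul
    rw [Module.length_eq_add_of_exact f g hf hg h, ENat.toNat_add
      (hX.of_injective f hf).length_ne_top (hX.of_surjective g hg).length_ne_top]
    push_cast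
    ring
  | cons z zs ih =>
    obtain ⟨k1, k2, δ, c1, c2, e1, e2, e3, e4, e5, e6⟩ := six_term z f g hf hg h
    have key : ∀ {Y Z : Type u} [AddCommGroup Y] [Module B Y] [AddCommGroup Z] [Module B Z]
        [Module.Finite B Y] [Module.Finite B Z] (φ : Y →ₗ[B] Z), FL zs Y →
        eul zs Y = eul zs (LinearMap.ker φ) + eul zs (LinearMap.range φ) := by
      intro Y Z _ _ _ _ _ _ φ hY
      exact ih (LinearMap.ker φ).subtype φ.rangeRestrict (Submodule.injective_subtype _)
        (LinearMap.surjective_rangeRestrict φ) (by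
          intro x
          rw [Subtype.ext_iff]
          simp) hY
    have hX' := hX.of_injective f hf
    have hX'' := hX.of_surjective g hg
    unfold eul
    have a1 := key k1 hX'.torsionBy
    have a2 := key k2 hX.torsionBy
    have a3 := key δ hX''.torsionBy
    have a4 := key c1 hX'.quot
    have a5 := key c2 hX.quot
    have a6 : eul zs (QuotSMulTop z X'') = eul zs (LinearMap.range c2) := by
      rw [LinearMap.range_eq_top.2 e6]
      exact eul_congr zs (Submodule.topEquiv).symm
    have a7 : eul zs (LinearMap.ker k1) = 0 := by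
      rw [LinearMap.ker_eq_bot.2 e1]
      exact eul_subsingleton zs _
    rw [LinearMap.exact_iff.1 e2] at a2
    rw [LinearMap.exact_iff.1 e3] at a3
    rw [LinearMap.exact_iff.1 e4] at a4
    rw [LinearMap.exact_iff.1 e5] at a5
    linarith

theorem eul_ker_add_range (zs : List B) {Y Z : Type u} [AddCommGroup Y] [Module B Y]
    [AddCommGroup Z] [Module B Z] [Module.Finite B Y] [Module.Finite B Z] (φ : Y →ₗ[B] Z)
    (hY : FL zs Y) : eul zs Y = eul zs (LinearMap.ker φ) + eul zs (LinearMap.range φ) :=
  eul_add zs (LinearMap.ker φ).subtype φ.rangeRestrict (Submodule.injective_subtype _)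
    (LinearMap.surjective_rangeRestrict φ) (by
      intro x
      rw [Subtype.ext_iff]
      simp) hY

/-- If `X` already has finite length modulo `zs` then `eul (z :: zs) X = 0`. -/
theorem eul_cons_eq_zero (z : B) (zs : List B) (X : Type u) [AddCommGroup X] [Module B X]
    [Module.Finite B X] (hX : FL zs X) : eul (z :: zs) X = 0 := by
  have h1 := eul_ker_add_range zs (LinearMap.lsmul B X z) hX
  have h2 : eul zs X = eul zs (LinearMap.range (LinearMap.lsmul B X z)) +
      eul zs (QuotSMulTop z X) := by
    refine eul_add zs (LinearMap.range (LinearMap.lsmul B X z)).subtype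
      (Submodule.mkQ _) (Submodule.injective_subtype _) (Submodule.mkQ_surjective _) ?_ hX
    intro x
    rw [Submodule.mkQ_apply, Submodule.Quotient.mk_eq_zero,
      Submodule.mem_smul_pointwise_iff_exists]
    simp
  have h3 : eul zs (LinearMap.ker (LinearMap.lsmul B X z)) =
      eul zs (Submodule.torsionBy B X z) := rfl
  unfold eul
  rw [h3] at h1
  linarith

omit [IsNoetherianRing B] in
/-- `z`-power torsion has finite length modulo `zs`. -/
theorem FL.of_pow {z : B} {zs : List B} {X : Type u} [AddCommGroup X] [Module B X]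
    (hX : FL (z :: zs) X) (n : ℕ) (hz : z ^ n ∈ Module.annihilator B X) : FL zs X := by
  unfold FL at hX ⊢
  rw [Ideal.ofList_cons, ← sup_assoc] at hX
  refine hX.trans ?_
  rw [← Ideal.radical_idem (Module.annihilator B X ⊔ Ideal.ofList zs)]
  apply Ideal.radical_mono
  refine sup_le (sup_le ?_ ?_) ?_
  · exact le_sup_left.trans Ideal.le_radical
  · rw [Ideal.span_singleton_le_iff_mem]
    exact ⟨n, Ideal.mem_sup_left hz⟩
  · exact le_sup_right.trans Ideal.le_radical

theorem supportDim_le_length (zs : List B) (hzs : ∀ z ∈ zs, z ∈ maximalIdeal B) (X : Type u)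
    [AddCommGroup X] [Module B X] [Module.Finite B X] (hX : FL zs X) :
    Module.supportDim B X ≤ zs.length := by
  induction zs generalizing X with
  | nil =>
    unfold FL at hX
    rw [Ideal.ofList_nil, sup_bot_eq] at hX
    unfold Module.supportDim
    rw [List.length_nil, Nat.cast_zero, Order.krullDim_nonpos_iff_forall_isMax]
    rintro ⟨P, hP⟩ ⟨Q, hQ⟩ hPQ
    have h1 : P.asIdeal = maximalIdeal B := by
      apply le_antisymm (le_maximalIdeal P.2.ne_top)
      refine hX.trans ?_
      rw [P.2.radical_le_iff]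
      exact Module.annihilator_le_of_mem_support hP
    change Q.asIdeal ≤ P.asIdeal
    rw [h1]
    exact le_maximalIdeal Q.2.ne_top
  | cons z zs ih =>
    have h1 := ih (fun y hy => hzs y (List.mem_cons_of_mem _ hy)) (QuotSMulTop z X) hX.quot
    have h2 := Module.supportDim_le_supportDim_quotSMulTop_succ (M := X)
      (hzs z List.mem_cons_self)
    refine h2.trans ?_
    rw [List.length_cons]
    push_cast
    gcongr

end FL

end Vale.Agent.P177
end

section

/-!
Positivity of the recursive Euler characteristic.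
-/

namespace Vale.Agent.P177

open CategoryTheory TensorProduct Function IsLocalRing RingTheory.Sequence Pointwise

universe u

section dim

variable {B : Type u} [CommRing B]

theorem le_supportDim_of_exact {X' X X'' : Type u} [AddCommGroup X'] [Module B X']
    [AddCommGroup X] [Module B X] [AddCommGroup X''] [Module B X'']
    (f : X' →ₗ[B] X) (g : X →ₗ[B] X'') (hf : Injective f) (hg : Surjective g) (h : Exact f g)
    (n : ℕ) (hn : (n : WithBot ℕ∞) ≤ Module.supportDim B X) :
    (n : WithBot ℕ∞) ≤ Module.supportDim B X' ∨ (n : WithBot ℕ∞) ≤ Module.supportDim B X'' := by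
  unfold Module.supportDim at hn ⊢
  obtain ⟨l, hl⟩ := Order.le_krullDim_iff.1 hn
  have h0 : ∀ x : PrimeSpectrum B, x ∈ Module.support B X →
      x ∈ Module.support B X' ∨ x ∈ Module.support B X'' := by
    intro x hx
    rw [Module.support_of_exact h hf hg] at hx
    exact hx
  rcases h0 _ l.head.2 with h1 | h1
  · left
    rw [Order.le_krullDim_iff]
    let L : LTSeries (Module.support B X') :=
      { length := l.length
        toFun := fun i => ⟨(l i).1, Module.mem_support_mono
          (show (l.head).1 ≤ (l i).1 from l.head_le i) h1⟩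
        step := fun i => l.step i }
    exact ⟨L, hl⟩
  · right
    rw [Order.le_krullDim_iff]
    let L : LTSeries (Module.support B X'') :=
      { length := l.length
        toFun := fun i => ⟨(l i).1, Module.mem_support_mono
          (show (l.head).1 ≤ (l i).1 from l.head_le i) h1⟩
        step := fun i => l.step i }
    exact ⟨L, hl⟩

/-- The `z`-power torsion. -/
theorem exists_torsion_pow [IsNoetherianRing B] (X : Type u) [AddCommGroup X] [Module B X]
    [Module.Finite B X] (z : B) :
    ∃ (n : ℕ) (Γ : Submodule B X), z ^ n ∈ Module.annihilator B Γ ∧ IsSMulRegular (X ⧸ Γ) z := by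
  let f : ℕ →o Submodule B X :=
    { toFun := fun n => Submodule.torsionBy B X (z ^ n)
      monotone' := by
        intro a b hab x hx
        rw [Submodule.mem_torsionBy_iff] at hx ⊢
        obtain ⟨c, rfl⟩ := Nat.exists_eq_add_of_le hab
        rw [pow_add, mul_comm, mul_smul, hx, smul_zero] }
  obtain ⟨n, hn⟩ := monotone_stabilizes_iff_noetherian.2 (inferInstance : IsNoetherian B X) f
  refine ⟨n, f n, ?_, ?_⟩
  · rw [Module.mem_annihilator]
    rintro ⟨x, hx⟩
    apply Subtype.ext
    exact hx
  · rw [isSMulRegular_iff_right_eq_zero_of_smul]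
    intro x hx
    obtain ⟨x, rfl⟩ := Submodule.mkQ_surjective _ x
    rw [← map_smul, Submodule.mkQ_apply, Submodule.Quotient.mk_eq_zero] at hx
    rw [Submodule.mkQ_apply, Submodule.Quotient.mk_eq_zero, hn (n + 1) (Nat.le_succ n)]
    have hx' : z ^ n • (z • x) = 0 := hx
    change z ^ (n + 1) • x = 0
    rw [pow_succ, mul_smul, hx']

end dim

section

variable {B : Type u} [CommRing B] [IsLocalRing B] [IsNoetherianRing B]

theorem eul_nonneg_pos (zs : List B) (hzs : ∀ z ∈ zs, z ∈ maximalIdeal B) (X : Type u)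
    [AddCommGroup X] [Module B X] [Module.Finite B X] (hX : FL zs X) :
    0 ≤ eul zs X ∧ ((zs.length : WithBot ℕ∞) ≤ Module.supportDim B X → 0 < eul zs X) := by
  induction zs generalizing X with
  | nil =>
    unfold eul
    refine ⟨Nat.cast_nonneg _, ?_⟩
    intro h
    have hnt : Nontrivial X := by
      rw [← Module.supportDim_ne_bot_iff_nontrivial B X]
      intro hb
      rw [hb] at h
      simp at h
    have h1 := hX.length_ne_top
    have h2 : Module.length B X ≠ 0 := by
      rw [← pos_iff_ne_zero, Module.length_pos_iff]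
      exact hnt
    have h3 : (Module.length B X).toNat ≠ 0 := by
      rw [ne_eq, ENat.toNat_eq_zero]
      exact fun h => h.elim h2 h1
    exact_mod_cast Nat.pos_of_ne_zero h3
  | cons z zs ih =>
    obtain ⟨n, Γ, hΓ, hreg⟩ := exists_torsion_pow X z
    have hzs' : ∀ y ∈ zs, y ∈ maximalIdeal B := fun y hy => hzs y (List.mem_cons_of_mem _ hy)
    have hex : Exact Γ.subtype Γ.mkQ := by
      intro x
      simp
    have hadd := eul_add (z :: zs) Γ.subtype Γ.mkQ (Submodule.injective_subtype _)
      (Submodule.mkQ_surjective _) hex hX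
    have hFLΓ : FL (z :: zs) Γ := hX.of_injective Γ.subtype (Submodule.injective_subtype _)
    have hFLΓ' : FL zs Γ := hFLΓ.of_pow n hΓ
    have hFLQ : FL (z :: zs) (X ⧸ Γ) := hX.of_surjective Γ.mkQ (Submodule.mkQ_surjective _)
    rw [eul_cons_eq_zero z zs Γ hFLΓ', zero_add] at hadd
    have htors : Subsingleton (Submodule.torsionBy B (X ⧸ Γ) z) := by
      refine subsingleton_of_forall_eq 0 ?_
      rintro ⟨x, hx⟩
      apply Subtype.ext
      rw [isSMulRegular_iff_right_eq_zero_of_smul] at hreg
      exact hreg x hx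
    have h2 : eul (z :: zs) (X ⧸ Γ) = eul zs (QuotSMulTop z (X ⧸ Γ)) := by
      change eul zs (QuotSMulTop z (X ⧸ Γ)) - eul zs (Submodule.torsionBy B (X ⧸ Γ) z) = _
      rw [eul_subsingleton zs (Submodule.torsionBy B (X ⧸ Γ) z), sub_zero]
    rw [hadd, h2]
    obtain ⟨i1, i2⟩ := ih hzs' (QuotSMulTop z (X ⧸ Γ)) hFLQ.quot
    refine ⟨i1, ?_⟩
    intro hd
    apply i2
    have h3 := Module.supportDim_quotSMulTop_succ_eq_supportDim hreg (hzs z List.mem_cons_self)
    rcases le_supportDim_of_exact Γ.subtype Γ.mkQ (Submodule.injective_subtype _)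
      (Submodule.mkQ_surjective _) hex _ hd with h4 | h4
    · exfalso
      have h5 := h4.trans (supportDim_le_length zs hzs' Γ hFLΓ')
      rw [List.length_cons] at h5
      have h6 : zs.length + 1 ≤ zs.length := by exact_mod_cast h5
      omega
    · rw [← h3, List.length_cons] at h4
      push_cast at h4
      generalize Module.supportDim B (QuotSMulTop z (X ⧸ Γ)) = a at h4 ⊢
      induction a using WithBot.recBotCoe with
      | bot => 
        exfalso
        simp at h4
      | coe a => 
        have h7 : ((zs.length : ℕ∞) + 1) ≤ a + 1 := by exact_mod_cast h4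
        have h8 : (zs.length : ℕ∞) ≤ a := (ENat.add_le_add_iff_right (by simp)).1 h7
        exact_mod_cast h8

end

end Vale.Agent.P177
end

section

/-!
Euler characteristics of Tor along a regular sequence.
-/

namespace Vale.Agent.P177

open CategoryTheory TensorProduct Function IsLocalRing RingTheory.Sequence Pointwise

universe u

variable {B : Type u} [CommRing B] [IsLocalRing B]

/-- Finiteness condition for pairs. -/
def FL2 (zs : List B) (Z W : Type u) [AddCommGroup Z] [Module B Z] [AddCommGroup W]
    [Module B W] : Prop :=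
  maximalIdeal B ≤ (Module.annihilator B Z ⊔ Module.annihilator B W ⊔ Ideal.ofList zs).radical

theorem FL2.tor {zs : List B} {Z W : Type u} [AddCommGroup Z] [Module B Z] [AddCommGroup W]
    [Module B W] (h : FL2 zs Z W) (j : ℕ) : FL zs (TorM B j Z W) := by
  refine h.trans (Ideal.radical_mono (sup_le_sup_right (sup_le ?_ ?_) _))
  · intro a ha
    rw [Module.mem_annihilator]
    exact tor_smul_eq_zero_left a (fun m => Module.mem_annihilator.1 ha m) j W
  · intro a ha
    rw [Module.mem_annihilator]
    exact tor_smul_eq_zero_right a (fun m => Module.mem_annihilator.1 ha m) j Z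

theorem FL2.quot {z : B} {zs : List B} {Z W : Type u} [AddCommGroup Z] [Module B Z]
    [AddCommGroup W] [Module B W] (h : FL2 (z :: zs) Z W) : FL2 zs (QuotSMulTop z Z) W := by
  refine h.trans (Ideal.radical_mono ?_)
  rw [Ideal.ofList_cons]
  refine sup_le (sup_le ?_ ?_) (sup_le ?_ ?_)
  · exact le_sup_of_le_left (le_sup_of_le_left
      (LinearMap.annihilator_le_of_surjective _ (Submodule.mkQ_surjective _)))
  · exact le_sup_of_le_left le_sup_right
  · refine le_sup_of_le_left (le_sup_of_le_left ?_)
    rw [Ideal.span_singleton_le_iff_mem]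
    exact QuotSMulTop.mem_annihilator Z z
  · exact le_sup_right

variable [IsNoetherianRing B]

theorem eul_tor_quot_succ (z : B) (ws : List B) (Z W : Type u) [AddCommGroup Z] [Module B Z]
    [Module.Finite B Z] [AddCommGroup W] [Module B W] [Module.Finite B W]
    (hz : IsSMulRegular Z z) (hFL : FL2 (z :: ws) Z W) (n : ℕ) :
    eul ws (TorM B (n + 1) (QuotSMulTop z Z) W) =
      eul ws (QuotSMulTop z (TorM B (n + 1) Z W)) +
        eul ws (Submodule.torsionBy B (TorM B n Z W) z) := by
  obtain ⟨f, g, hf, hi, hs, hex⟩ := quot_ses Z z hz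
  obtain ⟨δ, h1, h2, h3⟩ := exists_torDelta f g hi hs hex W
  have i1 := tor_finite (R := B) (n + 1) (QuotSMulTop z Z) W
  have i2 := tor_finite (R := B) n Z W
  have i3 := tor_finite (R := B) (n + 1) Z W
  rw [eul_ker_add_range ws (δ n) (hFL.quot.tor (n + 1))]
  congr 1
  · rw [LinearMap.exact_iff.1 (h1 n)]
    obtain ⟨e⟩ := exists_quotSMulTop_equiv z (torMap (n + 1) f W)
      (torMap_smul_id (n + 1) z f hf) (torMap (n + 1) g W).rangeRestrict
      (LinearMap.surjective_rangeRestrict _) (by
        intro x
        rw [← h3 (n + 1) x, Subtype.ext_iff]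
        rfl)
    exact (eul_congr ws e).symm
  · rw [← LinearMap.exact_iff.1 (h2 n)]
    have : LinearMap.ker (torMap n f W) = Submodule.torsionBy B (TorM B n Z W) z := by
      ext x
      rw [LinearMap.mem_ker, torMap_smul_id n z f hf, Submodule.mem_torsionBy_iff]
    rw [this]

theorem eul_tor_quot_zero (z : B) (ws : List B) (Z W : Type u) [AddCommGroup Z] [Module B Z]
    [AddCommGroup W] [Module B W]
    (hz : IsSMulRegular Z z) :
    eul ws (TorM B 0 (QuotSMulTop z Z) W) = eul ws (QuotSMulTop z (TorM B 0 Z W)) := by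
  obtain ⟨f, g, hf, hi, hs, hex⟩ := quot_ses Z z hz
  obtain ⟨δ, h1, h2, h3⟩ := exists_torDelta f g hi hs hex W
  obtain ⟨e⟩ := exists_quotSMulTop_equiv z (torMap 0 f W)
      (torMap_smul_id 0 z f hf) (torMap 0 g W) (torMap_zero_surjective g hs W) (h3 0)
  exact (eul_congr ws e).symm

theorem sum_eul_quot (z : B) (ws : List B) (Z W : Type u) [AddCommGroup Z] [Module B Z]
    [Module.Finite B Z] [AddCommGroup W] [Module B W] [Module.Finite B W]
    (hz : IsSMulRegular Z z) (hFL : FL2 (z :: ws) Z W) (n : ℕ) :
    ∑ j ∈ Finset.range (n + 1), (-1 : ℤ) ^ j * eul ws (TorM B j (QuotSMulTop z Z) W) =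
      ∑ j ∈ Finset.range (n + 1), (-1 : ℤ) ^ j * eul (z :: ws) (TorM B j Z W) +
        (-1) ^ n * eul ws (Submodule.torsionBy B (TorM B n Z W) z) := by
  have hdef : ∀ j, eul (z :: ws) (TorM B j Z W) = eul ws (QuotSMulTop z (TorM B j Z W)) -
      eul ws (Submodule.torsionBy B (TorM B j Z W) z) := fun j => rfl
  induction n with
  | zero =>
    simp only [zero_add, Finset.sum_range_one, pow_zero, one_mul]
    rw [eul_tor_quot_zero z ws Z W hz, hdef]
    ring
  | succ n ih =>
    rw [Finset.sum_range_succ, ih, Finset.sum_range_succ _ (n + 1),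
      eul_tor_quot_succ z ws Z W hz hFL, hdef]
    ring

/-- Euler characteristic of `Tor(Z/zsZ, W)` along a `Z`-regular sequence `zs`. -/
theorem sum_length_tor_quot (zs : List B) (W : Type u) [AddCommGroup W] [Module B W]
    [Module.Finite B W] (n : ℕ) (Z : Type u) [AddCommGroup Z] [Module B Z]
    [Module.Finite B Z] (hreg : IsWeaklyRegular Z zs) (hFL : FL2 zs Z W) (n₀ : ℕ)
    (hv : ∀ j, n₀ ≤ j → Subsingleton (TorM B j Z W)) (hn : n₀ + zs.length ≤ n) :
    ∑ j ∈ Finset.range n, (-1 : ℤ) ^ j * ((Module.length B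
      (TorM B j (Z ⧸ (Ideal.ofList zs • ⊤ : Submodule B Z)) W)).toNat : ℤ) =
      ∑ j ∈ Finset.range n, (-1 : ℤ) ^ j * eul zs (TorM B j Z W) := by
  induction zs generalizing Z n₀ with
  | nil =>
    refine Finset.sum_congr rfl fun j _ => ?_
    have e : (Z ⧸ (Ideal.ofList ([] : List B) • ⊤ : Submodule B Z)) ≃ₗ[B] Z :=
      Submodule.quotEquivOfEqBot _ (by simp)
    rw [(torCongrLeft j e W).length_eq]
    rfl
  | cons z zs ih =>
    rw [isWeaklyRegular_cons_iff] at hreg
    rw [List.length_cons] at hn
    have h1 : ∀ j, n₀ + 1 ≤ j → Subsingleton (TorM B j (QuotSMulTop z Z) W) := by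
      intro j hj
      obtain ⟨j, rfl⟩ : ∃ k, j = k + 1 := ⟨j - 1, by omega⟩
      exact tor_subsingleton_step Z z hreg.1 W j (hv _ (by omega)) (hv _ (by omega))
    have h2 := ih (QuotSMulTop z Z) hreg.2 hFL.quot (n₀ + 1) h1 (by omega)
    have h3 : ∀ j, Module.length B
        (TorM B j (Z ⧸ (Ideal.ofList (z :: zs) • ⊤ : Submodule B Z)) W) =
        Module.length B (TorM B j (QuotSMulTop z Z ⧸
          (Ideal.ofList zs • ⊤ : Submodule B (QuotSMulTop z Z))) W) := fun j =>
      (torCongrLeft j
        (Submodule.quotOfListConsSMulTopEquivQuotSMulTopInner Z z zs) W).length_eq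
    simp only [h3]
    rw [h2]
    obtain ⟨m, rfl⟩ : ∃ m, n = m + 1 := ⟨n - 1, by omega⟩
    rw [sum_eul_quot z zs Z W hreg.1 hFL m]
    have h4 := hv m (by omega)
    have h5 : Subsingleton (Submodule.torsionBy B (TorM B m Z W) z) := inferInstance
    rw [eul_subsingleton zs (Submodule.torsionBy B (TorM B m Z W) z), mul_zero, add_zero]

end Vale.Agent.P177
end

section

/-!
Lower bound for dimensions of tensor products of base changes.
-/

namespace Vale.Agent.P177

open CategoryTheory TensorProduct Function IsLocalRing RingTheory.Sequence Pointwise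

universe u

section prelim

variable {S : Type u} [CommRing S] [IsLocalRing S]

/-- A nonzero finitely generated module over a local ring surjects onto the residue field. -/
theorem exists_surjective_residue (M : Type u) [AddCommGroup M] [Module S M] [Module.Finite S M]
    [Nontrivial M] : ∃ g : M →ₗ[S] (S ⧸ maximalIdeal S), Surjective g := by
  obtain ⟨N, hN⟩ := IsCoatomic.exists_coatom (Submodule S M)
  have hs : IsSimpleModule S (M ⧸ N) := isSimpleModule_iff_isCoatom.2 hN
  obtain ⟨I, hI, ⟨e⟩⟩ := isSimpleModule_iff_quot_maximal.1 hs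
  have hI' : I = maximalIdeal S := IsLocalRing.eq_maximalIdeal hI
  subst hI'
  exact ⟨e.toLinearMap ∘ₗ N.mkQ, e.surjective.comp (Submodule.mkQ_surjective N)⟩

/-- A prime of the support starting a long chain is associated: embedding of `S/P`. -/
theorem exists_prime_embedding [IsNoetherianRing S] (n : ℕ) (M : Type u) [AddCommGroup M]
    [Module S M] [Module.Finite S M]
    (hn : (n + 1 : ℕ) ≤ Module.supportDim S M) :
    ∃ P : Ideal S, P.IsPrime ∧ P < maximalIdeal S ∧
      (∃ f : (S ⧸ P) →ₗ[S] M, Injective f) ∧ (n + 1 : ℕ) ≤ Module.supportDim S (S ⧸ P) := by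
  unfold Module.supportDim at hn
  obtain ⟨l, hl⟩ := Order.le_krullDim_iff.1 hn
  have hle : Module.annihilator S M ≤ l.head.1.asIdeal :=
    Module.annihilator_le_of_mem_support l.head.2
  have hprime := l.head.1.2
  obtain ⟨P, hP, hPle⟩ := Ideal.exists_minimalPrimes_le hle
  have hass := Module.associatedPrimes.minimalPrimes_annihilator_subset_associatedPrimes S M hP
  obtain ⟨hPp, x, hx⟩ := isAssociatedPrime_iff.1 hass
  refine ⟨P, hPp, ?_, ?_, ?_⟩
  · have h1 : l.head < l.last := by
      apply l.strictMono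
      rw [Fin.lt_def]
      change 0 < l.length
      omega
    have h2 : l.head.1.asIdeal < l.last.1.asIdeal := h1
    exact (hPle.trans_lt h2).trans_le (le_maximalIdeal l.last.1.2.ne_top)
  · have hker : P = LinearMap.ker (LinearMap.toSpanSingleton S M x) := by
      rw [hx]
      ext a
      rw [Submodule.mem_colon_singleton, LinearMap.mem_ker]
      rfl
    refine ⟨P.liftQ (LinearMap.toSpanSingleton S M x) hker.le, ?_⟩
    rw [← LinearMap.ker_eq_bot, Submodule.ker_liftQ_eq_bot']
    exact hker
  · unfold Module.supportDim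
    rw [Order.le_krullDim_iff]
    have hmem : ∀ i, (l i).1 ∈ Module.support S (S ⧸ P) := by
      intro i
      rw [Module.support_eq_zeroLocus, Ideal.annihilator_quotient]
      have h3 : l.head.1.asIdeal ≤ (l i).1.asIdeal := l.head_le i
      exact hPle.trans h3
    exact ⟨{ length := l.length
             toFun := fun i => ⟨(l i).1, hmem i⟩
             step := fun i => l.step i }, hl⟩

end prelim

section

variable {S B : Type u} [CommRing S] [CommRing B] [Algebra S B]
variable [IsLocalRing S] [IsNoetherianRing S] [IsLocalRing B] [IsNoetherianRing B]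
  [Module.Flat S B] [IsLocalHom (algebraMap S B)]

omit [IsLocalRing B] [IsNoetherianRing B] in
theorem torMap_zero_injective {M' M M'' : Type u} [AddCommGroup M'] [Module B M']
    [AddCommGroup M] [Module B M] [AddCommGroup M''] [Module B M'']
    (f : M' →ₗ[B] M) (g : M →ₗ[B] M'') (hf : Injective f)
    (hg : Surjective g) (h : Exact f g) (Z : Type u) [AddCommGroup Z] [Module B Z]
    (h2 : Subsingleton (TorM B 1 M'' Z)) : Injective (torMap 0 f Z) := by
  obtain ⟨δ, -, h3, -⟩ := exists_torDelta f g hf hg h Z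
  rw [injective_iff_map_eq_zero]
  intro x hx
  obtain ⟨y, rfl⟩ := (h3 0 x).1 hx
  rw [Subsingleton.elim y 0, map_zero]

theorem le_supportDim_tor (Z : Type u) [AddCommGroup Z] [Module B Z] [Module.Finite B Z]
    (hv : ∀ (M : Type u) [AddCommGroup M] [Module S M] [Module.Finite S M],
      Subsingleton (TorM B 1 (B ⊗[S] M) Z))
    (m : ℕ) (hm : (m : WithBot ℕ∞) ≤
      Module.supportDim B (TorM B 0 (B ⊗[S] (S ⧸ maximalIdeal S)) Z))
    (n : ℕ) (M : Type u) [AddCommGroup M] [Module S M] [Module.Finite S M]
    (hn : (n : WithBot ℕ∞) ≤ Module.supportDim S M) :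
    ((n + m : ℕ) : WithBot ℕ∞) ≤ Module.supportDim B (TorM B 0 (B ⊗[S] M) Z) := by
  induction n generalizing M with
  | zero =>
    have hnt : Nontrivial M := by
      rw [← Module.supportDim_ne_bot_iff_nontrivial S M]
      intro hb
      rw [hb] at hn
      simp at hn
    obtain ⟨g, hg⟩ := exists_surjective_residue (S := S) M
    rw [zero_add]
    refine hm.trans ?_
    have hg' : Surjective (g.baseChange B) := by
      rw [LinearMap.baseChange_eq_ltensor]
      exact LinearMap.lTensor_surjective B hg
    exact Module.supportDim_le_of_surjective _ (torMap_zero_surjective (g.baseChange B) hg' Z)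
  | succ n ih =>
    obtain ⟨P, hPp, hPm, ⟨f, hf⟩, hdim⟩ := exists_prime_embedding n M hn
    -- embed `S/P`
    have e1 : Exact f (LinearMap.range f).mkQ := by
      intro y
      simp
    obtain ⟨k1, k2, k3⟩ := baseChange_ses (B := B) f (LinearMap.range f).mkQ hf
      (Submodule.mkQ_surjective _) e1
    have hinj : Injective (torMap 0 (f.baseChange B) Z) :=
      torMap_zero_injective _ _ k1 k2 k3 Z (hv _)
    refine le_trans ?_ (Module.supportDim_le_of_injective _ hinj)
    -- multiplication by an element outside `P`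
    obtain ⟨x, hxm, hxP⟩ := SetLike.exists_of_lt hPm
    have hxreg : IsSMulRegular (S ⧸ P) x := by
      rw [isSMulRegular_iff_right_eq_zero_of_smul]
      intro a ha
      obtain ⟨a, rfl⟩ := Ideal.Quotient.mk_surjective a
      have h1 : Ideal.Quotient.mk P (x * a) = 0 := ha
      rw [Ideal.Quotient.eq_zero_iff_mem] at h1 ⊢
      exact (hPp.mem_or_mem h1).resolve_left hxP
    obtain ⟨φ, ψ, hφ, hi, hs, hex⟩ := quot_ses (S ⧸ P) x hxreg
    obtain ⟨j1, j2, j3⟩ := baseChange_ses (B := B) φ ψ hi hs hex
    have hle : (maximalIdeal S).map (algebraMap S B) ≤ maximalIdeal B :=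
      ((IsLocalRing.local_hom_TFAE (algebraMap S B)).out 0 2).mp ‹_›
    have hb : algebraMap S B x ∈ maximalIdeal B := hle (Ideal.mem_map_of_mem _ hxm)
    have hφ' : ∀ t, torMap 0 (φ.baseChange B) Z t = algebraMap S B x • t :=
      torMap_smul_id 0 (algebraMap S B x) _ (baseChange_smul_eq x φ hφ)
    have hinj2 : Injective (torMap 0 (φ.baseChange B) Z) :=
      torMap_zero_injective _ _ j1 j2 j3 Z (hv _)
    have hreg : IsSMulRegular (TorM B 0 (B ⊗[S] (S ⧸ P)) Z) (algebraMap S B x) := by
      intro a b hab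
      apply hinj2
      rw [hφ', hφ']
      exact hab
    obtain ⟨δ, -, -, h3⟩ := exists_torDelta _ _ j1 j2 j3 Z
    obtain ⟨e⟩ := exists_quotSMulTop_equiv (algebraMap S B x) (torMap 0 (φ.baseChange B) Z)
      hφ' (torMap 0 (ψ.baseChange B) Z) (torMap_zero_surjective _ j2 Z) (h3 0)
    have i1 := tor_finite (R := B) 0 (B ⊗[S] (S ⧸ P)) Z
    rw [← Module.supportDim_quotSMulTop_succ_eq_supportDim hreg hb,
      Module.supportDim_eq_of_equiv e]
    have h4 : (n : WithBot ℕ∞) ≤ Module.supportDim S (QuotSMulTop x (S ⧸ P)) := by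
      have h5 := Module.supportDim_le_supportDim_quotSMulTop_succ (M := S ⧸ P) hxm
      have h6 := hdim.trans h5
      generalize Module.supportDim S (QuotSMulTop x (S ⧸ P)) = a at h6 ⊢
      push_cast at h6
      induction a using WithBot.recBotCoe with
      | bot => simp at h6
      | coe a =>
        have h7 : ((n : ℕ∞) + 1) ≤ a + 1 := by exact_mod_cast h6
        have h8 : (n : ℕ∞) ≤ a := (ENat.add_le_add_iff_right (by simp)).1 h7
        exact_mod_cast h8
    have h9 := ih _ h4
    calc ((n + 1 + m : ℕ) : WithBot ℕ∞) = ((n + m : ℕ) : WithBot ℕ∞) + 1 := by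
          push_cast
          ring
      _ ≤ _ := by gcongr

end

end Vale.Agent.P177
end

section

/-!
Depth over a regular local ring in terms of Tor with the residue field.
-/

namespace Vale.Agent.P177

open CategoryTheory TensorProduct Function IsLocalRing RingTheory.Sequence Pointwise

universe u

section basic

variable {T : Type u} [CommRing T] [IsLocalRing T]

theorem smul_tor_residue (z : T) (hz : z ∈ maximalIdeal T) (j : ℕ) (X : Type u) [AddCommGroup X]
    [Module T X] (x : TorM T j X (T ⧸ maximalIdeal T)) : z • x = 0 := by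
  apply tor_smul_eq_zero_right z _ j X x
  intro m
  obtain ⟨m, rfl⟩ := Ideal.Quotient.mk_surjective m
  change Ideal.Quotient.mk _ (z * m) = 0
  rw [Ideal.Quotient.eq_zero_iff_mem]
  exact Ideal.mul_mem_right _ _ hz

/-- Nonvanishing of Tor with the residue field moves up by one after cutting. -/
theorem nontrivial_tor_residue_quot (z : T) (hz : z ∈ maximalIdeal T) (X : Type u)
    [AddCommGroup X] [Module T X] (hreg : IsSMulRegular X z) (j : ℕ)
    (h : Nontrivial (TorM T j X (T ⧸ maximalIdeal T))) :
    Nontrivial (TorM T (j + 1) (QuotSMulTop z X) (T ⧸ maximalIdeal T)) := by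
  obtain ⟨f, g, hf, hi, hs, hex⟩ := quot_ses X z hreg
  obtain ⟨δ, -, h2, -⟩ := exists_torDelta f g hi hs hex (T ⧸ maximalIdeal T)
  by_contra hn
  rw [not_nontrivial_iff_subsingleton] at hn
  apply not_subsingleton_iff_nontrivial.2 h
  refine subsingleton_of_forall_eq 0 fun x => ?_
  have h3 : torMap j f (T ⧸ maximalIdeal T) x = 0 := by
    rw [torMap_smul_id j z f hf, smul_tor_residue z hz j X x]
  obtain ⟨y, rfl⟩ := (h2 j x).1 h3
  rw [Subsingleton.elim y 0, map_zero]

theorem nontrivial_tor_residue_list (zs : List T) (hzs : ∀ z ∈ zs, z ∈ maximalIdeal T)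
    (X : Type u) [AddCommGroup X] [Module T X] (hreg : IsWeaklyRegular X zs) (j : ℕ)
    (h : Nontrivial (TorM T j X (T ⧸ maximalIdeal T))) :
    Nontrivial (TorM T (j + zs.length) (X ⧸ (Ideal.ofList zs • ⊤ : Submodule T X))
      (T ⧸ maximalIdeal T)) := by
  induction zs generalizing X j with
  | nil =>
    have e : (X ⧸ (Ideal.ofList ([] : List T) • ⊤ : Submodule T X)) ≃ₗ[T] X :=
      Submodule.quotEquivOfEqBot _ (by simp)
    exact (torCongrLeft j e _).toEquiv.nontrivial
  | cons z zs ih =>
    rw [isWeaklyRegular_cons_iff] at hreg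
    have h1 := nontrivial_tor_residue_quot z (hzs z List.mem_cons_self) X hreg.1 j h
    have h2 := ih (fun y hy => hzs y (List.mem_cons_of_mem _ hy)) (QuotSMulTop z X) hreg.2
      (j + 1) h1
    have h3 := (torCongrLeft (j + 1 + zs.length)
      (Submodule.quotOfListConsSMulTopEquivQuotSMulTopInner X z zs)
      (T ⧸ maximalIdeal T)).toEquiv.nontrivial
    have h4 : j + (z :: zs).length = j + 1 + zs.length := by
      rw [List.length_cons]; ring
    rw [h4]
    exact h3

/-- Existence of a regular element in the absence of socle elements. -/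
theorem exists_regular_of_no_socle [IsNoetherianRing T] (X : Type u) [AddCommGroup X] [Module T X]
    [Module.Finite T X] (h : ∀ x : X, (∀ a ∈ maximalIdeal T, a • x = 0) → x = 0) :
    ∃ z ∈ maximalIdeal T, IsSMulRegular X z := by
  have hfin : (associatedPrimes T X).Finite := associatedPrimes.finite T X
  by_contra hcon
  push Not at hcon
  have hsub : (maximalIdeal T : Set T) ⊆ ⋃ I ∈ associatedPrimes T X, (I : Set T) := by
    intro z hz
    rw [biUnion_associatedPrimes_eq_compl_regular]
    exact hcon z hz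
  obtain ⟨P, hP, hle⟩ := (Ideal.subset_union_prime_finite hfin (f := id) ⊥ ⊥ (by
    intro I hI _ _
    exact hI.isPrime)).1 hsub
  have hPm : P = maximalIdeal T := le_antisymm (le_maximalIdeal hP.isPrime.ne_top) hle
  obtain ⟨hPp, x, hx⟩ := isAssociatedPrime_iff.1 hP
  have hx0 : x = 0 := by
    apply h x
    intro a ha
    rw [← hPm, hx, Submodule.mem_colon_singleton] at ha
    exact ha
  apply hPp.ne_top
  rw [Ideal.eq_top_iff_one, hx, Submodule.mem_colon_singleton, hx0, smul_zero]
  exact Submodule.zero_mem _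

end basic

section regular

variable {T : Type u} [CommRing T] [IsRegularLocalRing T] {t : ℕ}

/-- The residue field has nonzero Tor with itself in degree `dim T`. -/
theorem nontrivial_tor_residue_residue (ht : ringKrullDim T = t) :
    Nontrivial (TorM T t (T ⧸ maximalIdeal T) (T ⧸ maximalIdeal T)) := by
  obtain ⟨rs, hrs, hlen⟩ := exists_list_maximalIdeal T
  have hreg := isRegular_of_ofList_eq_maximalIdeal T rs hrs hlen
  have hlen' : rs.length = t := by
    rw [ht] at hlen
    exact_mod_cast hlen
  have hmem : ∀ z ∈ rs, z ∈ maximalIdeal T := by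
    intro z hz
    rw [← hrs]
    exact Ideal.subset_span hz
  have h0 : Nontrivial (TorM T 0 T (T ⧸ maximalIdeal T)) := by
    have : Nontrivial (T ⧸ maximalIdeal T) := inferInstance
    exact (torZero T (T ⧸ maximalIdeal T) ≪≫ₗ TensorProduct.lid T _).toEquiv.nontrivial
  have h1 := nontrivial_tor_residue_list rs hmem T hreg.toIsWeaklyRegular 0 h0
  have e : (T ⧸ (Ideal.ofList rs • ⊤ : Submodule T T)) ≃ₗ[T] (T ⧸ maximalIdeal T) :=
    Submodule.quotEquivOfEq _ _ (by rw [hrs]; simp)
  rw [zero_add, hlen'] at h1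
  exact (torCongrLeft t e _).symm.toEquiv.nontrivial

theorem tor_residue_of_no_socle (ht : ringKrullDim T = t) (X : Type u) [AddCommGroup X]
    [Module T X] [Module.Finite T X] (h : ∀ x : X, (∀ a ∈ maximalIdeal T, a • x = 0) → x = 0) :
    Subsingleton (TorM T t X (T ⧸ maximalIdeal T)) := by
  obtain ⟨z, hz, hreg⟩ := exists_regular_of_no_socle X h
  obtain ⟨f, g, hf, hi, hs, hex⟩ := quot_ses X z hreg
  obtain ⟨δ, -, h2, -⟩ := exists_torDelta f g hi hs hex (T ⧸ maximalIdeal T)
  have hv := regular_tor_vanish T t ht (QuotSMulTop z X) (T ⧸ maximalIdeal T) (t + 1) le_rfl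
  refine subsingleton_of_forall_eq 0 fun x => ?_
  have h3 : torMap t f (T ⧸ maximalIdeal T) x = 0 := by
    rw [torMap_smul_id t z f hf, smul_tor_residue z hz t X x]
  obtain ⟨y, rfl⟩ := (h2 t x).1 h3
  rw [Subsingleton.elim y 0, map_zero]

theorem no_socle_of_tor_residue (ht : ringKrullDim T = t) (X : Type u) [AddCommGroup X]
    [Module T X] [Module.Finite T X] (h : Subsingleton (TorM T t X (T ⧸ maximalIdeal T)))
    (x : X) (hx : ∀ a ∈ maximalIdeal T, a • x = 0) : x = 0 := by
  by_contra hne
  let f : (T ⧸ maximalIdeal T) →ₗ[T] X :=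
    (maximalIdeal T).liftQ (LinearMap.toSpanSingleton T X x) (by
      intro a ha
      rw [LinearMap.mem_ker, LinearMap.toSpanSingleton_apply]
      exact hx a ha)
  have hf : Injective f := by
    rw [← LinearMap.ker_eq_bot, Submodule.ker_liftQ_eq_bot']
    apply le_antisymm
    · intro a ha
      rw [LinearMap.mem_ker, LinearMap.toSpanSingleton_apply]
      exact hx a ha
    · refine le_maximalIdeal ?_
      intro htop
      apply hne
      have h1 : (1 : T) ∈ LinearMap.ker (LinearMap.toSpanSingleton T X x) := by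
        rw [htop]; trivial
      rw [LinearMap.mem_ker, LinearMap.toSpanSingleton_apply, one_smul] at h1
      exact h1
  have hex : Exact f (LinearMap.range f).mkQ := by
    intro y
    simp
  obtain ⟨δ, -, h2, -⟩ := exists_torDelta f (LinearMap.range f).mkQ hf
    (Submodule.mkQ_surjective _) hex (T ⧸ maximalIdeal T)
  have hv := regular_tor_vanish T t ht (X ⧸ LinearMap.range f) (T ⧸ maximalIdeal T) (t + 1) le_rfl
  apply not_subsingleton_iff_nontrivial.2 (nontrivial_tor_residue_residue ht)
  refine subsingleton_of_forall_eq 0 fun y => ?_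
  obtain ⟨w, rfl⟩ := (h2 t y).1 (Subsingleton.elim _ _)
  rw [Subsingleton.elim w 0, map_zero]

/-- Extension of a regular sequence when the depth is not exhausted. -/
theorem exists_regular_ext (ht : ringKrullDim T = t) (X : Type u) [AddCommGroup X] [Module T X]
    [Module.Finite T X] (zs : List T) (hreg : IsWeaklyRegular X zs) (m : ℕ)
    (hpd : ∀ j, m < j → Subsingleton (TorM T j X (T ⧸ maximalIdeal T))) (hlt : m + zs.length < t) :
    ∃ z ∈ maximalIdeal T, IsWeaklyRegular X (zs ++ [z]) := by
  have h1 := tor_subsingleton_list zs X hreg (T ⧸ maximalIdeal T) (m + 1)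
    (fun j hj => hpd j (by omega)) t (by omega)
  obtain ⟨z, hz, hzr⟩ := exists_regular_of_no_socle
    (X ⧸ (Ideal.ofList zs • ⊤ : Submodule T X)) (fun x hx => no_socle_of_tor_residue ht _ h1 x hx)
  refine ⟨z, hz, ?_⟩
  rw [isWeaklyRegular_append_iff]
  refine ⟨hreg, ?_⟩
  rw [isWeaklyRegular_singleton_iff]
  exact hzr

theorem exists_regular_ext_list (ht : ringKrullDim T = t) (X : Type u) [AddCommGroup X]
    [Module T X]
    [Module.Finite T X] (zs : List T) (hreg : IsWeaklyRegular X zs) (m : ℕ)
    (hpd : ∀ j, m < j → Subsingleton (TorM T j X (T ⧸ maximalIdeal T))) (r : ℕ)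
    (hlt : m + zs.length + r ≤ t) :
    ∃ ws : List T, ws.length = r ∧ (∀ z ∈ ws, z ∈ maximalIdeal T) ∧
      IsWeaklyRegular X (zs ++ ws) := by
  induction r with
  | zero => exact ⟨[], rfl, by simp, by simpa using hreg⟩
  | succ r ih =>
    obtain ⟨ws, hws, hmem, hr⟩ := ih (by omega)
    obtain ⟨z, hz, hzr⟩ := exists_regular_ext ht X (zs ++ ws) hr m hpd (by
      rw [List.length_append, hws]; omega)
    refine ⟨ws ++ [z], by simp [hws], ?_, ?_⟩
    · intro y hy
      rw [List.mem_append, List.mem_singleton] at hy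
      rcases hy with hy | rfl
      · exact hmem y hy
      · exact hz
    · rw [← List.append_assoc]
      exact hzr

theorem tor_symm_subsingleton {R : Type u} [CommRing R] (n : ℕ) (M N : Type u) [AddCommGroup M]
    [Module R M] [AddCommGroup N] [Module R N] (h : Subsingleton (TorM R n M N)) :
    Subsingleton (TorM R n N M) := by
  obtain ⟨e⟩ := tor_symm (R := R) n M N
  exact e.symm.toEquiv.subsingleton

/-- Projective dimension is detected by the residue field. -/
theorem tor_subsingleton_of_residue {T : Type u} [CommRing T] [IsLocalRing T]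
    [IsNoetherianRing T] (X : Type u) [AddCommGroup X]
    [Module T X] [Module.Finite T X] (m : ℕ)
    (hpd : ∀ j, m ≤ j → Subsingleton (TorM T j X (T ⧸ maximalIdeal T)))
    (Y : Type u) [AddCommGroup Y] [Module T Y] [Module.Finite T Y] :
    ∀ j, m ≤ j → Subsingleton (TorM T j X Y) := by
  intro j hj
  have h1 := local_crit (S := T) (B := T) m X (by
    intro j hj
    have h2 := tor_symm_subsingleton j _ _ (hpd j hj)
    exact (torCongrLeft j (TensorProduct.lid T _) X).toEquiv.subsingleton) Y j hj
  have h3 : Subsingleton (TorM T j Y X) :=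
    (torCongrLeft j (TensorProduct.lid T Y) X).symm.toEquiv.subsingleton
  exact tor_symm_subsingleton j _ _ h3

theorem subsingleton_of_injective_smul {T : Type u} [CommRing T] [IsLocalRing T]
    [IsNoetherianRing T] (H : Type u) [AddCommGroup H] [Module T H] [Module.Finite T H]
    (hH : FL ([] : List T) H) (z : T) (hz : z ∈ maximalIdeal T)
    (hinj : ∀ x : H, z • x = 0 → x = 0) : Subsingleton H := by
  unfold FL at hH
  rw [Ideal.ofList_nil, sup_bot_eq] at hH
  obtain ⟨n, hn⟩ := hH hz
  have h1 : ∀ (n : ℕ) (x : H), z ^ n • x = 0 → x = 0 := by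
    intro n
    induction n with
    | zero => intro x hx; simpa using hx
    | succ n ih =>
      intro x hx
      rw [pow_succ', mul_smul] at hx
      exact ih x (hinj _ hx)
  exact subsingleton_of_forall_eq 0 fun x => h1 n x (Module.mem_annihilator.1 hn x)

theorem FL2.mono {T : Type u} [CommRing T] [IsLocalRing T] {zs : List T} {X Y X' Y' : Type u}
    [AddCommGroup X] [Module T X] [AddCommGroup Y] [Module T Y] [AddCommGroup X'] [Module T X']
    [AddCommGroup Y'] [Module T Y'] (h : FL2 zs X Y)
    (hX : Module.annihilator T X ≤ Module.annihilator T X')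
    (hY : Module.annihilator T Y ≤ Module.annihilator T Y') : FL2 zs X' Y' :=
  h.trans (Ideal.radical_mono (sup_le_sup_right (sup_le_sup hX hY) _))

theorem FL2.symm {T : Type u} [CommRing T] [IsLocalRing T] {zs : List T} {X Y : Type u}
    [AddCommGroup X] [Module T X] [AddCommGroup Y] [Module T Y] (h : FL2 zs X Y) :
    FL2 zs Y X := by
  unfold FL2 at h ⊢
  rwa [sup_comm (Module.annihilator T Y)]

/-- Descent of vanishing along a regular sequence. -/
theorem tor_subsingleton_descent {T : Type u} [CommRing T] [IsLocalRing T]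
    [IsNoetherianRing T] (zs : List T) (hzs : ∀ z ∈ zs, z ∈ maximalIdeal T) (X : Type u)
    [AddCommGroup X] [Module T X] [Module.Finite T X] (hreg : IsWeaklyRegular X zs)
    (Y : Type u) [AddCommGroup Y] [Module T Y] [Module.Finite T Y] (hFL : FL2 ([] : List T) X Y)
    (m : ℕ) (h : ∀ j, m + zs.length ≤ j →
      Subsingleton (TorM T j (X ⧸ (Ideal.ofList zs • ⊤ : Submodule T X)) Y)) :
    ∀ j, m ≤ j → Subsingleton (TorM T j X Y) := by
  induction zs generalizing X m with
  | nil =>
    intro j hj
    have := h j (by simpa using hj)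
    have e : (X ⧸ (Ideal.ofList ([] : List T) • ⊤ : Submodule T X)) ≃ₗ[T] X :=
      Submodule.quotEquivOfEqBot _ (by simp)
    exact (torCongrLeft j e _).symm.toEquiv.subsingleton
  | cons z zs ih =>
    rw [isWeaklyRegular_cons_iff] at hreg
    have hFLq : FL2 ([] : List T) (QuotSMulTop z X) Y := hFL.mono
      (LinearMap.annihilator_le_of_surjective _ (Submodule.mkQ_surjective _)) le_rfl
    have h1 := ih (fun y hy => hzs y (List.mem_cons_of_mem _ hy)) (QuotSMulTop z X) hreg.2 hFLq
      (m + 1) (by
        intro j hj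
        have := h j (by rw [List.length_cons]; omega)
        exact (torCongrLeft j
          (Submodule.quotOfListConsSMulTopEquivQuotSMulTopInner X z zs) Y).symm.toEquiv.subsingleton)
    intro j hj
    obtain ⟨f, g, hf, hi, hs, hex⟩ := quot_ses X z hreg.1
    obtain ⟨δ, -, h2, -⟩ := exists_torDelta f g hi hs hex Y
    have := tor_finite (R := T) j X Y
    apply subsingleton_of_injective_smul _ (hFL.tor j) z (hzs z List.mem_cons_self)
    intro x hx
    have h3 : torMap j f Y x = 0 := by
      rw [torMap_smul_id j z f hf, hx]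
    obtain ⟨y, rfl⟩ := (h2 j x).1 h3
    have := h1 (j + 1) (by omega)
    rw [Subsingleton.elim y 0, map_zero]

/-- **Depth lemma.** If `zs` is regular on `X`, `ws` is regular on `Y` and `X ⊗ Y` has finite
length, then `Tor_j(X,Y) = 0` for `j > dim T - |zs| - |ws|`. -/
theorem tor_subsingleton_of_depth (ht : ringKrullDim T = t) (X Y : Type u) [AddCommGroup X]
    [Module T X] [Module.Finite T X] [AddCommGroup Y] [Module T Y] [Module.Finite T Y]
    (hFL : FL2 ([] : List T) X Y)
    (zs ws : List T) (hzs : ∀ z ∈ zs, z ∈ maximalIdeal T) (hws : ∀ z ∈ ws, z ∈ maximalIdeal T)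
    (hX : IsWeaklyRegular X zs) (hY : IsWeaklyRegular Y ws) (j : ℕ)
    (hj : t < j + zs.length + ws.length) : Subsingleton (TorM T j X Y) := by
  have hFLq : FL2 ([] : List T) (X ⧸ (Ideal.ofList zs • ⊤ : Submodule T X)) Y := hFL.mono
      (LinearMap.annihilator_le_of_surjective _ (Submodule.mkQ_surjective _)) le_rfl
  refine tor_subsingleton_descent zs hzs X hX Y hFL j ?_ j le_rfl
  intro i hi
  apply tor_symm_subsingleton
  refine tor_subsingleton_descent ws hws Y hY _ hFLq.symm i ?_ i le_rfl
  intro l hl
  exact regular_tor_vanish T t ht _ _ l (by omega)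

end regular

end Vale.Agent.P177
end

section

/-!
Dimension theory of regular local rings: heights and dimensions of quotients, complete
intersections inside a prime.
-/

namespace Vale.Agent.P177

open CategoryTheory TensorProduct Function IsLocalRing RingTheory.Sequence Pointwise

universe u

theorem succ_le_of_lt_withBot {n : ℕ} {x : WithBot ℕ∞} (h : (n : WithBot ℕ∞) < x) :
    ((n + 1 : ℕ) : WithBot ℕ∞) ≤ x := by
  induction x using WithBot.recBotCoe with
  | bot => exact absurd h (by simp)
  | coe x =>
    have h1 : (n : ℕ∞) < x := by exact_mod_cast h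
    have h2 : ((n + 1 : ℕ) : ℕ∞) ≤ x := by
      rw [Nat.cast_add, Nat.cast_one]
      exact Order.add_one_le_of_lt h1
    exact_mod_cast h2

section chains

variable {T : Type u} [CommRing T]

theorem support_quotient_prime (P : Ideal T) (Q : PrimeSpectrum T) :
    Q ∈ Module.support T (T ⧸ P) ↔ P ≤ Q.asIdeal := by
  rw [Module.support_eq_zeroLocus, Ideal.annihilator_quotient]
  rfl

theorem supportDim_quotient_mono {P Q : Ideal T} (h : P ≤ Q) :
    Module.supportDim T (T ⧸ Q) ≤ Module.supportDim T (T ⧸ P) :=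
  Module.supportDim_le_of_surjective (Submodule.factor h) (Submodule.factor_surjective h)

theorem supportDim_quotient_strict {P Q : Ideal T} [P.IsPrime] (h : P < Q) (n : ℕ)
    (hn : (n : WithBot ℕ∞) ≤ Module.supportDim T (T ⧸ Q)) :
    ((n + 1 : ℕ) : WithBot ℕ∞) ≤ Module.supportDim T (T ⧸ P) := by
  unfold Module.supportDim at hn ⊢
  obtain ⟨l, hl⟩ := Order.le_krullDim_iff.1 hn
  rw [Order.le_krullDim_iff]
  have h1 : ∀ i, P < (l i).1.asIdeal := fun i =>
    h.trans_le ((support_quotient_prime Q _).1 (l i).2)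
  let l' : LTSeries (Module.support T (T ⧸ P)) :=
    { length := l.length
      toFun := fun i => ⟨(l i).1, (support_quotient_prime P _).2 (h1 i).le⟩
      step := fun i => l.step i }
  exact ⟨l'.cons ⟨⟨P, inferInstance⟩, (support_quotient_prime P _).2 le_rfl⟩ (h1 0),
    (RelSeries.cons_length _ _ _).trans (congrArg (· + 1) hl)⟩

theorem height_add_le {P : Ideal T} [hP : P.IsPrime] (h n : ℕ) (hh : (h : ℕ∞) ≤ P.height)
    (hn : (n : WithBot ℕ∞) ≤ Module.supportDim T (T ⧸ P)) :
    ((h + n : ℕ) : WithBot ℕ∞) ≤ ringKrullDim T := by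
  unfold Module.supportDim at hn
  obtain ⟨l, hl⟩ := Order.le_krullDim_iff.1 hn
  have hh' : (h : ℕ∞) ≤ Order.height (⟨P, hP⟩ : PrimeSpectrum T) := by
    rw [← PrimeSpectrum.height_eq_orderHeight]
    exact hh
  obtain ⟨p, hp1, hp2⟩ := Order.exists_series_of_le_height _ hh'
  let l' : LTSeries (PrimeSpectrum T) := l.map (fun x => x.1) (fun _ _ h => h)
  have hl' : l'.length = n := hl
  have hhead : (⟨P, hP⟩ : PrimeSpectrum T) ≤ l'.head := by
    change P ≤ (l 0).1.asIdeal
    exact (support_quotient_prime P _).1 (l 0).2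
  unfold ringKrullDim
  rw [Order.le_krullDim_iff]
  rcases hhead.eq_or_lt with heq | hlt
  · refine ⟨p.smash l' (hp1.trans heq), ?_⟩
    change p.length + l'.length = h + n
    rw [hp2, hl']
  · let l'' : LTSeries (PrimeSpectrum T) := p.append l' (by rw [hp1]; exact hlt)
    refine ⟨l''.take ⟨h + n, ?_⟩, ?_⟩
    · change h + n < p.length + l'.length + 1 + 1
      omega
    · rfl

end chains

section ass

variable {T : Type u} [CommRing T] [IsLocalRing T] [IsNoetherianRing T]

/-- The dimension of `T/P` for an associated prime `P` is at least the length of a regular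
sequence. -/
theorem length_le_supportDim_of_isAssociatedPrime (zs : List T)
    (hzs : ∀ z ∈ zs, z ∈ maximalIdeal T) (X : Type u)
    [AddCommGroup X] [Module T X] [Module.Finite T X] (hreg : IsWeaklyRegular X zs) (P : Ideal T)
    (hP : IsAssociatedPrime P X) :
    (zs.length : WithBot ℕ∞) ≤ Module.supportDim T (T ⧸ P) := by
  induction zs generalizing X P with
  | nil =>
    have hPp := hP.isPrime
    have hnt : Nontrivial (T ⧸ P) := Ideal.Quotient.nontrivial_iff.2 hPp.ne_top
    rw [List.length_nil, Nat.cast_zero]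
    unfold Module.supportDim
    have := (Module.nonempty_support_of_nontrivial (R := T) (M := T ⧸ P)).to_subtype
    exact Order.krullDim_nonneg
  | cons z zs ih =>
    rw [isWeaklyRegular_cons_iff] at hreg
    have hPp := hP.isPrime
    obtain ⟨-, x, hx⟩ := isAssociatedPrime_iff.1 hP
    have hx0 : x ≠ 0 := by
      rintro rfl
      apply hPp.ne_top
      rw [Ideal.eq_top_iff_one, hx, Submodule.mem_colon_singleton, smul_zero]
      exact Submodule.zero_mem _
    have hzP : z ∉ P := by
      intro hz
      rw [hx, Submodule.mem_colon_singleton] at hz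
      exact hx0 ((isSMulRegular_iff_right_eq_zero_of_smul.1 hreg.1) x hz)
    -- the submodule killed by `P`
    let N : Submodule T X := Submodule.torsionBySet T X P
    have hxN : x ∈ N := by
      rw [Submodule.mem_torsionBySet_iff]
      rintro ⟨a, ha⟩
      have ha' : a ∈ P := ha
      rw [hx, Submodule.mem_colon_singleton] at ha'
      exact ha'
    have hNnt : Nontrivial N := ⟨⟨⟨x, hxN⟩, 0, fun h => hx0 (congrArg Subtype.val h)⟩⟩
    have hzN : Nontrivial (QuotSMulTop z N) := by
      rw [← not_subsingleton_iff_nontrivial]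
      intro hs
      apply not_subsingleton_iff_nontrivial.2 hNnt
      apply subsingleton_of_smul_surjective N z (hzs z List.mem_cons_self)
      intro y
      have h1 : (Submodule.mkQ (z • (⊤ : Submodule T N))) y = 0 := Subsingleton.elim _ _
      rw [Submodule.mkQ_apply, Submodule.Quotient.mk_eq_zero,
        Submodule.mem_smul_pointwise_iff_exists] at h1
      obtain ⟨y', -, hy'⟩ := h1
      exact ⟨y', hy'.symm⟩
    obtain ⟨P', hP'⟩ := associatedPrimes.nonempty T (QuotSMulTop z N)
    have hinj : Injective (QuotSMulTop.map z N.subtype) := by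
      rw [injective_iff_map_eq_zero]
      intro y hy
      obtain ⟨y, rfl⟩ := Submodule.mkQ_surjective _ y
      have h1 : (Submodule.mkQ (z • (⊤ : Submodule T X))) (y : X) = 0 := hy
      rw [Submodule.mkQ_apply, Submodule.Quotient.mk_eq_zero,
        Submodule.mem_smul_pointwise_iff_exists] at h1
      obtain ⟨w, -, hw⟩ := h1
      have hwN : w ∈ N := by
        rw [Submodule.mem_torsionBySet_iff]
        rintro ⟨a, ha⟩
        change a • w = 0
        apply isSMulRegular_iff_right_eq_zero_of_smul.1 hreg.1
        rw [smul_comm, hw]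
        exact (Submodule.mem_torsionBySet_iff _ _).1 y.2 ⟨a, ha⟩
      rw [Submodule.mkQ_apply, Submodule.Quotient.mk_eq_zero,
        Submodule.mem_smul_pointwise_iff_exists]
      exact ⟨⟨w, hwN⟩, trivial, Subtype.ext hw⟩
    have hP'X : IsAssociatedPrime P' (QuotSMulTop z X) := hP'.map_of_injective _ hinj
    have h2 := ih (fun y hy => hzs y (List.mem_cons_of_mem _ hy)) (QuotSMulTop z X) hreg.2 P' hP'X
    have hann : Module.annihilator T (QuotSMulTop z N) ≤ P' := by
      rw [← Submodule.annihilator_top]
      exact hP'.annihilator_le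
    have hle : P ≤ P' := by
      refine le_trans ?_ hann
      intro a ha
      rw [Module.mem_annihilator]
      intro y
      obtain ⟨y, rfl⟩ := Submodule.mkQ_surjective _ y
      rw [← map_smul]
      have h3 : a • y = 0 :=
        Subtype.ext ((Submodule.mem_torsionBySet_iff _ _).1 y.2 ⟨a, ha⟩)
      rw [h3, map_zero]
    have hzP' : z ∈ P' := hann (QuotSMulTop.mem_annihilator N z)
    have hlt : P < P' := lt_of_le_of_ne hle (fun h => hzP (h ▸ hzP'))
    rw [List.length_cons]
    exact supportDim_quotient_strict hlt _ h2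

end ass

section regular

variable {T : Type u} [CommRing T] [IsRegularLocalRing T] {t : ℕ}

theorem tor_self_residue_subsingleton (T : Type u) [CommRing T] [IsLocalRing T] :
    ∀ j, 0 < j → Subsingleton (TorM T j T (T ⧸ maximalIdeal T)) := by
  intro j hj
  obtain ⟨j, rfl⟩ : ∃ k, j = k + 1 := ⟨j - 1, by omega⟩
  exact tor_subsingleton_of_flat j

/-- Length of a weakly regular sequence in a prime is at most the height. -/
theorem length_le_height {R : Type u} [CommRing R] [IsNoetherianRing R] (P : Ideal R) [P.IsPrime]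
    (zs : List R) (hzs : ∀ z ∈ zs, z ∈ P) (hreg : IsWeaklyRegular R zs) :
    (zs.length : ℕ∞) ≤ P.height := by
  have h1 := hreg.isRegular_of_isLocalization_of_mem (Localization.AtPrime P) P hzs
  have h2 := ringKrullDim_add_length_eq_ringKrullDim_of_isRegular _ h1
  rw [IsLocalization.AtPrime.ringKrullDim_eq_height P (Localization.AtPrime P),
    List.length_map] at h2
  have h3 : 0 ≤ ringKrullDim (Localization.AtPrime P ⧸
      Ideal.ofList (zs.map (algebraMap R (Localization.AtPrime P)))) := by
    have : Nontrivial (Localization.AtPrime P ⧸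
      Ideal.ofList (zs.map (algebraMap R (Localization.AtPrime P)))) := by
      rw [Ideal.Quotient.nontrivial_iff]
      intro htop
      apply h1.top_ne_smul
      rw [htop]
      simp
    exact ringKrullDim_nonneg_of_nontrivial
  have h4 : ((zs.length : ℕ∞) : WithBot ℕ∞) ≤ (P.height : WithBot ℕ∞) := by
    rw [← h2]
    calc ((zs.length : ℕ∞) : WithBot ℕ∞) = 0 + ((zs.length : ℕ∞) : WithBot ℕ∞) := (zero_add _).symm
      _ ≤ _ := by gcongr; rfl
  exact_mod_cast h4

theorem exists_maximal_regular (ht : ringKrullDim T = t) (P : Ideal T) [P.IsPrime] :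
    ∃ zs : List T, (∀ z ∈ zs, z ∈ P) ∧ IsWeaklyRegular T zs ∧
      ∀ z ∈ P, ¬ IsSMulRegular (T ⧸ (Ideal.ofList zs • ⊤ : Submodule T T)) z := by
  by_contra hcon
  push Not at hcon
  have h1 : ∀ n : ℕ, ∃ zs : List T, zs.length = n ∧ (∀ z ∈ zs, z ∈ P) ∧ IsWeaklyRegular T zs := by
    intro n
    induction n with
    | zero => exact ⟨[], rfl, by simp, IsWeaklyRegular.nil _ _⟩
    | succ n ih =>
      obtain ⟨zs, hlen, hmem, hreg⟩ := ih
      obtain ⟨z, hz, hzr⟩ := hcon zs hmem hreg
      refine ⟨zs ++ [z], by simp [hlen], ?_, ?_⟩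
      · intro y hy
        rw [List.mem_append, List.mem_singleton] at hy
        rcases hy with hy | rfl
        · exact hmem y hy
        · exact hz
      · rw [isWeaklyRegular_append_iff]
        exact ⟨hreg, (isWeaklyRegular_singleton_iff _ _).2 hzr⟩
  obtain ⟨zs, hlen, hmem, hreg⟩ := h1 (t + 1)
  have h2 := length_le_height P zs hmem hreg
  have h3 : (P.height : WithBot ℕ∞) ≤ t := ht ▸ Ideal.height_le_ringKrullDim_of_isPrime
  rw [hlen] at h2
  have h4 : ((t + 1 : ℕ) : WithBot ℕ∞) ≤ t := le_trans (by exact_mod_cast h2) h3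
  have h5 : t + 1 ≤ t := by exact_mod_cast h4
  omega

/-- The height and coheight of a prime of a regular local ring add up to the dimension, and the
prime is associated to a complete intersection of the same height. -/
theorem exists_ci (ht : ringKrullDim T = t) (P : Ideal T) [hP : P.IsPrime] :
    ∃ zs : List T, (∀ z ∈ zs, z ∈ P) ∧ IsWeaklyRegular T zs ∧ zs.length ≤ t ∧
      P.height = zs.length ∧ Module.supportDim T (T ⧸ P) = ((t - zs.length : ℕ) : WithBot ℕ∞) ∧
      IsAssociatedPrime P (T ⧸ (Ideal.ofList zs • ⊤ : Submodule T T)) := by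
  obtain ⟨zs, hmem, hreg, hmax⟩ := exists_maximal_regular ht P
  have hfin := associatedPrimes.finite T (T ⧸ (Ideal.ofList zs • ⊤ : Submodule T T))
  have hsub : (P : Set T) ⊆ ⋃ I ∈ associatedPrimes T
      (T ⧸ (Ideal.ofList zs • ⊤ : Submodule T T)), (I : Set T) := by
    intro z hz
    rw [biUnion_associatedPrimes_eq_compl_regular]
    exact hmax z hz
  obtain ⟨P', hP', hle⟩ := (Ideal.subset_union_prime_finite hfin (f := id) ⊥ ⊥ (by
    intro I hI _ _
    exact hI.isPrime)).1 hsub
  change P ≤ P' at hle
  have hP'p := hP'.isPrime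
  have hlen := length_le_height P zs hmem hreg
  have hPt : (P.height : WithBot ℕ∞) ≤ t := ht ▸ Ideal.height_le_ringKrullDim_of_isPrime
  have hlt : zs.length ≤ t := by
    have h4 : ((zs.length : ℕ) : WithBot ℕ∞) ≤ t := le_trans (by exact_mod_cast hlen) hPt
    exact_mod_cast h4
  obtain ⟨ws, hws, hwm, hwr⟩ := exists_regular_ext_list ht T zs hreg 0
    (tor_self_residue_subsingleton T) (t - zs.length) (by omega)
  have hwr' := ((isWeaklyRegular_append_iff _ _ _).1 hwr).2
  have h5 := length_le_supportDim_of_isAssociatedPrime ws hwm _ hwr' P' hP'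
  rw [hws] at h5
  have h6 := h5.trans (supportDim_quotient_mono hle)
  -- upper bound for the height
  have hup : P.height ≤ zs.length := by
    by_contra hlt'
    rw [not_le] at hlt'
    have h7 : ((zs.length + 1 : ℕ) : ℕ∞) ≤ P.height := by
      rw [Nat.cast_add, Nat.cast_one]
      exact Order.add_one_le_of_lt hlt'
    have h8 := height_add_le _ _ h7 h6
    rw [ht] at h8
    have h9 : zs.length + 1 + (t - zs.length) ≤ t := by exact_mod_cast h8
    omega
  have hheight : P.height = zs.length := le_antisymm hup hlen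
  have hupd : ∀ n : ℕ, (n : WithBot ℕ∞) ≤ Module.supportDim T (T ⧸ P) → n ≤ t - zs.length := by
    intro n hn
    have h8 := height_add_le _ _ hlen hn
    rw [ht] at h8
    have h9 : zs.length + n ≤ t := by exact_mod_cast h8
    omega
  have hdim : Module.supportDim T (T ⧸ P) = ((t - zs.length : ℕ) : WithBot ℕ∞) := by
    apply le_antisymm _ h6
    by_contra hlt'
    rw [not_le] at hlt'
    have h7 : ((t - zs.length + 1 : ℕ) : WithBot ℕ∞) ≤ Module.supportDim T (T ⧸ P) :=
      succ_le_of_lt_withBot hlt'
    have := hupd _ h7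
    omega
  refine ⟨zs, hmem, hreg, hlt, hheight, hdim, ?_⟩
  rcases hle.eq_or_lt with heq | hlt'
  · rw [heq]; exact hP'
  · exfalso
    have := hupd _ (supportDim_quotient_strict hlt' _ h5)
    omega

end regular

end Vale.Agent.P177
end

section

/-!
Additivity and symmetry of the Euler characteristic of Tor.
-/

namespace Vale.Agent.P177

open CategoryTheory TensorProduct Function IsLocalRing RingTheory.Sequence Pointwise

universe u

variable {T : Type u} [CommRing T]

theorem eulerTor_congr {X X' Y Y' : Type u} [AddCommGroup X] [Module T X] [AddCommGroup X']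
    [Module T X'] [AddCommGroup Y] [Module T Y] [AddCommGroup Y'] [Module T Y']
    (e : X ≃ₗ[T] X') (e' : Y ≃ₗ[T] Y') (n : ℕ) : eulerTor T n X Y = eulerTor T n X' Y' := by
  unfold eulerTor
  refine Finset.sum_congr rfl fun j _ => ?_
  rw [(torCongrLeft j e Y).length_eq, (torCongrRight j X' e').length_eq]

theorem eulerTor_symm (X Y : Type u) [AddCommGroup X] [Module T X] [AddCommGroup Y] [Module T Y]
    (n : ℕ) : eulerTor T n X Y = eulerTor T n Y X := by
  unfold eulerTor
  refine Finset.sum_congr rfl fun j _ => ?_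
  obtain ⟨e⟩ := tor_symm (R := T) j X Y
  rw [e.length_eq]

theorem eulerTor_of_vanish (X Y : Type u) [AddCommGroup X] [Module T X] [AddCommGroup Y]
    [Module T Y] (m n : ℕ) (hmn : m ≤ n) (h : ∀ j, m ≤ j → Subsingleton (TorM T j X Y)) :
    eulerTor T n X Y = eulerTor T m X Y := by
  induction n, hmn using Nat.le_induction with
  | base => rfl
  | succ n hmn ih =>
    rw [← ih]
    unfold eulerTor
    rw [Finset.sum_range_succ]
    have := h n hmn
    rw [Module.length_eq_zero]
    simp

theorem numeric_add {a b c d f g : ℕ → ℤ} (h1 : ∀ n, a n = d n + f n) (h2 : ∀ n, b n = f n + g n)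
    (h30 : c 0 = g 0) (h3 : ∀ n, c (n + 1) = g (n + 1) + d n) (n : ℕ) :
    ∑ j ∈ Finset.range (n + 1), (-1 : ℤ) ^ j * a j + ∑ j ∈ Finset.range (n + 1), (-1 : ℤ) ^ j * c j
      = ∑ j ∈ Finset.range (n + 1), (-1 : ℤ) ^ j * b j + (-1) ^ n * d n := by
  induction n with
  | zero =>
    simp only [zero_add, Finset.sum_range_one, pow_zero, one_mul]
    rw [h1, h2, h30]; ring
  | succ n ih =>
    rw [Finset.sum_range_succ, Finset.sum_range_succ _ (n + 1), Finset.sum_range_succ _ (n + 1)]
    have e1 := h1 (n + 1)
    have e2 := h2 (n + 1)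
    have e3 := h3 n
    rw [e1, e2, e3]
    linear_combination ih

theorem toNat_length_ker_add_range {X Y : Type u} [AddCommGroup X] [Module T X] [AddCommGroup Y]
    [Module T Y] (φ : X →ₗ[T] Y) (h : Module.length T X ≠ ⊤) :
    ((Module.length T X).toNat : ℤ) = ((Module.length T (LinearMap.ker φ)).toNat : ℤ) +
      ((Module.length T (LinearMap.range φ)).toNat : ℤ) := by
  have h1 := length_ker_add_range φ
  have h2 : Module.length T (LinearMap.ker φ) ≠ ⊤ := fun h' => h (by rw [h1, h', top_add])
  have h3 : Module.length T (LinearMap.range φ) ≠ ⊤ := fun h' => h (by rw [h1, h', add_top])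
  rw [h1, ENat.toNat_add h2 h3]
  push_cast
  rfl

/-- Additivity of the Euler characteristic in the first variable. -/
theorem eulerTor_add {X' X X'' : Type u} [AddCommGroup X'] [Module T X'] [AddCommGroup X]
    [Module T X] [AddCommGroup X''] [Module T X''] (f : X' →ₗ[T] X) (g : X →ₗ[T] X'')
    (hf : Injective f) (hg : Surjective g) (h : Exact f g) (Y : Type u) [AddCommGroup Y]
    [Module T Y] (n : ℕ) (h1 : ∀ j, Module.length T (TorM T j X' Y) ≠ ⊤)
    (h2 : ∀ j, Module.length T (TorM T j X Y) ≠ ⊤)
    (h3 : ∀ j, Module.length T (TorM T j X'' Y) ≠ ⊤)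
    (hv : Subsingleton (TorM T (n + 1) X'' Y)) :
    eulerTor T (n + 1) X Y = eulerTor T (n + 1) X' Y + eulerTor T (n + 1) X'' Y := by
  obtain ⟨δ, e1, e2, e3⟩ := exists_torDelta f g hf hg h Y
  have hnum := numeric_add (n := n)
    (a := fun j => ((Module.length T (TorM T j X' Y)).toNat : ℤ))
    (b := fun j => ((Module.length T (TorM T j X Y)).toNat : ℤ))
    (c := fun j => ((Module.length T (TorM T j X'' Y)).toNat : ℤ))
    (d := fun j => ((Module.length T (LinearMap.range (δ j))).toNat : ℤ))
    (f := fun j => ((Module.length T (LinearMap.range (torMap j f Y))).toNat : ℤ))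
    (g := fun j => ((Module.length T (LinearMap.range (torMap j g Y))).toNat : ℤ))
    (by
      intro j
      rw [toNat_length_ker_add_range (torMap j f Y) (h1 j), LinearMap.exact_iff.1 (e2 j)])
    (by
      intro j
      rw [toNat_length_ker_add_range (torMap j g Y) (h2 j), LinearMap.exact_iff.1 (e3 j)])
    (by
      have : LinearMap.range (torMap 0 g Y) = ⊤ :=
        LinearMap.range_eq_top.2 (torMap_zero_surjective g hg Y)
      change ((Module.length T (TorM T 0 X'' Y)).toNat : ℤ) =
        ((Module.length T (LinearMap.range (torMap 0 g Y))).toNat : ℤ)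
      rw [this, Module.length_top])
    (by
      intro j
      rw [toNat_length_ker_add_range (δ j) (h3 (j + 1)), LinearMap.exact_iff.1 (e1 j)])
  have hd : Module.length T (LinearMap.range (δ n)) = 0 := by
    rw [Module.length_eq_zero_iff]
    exact (LinearMap.surjective_rangeRestrict (δ n)).subsingleton
  simp only [hd, ENat.toNat_zero, Nat.cast_zero, mul_zero, add_zero] at hnum
  exact hnum.symm

end Vale.Agent.P177
end

section

/-!
Statement of the local positivity theorem for a pair of flat local maps of regular local rings.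
-/

namespace Vale.Agent.P177

open TensorProduct IsLocalRing

universe u

/-- Finiteness condition for a pair of modules over two rings with maps to `T`. -/
def FP (R₁ R₂ T : Type u) [CommRing R₁] [CommRing R₂] [CommRing T] [IsLocalRing T]
    [Algebra R₁ T] [Algebra R₂ T]
    (E G : Type u) [AddCommGroup E] [Module R₁ E] [AddCommGroup G] [Module R₂ G] : Prop :=
  maximalIdeal T ≤ ((Module.annihilator R₁ E).map (algebraMap R₁ T) ⊔
    (Module.annihilator R₂ G).map (algebraMap R₂ T)).radical

/-- The local positivity statement, for all triples `R₁ → T ← R₂` with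
`dim R₁ + dim R₂ - dim T ≤ a`. -/
def LocPos (a : ℕ) : Prop :=
  ∀ (R₁ R₂ T : Type u) [CommRing R₁] [CommRing R₂] [CommRing T]
    [IsRegularLocalRing R₁] [IsRegularLocalRing R₂] [IsRegularLocalRing T]
    [Algebra R₁ T] [Algebra R₂ T] [Module.Flat R₁ T] [Module.Flat R₂ T]
    [IsLocalHom (algebraMap R₁ T)] [IsLocalHom (algebraMap R₂ T)]
    (r₁ r₂ t b : ℕ), ringKrullDim R₁ = r₁ → ringKrullDim R₂ = r₂ → ringKrullDim T = t →
    r₁ + r₂ = t + b → b ≤ a →
    ∀ (E G : Type u) [AddCommGroup E] [Module R₁ E] [Module.Finite R₁ E]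
    [AddCommGroup G] [Module R₂ G] [Module.Finite R₂ G],
    FP R₁ R₂ T E G →
    (∀ e g : ℕ, (e : WithBot ℕ∞) ≤ Module.supportDim R₁ E →
      (g : WithBot ℕ∞) ≤ Module.supportDim R₂ G → e + g ≤ b) ∧
    0 ≤ eulerTor T (t + 1) (T ⊗[R₁] E) (T ⊗[R₂] G) ∧
    (∀ e g : ℕ, (e : WithBot ℕ∞) ≤ Module.supportDim R₁ E →
      (g : WithBot ℕ∞) ≤ Module.supportDim R₂ G → b ≤ e + g →
      0 < eulerTor T (t + 1) (T ⊗[R₁] E) (T ⊗[R₂] G))

end Vale.Agent.P177
end

section

/-!
One sided lemmas for a flat local map of regular local rings.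
-/

namespace Vale.Agent.P177

open CategoryTheory TensorProduct Function IsLocalRing RingTheory.Sequence Pointwise

universe u

section eulzero

variable {B : Type u} [CommRing B] [IsLocalRing B] [IsNoetherianRing B]

theorem eul_eq_zero_of_dim (zs : List B) (hzs : ∀ z ∈ zs, z ∈ maximalIdeal B) (X : Type u)
    [AddCommGroup X] [Module B X] [Module.Finite B X] (hX : FL zs X)
    (hd : ¬ ((zs.length : WithBot ℕ∞) ≤ Module.supportDim B X)) : eul zs X = 0 := by
  induction zs generalizing X with
  | nil =>
    unfold eul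
    have hs : Subsingleton X := by
      by_contra hns
      rw [not_subsingleton_iff_nontrivial] at hns
      apply hd
      rw [List.length_nil, Nat.cast_zero]
      unfold Module.supportDim
      have := (Module.nonempty_support_of_nontrivial (R := B) (M := X)).to_subtype
      exact Order.krullDim_nonneg
    rw [Module.length_eq_zero]
    rfl
  | cons z zs ih =>
    obtain ⟨n, Γ, hΓ, hreg⟩ := exists_torsion_pow X z
    have hzs' : ∀ y ∈ zs, y ∈ maximalIdeal B := fun y hy => hzs y (List.mem_cons_of_mem _ hy)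
    have hex : Exact Γ.subtype Γ.mkQ := by
      intro x
      simp
    have hadd := eul_add (z :: zs) Γ.subtype Γ.mkQ (Submodule.injective_subtype _)
      (Submodule.mkQ_surjective _) hex hX
    have hFLΓ : FL (z :: zs) Γ := hX.of_injective Γ.subtype (Submodule.injective_subtype _)
    have hFLΓ' : FL zs Γ := hFLΓ.of_pow n hΓ
    have hFLQ : FL (z :: zs) (X ⧸ Γ) := hX.of_surjective Γ.mkQ (Submodule.mkQ_surjective _)
    rw [eul_cons_eq_zero z zs Γ hFLΓ', zero_add] at hadd
    have htors : Subsingleton (Submodule.torsionBy B (X ⧸ Γ) z) := by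
      refine subsingleton_of_forall_eq 0 ?_
      rintro ⟨x, hx⟩
      apply Subtype.ext
      rw [isSMulRegular_iff_right_eq_zero_of_smul] at hreg
      exact hreg x hx
    have h2 : eul (z :: zs) (X ⧸ Γ) = eul zs (QuotSMulTop z (X ⧸ Γ)) := by
      change eul zs (QuotSMulTop z (X ⧸ Γ)) - eul zs (Submodule.torsionBy B (X ⧸ Γ) z) = _
      rw [eul_subsingleton zs (Submodule.torsionBy B (X ⧸ Γ) z), sub_zero]
    rw [hadd, h2]
    apply ih hzs' (QuotSMulTop z (X ⧸ Γ)) hFLQ.quot
    intro hle
    apply hd
    have h3 := Module.supportDim_quotSMulTop_succ_eq_supportDim hreg (hzs z List.mem_cons_self)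
    refine le_trans ?_ (Module.supportDim_le_of_surjective Γ.mkQ (Submodule.mkQ_surjective _))
    rw [← h3, List.length_cons]
    push_cast
    gcongr

end eulzero

section onesided

variable {R T : Type u} [CommRing R] [IsRegularLocalRing R] [CommRing T] [IsRegularLocalRing T]
  [Algebra R T] [Module.Flat R T] [IsLocalHom (algebraMap R T)] {r t : ℕ}

omit [IsRegularLocalRing R] [IsRegularLocalRing T] [Module.Flat R T]
  [IsLocalHom (algebraMap R T)] in
theorem algebraMap_mem_maximalIdeal [IsLocalRing R] [IsLocalRing T] [IsLocalHom (algebraMap R T)]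
    {z : R} (hz : z ∈ maximalIdeal R) : algebraMap R T z ∈ maximalIdeal T := by
  by_contra h
  have h1 : IsUnit (algebraMap R T z) := by
    by_contra h2
    exact h ((IsLocalRing.mem_maximalIdeal _).2 h2)
  exact (IsLocalRing.mem_maximalIdeal _).1 hz (isUnit_of_map_unit (algebraMap R T) z h1)

omit [IsRegularLocalRing R] [IsRegularLocalRing T] [Module.Flat R T]
  [IsLocalHom (algebraMap R T)] in
theorem map_mem_maximalIdeal [IsLocalRing R] [IsLocalRing T] [IsLocalHom (algebraMap R T)]
    {zs : List R} (hzs : ∀ z ∈ zs, z ∈ maximalIdeal R) :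
    ∀ z ∈ zs.map (algebraMap R T), z ∈ maximalIdeal T := by
  intro z hz
  rw [List.mem_map] at hz
  obtain ⟨y, hy, rfl⟩ := hz
  exact algebraMap_mem_maximalIdeal (hzs y hy)

/-- A regular system of parameters. -/
theorem exists_rsp (R : Type u) [CommRing R] [IsRegularLocalRing R] {r : ℕ}
    (hr : ringKrullDim R = r) :
    ∃ rs : List R, Ideal.ofList rs = maximalIdeal R ∧ rs.length = r ∧ IsWeaklyRegular R rs := by
  obtain ⟨rs, hrs, hlen⟩ := exists_list_maximalIdeal R
  have hreg := isRegular_of_ofList_eq_maximalIdeal R rs hrs hlen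
  refine ⟨rs, hrs, ?_, hreg.toIsWeaklyRegular⟩
  rw [hr] at hlen
  exact_mod_cast hlen

theorem length_le_dim (ht : ringKrullDim T = t) (zs : List T)
    (hzs : ∀ z ∈ zs, z ∈ maximalIdeal T) (hreg : IsWeaklyRegular T zs) : zs.length ≤ t := by
  have h1 := length_le_height (maximalIdeal T) zs hzs hreg
  have h2 : ((maximalIdeal T).height : WithBot ℕ∞) ≤ t :=
    ht ▸ Ideal.height_le_ringKrullDim_of_isPrime
  have h3 : ((zs.length : ℕ) : WithBot ℕ∞) ≤ t := le_trans (by exact_mod_cast h1) h2
  exact_mod_cast h3

theorem dim_le_dim (hr : ringKrullDim R = r) (ht : ringKrullDim T = t) : r ≤ t := by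
  obtain ⟨rs, hrs, hlen, hreg⟩ := exists_rsp R hr
  have h1 : IsWeaklyRegular T (rs.map (algebraMap R T)) := hreg.of_flat
  have h2 := length_le_dim ht _ (map_mem_maximalIdeal (fun z hz => by
    rw [← hrs]; exact Ideal.subset_span hz)) h1
  rw [List.length_map] at h2
  omega

theorem supportDim_quot_of_weaklyRegular (ht : ringKrullDim T = t) (zs : List T)
    (hzs : ∀ z ∈ zs, z ∈ maximalIdeal T) (hreg : IsWeaklyRegular T zs) :
    Module.supportDim T (T ⧸ (Ideal.ofList zs • ⊤ : Submodule T T)) =
      ((t - zs.length : ℕ) : WithBot ℕ∞) := by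
  have h1 : IsRegular T zs := by
    refine ⟨hreg, fun htop => ?_⟩
    have h2 : Ideal.ofList zs ≤ maximalIdeal T := Ideal.span_le.2 hzs
    have h3 : (1 : T) ∈ (Ideal.ofList zs • ⊤ : Submodule T T) := htop ▸ trivial
    have h4 : (1 : T) ∈ maximalIdeal T := by
      rw [smul_eq_mul, Ideal.mul_top] at h3
      exact h2 h3
    exact (maximalIdeal.isMaximal T).ne_top (Ideal.eq_top_of_isUnit_mem _ h4 isUnit_one)
  have h2 := Module.supportDim_add_length_eq_supportDim_of_isRegular zs h1
  rw [Module.supportDim_self_eq_ringKrullDim, ht] at h2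
  have h3 := length_le_dim ht zs hzs hreg
  generalize Module.supportDim T (T ⧸ (Ideal.ofList zs • ⊤ : Submodule T T)) = a at h2 ⊢
  induction a using WithBot.recBotCoe with
  | bot => simp at h2
  | coe a =>
    have h4 : a + (zs.length : ℕ∞) = t := by exact_mod_cast h2
    have h5 : a ≠ ⊤ := by
      rintro rfl
      rw [top_add] at h4
      exact absurd h4.symm (ENat.natCast_ne_top t)
    obtain ⟨a, rfl⟩ := ENat.ne_top_iff_exists.mp h5
    have h6 : a + zs.length = t := by exact_mod_cast h4
    have h7 : a = t - zs.length := by omega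
    rw [h7]
    rfl

/-- Upper bound for the dimension of a base change. -/
theorem supportDim_baseChange_le (hr : ringKrullDim R = r) (ht : ringKrullDim T = t)
    (E : Type u) [AddCommGroup E] [Module R E] [hE : Module.Finite R E] (n : ℕ)
    (hn : (n : WithBot ℕ∞) ≤ Module.supportDim T (T ⊗[R] E)) :
    ∃ e : ℕ, (e : WithBot ℕ∞) ≤ Module.supportDim R E ∧ n ≤ e + (t - r) := by
  have hrt := dim_le_dim (R := R) (T := T) hr ht
  induction hE using IsNoetherianRing.induction_on_isQuotientEquivQuotientPrime R with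
  | subsingleton N =>
    have : Subsingleton (T ⊗[R] N) := inferInstance
    rw [Module.supportDim_eq_bot_of_subsingleton] at hn
    simp at hn
  | quotient N P e =>
    have hP := P.2
    obtain ⟨zs, hmem, hreg, hlt, hh, hdim, hass⟩ := exists_ci hr P.1
    refine ⟨r - zs.length, ?_, ?_⟩
    · rw [Module.supportDim_eq_of_equiv e, hdim]
    · have h1 : IsWeaklyRegular T (zs.map (algebraMap R T)) := hreg.of_flat
      have h2 := supportDim_quot_of_weaklyRegular ht _ (map_mem_maximalIdeal (fun z hz =>
        le_maximalIdeal hP.ne_top (hmem z hz))) h1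
      -- surjection from `T/(zs)` to `T ⊗ N`
      let g0 : T →ₗ[T] T ⊗[R] N :=
        (LinearMap.toSpanSingleton T _ ((1 : T) ⊗ₜ[R] e.symm (Ideal.Quotient.mk _ 1)))
      have hg0 : Surjective g0 := by
        intro y
        induction y using TensorProduct.induction_on with
        | zero => exact ⟨0, map_zero _⟩
        | tmul a x =>
          obtain ⟨c, hc⟩ := Ideal.Quotient.mk_surjective (e x)
          refine ⟨a * algebraMap R T c, ?_⟩
          change (a * algebraMap R T c) • ((1 : T) ⊗ₜ[R] e.symm (Ideal.Quotient.mk _ 1)) = _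
          rw [TensorProduct.smul_tmul', smul_eq_mul, mul_one, mul_comm, ← Algebra.smul_def,
            TensorProduct.smul_tmul, ← map_smul]
          congr 1
          rw [LinearEquiv.symm_apply_eq, ← hc, Algebra.smul_def, map_one, mul_one]
          rfl
        | add x y hx hy =>
          obtain ⟨a, rfl⟩ := hx
          obtain ⟨b, rfl⟩ := hy
          exact ⟨a + b, map_add _ _ _⟩
      have hker : (Ideal.ofList (zs.map (algebraMap R T)) • ⊤ : Submodule T T) ≤
          LinearMap.ker g0 := by
        rw [smul_eq_mul, Ideal.mul_top, Ideal.ofList, Ideal.span_le]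
        intro y hy
        have hy' : y ∈ zs.map (algebraMap R T) := hy
        rw [List.mem_map] at hy'
        obtain ⟨c, hc, rfl⟩ := hy'
        change (algebraMap R T c) • ((1 : T) ⊗ₜ[R] e.symm (Ideal.Quotient.mk _ 1)) = 0
        rw [algebraMap_smul, TensorProduct.smul_tmul', TensorProduct.smul_tmul, ← map_smul]
        have : c • (Ideal.Quotient.mk P.1 1) = 0 := by
          rw [Algebra.smul_def, map_one, mul_one]
          exact Ideal.Quotient.eq_zero_iff_mem.2 (hmem c hc)
        rw [this, map_zero, TensorProduct.tmul_zero]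
      have h3 := Module.supportDim_le_of_surjective (Submodule.liftQ _ g0 hker) (by
        intro y
        obtain ⟨a, rfl⟩ := hg0 y
        exact ⟨Submodule.Quotient.mk a, rfl⟩)
      rw [h2, List.length_map] at h3
      have h4 : n ≤ t - zs.length := by exact_mod_cast hn.trans h3
      omega
  | exact N₁ N₂ N₃ f g hf hg h ih1 ih3 =>
    obtain ⟨k1, k2, k3⟩ := baseChange_ses (B := T) f g hf hg h
    rcases le_supportDim_of_exact _ _ k1 k2 k3 n hn with h1 | h1
    · obtain ⟨e, he, hne⟩ := ih1 h1
      exact ⟨e, he.trans (Module.supportDim_le_of_injective f hf), hne⟩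
    · obtain ⟨e, he, hne⟩ := ih3 h1
      exact ⟨e, he.trans (Module.supportDim_le_of_surjective g hg), hne⟩

end onesided

end Vale.Agent.P177
end

section

/-! Power series rings over a field are regular local rings of the expected dimension. -/

namespace Vale.Agent.P177

open IsLocalRing

section General

variable {σ R : Type*} [Finite σ] [CommRing R]

theorem mem_span_X_of_constantCoeff_eq_zero (p : MvPowerSeries σ R)
    (hp : MvPowerSeries.constantCoeff p = 0) :
    p ∈ (Ideal.span (Set.range MvPowerSeries.X) : Ideal (MvPowerSeries σ R)) := by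
  have h1 : Ideal.map (MvPowerSeries.toAdicCompletionAlgEquiv σ R).toRingEquiv
      (Ideal.span (Set.range MvPowerSeries.X)) =
      (MvPolynomial.idealOfVars σ R).map (algebraMap _ _) := by
    simp_rw [Ideal.map_span, ← Set.range_comp]
    congr 2; ext1
    simp [AdicCompletion.algebraMap_apply, ← MvPolynomial.coe_X,
      MvPowerSeries.toAdicCompletion_coe]
  replace h1 := h1.trans
    (AdicCompletion.ker_evalOneₐ_eq_map _ (MvPolynomial.idealOfVars_fg σ R)).symm
  have h2 : MvPowerSeries.toAdicCompletionAlgEquiv σ R p ∈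
      RingHom.ker (AdicCompletion.evalOneₐ (MvPolynomial.idealOfVars σ R)).toRingHom := by
    rw [RingHom.mem_ker]
    change AdicCompletion.evalOneₐ (MvPolynomial.idealOfVars σ R)
      (MvPowerSeries.toAdicCompletion σ R p) = 0
    rw [MvPowerSeries.toAdicCompletion, AdicCompletion.evalOneₐ_liftAlgHom (hf := fun h ↦
      AlgHom.ext fun _ ↦ by
      simpa [Ideal.Quotient.mk_eq_mk_iff_sub_mem] using
        MvPowerSeries.truncTotal_sub_truncTotal_mem_pow_idealOfVars h (le_refl _) _)]
    have h3 : MvPowerSeries.truncTotalAlgHom σ R 1 p = 0 := by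
      rw [MvPowerSeries.truncTotalAlgHom_apply, Ideal.Quotient.eq_zero_iff_mem]
      refine (MvPolynomial.mem_pow_idealOfVars_iff' ..).mpr fun x hx ↦ ?_
      have hx0 : x = 0 := by
        rw [← Finsupp.degree_eq_zero_iff]
        omega
      rw [MvPowerSeries.coeff_truncTotal _ hx, hx0]
      simpa using hp
    rw [h3, map_zero]
  rw [← h1] at h2
  have h3 := Ideal.mem_map_of_equiv (MvPowerSeries.toAdicCompletionAlgEquiv σ R).toRingEquiv
    (I := (Ideal.span (Set.range MvPowerSeries.X))) (MvPowerSeries.toAdicCompletionAlgEquiv σ R p)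
  obtain ⟨q, hq, hqp⟩ := h3.mp h2
  have : q = p := (MvPowerSeries.toAdicCompletionAlgEquiv σ R).injective hqp
  rwa [← this]

end General

variable (σ : Type*) [Finite σ] (k : Type*) [Field k]

theorem mvPowerSeries_maximalIdeal [IsLocalRing (MvPowerSeries σ k)] :
    maximalIdeal (MvPowerSeries σ k) = Ideal.span (Set.range MvPowerSeries.X) := by
  apply le_antisymm
  · intro p hp
    apply mem_span_X_of_constantCoeff_eq_zero
    by_contra hne
    exact (mem_maximalIdeal p).mp hp
      (MvPowerSeries.isUnit_iff_constantCoeff.mpr (isUnit_iff_ne_zero.mpr hne))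
  · rw [Ideal.span_le]
    rintro _ ⟨i, rfl⟩
    rw [SetLike.mem_coe, mem_maximalIdeal, mem_nonunits_iff, MvPowerSeries.isUnit_iff_constantCoeff]
    simp

theorem le_ringKrullDim_mvPowerSeries_fin (n : ℕ) :
    (n : WithBot ℕ∞) ≤ ringKrullDim (MvPowerSeries (Fin n) k) := by
  induction n with
  | zero =>
    have : Nontrivial (MvPowerSeries (Fin 0) k) := inferInstance
    simpa using ringKrullDim_nonneg_of_nontrivial (R := MvPowerSeries (Fin 0) k)
  | succ n ih =>
    rw [ringKrullDim_eq_of_ringEquiv (MvPowerSeries.finSuccEquiv k n).toRingEquiv]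
    refine le_trans ?_ ringKrullDim_succ_le_ringKrullDim_powerseries
    push_cast
    gcongr

theorem le_ringKrullDim_mvPowerSeries :
    (Nat.card σ : WithBot ℕ∞) ≤ ringKrullDim (MvPowerSeries σ k) := by
  rw [ringKrullDim_eq_of_ringEquiv
    (MvPowerSeries.renameEquiv k (Finite.equivFin σ)).toRingEquiv]
  exact le_ringKrullDim_mvPowerSeries_fin k _

theorem mvPowerSeries_isRegularLocalRing : IsRegularLocalRing (MvPowerSeries σ k) := by
  apply IsRegularLocalRing.of_spanFinrank_maximalIdeal_le
  refine le_trans ?_ (le_ringKrullDim_mvPowerSeries σ k)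
  rw [mvPowerSeries_maximalIdeal]
  norm_cast
  refine le_trans (Submodule.spanFinrank_span_le_ncard_of_finite (Set.finite_range _)) ?_
  rw [← Set.image_univ]
  refine le_trans (Set.ncard_image_le Set.finite_univ) ?_
  rw [Set.ncard_univ]

theorem mvPowerSeries_ringKrullDim : ringKrullDim (MvPowerSeries σ k) = Nat.card σ := by
  apply le_antisymm ?_ (le_ringKrullDim_mvPowerSeries σ k)
  refine le_trans (ringKrullDim_le_spanFinrank_maximalIdeal _) ?_
  rw [mvPowerSeries_maximalIdeal]
  norm_cast
  refine le_trans (Submodule.spanFinrank_span_le_ncard_of_finite (Set.finite_range _)) ?_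
  rw [← Set.image_univ]
  refine le_trans (Set.ncard_image_le Set.finite_univ) ?_
  rw [Set.ncard_univ]

end Vale.Agent.P177
end

section

/-!
Serre's positivity through the reduction to the diagonal, abstract form.
-/

namespace Vale.Agent.P177

open CategoryTheory TensorProduct Function IsLocalRing RingTheory.Sequence Pointwise

universe u

/-- Annihilator of a quotient. -/
theorem annihilator_quotient_le_radical {B : Type u} [CommRing B] (Z : Type u) [AddCommGroup Z]
    [Module B Z] [Module.Finite B Z] (I : Ideal B) :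
    Module.annihilator B (Z ⧸ (I • ⊤ : Submodule B Z)) ≤ (Module.annihilator B Z ⊔ I).radical := by
  have h := Module.support_quotient (R := B) (M := Z) I
  rw [Module.support_eq_zeroLocus, Module.support_eq_zeroLocus,
    ← PrimeSpectrum.zeroLocus_sup] at h
  have h2 := (PrimeSpectrum.zeroLocus_subset_zeroLocus_iff _ _).1 h.ge
  exact h2

theorem nontrivial_tor_zero {B : Type u} [CommRing B] [IsLocalRing B] (X Y : Type u)
    [AddCommGroup X] [Module B X] [Module.Finite B X] [Nontrivial X]
    [AddCommGroup Y] [Module B Y] [Module.Finite B Y] [Nontrivial Y] :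
    Nontrivial (TorM B 0 X Y) := by
  have h1 := IsLocalRing.closedPoint_mem_support B X
  have h2 := IsLocalRing.closedPoint_mem_support B Y
  have h3 := mem_support_tensorProduct _ h1 h2
  have h4 : Nontrivial (X ⊗[B] Y) := Module.nonempty_support_iff.1 ⟨_, h3⟩
  exact (torZero X Y).toEquiv.nontrivial

section residue

variable {S B : Type u} [CommRing S] [CommRing B] [Algebra S B] [IsLocalRing S] [IsLocalRing B]
  [IsLocalHom (algebraMap S B)]

theorem nontrivial_baseChange_residue : Nontrivial (B ⊗[S] (S ⧸ maximalIdeal S)) := by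
  have hle : (maximalIdeal S).map (algebraMap S B) ≤ maximalIdeal B :=
    ((IsLocalRing.local_hom_TFAE (algebraMap S B)).out 0 2).mp ‹_›
  have hne : (maximalIdeal S).map (algebraMap S B) ≠ ⊤ := fun h =>
    (maximalIdeal.isMaximal B).ne_top (top_le_iff.1 (h ▸ hle))
  have : Nontrivial (B ⧸ (maximalIdeal S).map (algebraMap S B)) :=
    Ideal.Quotient.nontrivial_iff.2 hne
  exact (Algebra.TensorProduct.quotIdealMapEquivTensorQuot B (maximalIdeal S)).symm.toEquiv.nontrivial

end residue

section independence

variable {S₁ S₂ B : Type u} [CommRing S₁] [CommRing S₂] [CommRing B] [Algebra S₁ B]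
  [Algebra S₂ B]
  [IsLocalRing S₁] [IsNoetherianRing S₁] [IsLocalRing S₂] [IsNoetherianRing S₂]
  [IsLocalRing B] [IsNoetherianRing B]
  [Module.Flat S₁ B] [Module.Flat S₂ B] [IsLocalHom (algebraMap S₁ B)]
  [IsLocalHom (algebraMap S₂ B)]

omit [IsLocalRing S₁] [IsNoetherianRing S₁] [IsLocalHom (algebraMap S₁ B)] in
/-- Tor-independence of modules coming from the two factors. -/
theorem tor_independent
    (K : Type u) [AddCommGroup K] [Module B K] [Module S₁ K] [IsScalarTower S₁ B K]
    [Module.Flat S₁ K] (e : (B ⊗[S₂] (S₂ ⧸ maximalIdeal S₂)) ≃ₗ[B] K)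
    (N : Type u) [AddCommGroup N] [Module S₁ N] [Module.Finite S₁ N]
    (M : Type u) [AddCommGroup M] [Module S₂ M] [Module.Finite S₂ M] (j : ℕ) (hj : 1 ≤ j) :
    Subsingleton (TorM B j (B ⊗[S₂] M) (B ⊗[S₁] N)) := by
  refine local_crit (S := S₂) (B := B) 1 (B ⊗[S₁] N) ?_ M j hj
  intro j hj
  obtain ⟨i, rfl⟩ : ∃ k, j = k + 1 := ⟨j - 1, by omega⟩
  have h1 : Subsingleton (TorM B (i + 1) (B ⊗[S₁] N) K) :=
    tor_subsingleton_bc i (TensorProduct.isBaseChange S₁ N B) K
  obtain ⟨e2⟩ := tor_symm (R := B) (i + 1) K (B ⊗[S₁] N)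
  have h2 : Subsingleton (TorM B (i + 1) K (B ⊗[S₁] N)) := e2.toEquiv.subsingleton
  exact (torCongrLeft (i + 1) e (B ⊗[S₁] N)).toEquiv.subsingleton

/-- Dimension of the external tensor product. -/
theorem le_supportDim_external
    (hv : ∀ (N : Type u) [AddCommGroup N] [Module S₁ N] [Module.Finite S₁ N]
      (M : Type u) [AddCommGroup M] [Module S₂ M] [Module.Finite S₂ M],
      Subsingleton (TorM B 1 (B ⊗[S₂] M) (B ⊗[S₁] N)))
    (N : Type u) [AddCommGroup N] [Module S₁ N] [Module.Finite S₁ N]
    (M : Type u) [AddCommGroup M] [Module S₂ M] [Module.Finite S₂ M] (a b : ℕ)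
    (ha : (a : WithBot ℕ∞) ≤ Module.supportDim S₂ M)
    (hb : (b : WithBot ℕ∞) ≤ Module.supportDim S₁ N) :
    ((a + b : ℕ) : WithBot ℕ∞) ≤ Module.supportDim B (TorM B 0 (B ⊗[S₂] M) (B ⊗[S₁] N)) := by
  refine le_supportDim_tor (S := S₂) (B := B) (B ⊗[S₁] N) (fun M _ _ _ => hv N M) b ?_ a M ha
  have h1 : ((b + 0 : ℕ) : WithBot ℕ∞) ≤ Module.supportDim B
      (TorM B 0 (B ⊗[S₁] N) (B ⊗[S₂] (S₂ ⧸ maximalIdeal S₂))) := by
    refine le_supportDim_tor (S := S₁) (B := B) (B ⊗[S₂] (S₂ ⧸ maximalIdeal S₂))
      (fun N _ _ _ => ?_) 0 ?_ b N hb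
    · have := hv N (S₂ ⧸ maximalIdeal S₂)
      obtain ⟨e⟩ := tor_symm (R := B) 1 (B ⊗[S₁] N) (B ⊗[S₂] (S₂ ⧸ maximalIdeal S₂))
      exact e.toEquiv.subsingleton
    · have n1 : Nontrivial (B ⊗[S₁] (S₁ ⧸ maximalIdeal S₁)) := nontrivial_baseChange_residue
      have n2 : Nontrivial (B ⊗[S₂] (S₂ ⧸ maximalIdeal S₂)) := nontrivial_baseChange_residue
      have n3 := nontrivial_tor_zero (B := B) (B ⊗[S₁] (S₁ ⧸ maximalIdeal S₁))
        (B ⊗[S₂] (S₂ ⧸ maximalIdeal S₂))
      have n4 := (Module.supportDim_ne_bot_iff_nontrivial B (TorM B 0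
        (B ⊗[S₁] (S₁ ⧸ maximalIdeal S₁)) (B ⊗[S₂] (S₂ ⧸ maximalIdeal S₂)))).2 n3
      generalize Module.supportDim B (TorM B 0
        (B ⊗[S₁] (S₁ ⧸ maximalIdeal S₁)) (B ⊗[S₂] (S₂ ⧸ maximalIdeal S₂))) = c at n4 ⊢
      induction c using WithBot.recBotCoe with
      | bot => exact absurd rfl n4
      | coe a => exact_mod_cast bot_le
  rw [add_zero] at h1
  obtain ⟨e⟩ := tor_symm (R := B) 0 (B ⊗[S₁] N) (B ⊗[S₂] (S₂ ⧸ maximalIdeal S₂))
  rwa [Module.supportDim_eq_of_equiv e] at h1

end independence

section main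

variable {S₁ S₂ B : Type u} [CommRing S₁] [CommRing S₂] [CommRing B] [Algebra S₁ B]
  [Algebra S₂ B]

/-- `(B ⊗ N)/δ(B ⊗ N) = N` if `B = S₁ + (δ)`. -/
theorem exists_quot_equiv (N : Type u) [AddCommGroup N] [Module B N] [Module S₁ N]
    [IsScalarTower S₁ B N] (I : Ideal B)
    (hres : ∀ b : B, ∃ s : S₁, b - algebraMap S₁ B s ∈ I)
    (hkill : ∀ z ∈ I, ∀ t : N, z • t = 0) :
    Nonempty (((B ⊗[S₁] N) ⧸ (I • ⊤ : Submodule B (B ⊗[S₁] N))) ≃ₗ[B] N) := by
  let π : B ⊗[S₁] N →ₗ[B] N := LinearMap.liftBaseChange B (LinearMap.id : N →ₗ[S₁] N)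
  have hπ : ∀ b t, π (b ⊗ₜ t) = b • t := fun b t => by simp [π]
  have hs : Surjective π := fun t => ⟨1 ⊗ₜ t, by rw [hπ, one_smul]⟩
  have hker : LinearMap.ker π = (I • ⊤ : Submodule B (B ⊗[S₁] N)) := by
    apply le_antisymm
    · have key : ∀ x : B ⊗[S₁] N, ∃ t : N, x - (1 : B) ⊗ₜ[S₁] t ∈
          (I • ⊤ : Submodule B (B ⊗[S₁] N)) := by
        intro x
        induction x using TensorProduct.induction_on with
        | zero => exact ⟨0, by simp⟩
        | tmul b t =>
          obtain ⟨s, hs⟩ := hres b
          refine ⟨s • t, ?_⟩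
          have h1 : b ⊗ₜ[S₁] t - (1 : B) ⊗ₜ[S₁] (s • t) =
              (b - algebraMap S₁ B s) • ((1 : B) ⊗ₜ[S₁] t) := by
            rw [← TensorProduct.smul_tmul, TensorProduct.smul_tmul', smul_eq_mul, mul_one,
              TensorProduct.sub_tmul, Algebra.smul_def, mul_one]
          rw [h1]
          exact Submodule.smul_mem_smul hs trivial
        | add x y hx hy =>
          obtain ⟨t, ht⟩ := hx
          obtain ⟨u, hu⟩ := hy
          refine ⟨t + u, ?_⟩
          rw [TensorProduct.tmul_add]
          have := add_mem ht hu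
          convert this using 1
          abel
      intro x hx
      obtain ⟨t, ht⟩ := key x
      have h2 : π (x - (1 : B) ⊗ₜ[S₁] t) = 0 := by
        have : ∀ y ∈ (I • ⊤ : Submodule B (B ⊗[S₁] N)), π y = 0 := by
          intro y hy
          induction hy using Submodule.smul_induction_on' with
          | smul a ha b hb => rw [map_smul, hkill a ha]
          | add a ha b hb h1 h2 => rw [map_add, h1, h2, add_zero]
        exact this _ ht
      rw [map_sub, hπ, one_smul, (LinearMap.mem_ker).1 hx, zero_sub, neg_eq_zero] at h2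
      rwa [h2, TensorProduct.tmul_zero, sub_zero] at ht
    · rw [Submodule.smul_le]
      intro a ha b _
      rw [LinearMap.mem_ker, map_smul, hkill a ha]
  exact ⟨Submodule.quotEquivOfEq _ _ hker.symm ≪≫ₗ π.quotKerEquivOfSurjective hs⟩

variable [IsLocalRing S₁] [IsNoetherianRing S₁] [IsLocalRing S₂] [IsNoetherianRing S₂]
  [IsLocalRing B] [IsNoetherianRing B]
  [Module.Flat S₁ B] [Module.Flat S₂ B]

omit [IsLocalRing S₁] [IsNoetherianRing S₁] in
/-- Reduction to the diagonal for the Euler characteristic. -/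
theorem eulerTor_eq_eul (δ : List B) (hδm : ∀ z ∈ δ, z ∈ maximalIdeal B)
    (hδreg : IsWeaklyRegular B δ)
    (hres : ∀ b : B, ∃ s : S₁, b - algebraMap S₁ B s ∈ Ideal.ofList δ)
    (D : Type u) [AddCommGroup D] [Module B D] [Module S₁ D] [IsScalarTower S₁ B D]
    [Module.Flat S₁ D] (eD : (B ⧸ (Ideal.ofList δ • ⊤ : Submodule B B)) ≃ₗ[B] D)
    (N : Type u) [AddCommGroup N] [Module B N] [Module S₁ N] [Module S₂ N]
    [IsScalarTower S₁ B N] [IsScalarTower S₂ B N] [Module.Finite S₁ N]
    (hkill : ∀ z ∈ Ideal.ofList δ, ∀ t : N, z • t = 0)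
    (hN2 : ∀ b : B, ∃ s : S₂, ∀ t : N, b • t = s • t)
    (M : Type u) [AddCommGroup M] [Module S₂ M] [Module.Finite S₂ M]
    (hv : ∀ j, 1 ≤ j → Subsingleton (TorM B j (B ⊗[S₂] M) (B ⊗[S₁] N)))
    (hlen : Module.length S₂ (M ⊗[S₂] N) ≠ ⊤) (n : ℕ) (hn : 1 + δ.length ≤ n) :
    eulerTor S₂ n M N = eul δ (TorM B 0 (B ⊗[S₁] N) (B ⊗[S₂] M)) ∧
      FL2 δ (B ⊗[S₁] N) (B ⊗[S₂] M) := by
  have hNfin : Module.Finite B N := Module.Finite.of_restrictScalars_finite S₁ B N
  obtain ⟨eq⟩ := exists_quot_equiv (S₁ := S₁) N (Ideal.ofList δ) hres hkill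
  -- regularity of `δ` on `B ⊗ N`
  have h1 : ∀ j, 1 ≤ j → Subsingleton (TorM B j (B ⧸ (Ideal.ofList δ • ⊤ : Submodule B B))
      (B ⊗[S₁] N)) := by
    intro j hj
    obtain ⟨i, rfl⟩ : ∃ k, j = k + 1 := ⟨j - 1, by omega⟩
    have h1 : Subsingleton (TorM B (i + 1) (B ⊗[S₁] N) D) :=
      tor_subsingleton_bc i (TensorProduct.isBaseChange S₁ N B) D
    obtain ⟨e2⟩ := tor_symm (R := B) (i + 1) D (B ⊗[S₁] N)
    have h2 : Subsingleton (TorM B (i + 1) D (B ⊗[S₁] N)) := e2.toEquiv.subsingleton
    exact (torCongrLeft (i + 1) eD (B ⊗[S₁] N)).toEquiv.subsingleton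
  have h2 := (regular_of_tor_vanish δ hδm B hδreg (B ⊗[S₁] N) h1).2
  have h3 : IsWeaklyRegular (B ⊗[S₁] N) δ := by
    have e : TorM B 0 B (B ⊗[S₁] N) ≃ₗ[B] (B ⊗[S₁] N) :=
      (torZero B (B ⊗[S₁] N)) ≪≫ₗ TensorProduct.lid B _
    exact (e.isWeaklyRegular_congr δ).1 h2
  -- vanishing
  have hv' : ∀ j, 1 ≤ j → Subsingleton (TorM B j (B ⊗[S₁] N) (B ⊗[S₂] M)) := by
    intro j hj
    have := hv j hj
    obtain ⟨e⟩ := tor_symm (R := B) j (B ⊗[S₁] N) (B ⊗[S₂] M)
    exact e.toEquiv.subsingleton
  -- finiteness
  have hlenB : Module.length B ((B ⊗[S₂] M) ⊗[B] N) ≠ ⊤ := by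
    rw [← length_tensor_bc (TensorProduct.isBaseChange S₂ M B) N hN2]
    exact hlen
  obtain ⟨k, hk⟩ := exists_pow_le_sup_annihilator (R := B) (B ⊗[S₂] M) N hlenB
  have hFL : FL2 δ (B ⊗[S₁] N) (B ⊗[S₂] M) := by
    have h4 : maximalIdeal B ≤ (Module.annihilator B (B ⊗[S₂] M) ⊔
        Module.annihilator B N).radical := by
      intro x hx
      exact ⟨k, hk (Ideal.pow_mem_pow hx k)⟩
    refine h4.trans ?_
    rw [Ideal.radical_le_radical_iff]
    refine sup_le ?_ ?_
    · exact (le_sup_of_le_left le_sup_right).trans Ideal.le_radical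
    · rw [← eq.annihilator_eq]
      refine (annihilator_quotient_le_radical _ _).trans (Ideal.radical_mono ?_)
      exact sup_le (le_sup_of_le_left le_sup_left) le_sup_right
  refine ⟨?_, hFL⟩
  have h5 := sum_length_tor_quot δ (B ⊗[S₂] M) n (B ⊗[S₁] N) h3 hFL 1 hv' hn
  have h6 : ∀ j, Module.length B (TorM B j ((B ⊗[S₁] N) ⧸
      (Ideal.ofList δ • ⊤ : Submodule B (B ⊗[S₁] N))) (B ⊗[S₂] M)) =
      Module.length S₂ (TorM S₂ j M N) := by
    intro j
    rw [(torCongrLeft j eq (B ⊗[S₂] M)).length_eq]
    obtain ⟨e⟩ := tor_symm (R := B) j N (B ⊗[S₂] M)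
    rw [e.length_eq]
    exact (length_tor_bc j (TensorProduct.isBaseChange S₂ M B) N hN2).symm
  simp only [h6] at h5
  unfold eulerTor
  rw [h5]
  obtain ⟨m, rfl⟩ : ∃ m, n = m + 1 := ⟨n - 1, by omega⟩
  rw [Finset.sum_range_succ']
  rw [Finset.sum_eq_zero, zero_add, pow_zero, one_mul]
  intro i _
  have := hv' (i + 1) (by omega)
  rw [eul_subsingleton δ (TorM B (i + 1) (B ⊗[S₁] N) (B ⊗[S₂] M)), mul_zero]

end main

end Vale.Agent.P177
end

section

/-!
Flat local base change: length and dimension.
-/

namespace Vale.Agent.P177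

open IsLocalRing TensorProduct

universe u v w

section general

variable {A : Type u} {C : Type v} [CommRing A] [CommRing C] [Algebra A C] [Module.Flat A C]

lemma mem_support_baseChange (M : Type w) [AddCommGroup M] [Module A M]
    (P : PrimeSpectrum C) (h : PrimeSpectrum.comap (algebraMap A C) P ∈ Module.support A M) :
    P ∈ Module.support C (C ⊗[A] M) := by
  obtain ⟨m, hm⟩ := Module.mem_support_iff_exists_annihilator.mp h
  rw [Module.mem_support_iff_exists_annihilator]
  refine ⟨1 ⊗ₜ m, ?_⟩
  intro c hc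
  rw [Submodule.mem_annihilator_span_singleton] at hc
  let J : Ideal A := (Submodule.span A {m}).annihilator
  let f : (A ⧸ J) →ₗ[A] M := Submodule.liftQ J (LinearMap.toSpanSingleton A M m) (by
    intro a ha
    rw [LinearMap.mem_ker, LinearMap.toSpanSingleton_apply]
    exact (Submodule.mem_annihilator_span_singleton m a).mp ha)
  have hf : Function.Injective f := by
    rw [← LinearMap.ker_eq_bot, Submodule.ker_liftQ_eq_bot']
    ext a
    rw [LinearMap.mem_ker, LinearMap.toSpanSingleton_apply]
    exact (Submodule.mem_annihilator_span_singleton m a)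
  have hfC : Function.Injective (f.lTensor C) := Module.Flat.lTensor_preserves_injective_linearMap f hf
  have h1 : f.lTensor C (c ⊗ₜ[A] (Ideal.Quotient.mk J 1)) = 0 := by
    rw [LinearMap.lTensor_tmul]
    have : f (Ideal.Quotient.mk J 1) = m := by
      change f (Submodule.Quotient.mk 1) = m
      rw [Submodule.liftQ_apply, LinearMap.toSpanSingleton_apply, one_smul]
    rw [this]
    rw [TensorProduct.smul_tmul', smul_eq_mul, mul_one] at hc
    exact hc
  have h2 : c ⊗ₜ[A] (Ideal.Quotient.mk J 1) = 0 := hfC (by rw [h1, map_zero])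
  have h3 : Ideal.Quotient.mk (J.map (algebraMap A C)) c = 0 := by
    apply (Algebra.TensorProduct.quotIdealMapEquivTensorQuot C J).injective
    rw [Algebra.TensorProduct.quotIdealMapEquivTensorQuot_mk, map_zero]
    exact h2
  rw [Ideal.Quotient.eq_zero_iff_mem] at h3
  have h4 : J.map (algebraMap A C) ≤ P.asIdeal := by
    rw [Ideal.map_le_iff_le_comap]
    exact hm
  exact h4 h3

theorem supportDim_le_baseChange_of_faithfullyFlat [Module.FaithfullyFlat A C]
    (M : Type w) [AddCommGroup M] [Module A M] :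
    Module.supportDim A M ≤ Module.supportDim C (C ⊗[A] M) := by
  refine iSup_le fun l => ?_
  let l' : LTSeries (PrimeSpectrum A) := l.map Subtype.val (fun _ _ h => h)
  obtain ⟨Q, hQ, hQl⟩ := Ideal.exists_isPrime_liesOver_of_faithfullyFlat (B := C) l'.last.asIdeal
  obtain ⟨L, hlen, -, hmap⟩ := Ideal.exists_ltSeries_of_hasGoingDown l' Q
  have hmem : ∀ i, L i ∈ Module.support C (C ⊗[A] M) := by
    intro i
    apply mem_support_baseChange
    have h1 : PrimeSpectrum.comap (algebraMap A C) (L i) ∈ l'.toList := by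
      rw [← hmap]
      apply List.mem_map_of_mem
      rw [RelSeries.mem_toList]
      exact ⟨i, rfl⟩
    rw [RelSeries.mem_toList] at h1
    obtain ⟨j, hj⟩ := h1
    rw [← hj]
    exact (l j).2
  let L' : LTSeries (Module.support C (C ⊗[A] M)) :=
    { length := L.length
      toFun := fun i => ⟨L i, hmem i⟩
      step := fun i => L.step i }
  have : (l.length : WithBot ℕ∞) = L'.length := by
    change (l.length : WithBot ℕ∞) = (L.length : WithBot ℕ∞)
    rw [hlen]
    rfl
  rw [this]
  exact le_iSup (fun p : LTSeries (Module.support C (C ⊗[A] M)) => (p.length : WithBot ℕ∞)) L'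

end general

section TaskG

variable (A C : Type u) [CommRing A] [IsLocalRing A] [IsNoetherianRing A]
  [CommRing C] [IsLocalRing C] [IsNoetherianRing C] [Algebra A C] [Module.Flat A C]
  (hloc : (maximalIdeal A).map (algebraMap A C) = maximalIdeal C)
  (hres : ∀ c : C, ∃ a : A, c - algebraMap A C a ∈ maximalIdeal C)

omit [IsNoetherianRing A] [IsNoetherianRing C] [Module.Flat A C] in
include hloc in
lemma isLocalHom_of_map_maximalIdeal : IsLocalHom (algebraMap A C) :=
  ((local_hom_TFAE (algebraMap A C)).out 0 2).mpr hloc.le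

omit [IsNoetherianRing A] [IsNoetherianRing C] in
include hloc in
theorem length_baseChange' (T : Type u) [AddCommGroup T] [Module A T] :
    Module.length C (C ⊗[A] T) = Module.length A T := by
  have := isLocalHom_of_map_maximalIdeal A C hloc
  rw [IsLocalRing.length_baseChange, hloc]
  have : Module.length C (C ⧸ maximalIdeal C) = 1 := by
    rw [Module.length_eq_one_iff]
    exact isSimpleModule_iff_quot_maximal.mpr ⟨_, inferInstance, ⟨LinearEquiv.refl _ _⟩⟩
  rw [this, mul_one]

omit [IsNoetherianRing A] [IsNoetherianRing C] in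
include hloc in
theorem supportDim_le_baseChange (M : Type u) [AddCommGroup M] [Module A M] [Module.Finite A M] :
    Module.supportDim A M ≤ Module.supportDim C (C ⊗[A] M) := by
  have := isLocalHom_of_map_maximalIdeal A C hloc
  have : Module.FaithfullyFlat A C := Module.FaithfullyFlat.of_flat_of_isLocalHom
  exact supportDim_le_baseChange_of_faithfullyFlat M

end TaskG

end Vale.Agent.P177
end

section

/-!
Flat local base change of Tor (both variables) and additivity of Euler characteristics.
-/

namespace Vale.Agent.P177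

open CategoryTheory TensorProduct Function IsLocalRing RingTheory.Sequence Pointwise

universe u

section bc2

variable {A C : Type u} [CommRing A] [CommRing C] [Algebra A C]
variable {K F N X Y Z : Type u} [AddCommGroup K] [Module A K] [AddCommGroup F] [Module A F]
  [AddCommGroup N] [Module A N]
  [AddCommGroup X] [Module A X] [Module C X] [IsScalarTower A C X]
  [AddCommGroup Y] [Module A Y] [Module C Y] [IsScalarTower A C Y]
  [AddCommGroup Z] [Module A Z] [Module C Z] [IsScalarTower A C Z]

theorem exists_cancel₂ {φ : K →ₗ[A] X} (hφ : IsBaseChange C φ) {ψ : N →ₗ[A] Y}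
    (hψ : IsBaseChange C ψ) :
    ∃ e : X ⊗[C] Y ≃ₗ[C] C ⊗[A] (K ⊗[A] N),
      ∀ c k n, e.symm (c ⊗ₜ[A] (k ⊗ₜ[A] n)) = c • (φ k ⊗ₜ[C] ψ n) := by
  refine ⟨(AlgebraTensorModule.distribBaseChange A C K N ≪≫ₗ
    TensorProduct.congr hφ.equiv hψ.equiv).symm, ?_⟩
  intro c k n
  rw [LinearEquiv.symm_symm, LinearEquiv.trans_apply]
  simp [IsBaseChange.equiv_tmul, TensorProduct.smul_tmul']

theorem length_ker_baseChange_flat [IsLocalRing A] [IsLocalRing C] [Module.Flat A C]
    (hloc : (maximalIdeal A).map (algebraMap A C) = maximalIdeal C) {P Q : Type u}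
    [AddCommGroup P] [Module A P] [AddCommGroup Q] [Module A Q] (f : P →ₗ[A] Q) :
    Module.length C (LinearMap.ker (f.baseChange C)) = Module.length A (LinearMap.ker f) := by
  rw [← length_baseChange' A C hloc (LinearMap.ker f)]
  have hex : Exact (LinearMap.ker f).subtype f := by
    intro x
    simp
  have h1 : Injective ((LinearMap.ker f).subtype.baseChange C) := by
    rw [LinearMap.baseChange_eq_ltensor]
    exact Module.Flat.lTensor_preserves_injective_linearMap _ (Submodule.injective_subtype _)
  have h2 : Exact ((LinearMap.ker f).subtype.baseChange C) (f.baseChange C) := by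
    rw [LinearMap.baseChange_eq_ltensor, LinearMap.baseChange_eq_ltensor]
    exact Module.Flat.lTensor_exact C hex
  have h3 := LinearEquiv.ofInjective _ h1
  rw [LinearMap.exact_iff.1 h2]
  exact h3.symm.length_eq

/-- Both variables base changed along a flat local map with `m_A C = m_C`. -/
theorem length_tor_bc₂ [IsLocalRing A] [IsLocalRing C] [Module.Flat A C]
    (hloc : (maximalIdeal A).map (algebraMap A C) = maximalIdeal C) (n : ℕ) {K X N Y : Type u}
    [AddCommGroup K] [Module A K] [AddCommGroup N] [Module A N]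
    [AddCommGroup X] [Module A X] [Module C X] [IsScalarTower A C X]
    [AddCommGroup Y] [Module A Y] [Module C Y] [IsScalarTower A C Y]
    {φ : K →ₗ[A] X} (hφ : IsBaseChange C φ) {ψ : N →ₗ[A] Y} (hψ : IsBaseChange C ψ) :
    Module.length A (TorM A n K N) = Module.length C (TorM C n X Y) := by
  induction n generalizing K X with
  | zero =>
    obtain ⟨e, -⟩ := exists_cancel₂ hφ hψ
    rw [(torZero K N).length_eq, (torZero X Y).length_eq, e.length_eq,
      length_baseChange' A C hloc]
  | succ n ih =>
    obtain ⟨F, K1, _, _, _, _, i, g, hF, hi, hg, h⟩ := exists_cover A K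
    obtain ⟨Y1, _, _, _, _, ψ1, hψ1⟩ := exists_baseChange (R := A) C F
    obtain ⟨X1, _, _, _, _, φ1, hφ1⟩ := exists_baseChange (R := A) C K1
    let j : X1 →ₗ[C] Y1 := hφ1.lift (ψ1 ∘ₗ i)
    have hj : ∀ k, j (φ1 k) = ψ1 (i k) := fun k => hφ1.lift_eq _ k
    let q : Y1 →ₗ[C] X := hψ1.lift (φ ∘ₗ g)
    have hq : ∀ y, q (ψ1 y) = φ (g y) := fun y => hψ1.lift_eq _ y
    have hjinj : Injective j := bc_injective hφ1 hψ1 i j hj hi
    have hqs : Surjective q := bc_surjective hψ1 hφ g q hq hg
    have hex : Exact j q := bc_exact hφ1 hψ1 hφ i j hj g q hq hg h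
    have hYflat : Module.Flat C Y1 := Module.Flat.isBaseChange A C F Y1 hψ1
    cases n with
    | zero =>
      obtain ⟨e1⟩ := tor_one i g hi hg h N
      obtain ⟨e2⟩ := tor_one j q hjinj hqs hex Y
      rw [e1.length_eq, e2.length_eq, ← length_ker_baseChange_flat (C := C) hloc (i.rTensor N)]
      obtain ⟨eX, heX⟩ := exists_cancel₂ hφ1 hψ
      obtain ⟨eY, heY⟩ := exists_cancel₂ hψ1 hψ
      have key : ∀ z : C ⊗[A] (K1 ⊗[A] N), j.rTensor Y (eX.symm z) =
          eY.symm ((i.rTensor N).baseChange C z) := by
        intro z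
        induction z using TensorProduct.induction_on with
        | zero => simp
        | tmul c w =>
          induction w using TensorProduct.induction_on with
          | zero => simp
          | tmul k n =>
            rw [heX, map_smul, LinearMap.rTensor_tmul, hj, LinearMap.baseChange_tmul,
              LinearMap.rTensor_tmul, heY]
          | add a b ha hb => rw [TensorProduct.tmul_add, map_add, map_add, ha, hb, map_add, map_add]
        | add a b ha hb => rw [map_add, map_add, ha, hb, map_add, map_add]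
      obtain ⟨e3⟩ := ker_equiv eX.symm eY.symm ((i.rTensor N).baseChange C) (j.rTensor Y) key
      exact e3.length_eq
    | succ n =>
      obtain ⟨e1⟩ := tor_shift i g hi hg h N n
      obtain ⟨e2⟩ := tor_shift j q hjinj hqs hex Y n
      rw [e1.length_eq, e2.length_eq]
      exact ih hφ1

end bc2

section additivity

variable {R : Type u} [CommRing R]

/-- Alternating sums along the long exact sequence. -/
theorem eulerTor_add_aux {M' M M'' : Type u} [AddCommGroup M'] [Module R M']
    [AddCommGroup M] [Module R M] [AddCommGroup M''] [Module R M'']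
    (f : M' →ₗ[R] M) (g : M →ₗ[R] M'') (hf : Injective f) (hg : Surjective g) (h : Exact f g)
    (N : Type u) [AddCommGroup N] [Module R N]
    (h1 : ∀ i, Module.length R (TorM R i M' N) ≠ ⊤)
    (h2 : ∀ i, Module.length R (TorM R i M N) ≠ ⊤)
    (n : ℕ)
    (hn : Module.length R (TorM R n M'' N) = 0) :
    eulerTor R n M N = eulerTor R n M' N + eulerTor R n M'' N := by
  obtain ⟨δ, k1, k2, k3⟩ := exists_torDelta f g hf hg h N
  have l1 : ∀ i, Module.length R (TorM R i M' N) = Module.length R (LinearMap.range (δ i)) +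
      Module.length R (LinearMap.range (torMap i f N)) := by
    intro i
    rw [length_ker_add_range (torMap i f N), LinearMap.exact_iff.1 (k2 i)]
  have l2 : ∀ i, Module.length R (TorM R i M N) =
      Module.length R (LinearMap.range (torMap i f N)) +
      Module.length R (LinearMap.range (torMap i g N)) := by
    intro i
    rw [length_ker_add_range (torMap i g N), LinearMap.exact_iff.1 (k3 i)]
  have l3 : ∀ i, Module.length R (TorM R (i + 1) M'' N) =
      Module.length R (LinearMap.range (torMap (i + 1) g N)) +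
      Module.length R (LinearMap.range (δ i)) := by
    intro i
    rw [length_ker_add_range (δ i), LinearMap.exact_iff.1 (k1 i)]
  have l4 : Module.length R (TorM R 0 M'' N) =
      Module.length R (LinearMap.range (torMap 0 g N)) := by
    rw [LinearMap.range_eq_top.2 (torMap_zero_surjective g hg N), Module.length_top]
  have f1 : ∀ i, Module.length R (LinearMap.range (δ i)) ≠ ⊤ := fun i hi =>
    h1 i (by rw [l1, hi, top_add])
  have f2 : ∀ i, Module.length R (LinearMap.range (torMap i f N)) ≠ ⊤ := fun i hi =>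
    h1 i (by rw [l1, hi, add_top])
  have f3 : ∀ i, Module.length R (LinearMap.range (torMap i g N)) ≠ ⊤ := fun i hi =>
    h2 i (by rw [l2, hi, add_top])
  have m1 : ∀ i, ((Module.length R (TorM R i M' N)).toNat : ℤ) =
      (Module.length R (LinearMap.range (δ i))).toNat +
      (Module.length R (LinearMap.range (torMap i f N))).toNat := by
    intro i
    rw [l1, ENat.toNat_add (f1 i) (f2 i)]
    push_cast
    ring
  have m2 : ∀ i, ((Module.length R (TorM R i M N)).toNat : ℤ) =
      (Module.length R (LinearMap.range (torMap i f N))).toNat +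
      (Module.length R (LinearMap.range (torMap i g N))).toNat := by
    intro i
    rw [l2, ENat.toNat_add (f2 i) (f3 i)]
    push_cast
    ring
  have m3 : ∀ i, ((Module.length R (TorM R (i + 1) M'' N)).toNat : ℤ) =
      (Module.length R (LinearMap.range (torMap (i + 1) g N))).toNat +
      (Module.length R (LinearMap.range (δ i))).toNat := by
    intro i
    rw [l3, ENat.toNat_add (f3 _) (f1 _)]
    push_cast
    ring
  have key : ∀ n, eulerTor R (n + 1) M' N + eulerTor R (n + 1) M'' N -
      eulerTor R (n + 1) M N = (-1) ^ n * (Module.length R (LinearMap.range (δ n))).toNat := by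
    intro n
    unfold eulerTor
    induction n with
    | zero =>
      simp only [zero_add, Finset.sum_range_one, pow_zero, one_mul]
      rw [m1, m2, l4]
      ring
    | succ n ih =>
      rw [Finset.sum_range_succ, Finset.sum_range_succ _ (n + 1), Finset.sum_range_succ _ (n + 1)]
      rw [m1, m2, m3, pow_succ]
      linear_combination ih
  cases n with
  | zero => simp [eulerTor]
  | succ n =>
    have h5 : Module.length R (LinearMap.range (δ n)) = 0 := by
      have := l3 n
      rw [hn] at this
      have h6 : Module.length R (LinearMap.range (δ n)) ≤ 0 := by rw [this]; exact le_add_self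
      exact le_antisymm h6 bot_le
    have h7 := key n
    rw [h5] at h7
    simp only [ENat.toNat_zero, Nat.cast_zero, mul_zero] at h7
    linarith

end additivity

section dim

/-- Dimension over a quotient ring. -/
theorem supportDim_eq_of_surjective {R A : Type u} [CommRing R] [CommRing A] [Algebra R A]
    (hs : Surjective (algebraMap R A)) (M : Type u) [AddCommGroup M] [Module R M] [Module A M]
    [IsScalarTower R A M] [Module.Finite R M] :
    Module.supportDim R M = Module.supportDim A M := by
  have : Module.Finite A M := Module.Finite.of_restrictScalars_finite R A M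
  rw [Module.supportDim_eq_ringKrullDim_quotient_annihilator,
    Module.supportDim_eq_ringKrullDim_quotient_annihilator]
  have h1 : (Ideal.Quotient.mk (Module.annihilator A M)).comp (algebraMap R A) =
      (Ideal.Quotient.mk (Module.annihilator A M)).comp (algebraMap R A) := rfl
  let ψ : R →+* A ⧸ Module.annihilator A M :=
    (Ideal.Quotient.mk (Module.annihilator A M)).comp (algebraMap R A)
  have hψ : Surjective ψ := Ideal.Quotient.mk_surjective.comp hs
  have hker : RingHom.ker ψ = Module.annihilator R M := by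
    ext r
    rw [RingHom.mem_ker]
    change Ideal.Quotient.mk _ (algebraMap R A r) = 0 ↔ _
    rw [Ideal.Quotient.eq_zero_iff_mem, Module.mem_annihilator, Module.mem_annihilator]
    simp
  exact ringKrullDim_eq_of_ringEquiv ((Ideal.quotEquivOfEq hker.symm).trans
    (RingHom.quotientKerEquivOfSurjective hψ))

end dim

end Vale.Agent.P177
end

section

/-!
Flat base change isomorphism for Tor in both variables.
-/

namespace Vale.Agent.P177

open CategoryTheory TensorProduct Function IsLocalRing RingTheory.Sequence Pointwise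

universe u

variable {A C : Type u} [CommRing A] [CommRing C] [Algebra A C]

theorem exists_ker_baseChange_equiv [Module.Flat A C] {P Q : Type u}
    [AddCommGroup P] [Module A P] [AddCommGroup Q] [Module A Q] (f : P →ₗ[A] Q) :
    Nonempty (LinearMap.ker (f.baseChange C) ≃ₗ[C] C ⊗[A] (LinearMap.ker f)) := by
  have hex : Exact (LinearMap.ker f).subtype f := by
    intro x
    simp
  have h1 : Injective ((LinearMap.ker f).subtype.baseChange C) := by
    rw [LinearMap.baseChange_eq_ltensor]
    exact Module.Flat.lTensor_preserves_injective_linearMap _ (Submodule.injective_subtype _)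
  have h2 : Exact ((LinearMap.ker f).subtype.baseChange C) (f.baseChange C) := by
    rw [LinearMap.baseChange_eq_ltensor, LinearMap.baseChange_eq_ltensor]
    exact Module.Flat.lTensor_exact C hex
  have h3 := LinearEquiv.ofInjective _ h1
  rw [LinearMap.exact_iff.1 h2]
  exact ⟨h3.symm⟩

/-- Flat base change for Tor, both variables. -/
theorem exists_tor_flat_iso [Module.Flat A C] (n : ℕ) {K X N Y : Type u}
    [AddCommGroup K] [Module A K] [AddCommGroup N] [Module A N]
    [AddCommGroup X] [Module A X] [Module C X] [IsScalarTower A C X]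
    [AddCommGroup Y] [Module A Y] [Module C Y] [IsScalarTower A C Y]
    {φ : K →ₗ[A] X} (hφ : IsBaseChange C φ) {ψ : N →ₗ[A] Y} (hψ : IsBaseChange C ψ) :
    Nonempty (TorM C n X Y ≃ₗ[C] C ⊗[A] (TorM A n K N)) := by
  induction n generalizing K X with
  | zero =>
    obtain ⟨e, -⟩ := exists_cancel₂ hφ hψ
    exact ⟨torZero X Y ≪≫ₗ e ≪≫ₗ (torZero K N).symm.baseChange A C _ _⟩
  | succ n ih =>
    obtain ⟨F, K1, _, _, _, _, i, g, hF, hi, hg, h⟩ := exists_cover A K
    obtain ⟨Y1, _, _, _, _, ψ1, hψ1⟩ := exists_baseChange (R := A) C F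
    obtain ⟨X1, _, _, _, _, φ1, hφ1⟩ := exists_baseChange (R := A) C K1
    let j : X1 →ₗ[C] Y1 := hφ1.lift (ψ1 ∘ₗ i)
    have hj : ∀ k, j (φ1 k) = ψ1 (i k) := fun k => hφ1.lift_eq _ k
    let q : Y1 →ₗ[C] X := hψ1.lift (φ ∘ₗ g)
    have hq : ∀ y, q (ψ1 y) = φ (g y) := fun y => hψ1.lift_eq _ y
    have hjinj : Injective j := bc_injective hφ1 hψ1 i j hj hi
    have hqs : Surjective q := bc_surjective hψ1 hφ g q hq hg
    have hex : Exact j q := bc_exact hφ1 hψ1 hφ i j hj g q hq hg h
    have hYflat : Module.Flat C Y1 := Module.Flat.isBaseChange A C F Y1 hψ1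
    cases n with
    | zero =>
      obtain ⟨e1⟩ := tor_one i g hi hg h N
      obtain ⟨e2⟩ := tor_one j q hjinj hqs hex Y
      obtain ⟨eX, heX⟩ := exists_cancel₂ hφ1 hψ
      obtain ⟨eY, heY⟩ := exists_cancel₂ hψ1 hψ
      have key : ∀ z : C ⊗[A] (K1 ⊗[A] N), j.rTensor Y (eX.symm z) =
          eY.symm ((i.rTensor N).baseChange C z) := by
        intro z
        induction z using TensorProduct.induction_on with
        | zero => simp
        | tmul c w =>
          induction w using TensorProduct.induction_on with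
          | zero => simp
          | tmul k n =>
            rw [heX, map_smul, LinearMap.rTensor_tmul, hj, LinearMap.baseChange_tmul,
              LinearMap.rTensor_tmul, heY]
          | add a b ha hb => rw [TensorProduct.tmul_add, map_add, map_add, ha, hb, map_add, map_add]
        | add a b ha hb => rw [map_add, map_add, ha, hb, map_add, map_add]
      obtain ⟨e3⟩ := ker_equiv eX.symm eY.symm ((i.rTensor N).baseChange C) (j.rTensor Y) key
      obtain ⟨e4⟩ := exists_ker_baseChange_equiv (C := C) (i.rTensor N)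
      exact ⟨e2 ≪≫ₗ e3.symm ≪≫ₗ e4 ≪≫ₗ e1.symm.baseChange A C _ _⟩
    | succ n =>
      obtain ⟨e1⟩ := tor_shift i g hi hg h N n
      obtain ⟨e2⟩ := tor_shift j q hjinj hqs hex Y n
      obtain ⟨e3⟩ := ih hφ1
      exact ⟨e2 ≪≫ₗ e3 ≪≫ₗ e1.symm.baseChange A C _ _⟩

end Vale.Agent.P177
end

section

/-!
Serre's theorem: localizations of regular local rings are regular.
-/

namespace Vale.Agent.P177

open CategoryTheory TensorProduct Function IsLocalRing RingTheory.Sequence Pointwise

universe u

section crit

variable (S : Type u) [CommRing S] [IsLocalRing S] [IsNoetherianRing S]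

/-- vanishing against the residue field -/
theorem tor_vanish_of_residue (n : ℕ) (Z : Type u) [AddCommGroup Z] [Module S Z]
    [Module.Finite S Z]
    (h : ∀ j, n ≤ j → Subsingleton (TorM S j (S ⧸ maximalIdeal S) Z))
    (M : Type u) [AddCommGroup M] [Module S M] [Module.Finite S M] (j : ℕ) (hj : n ≤ j) :
    Subsingleton (TorM S j M Z) := by
  have h3 := local_crit (S := S) (B := S) n Z (fun j hj => by
    have := h j hj
    exact (torCongrLeft j (TensorProduct.lid S _) Z).toEquiv.subsingleton) M j hj
  exact (torCongrLeft j (TensorProduct.lid S M).symm Z).toEquiv.subsingleton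

/-- If `k` embeds in `S` and `Tor_j(k,k)` vanishes for large `j` then `S` is a field. -/
theorem maximalIdeal_eq_bot_of_embedding (n₀ : ℕ)
    (h : ∀ j, n₀ ≤ j → Subsingleton (TorM S j (S ⧸ maximalIdeal S) (S ⧸ maximalIdeal S)))
    (f : (S ⧸ maximalIdeal S) →ₗ[S] S) (hf : Injective f) : maximalIdeal S = ⊥ := by
  classical
  have hex : ∃ n, ∀ j, n ≤ j →
      Subsingleton (TorM S j (S ⧸ maximalIdeal S) (S ⧸ maximalIdeal S)) := ⟨n₀, h⟩
  obtain ⟨hn, hmin⟩ : (∀ j, Nat.find hex ≤ j →
      Subsingleton (TorM S j (S ⧸ maximalIdeal S) (S ⧸ maximalIdeal S))) ∧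
      ∀ m, m < Nat.find hex → ¬ (∀ j, m ≤ j →
        Subsingleton (TorM S j (S ⧸ maximalIdeal S) (S ⧸ maximalIdeal S))) :=
    ⟨Nat.find_spec hex, fun m hm => Nat.find_min hex hm⟩
  generalize Nat.find hex = n at hn hmin
  have hall := tor_vanish_of_residue S n (S ⧸ maximalIdeal S) hn
  rcases n with _ | _ | n
  · exfalso
    have h0 := hn 0 le_rfl
    have h1 := nontrivial_tor_zero (B := S) (S ⧸ maximalIdeal S) (S ⧸ maximalIdeal S)
    exact not_subsingleton _ h0
  · have h1 := hn 1 le_rfl
    by_contra hne
    have hnt : Nontrivial (maximalIdeal S) := Submodule.nontrivial_iff_ne_bot.2 hne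
    have hex2 : Exact (maximalIdeal S).subtype (maximalIdeal S).mkQ :=
      LinearMap.exact_subtype_mkQ _
    obtain ⟨e⟩ := tor_one (maximalIdeal S).subtype (maximalIdeal S).mkQ
      (Submodule.injective_subtype _) (Submodule.mkQ_surjective _) hex2 (S ⧸ maximalIdeal S)
    have h2 : LinearMap.ker ((maximalIdeal S).subtype.rTensor (S ⧸ maximalIdeal S)) = ⊤ := by
      rw [eq_top_iff]
      intro x _
      rw [LinearMap.mem_ker]
      induction x using TensorProduct.induction_on with
      | zero => simp
      | tmul a b =>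
        obtain ⟨b, rfl⟩ := Submodule.mkQ_surjective _ b
        rw [LinearMap.rTensor_tmul]
        have h5 : ((maximalIdeal S).subtype a) ⊗ₜ[S] ((maximalIdeal S).mkQ b) =
            (1 : S) ⊗ₜ[S] ((a : S) • (maximalIdeal S).mkQ b) := by
          rw [← TensorProduct.smul_tmul, smul_eq_mul, mul_one]
          rfl
        rw [h5, ← map_smul, smul_eq_mul]
        have h6 : (maximalIdeal S).mkQ ((a : S) * b) = 0 := by
          rw [Submodule.mkQ_apply, Submodule.Quotient.mk_eq_zero]
          exact Ideal.mul_mem_right _ _ a.2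
        rw [h6, TensorProduct.tmul_zero]
      | add x y hx hy => rw [map_add, hx trivial, hy trivial, add_zero]
    have h3 : Subsingleton (LinearMap.ker
      ((maximalIdeal S).subtype.rTensor (S ⧸ maximalIdeal S))) := e.symm.toEquiv.subsingleton
    have h4 := nontrivial_tor_zero (B := S) (maximalIdeal S) (S ⧸ maximalIdeal S)
    have h5 : Subsingleton (TorM S 0 (maximalIdeal S) (S ⧸ maximalIdeal S)) := by
      refine ⟨fun x y => ?_⟩
      apply (torZero (maximalIdeal S) (S ⧸ maximalIdeal S)).injective
      have hx : torZero (maximalIdeal S) (S ⧸ maximalIdeal S) x ∈ LinearMap.ker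
        ((maximalIdeal S).subtype.rTensor (S ⧸ maximalIdeal S)) := by rw [h2]; trivial
      have hy : torZero (maximalIdeal S) (S ⧸ maximalIdeal S) y ∈ LinearMap.ker
        ((maximalIdeal S).subtype.rTensor (S ⧸ maximalIdeal S)) := by rw [h2]; trivial
      exact congrArg Subtype.val (Subsingleton.elim (⟨_, hx⟩ : LinearMap.ker
        ((maximalIdeal S).subtype.rTensor (S ⧸ maximalIdeal S))) ⟨_, hy⟩)
    exact not_subsingleton _ h5
  · exfalso
    apply hmin (n + 1) (by omega)
    intro j hj
    rcases Nat.eq_or_lt_of_le hj with rfl | hlt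
    · have hex3 : Exact f (LinearMap.range f).mkQ := LinearMap.exact_map_mkQ_range f
      obtain ⟨δ, h1, h2, -⟩ := exists_torDelta f (LinearMap.range f).mkQ hf
        (Submodule.mkQ_surjective _) hex3 (S ⧸ maximalIdeal S)
      have h4 : Subsingleton (TorM S (n + 1 + 1) (S ⧸ LinearMap.range f) (S ⧸ maximalIdeal S)) :=
        hall _ _ le_rfl
      have h5 : Subsingleton (TorM S (n + 1) S (S ⧸ maximalIdeal S)) :=
        tor_subsingleton_of_flat n
      refine subsingleton_of_forall_eq 0 fun x => ?_
      obtain ⟨y, rfl⟩ := (h2 (n + 1) x).1 (Subsingleton.elim _ _)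
      rw [Subsingleton.elim y 0, map_zero]
    · exact hn j (by omega)

/-- Choice of a good element. -/
theorem exists_regular_notMem_sq (hne : maximalIdeal S ≠ ⊥)
    (hass : maximalIdeal S ∉ associatedPrimes S S) :
    ∃ x ∈ maximalIdeal S, x ∉ maximalIdeal S ^ 2 ∧ IsSMulRegular S x := by
  classical
  have hfin := associatedPrimes.finite S S
  by_contra hcon
  push Not at hcon
  have hsub : (maximalIdeal S : Set S) ⊆
      ⋃ i ∈ (↑(insert (maximalIdeal S ^ 2) hfin.toFinset) : Set (Ideal S)),
        ((id i : Ideal S) : Set S) := by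
    intro z hz
    by_cases hz2 : z ∈ maximalIdeal S ^ 2
    · exact Set.mem_biUnion (Finset.mem_coe.mpr (Finset.mem_insert_self _ _)) hz2
    · have h1 := hcon z hz hz2
      have h2 : z ∈ ⋃ p ∈ associatedPrimes S S, (p : Set S) := by
        rw [biUnion_associatedPrimes_eq_compl_nonZeroDivisors]
        intro h3
        apply h1
        intro a b hab
        have h4 : z * (a - b) = 0 := by
          rw [mul_sub, sub_eq_zero]
          exact hab
        exact sub_eq_zero.1 ((mem_nonZeroDivisors_iff.1 h3).1 _ h4)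
      simp only [Set.mem_iUnion] at h2
      obtain ⟨P, hP, hzP⟩ := h2
      exact Set.mem_biUnion (Finset.mem_coe.mpr (Finset.mem_insert_of_mem
        (hfin.mem_toFinset.mpr hP))) hzP
  rw [Ideal.subset_union_prime (f := id) (maximalIdeal S ^ 2) (maximalIdeal S ^ 2)] at hsub
  · obtain ⟨P, hP, hle⟩ := hsub
    rcases Finset.mem_insert.mp hP with rfl | hP
    · apply hne
      apply Submodule.eq_bot_of_le_smul_of_le_jacobson_bot (maximalIdeal S) _
        ((maximalIdeal S).fg_of_isNoetherianRing)
      · rw [smul_eq_mul, ← pow_two]; exact hle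
      · rw [IsLocalRing.jacobson_eq_maximalIdeal _ bot_ne_top]
    · have hP2 := hfin.mem_toFinset.mp hP
      have hPp : P.IsPrime := hP2.1
      have hPeq : P = maximalIdeal S := le_antisymm (le_maximalIdeal hPp.ne_top) hle
      exact hass (hPeq ▸ hP2)
  · intro P hP h1 _
    rcases Finset.mem_insert.mp hP with rfl | hP
    · exact absurd rfl h1
    · exact (hfin.mem_toFinset.mp hP).1

/-- A functional on the maximal ideal. -/
theorem exists_functional (x : maximalIdeal S) (hx : (x : S) ∉ maximalIdeal S ^ 2) :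
    ∃ l : maximalIdeal S →ₗ[S] (S ⧸ maximalIdeal S), l x = Ideal.Quotient.mk _ 1 := by
  have h0 : (maximalIdeal S).toCotangent x ≠ 0 := by
    rw [Ne, Ideal.toCotangent_eq_zero]
    exact hx
  have h1 : ∃ f : Module.Dual (ResidueField S) (CotangentSpace S),
      f ((maximalIdeal S).toCotangent x) ≠ 0 := by
    by_contra hcon
    push Not at hcon
    exact h0 ((Module.forall_dual_apply_eq_zero_iff (ResidueField S) _).1 hcon)
  obtain ⟨f, hf⟩ := h1
  let g : Module.Dual (ResidueField S) (CotangentSpace S) :=
    (f ((maximalIdeal S).toCotangent x))⁻¹ • f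
  have hg : g ((maximalIdeal S).toCotangent x) = 1 := by
    change (f ((maximalIdeal S).toCotangent x))⁻¹ • f ((maximalIdeal S).toCotangent x) = 1
    rw [smul_eq_mul, inv_mul_cancel₀ hf]
  let l : maximalIdeal S →ₗ[S] ResidueField S :=
    (g.restrictScalars S) ∘ₗ (maximalIdeal S).toCotangent
  exact ⟨l, hg⟩

end crit

section step

variable {S A : Type u} [CommRing S] [IsLocalRing S] [IsNoetherianRing S] [CommRing A]
  [IsLocalRing A] [Algebra S A]

omit [IsNoetherianRing S] in
theorem exists_residue_equiv (hsurj : Surjective (algebraMap S A)) :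
    ∃ e : (S ⧸ maximalIdeal S) ≃ₗ[S] (A ⧸ maximalIdeal A),
      e (Submodule.Quotient.mk 1) = Submodule.Quotient.mk 1 := by
  let q : S →ₗ[S] (A ⧸ maximalIdeal A) :=
    ((maximalIdeal A).mkQ.restrictScalars S) ∘ₗ (Algebra.linearMap S A)
  have hq : Surjective q := (Submodule.mkQ_surjective _).comp hsurj
  have hker : LinearMap.ker q = maximalIdeal S := by
    have h1 : LinearMap.ker q = (maximalIdeal A).comap (algebraMap S A) := by
      ext s
      rw [LinearMap.mem_ker, Ideal.mem_comap]
      change (maximalIdeal A).mkQ _ = 0 ↔ _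
      rw [Submodule.mkQ_apply, Submodule.Quotient.mk_eq_zero]
      rfl
    rw [h1]
    have : IsLocalHom (algebraMap S A) := IsLocalHom.of_surjective _ hsurj
    exact ((IsLocalRing.local_hom_TFAE (algebraMap S A)).out 0 4).1 this
  refine ⟨Submodule.quotEquivOfEq _ _ hker.symm ≪≫ₗ q.quotKerEquivOfSurjective hq, ?_⟩
  change q 1 = _
  change (maximalIdeal A).mkQ (algebraMap S A 1) = _
  rw [map_one]
  rfl

/-- Tor over `S/x` of the residue field vanishes if it does over `S`. -/
theorem tor_residue_quotient (x : S) (hx : x ∈ maximalIdeal S) (hx2 : x ∉ maximalIdeal S ^ 2)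
    (H : IsHypersurface S A x) (n₀ : ℕ)
    (h : ∀ j, n₀ ≤ j → Subsingleton (TorM S j (S ⧸ maximalIdeal S) (S ⧸ maximalIdeal S)))
    (j : ℕ) (hj : n₀ + 1 ≤ j) :
    Subsingleton (TorM A j (A ⧸ maximalIdeal A) (A ⧸ maximalIdeal A)) := by
  have hm : (maximalIdeal S).map (algebraMap S A) = maximalIdeal A :=
    map_maximalIdeal_of_surjective _ H.surj
  obtain ⟨e, he⟩ := exists_residue_equiv (S := S) (A := A) H.surj
  have hKreg : IsSMulRegular (maximalIdeal S) x := by
    intro a b hab
    apply Subtype.ext
    apply H.regular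
    exact congrArg Subtype.val hab
  obtain ⟨X, _, _, _, _, φ, hφ⟩ := exists_baseChange (R := S) A (maximalIdeal S)
  have hX : Subsingleton (TorM A j X (A ⧸ maximalIdeal A)) := by
    have h1 := H.length_tor_baseChange j hφ hKreg (A ⧸ maximalIdeal A)
    rw [← Module.length_eq_zero_iff (R := A), ← h1, Module.length_eq_zero_iff]
    obtain ⟨i, rfl⟩ : ∃ i, j = i + 1 := ⟨j - 1, by omega⟩
    obtain ⟨e2⟩ := tor_shift (maximalIdeal S).subtype (maximalIdeal S).mkQ
      (Submodule.injective_subtype _) (Submodule.mkQ_surjective _)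
      (LinearMap.exact_subtype_mkQ _) (A ⧸ maximalIdeal A) i
    have h3 := h (i + 2) (by omega)
    have h4 : Subsingleton (TorM S (i + 2) (S ⧸ maximalIdeal S) (A ⧸ maximalIdeal A)) :=
      (torCongrRight (i + 2) (S ⧸ maximalIdeal S) e).symm.toEquiv.subsingleton
    exact e2.symm.toEquiv.subsingleton
  -- the splitting
  obtain ⟨l, hl⟩ := exists_functional S ⟨x, hx⟩ hx2
  obtain ⟨π, hπ⟩ : ∃ π : X →ₗ[A] (A ⧸ maximalIdeal A), ∀ k, π (φ k) = e (l k) :=
    ⟨hφ.lift (e.toLinearMap ∘ₗ l), fun k => hφ.lift_eq _ k⟩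
  have hkill : maximalIdeal A ≤ LinearMap.ker
      (LinearMap.toSpanSingleton A X (φ ⟨x, hx⟩)) := by
    rw [← hm, Ideal.map_le_iff_le_comap]
    intro s hs
    rw [Ideal.mem_comap, LinearMap.mem_ker, LinearMap.toSpanSingleton_apply, algebraMap_smul,
      ← map_smul]
    have h5 : s • (⟨x, hx⟩ : maximalIdeal S) = x • (⟨s, hs⟩ : maximalIdeal S) := by
      apply Subtype.ext
      exact mul_comm s x
    rw [h5]
    exact H.baseChange_smul φ _
  let ι : (A ⧸ maximalIdeal A) →ₗ[A] X :=
    Submodule.liftQ _ (LinearMap.toSpanSingleton A X (φ ⟨x, hx⟩)) hkill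
  have hι : ∀ a : A, ι (Submodule.Quotient.mk a) = a • φ ⟨x, hx⟩ := fun a => rfl
  have hπι : π ∘ₗ ι = LinearMap.id := by
    refine LinearMap.ext fun t => ?_
    obtain ⟨a, rfl⟩ := Submodule.Quotient.mk_surjective _ t
    rw [LinearMap.comp_apply, hι, map_smul, hπ, hl, LinearMap.id_apply]
    have h8 : e (Ideal.Quotient.mk (maximalIdeal S) 1) = Submodule.Quotient.mk 1 := he
    rw [h8, ← Submodule.Quotient.mk_smul, smul_eq_mul, mul_one]
  refine subsingleton_of_forall_eq 0 fun t => ?_
  have h7 : torMap j π (A ⧸ maximalIdeal A) (torMap j ι (A ⧸ maximalIdeal A) t) = t := by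
    have := congrArg (fun f => f t) (torMap_comp (N := (A ⧸ maximalIdeal A)) j ι π)
    rw [hπι, torMap_id] at this
    exact this.symm
  rw [← h7, Subsingleton.elim (torMap j ι (A ⧸ maximalIdeal A) t) 0, map_zero]

end step

section main

/-- Homological characterization of regularity. -/
theorem isRegularLocalRing_of_tor (d : ℕ) : ∀ (S : Type u) [CommRing S] [IsLocalRing S]
    [IsNoetherianRing S] (n₀ : ℕ) (_ : ringKrullDim S = d)
    (_ : ∀ j, n₀ ≤ j → Subsingleton (TorM S j (S ⧸ maximalIdeal S) (S ⧸ maximalIdeal S))),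
    IsRegularLocalRing S := by
  classical
  induction d with
  | zero =>
    intro S _ _ _ n₀ hd h
    by_cases hne : maximalIdeal S = ⊥
    · refine IsRegularLocalRing.of_spanFinrank_maximalIdeal_le S ?_
      rw [hne, Submodule.spanFinrank_bot, hd]
    · exfalso
      have hass : maximalIdeal S ∉ associatedPrimes S S := by
        intro hass
        obtain ⟨-, x, hx⟩ := isAssociatedPrime_iff.1 hass
        have hker : maximalIdeal S = LinearMap.ker (LinearMap.toSpanSingleton S S x) := by
          rw [hx]
          ext a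
          rw [Submodule.mem_colon_singleton, LinearMap.mem_ker]
          rfl
        exact hne (maximalIdeal_eq_bot_of_embedding S n₀ h
          ((maximalIdeal S).liftQ (LinearMap.toSpanSingleton S S x) hker.le) (by
            rw [← LinearMap.ker_eq_bot, Submodule.ker_liftQ_eq_bot']
            exact hker))
      obtain ⟨x, hx, -, hreg⟩ := exists_regular_notMem_sq S hne hass
      have h1 := ringKrullDim_quotient_span_singleton_succ_eq_ringKrullDim hreg hx
      have hnt : Nontrivial (S ⧸ Ideal.span {x}) := by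
        rw [Ideal.Quotient.nontrivial_iff, Ne, Ideal.span_singleton_eq_top]
        exact hx
      have h2 : (0 : WithBot ℕ∞) ≤ ringKrullDim (S ⧸ Ideal.span {x}) :=
        ringKrullDim_nonneg_of_nontrivial
      rw [hd] at h1
      have h3 : (0 : WithBot ℕ∞) + 1 ≤ 0 := by
        calc (0 : WithBot ℕ∞) + 1 ≤ ringKrullDim (S ⧸ Ideal.span {x}) + 1 := by gcongr
          _ = 0 := by rw [h1]; rfl
      rw [zero_add] at h3
      exact absurd h3 (by decide)
  | succ d ih =>
    intro S _ _ _ n₀ hd h
    have hne : maximalIdeal S ≠ ⊥ := by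
      intro hb
      have h1 := ringKrullDim_le_spanFinrank_maximalIdeal S
      rw [hb, Submodule.spanFinrank_bot, hd] at h1
      norm_cast at h1
    have hass : maximalIdeal S ∉ associatedPrimes S S := by
      intro hass
      obtain ⟨-, x, hx⟩ := isAssociatedPrime_iff.1 hass
      have hker : maximalIdeal S = LinearMap.ker (LinearMap.toSpanSingleton S S x) := by
        rw [hx]
        ext a
        rw [Submodule.mem_colon_singleton, LinearMap.mem_ker]
        rfl
      exact hne (maximalIdeal_eq_bot_of_embedding S n₀ h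
        ((maximalIdeal S).liftQ (LinearMap.toSpanSingleton S S x) hker.le) (by
          rw [← LinearMap.ker_eq_bot, Submodule.ker_liftQ_eq_bot']
          exact hker))
    obtain ⟨x, hx, hx2, hreg⟩ := exists_regular_notMem_sq S hne hass
    have h1 := ringKrullDim_quotient_span_singleton_succ_eq_ringKrullDim hreg hx
    have hnt : Nontrivial (S ⧸ Ideal.span {x}) := by
      rw [Ideal.Quotient.nontrivial_iff, Ne, Ideal.span_singleton_eq_top]
      exact hx
    have hloc : IsLocalRing (S ⧸ Ideal.span {x}) :=
      IsLocalRing.of_surjective' (Ideal.Quotient.mk _) Ideal.Quotient.mk_surjective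
    have H : IsHypersurface S (S ⧸ Ideal.span {x}) x :=
      { regular := hreg
        surj := Ideal.Quotient.mk_surjective
        ker := Ideal.mk_ker }
    obtain ⟨n, hn⟩ := exists_nat_eq_ringKrullDim (S ⧸ Ideal.span {x})
    have hnd : n = d := by
      rw [hn, hd] at h1
      norm_cast at h1
      omega
    subst hnd
    have hreg' := ih (S ⧸ Ideal.span {x}) (n₀ + 1) hn
      (fun j hj => tor_residue_quotient x hx hx2 H n₀ h j hj)
    -- generators
    obtain ⟨s, hcard, hs⟩ := Submodule.FG.exists_span_finset_card_eq_spanFinrank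
      ((maximalIdeal (S ⧸ Ideal.span {x})).fg_of_isNoetherianRing)
    change Ideal.span (s : Set (S ⧸ Ideal.span {x})) = maximalIdeal (S ⧸ Ideal.span {x}) at hs
    have hm : (maximalIdeal S).map (Ideal.Quotient.mk (Ideal.span {x})) =
        maximalIdeal (S ⧸ Ideal.span {x}) :=
      map_maximalIdeal_of_surjective _ Ideal.Quotient.mk_surjective
    let lift : (S ⧸ Ideal.span {x}) → S := surjInv Ideal.Quotient.mk_surjective
    have hlift : ∀ y, Ideal.Quotient.mk (Ideal.span {x}) (lift y) = y :=
      surjInv_eq Ideal.Quotient.mk_surjective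
    have hspan : maximalIdeal S = Ideal.span ((insert x (s.image lift) : Finset S) : Set S) := by
      apply le_antisymm
      · intro z hz
        have h4 : Ideal.Quotient.mk (Ideal.span {x}) z ∈
            (Ideal.span ((s.image lift : Finset S) : Set S)).map
              (Ideal.Quotient.mk (Ideal.span {x})) := by
          rw [Ideal.map_span, Finset.coe_image, ← Set.image_comp]
          have h5 : (Ideal.Quotient.mk (Ideal.span {x}) ∘ lift) '' (s : Set _) = s := by
            rw [show (Ideal.Quotient.mk (Ideal.span {x}) ∘ lift) = id from funext hlift]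
            simp
          rw [h5, hs, ← hm]
          exact Ideal.mem_map_of_mem _ hz
        rw [Ideal.mem_map_iff_of_surjective _ Ideal.Quotient.mk_surjective] at h4
        obtain ⟨w, hw, hwz⟩ := h4
        rw [Ideal.Quotient.mk_eq_mk_iff_sub_mem] at hwz
        have h6 : z = w - (w - z) := by ring
        rw [h6]
        apply Ideal.sub_mem
        · exact Ideal.span_mono (by simp) hw
        · exact Ideal.span_mono (by simp) hwz
      · rw [Ideal.span_le]
        intro z hz
        rw [Finset.coe_insert] at hz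
        rcases hz with rfl | hz
        · exact hx
        · rw [Finset.coe_image] at hz
          obtain ⟨y, hy, rfl⟩ := hz
          have h7 : y ∈ maximalIdeal (S ⧸ Ideal.span {x}) := by
            rw [← hs]
            exact Ideal.subset_span hy
          have hl : IsLocalHom (Ideal.Quotient.mk (Ideal.span {x})) :=
            IsLocalHom.of_surjective _ Ideal.Quotient.mk_surjective
          change lift y ∈ maximalIdeal S
          rw [mem_maximalIdeal, mem_nonunits_iff] at h7 ⊢
          intro hu
          apply h7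
          rw [← hlift y]
          exact hu.map _
    refine IsRegularLocalRing.of_spanFinrank_maximalIdeal_le S ?_
    have h8 : (maximalIdeal S).spanFinrank ≤ (insert x (s.image lift)).card := by
      rw [hspan]
      refine (Submodule.spanFinrank_span_le_ncard_of_finite (Finset.finite_toSet _)).trans ?_
      rw [Set.ncard_coe_finset]
    have h9 : (insert x (s.image lift)).card ≤ s.card + 1 :=
      (Finset.card_insert_le _ _).trans (by
        gcongr
        exact Finset.card_image_le)
    have h10 : s.card = n := by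
      have h11 := exists_nat_ringKrullDim (S ⧸ Ideal.span {x})
      rw [hn] at h11
      rw [hcard]
      exact_mod_cast h11.symm
    rw [hd]
    have : (maximalIdeal S).spanFinrank ≤ n + 1 := by omega
    exact_mod_cast this

/-- Localizations of regular local rings at primes are regular. -/
theorem isRegularLocalRing_localization (R : Type u) [CommRing R] [IsRegularLocalRing R]
    (P : Ideal R) [hP : P.IsPrime] (B : Type u) [CommRing B] [Algebra R B]
    [IsLocalization.AtPrime B P] [IsLocalRing B] : IsRegularLocalRing B := by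
  have hflat : Module.Flat R B := IsLocalization.flat B P.primeCompl
  have hnoe : IsNoetherianRing B := IsLocalization.isNoetherianRing P.primeCompl B inferInstance
  obtain ⟨d, hd⟩ := exists_nat_eq_ringKrullDim R
  obtain ⟨e, he⟩ := exists_nat_eq_ringKrullDim B
  refine isRegularLocalRing_of_tor e B (d + 1) he ?_
  intro j hj
  have h1 := regular_tor_vanish R d hd (R ⧸ P) (R ⧸ P) j hj
  have hm : P.map (algebraMap R B) = maximalIdeal B :=
    IsLocalization.AtPrime.map_eq_maximalIdeal P B
  have h2 : (B ⊗[R] (R ⧸ P)) ≃ₗ[B] (B ⧸ maximalIdeal B) :=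
    (Algebra.TensorProduct.quotIdealMapEquivTensorQuot B P).symm.toLinearEquiv ≪≫ₗ
      Submodule.quotEquivOfEq _ _ hm
  obtain ⟨e1⟩ := exists_tor_flat_iso (C := B) j (TensorProduct.isBaseChange R (R ⧸ P) B)
    (TensorProduct.isBaseChange R (R ⧸ P) B)
  have h3 : Subsingleton (B ⊗[R] (TorM R j (R ⧸ P) (R ⧸ P))) := inferInstance
  have h4 : Subsingleton (TorM B j (B ⊗[R] (R ⧸ P)) (B ⊗[R] (R ⧸ P))) :=
    e1.toEquiv.subsingleton
  have h5 : Subsingleton (TorM B j (B ⧸ maximalIdeal B) (B ⊗[R] (R ⧸ P))) :=
    (torCongrLeft j h2 _).symm.toEquiv.subsingleton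
  exact (torCongrRight j _ h2).symm.toEquiv.subsingleton

theorem isRegularRing_of_isRegularLocalRing (R : Type u) [CommRing R] [IsRegularLocalRing R] :
    IsRegularRing R := by
  rw [isRegularRing_iff]
  intro p hp
  exact isRegularLocalRing_localization R p (Localization.AtPrime p)

end main

end Vale.Agent.P177
end

section

/-!
The associativity formula for the Koszul Euler characteristic.
-/

namespace Vale.Agent.P177

open CategoryTheory TensorProduct Function IsLocalRing RingTheory.Sequence Pointwise

universe u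

section vanish

variable {B : Type u} [CommRing B] [IsLocalRing B] [IsNoetherianRing B]

theorem eul_eq_zero_of_dim_lt (zs : List B) (hzs : ∀ z ∈ zs, z ∈ maximalIdeal B) (X : Type u)
    [AddCommGroup X] [Module B X] [Module.Finite B X] (hX : FL zs X)
    (hd : Module.supportDim B X < (zs.length : WithBot ℕ∞)) : eul zs X = 0 := by
  induction zs generalizing X with
  | nil =>
    have h1 : Module.supportDim B X = ⊥ := by
      by_contra hne
      rw [← ne_eq, Module.supportDim_ne_bot_iff_nontrivial] at hne
      have h2 : (0 : WithBot ℕ∞) ≤ Module.supportDim B X := by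
        have h3 := (Module.supportDim_ne_bot_iff_nontrivial B X).2 hne
        generalize Module.supportDim B X = c at h3 ⊢
        induction c using WithBot.recBotCoe with
        | bot => exact absurd rfl h3
        | coe a => exact_mod_cast bot_le
      rw [List.length_nil] at hd
      exact absurd h2 (not_le.2 (by exact_mod_cast hd))
    rw [Module.supportDim_eq_bot_iff_subsingleton] at h1
    exact eul_subsingleton _ X
  | cons z zs ih =>
    obtain ⟨n, Γ, hΓ, hreg⟩ := exists_torsion_pow X z
    have hzs' : ∀ y ∈ zs, y ∈ maximalIdeal B := fun y hy => hzs y (List.mem_cons_of_mem _ hy)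
    have hex : Exact Γ.subtype Γ.mkQ := LinearMap.exact_subtype_mkQ Γ
    have hadd := eul_add (z :: zs) Γ.subtype Γ.mkQ (Submodule.injective_subtype _)
      (Submodule.mkQ_surjective _) hex hX
    have hFLΓ : FL (z :: zs) Γ := hX.of_injective Γ.subtype (Submodule.injective_subtype _)
    have hFLΓ' : FL zs Γ := hFLΓ.of_pow n hΓ
    have hFLQ : FL (z :: zs) (X ⧸ Γ) := hX.of_surjective Γ.mkQ (Submodule.mkQ_surjective _)
    rw [eul_cons_eq_zero z zs Γ hFLΓ', zero_add] at hadd
    have htors : Subsingleton (Submodule.torsionBy B (X ⧸ Γ) z) := by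
      refine subsingleton_of_forall_eq 0 ?_
      rintro ⟨x, hx⟩
      apply Subtype.ext
      rw [isSMulRegular_iff_right_eq_zero_of_smul] at hreg
      exact hreg x hx
    have h2 : eul (z :: zs) (X ⧸ Γ) = eul zs (QuotSMulTop z (X ⧸ Γ)) := by
      change eul zs (QuotSMulTop z (X ⧸ Γ)) - eul zs (Submodule.torsionBy B (X ⧸ Γ) z) = _
      rw [eul_subsingleton zs (Submodule.torsionBy B (X ⧸ Γ) z), sub_zero]
    rw [hadd, h2]
    apply ih hzs' _ hFLQ.quot
    have h3 := Module.supportDim_quotSMulTop_succ_eq_supportDim hreg (hzs z List.mem_cons_self)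
    have h4 : Module.supportDim B (X ⧸ Γ) < ((z :: zs).length : WithBot ℕ∞) :=
      lt_of_le_of_lt (Module.supportDim_le_of_surjective Γ.mkQ (Submodule.mkQ_surjective _)) hd
    rw [← h3, List.length_cons] at h4
    push_cast at h4
    generalize Module.supportDim B (QuotSMulTop z (X ⧸ Γ)) = a at h4 ⊢
    induction a using WithBot.recBotCoe with
    | bot => exact WithBot.bot_lt_coe _
    | coe a =>
      have h7 : a + 1 < ((zs.length : ℕ∞) + 1) := by exact_mod_cast h4
      have h8 : a < (zs.length : ℕ∞) := by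
        by_contra hcon
        rw [not_lt] at hcon
        exact absurd h7 (not_lt.2 (by gcongr))
      exact_mod_cast h8

end vanish

section locLen

variable {T : Type u} [CommRing T]

/-- Length of the localization at a prime. -/
noncomputable def locLen (Q : Ideal T) [Q.IsPrime] (X : Type u) [AddCommGroup X] [Module T X] :
    ℕ∞ :=
  Module.length (Localization.AtPrime Q) (Localization.AtPrime Q ⊗[T] X)

theorem locLen_add (Q : Ideal T) [Q.IsPrime] {X' X X'' : Type u} [AddCommGroup X'] [Module T X']
    [AddCommGroup X] [Module T X] [AddCommGroup X''] [Module T X'']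
    (f : X' →ₗ[T] X) (g : X →ₗ[T] X'') (hf : Injective f) (hg : Surjective g) (h : Exact f g) :
    locLen Q X = locLen Q X' + locLen Q X'' := by
  have hflat : Module.Flat T (Localization.AtPrime Q) := IsLocalization.flat _ Q.primeCompl
  obtain ⟨h1, h2, h3⟩ := baseChange_ses (B := Localization.AtPrime Q) f g hf hg h
  exact Module.length_eq_add_of_exact _ _ h1 h2 h3

theorem locLen_congr (Q : Ideal T) [Q.IsPrime] {X Y : Type u} [AddCommGroup X] [Module T X]
    [AddCommGroup Y] [Module T Y] (e : X ≃ₗ[T] Y) : locLen Q X = locLen Q Y :=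
  (e.baseChange T (Localization.AtPrime Q) _ _).length_eq

/-- an element outside `Q` killing `X` -/
theorem locLen_eq_zero (Q : Ideal T) [Q.IsPrime] (X : Type u) [AddCommGroup X] [Module T X]
    (a : T) (ha : a ∉ Q) (h : ∀ x : X, a • x = 0) : locLen Q X = 0 := by
  unfold locLen
  rw [Module.length_eq_zero_iff]
  have hu : IsUnit (algebraMap T (Localization.AtPrime Q) a) :=
    IsLocalization.map_units (Localization.AtPrime Q) (⟨a, ha⟩ : Q.primeCompl)
  refine subsingleton_of_forall_eq 0 fun z => ?_
  have h1 : algebraMap T (Localization.AtPrime Q) a • z = 0 := by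
    induction z using TensorProduct.induction_on with
    | zero => exact smul_zero _
    | tmul b x =>
      rw [TensorProduct.smul_tmul', smul_eq_mul, ← Algebra.smul_def, TensorProduct.smul_tmul, h,
        TensorProduct.tmul_zero]
    | add x y hx hy => rw [smul_add, hx, hy, add_zero]
  obtain ⟨v, hv⟩ := hu
  rw [← hv] at h1
  have h2 := congrArg (fun t => (v⁻¹ : (Localization.AtPrime Q)ˣ) • t) h1
  simpa [Units.smul_def, smul_smul] using h2

theorem locLen_self (Q : Ideal T) [Q.IsPrime] : locLen Q (T ⧸ Q) = 1 := by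
  unfold locLen
  have hm : Q.map (algebraMap T (Localization.AtPrime Q)) =
      maximalIdeal (Localization.AtPrime Q) :=
    IsLocalization.AtPrime.map_eq_maximalIdeal Q (Localization.AtPrime Q)
  have e : (Localization.AtPrime Q ⊗[T] (T ⧸ Q)) ≃ₗ[Localization.AtPrime Q]
      (Localization.AtPrime Q ⧸ maximalIdeal (Localization.AtPrime Q)) :=
    (Algebra.TensorProduct.quotIdealMapEquivTensorQuot _ Q).symm.toLinearEquiv ≪≫ₗ
      Submodule.quotEquivOfEq _ _ hm
  rw [e.length_eq, Module.length_eq_one_iff]
  exact isSimpleModule_iff_quot_maximal.mpr ⟨_, inferInstance, ⟨LinearEquiv.refl _ _⟩⟩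

end locLen

section assoc

variable {T : Type u} [CommRing T] [IsLocalRing T] [IsNoetherianRing T]

/-- The associativity formula. -/
theorem assoc_formula (zs : List T) (hzs : ∀ z ∈ zs, z ∈ maximalIdeal T)
    (W : Finset (PrimeSpectrum T))
    (hW : ∀ Q ∈ W, Module.supportDim T (T ⧸ Q.asIdeal) = (zs.length : WithBot ℕ∞))
    (X : Type u) [AddCommGroup X] [Module T X] [Module.Finite T X] (hX : FL zs X)
    (hcov : ∀ Q ∈ Module.support T X, (zs.length : WithBot ℕ∞) ≤
      Module.supportDim T (T ⧸ Q.asIdeal) → Q ∈ W) :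
    (∀ Q ∈ W, locLen Q.asIdeal X ≠ ⊤) ∧
      eul zs X = ∑ Q ∈ W, ((locLen Q.asIdeal X).toNat : ℤ) * eul zs (T ⧸ Q.asIdeal) := by
  classical
  suffices H : ∀ (X : Type u) [AddCommGroup X] [Module T X] (_ : Module.Finite T X), FL zs X →
      (∀ Q ∈ Module.support T X, (zs.length : WithBot ℕ∞) ≤
        Module.supportDim T (T ⧸ Q.asIdeal) → Q ∈ W) →
      (∀ Q ∈ W, locLen Q.asIdeal X ≠ ⊤) ∧
      eul zs X = ∑ Q ∈ W, ((locLen Q.asIdeal X).toNat : ℤ) * eul zs (T ⧸ Q.asIdeal) from
    H X inferInstance hX hcov
  intro X _ _ hfin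
  induction hfin using IsNoetherianRing.induction_on_isQuotientEquivQuotientPrime T with
  | subsingleton N =>
    intro _ _
    have h0 : ∀ Q : PrimeSpectrum T, locLen Q.asIdeal N = 0 := fun Q =>
      locLen_eq_zero Q.asIdeal N 1 (fun h => Q.2.ne_top ((Ideal.eq_top_iff_one _).2 h))
        (fun x => Subsingleton.elim _ _)
    refine ⟨fun Q _ => by rw [h0]; simp, ?_⟩
    rw [eul_subsingleton]
    symm
    apply Finset.sum_eq_zero
    intro Q _
    rw [h0]
    simp
  | quotient N P e =>
    intro hFL hcov
    have hFL' : FL zs (T ⧸ P.1) := hFL.of_surjective e.toLinearMap e.surjective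
    have hPmem : P ∈ Module.support T N := by
      rw [e.support_eq, support_quotient_prime]
    -- vanishing of the other local lengths
    have hzero : ∀ Q ∈ W, Q ≠ P → locLen Q.asIdeal N = 0 := by
      intro Q hQ hne
      rw [locLen_congr Q.asIdeal e]
      have hnle : ¬ P.asIdeal ≤ Q.asIdeal := by
        intro hle
        have hlt : P.asIdeal < Q.asIdeal := lt_of_le_of_ne hle
          (fun h => hne (PrimeSpectrum.ext h.symm))
        have h1 := supportDim_quotient_strict hlt zs.length (hW Q hQ).ge
        have h2 := supportDim_le_length zs hzs (T ⧸ P.asIdeal) hFL'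
        have h3 := h1.trans h2
        have h4 : zs.length + 1 ≤ zs.length := by exact_mod_cast h3
        omega
      obtain ⟨a, haP, haQ⟩ := Set.not_subset.1 hnle
      refine locLen_eq_zero Q.asIdeal _ a haQ (fun x => ?_)
      obtain ⟨x, rfl⟩ := Ideal.Quotient.mk_surjective x
      change Ideal.Quotient.mk P.asIdeal (a * x) = 0
      exact Ideal.Quotient.eq_zero_iff_mem.2 (Ideal.mul_mem_right _ _ haP)
    have hone : locLen P.asIdeal N = 1 := by
      rw [locLen_congr P.asIdeal e, locLen_self]
    refine ⟨?_, ?_⟩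
    · intro Q hQ
      by_cases hQP : Q = P
      · rw [hQP, hone]
        simp
      · rw [hzero Q hQ hQP]
        simp
    · rw [eul_congr zs e]
      by_cases hP : P ∈ W
      · rw [Finset.sum_eq_single_of_mem P hP]
        · rw [hone]
          simp
        · intro Q hQ hne
          rw [hzero Q hQ hne]
          simp
      · have hd : Module.supportDim T (T ⧸ P.asIdeal) < (zs.length : WithBot ℕ∞) := by
          by_contra hcon
          exact hP (hcov P hPmem (not_lt.1 hcon))
        rw [eul_eq_zero_of_dim_lt zs hzs _ hFL' hd]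
        symm
        apply Finset.sum_eq_zero
        intro Q hQ
        rw [hzero Q hQ (fun h => hP (h ▸ hQ))]
        simp
  | exact N₁ N₂ N₃ f g hf hg h ih1 ih3 =>
    intro hFL hcov
    obtain ⟨a1, a2⟩ := ih1 (hFL.of_injective f hf)
      (fun Q hQ => hcov Q (Module.support_subset_of_injective f hf hQ))
    obtain ⟨b1, b2⟩ := ih3 (hFL.of_surjective g hg)
      (fun Q hQ => hcov Q (Module.support_subset_of_surjective g hg hQ))
    have hadd : ∀ Q ∈ W, locLen Q.asIdeal N₂ = locLen Q.asIdeal N₁ + locLen Q.asIdeal N₃ :=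
      fun Q _ => locLen_add Q.asIdeal f g hf hg h
    refine ⟨?_, ?_⟩
    · intro Q hQ
      rw [hadd Q hQ]
      exact WithTop.add_ne_top.2 ⟨a1 Q hQ, b1 Q hQ⟩
    · rw [eul_add zs f g hf hg h hFL, a2, b2, ← Finset.sum_add_distrib]
      refine Finset.sum_congr rfl fun Q hQ => ?_
      rw [hadd Q hQ, ENat.toNat_add (a1 Q hQ) (b1 Q hQ)]
      push_cast
      ring

end assoc

end Vale.Agent.P177
end

section

/-!
Reduction to the diagonal without Tor independence.
-/

namespace Vale.Agent.P177

open CategoryTheory TensorProduct Function IsLocalRing RingTheory.Sequence Pointwise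

universe u

section main

variable {S₁ S₂ B : Type u} [CommRing S₁] [CommRing S₂] [CommRing B] [Algebra S₁ B]
  [Algebra S₂ B] [IsNoetherianRing S₂]
  [IsLocalRing B] [IsNoetherianRing B]
  [Module.Flat S₁ B] [Module.Flat S₂ B]

omit [IsNoetherianRing S₂] in
/-- Reduction to the diagonal for the Euler characteristic. -/
theorem eulerTor_eq_sum_eul (δ : List B) (hδm : ∀ z ∈ δ, z ∈ maximalIdeal B)
    (hδreg : IsWeaklyRegular B δ)
    (hres : ∀ b : B, ∃ s : S₁, b - algebraMap S₁ B s ∈ Ideal.ofList δ)
    (D : Type u) [AddCommGroup D] [Module B D] [Module S₁ D] [IsScalarTower S₁ B D]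
    [Module.Flat S₁ D] (eD : (B ⧸ (Ideal.ofList δ • ⊤ : Submodule B B)) ≃ₗ[B] D)
    (N : Type u) [AddCommGroup N] [Module B N] [Module S₁ N] [Module S₂ N]
    [IsScalarTower S₁ B N] [IsScalarTower S₂ B N] [Module.Finite S₁ N]
    (hkill : ∀ z ∈ Ideal.ofList δ, ∀ t : N, z • t = 0)
    (hN2 : ∀ b : B, ∃ s : S₂, ∀ t : N, b • t = s • t)
    (M : Type u) [AddCommGroup M] [Module S₂ M] [Module.Finite S₂ M] (n₀ : ℕ)
    (hv : ∀ j, n₀ ≤ j → Subsingleton (TorM B j (B ⊗[S₁] N) (B ⊗[S₂] M)))
    (hlen : Module.length S₂ (M ⊗[S₂] N) ≠ ⊤) (n : ℕ) (hn : n₀ + δ.length ≤ n) :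
    eulerTor S₂ n M N = ∑ j ∈ Finset.range n,
        (-1 : ℤ) ^ j * eul δ (TorM B j (B ⊗[S₁] N) (B ⊗[S₂] M)) ∧
      FL2 δ (B ⊗[S₁] N) (B ⊗[S₂] M) := by
  have hNfin : Module.Finite B N := Module.Finite.of_restrictScalars_finite S₁ B N
  obtain ⟨eq⟩ := exists_quot_equiv (S₁ := S₁) N (Ideal.ofList δ) hres hkill
  -- regularity of `δ` on `B ⊗ N`
  have h1 : ∀ j, 1 ≤ j → Subsingleton (TorM B j (B ⧸ (Ideal.ofList δ • ⊤ : Submodule B B))
      (B ⊗[S₁] N)) := by
    intro j hj
    obtain ⟨i, rfl⟩ : ∃ k, j = k + 1 := ⟨j - 1, by omega⟩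
    have h1 : Subsingleton (TorM B (i + 1) (B ⊗[S₁] N) D) :=
      tor_subsingleton_bc i (TensorProduct.isBaseChange S₁ N B) D
    obtain ⟨e2⟩ := tor_symm (R := B) (i + 1) D (B ⊗[S₁] N)
    have h2 : Subsingleton (TorM B (i + 1) D (B ⊗[S₁] N)) := e2.toEquiv.subsingleton
    exact (torCongrLeft (i + 1) eD (B ⊗[S₁] N)).toEquiv.subsingleton
  have h2 := (regular_of_tor_vanish δ hδm B hδreg (B ⊗[S₁] N) h1).2
  have h3 : IsWeaklyRegular (B ⊗[S₁] N) δ := by
    have e : TorM B 0 B (B ⊗[S₁] N) ≃ₗ[B] (B ⊗[S₁] N) :=
      (torZero B (B ⊗[S₁] N)) ≪≫ₗ TensorProduct.lid B _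
    exact (e.isWeaklyRegular_congr δ).1 h2
  -- finiteness
  have hlenB : Module.length B ((B ⊗[S₂] M) ⊗[B] N) ≠ ⊤ := by
    rw [← length_tensor_bc (TensorProduct.isBaseChange S₂ M B) N hN2]
    exact hlen
  obtain ⟨k, hk⟩ := exists_pow_le_sup_annihilator (R := B) (B ⊗[S₂] M) N hlenB
  have hFL : FL2 δ (B ⊗[S₁] N) (B ⊗[S₂] M) := by
    have h4 : maximalIdeal B ≤ (Module.annihilator B (B ⊗[S₂] M) ⊔
        Module.annihilator B N).radical := by
      intro x hx
      exact ⟨k, hk (Ideal.pow_mem_pow hx k)⟩
    refine h4.trans ?_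
    rw [Ideal.radical_le_radical_iff]
    refine sup_le ?_ ?_
    · exact (le_sup_of_le_left le_sup_right).trans Ideal.le_radical
    · rw [← eq.annihilator_eq]
      refine (annihilator_quotient_le_radical _ _).trans (Ideal.radical_mono ?_)
      exact sup_le (le_sup_of_le_left le_sup_left) le_sup_right
  refine ⟨?_, hFL⟩
  have h5 := sum_length_tor_quot δ (B ⊗[S₂] M) n (B ⊗[S₁] N) h3 hFL n₀ hv hn
  have h6 : ∀ j, Module.length B (TorM B j ((B ⊗[S₁] N) ⧸
      (Ideal.ofList δ • ⊤ : Submodule B (B ⊗[S₁] N))) (B ⊗[S₂] M)) =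
      Module.length S₂ (TorM S₂ j M N) := by
    intro j
    rw [(torCongrLeft j eq (B ⊗[S₂] M)).length_eq]
    obtain ⟨e⟩ := tor_symm (R := B) j N (B ⊗[S₂] M)
    rw [e.length_eq]
    exact (length_tor_bc j (TensorProduct.isBaseChange S₂ M B) N hN2).symm
  simp only [h6] at h5
  unfold eulerTor
  rw [h5]

end main

section shrink

/-- Truncation of Euler characteristics. -/
theorem eulerTor_shrink {R : Type u} [CommRing R] (M N : Type u) [AddCommGroup M] [Module R M]
    [AddCommGroup N] [Module R N] (m n : ℕ) (hmn : m ≤ n)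
    (h : ∀ j, m ≤ j → Subsingleton (TorM R j M N)) : eulerTor R n M N = eulerTor R m M N := by
  unfold eulerTor
  symm
  refine Finset.sum_subset (Finset.range_mono hmn) ?_
  intro j _ hj
  have := h j (by simpa using hj)
  rw [Module.length_eq_zero]
  simp

end shrink

end Vale.Agent.P177
end

section

/-!
Power series rings over a regular local ring of small dimension.
-/

namespace Vale.Agent.P177

open CategoryTheory TensorProduct Function IsLocalRing RingTheory.Sequence Pointwise

section general

/-- Kernel of a retraction. -/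
theorem ker_le_of_retraction_ideal {S B : Type*} [CommRing S] (I : Ideal S)
    [IsAdicComplete I S] [CommRing B] [IsLocalRing B] [IsNoetherianRing B]
    (i : S →+* B) (π : B →+* S) (hπ : π.comp i = RingHom.id S) (J J' : Ideal B)
    (hJ : J ≤ RingHom.ker π) (hJ' : J' ≤ maximalIdeal B) (hm : I.map i ⊔ J = J')
    (hres : ∀ b : B, ∃ s : S, b - i s ∈ J') : RingHom.ker π = J := by
  apply le_antisymm _ hJ
  have hJm : J ≤ maximalIdeal B := le_sup_right.trans (hm.le.trans hJ')
  have hnt : Nontrivial (B ⧸ J) :=
    Ideal.Quotient.nontrivial_iff.mpr (fun h => (maximalIdeal.isMaximal B).ne_top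
      (top_le_iff.mp (h ▸ hJm)))
  have hloc : IsLocalRing (B ⧸ J) :=
    IsLocalRing.of_surjective' (Ideal.Quotient.mk J) Ideal.Quotient.mk_surjective
  let f : S →+* B ⧸ J := (Ideal.Quotient.mk J).comp i
  have hmap : I.map f = J'.map (Ideal.Quotient.mk J) := by
    rw [← Ideal.map_map, ← hm, Ideal.map_sup, Ideal.map_quotient_self, sup_bot_eq]
  have hle : (maximalIdeal B).map (Ideal.Quotient.mk J) ≤ maximalIdeal (B ⧸ J) :=
    (map_maximalIdeal_of_surjective _ Ideal.Quotient.mk_surjective).le
  have hH : IsHausdorff (I.map f) (B ⧸ J) := by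
    rw [hmap]
    refine IsHausdorff.of_isLocalRing _ _ (fun h => ?_)
    have h1 : (⊤ : Ideal (B ⧸ J)) ≤ maximalIdeal (B ⧸ J) :=
      h ▸ (Ideal.map_mono hJ').trans hle
    exact (maximalIdeal.isMaximal (B ⧸ J)).ne_top (top_le_iff.mp h1)
  have hsurj : Function.Surjective f := by
    apply surjective_of_mk_map_comp_surjective (I := I) f
    intro y
    obtain ⟨y, rfl⟩ := Ideal.Quotient.mk_surjective y
    obtain ⟨b, rfl⟩ := Ideal.Quotient.mk_surjective y
    obtain ⟨s, hs⟩ := hres b
    refine ⟨s, ?_⟩
    rw [RingHom.comp_apply, Ideal.Quotient.mk_eq_mk_iff_sub_mem, hmap, ← neg_mem_iff, neg_sub]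
    exact Ideal.mem_map_of_mem _ hs
  intro b hb
  obtain ⟨s, hs⟩ := hsurj (Ideal.Quotient.mk J b)
  have h1 : i s - b ∈ J := by
    rw [← Ideal.Quotient.mk_eq_mk_iff_sub_mem]
    exact hs
  have h2 : π (i s - b) = 0 := hJ h1
  have h3 : π (i s) = s := RingHom.congr_fun hπ s
  rw [map_sub, h3, RingHom.mem_ker.mp hb, sub_zero] at h2
  rw [h2, map_zero, zero_sub, neg_mem_iff] at h1
  exact h1

/-- A criterion for regularity. -/
theorem isRegularLocalRing_of_list {B : Type*} [CommRing B] [IsLocalRing B] [IsNoetherianRing B]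
    (rs : List B) (h : Ideal.ofList rs = maximalIdeal B)
    (hle : (rs.length : WithBot ℕ∞) ≤ ringKrullDim B) :
    IsRegularLocalRing B ∧ ringKrullDim B = rs.length := by
  classical
  have h1 : (maximalIdeal B).spanFinrank ≤ rs.length := by
    rw [← h, Ideal.ofList]
    have h2 : {r | r ∈ rs} = (rs.toFinset : Set B) := by
      ext x
      simp
    rw [h2]
    refine (Submodule.spanFinrank_span_le_ncard_of_finite (Finset.finite_toSet _)).trans ?_
    rw [Set.ncard_coe_finset]
    exact List.toFinset_card_le rs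
  have h3 : ((maximalIdeal B).spanFinrank : WithBot ℕ∞) ≤ rs.length := by exact_mod_cast h1
  exact ⟨IsRegularLocalRing.of_spanFinrank_maximalIdeal_le B (h3.trans hle),
    le_antisymm ((ringKrullDim_le_spanFinrank_maximalIdeal B).trans h3) hle⟩

variable {σ A : Type*} [Finite σ] [CommRing A] [IsLocalRing A]

theorem mvPowerSeries_maximalIdeal_gen : maximalIdeal (MvPowerSeries σ A) =
    (maximalIdeal A).map (MvPowerSeries.C (σ := σ)) ⊔
      Ideal.span (Set.range MvPowerSeries.X) := by
  apply le_antisymm
  · intro p hp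
    have h1 : MvPowerSeries.constantCoeff p ∈ maximalIdeal A := by
      by_contra hne
      rw [mem_maximalIdeal, mem_nonunits_iff, not_not] at hne
      exact (mem_maximalIdeal p).mp hp (MvPowerSeries.isUnit_iff_constantCoeff.mpr hne)
    have h2 := mem_span_X_of_constantCoeff_eq_zero
      (p - MvPowerSeries.C (MvPowerSeries.constantCoeff p)) (by simp)
    have h3 := Ideal.add_mem _ (Ideal.mem_sup_right h2) (Ideal.mem_sup_left
      (Ideal.mem_map_of_mem (MvPowerSeries.C (σ := σ)) h1))
    rwa [sub_add_cancel] at h3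
  · refine sup_le ?_ ?_
    · rw [Ideal.map_le_iff_le_comap]
      intro x hx
      rw [Ideal.mem_comap, mem_maximalIdeal, mem_nonunits_iff,
        MvPowerSeries.isUnit_iff_constantCoeff, MvPowerSeries.constantCoeff_C]
      exact hx
    · rw [Ideal.span_le]
      rintro _ ⟨i, rfl⟩
      rw [SetLike.mem_coe, mem_maximalIdeal, mem_nonunits_iff,
        MvPowerSeries.isUnit_iff_constantCoeff]
      simp

omit [IsLocalRing A] in
theorem le_ringKrullDim_mvPowerSeries_fin_gen (n : ℕ) [Nontrivial A] :
    ringKrullDim A + n ≤ ringKrullDim (MvPowerSeries (Fin n) A) := by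
  induction n with
  | zero =>
    rw [ringKrullDim_eq_of_ringEquiv (MvPowerSeries.isEmptyEquiv (Fin 0) A).toRingEquiv]
    simp
  | succ n ih =>
    rw [ringKrullDim_eq_of_ringEquiv (MvPowerSeries.finSuccEquiv A n).toRingEquiv]
    refine le_trans ?_ ringKrullDim_succ_le_ringKrullDim_powerseries
    push_cast
    rw [← add_assoc]
    gcongr

omit [IsLocalRing A] in
theorem mvPowerSeries_regular (n : ℕ) (e : σ ≃ Fin n) [IsRegularLocalRing A] {a : ℕ}
    (ha : ringKrullDim A = a) : IsRegularLocalRing (MvPowerSeries σ A) ∧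
      ringKrullDim (MvPowerSeries σ A) = ((a + n : ℕ) : WithBot ℕ∞) := by
  obtain ⟨rs, hrs, hlen⟩ := exists_list_maximalIdeal A
  have hlen' : rs.length = a := by
    rw [ha] at hlen
    exact_mod_cast hlen
  have h1 := isRegularLocalRing_of_list (B := MvPowerSeries σ A)
    (rs.map (MvPowerSeries.C (σ := σ)) ++ List.ofFn (fun j : Fin n => MvPowerSeries.X (e.symm j)))
    (by
      rw [Ideal.ofList_append, ← Ideal.map_ofList, hrs, mvPowerSeries_maximalIdeal_gen]
      congr 1
      rw [Ideal.ofList]
      congr 1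
      ext x
      simp only [List.mem_ofFn, Set.mem_ofPred_eq, Set.mem_range]
      constructor
      · rintro ⟨j, rfl⟩
        exact ⟨_, rfl⟩
      · rintro ⟨j, rfl⟩
        exact ⟨e j, by simp⟩)
    (by
      rw [ringKrullDim_eq_of_ringEquiv (MvPowerSeries.renameEquiv A e).toRingEquiv]
      refine le_trans ?_ (le_ringKrullDim_mvPowerSeries_fin_gen n)
      rw [ha]
      simp [hlen'])
  refine ⟨h1.1, ?_⟩
  rw [h1.2]
  simp [hlen']

end general

end Vale.Agent.P177
end

section

/-!
The kernel of a surjection from a regular local ring onto a flat extension of a hypersurface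
of the same embedding codimension is principal.
-/

namespace Vale.Agent.P177

open IsLocalRing RingTheory.Sequence Pointwise TensorProduct

universe u

lemma maximalIdeal_ne_sq (R : Type u) [CommRing R] [IsRegularLocalRing R] {n : ℕ}
    (hn : ringKrullDim R = (n + 1 : ℕ)) : ¬ maximalIdeal R ≤ maximalIdeal R ^ 2 := by
  intro hle
  have hbot : maximalIdeal R = ⊥ := by
    apply Submodule.eq_bot_of_le_smul_of_le_jacobson_bot (maximalIdeal R) _
      ((maximalIdeal R).fg_of_isNoetherianRing)
    · rw [smul_eq_mul, ← pow_two]; exact hle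
    · rw [IsLocalRing.jacobson_eq_maximalIdeal _ bot_ne_top]
  have h1 := exists_nat_ringKrullDim R
  rw [hbot, Submodule.spanFinrank_bot, hn] at h1
  norm_cast at h1

lemma isPrime_span_singleton (R : Type u) [CommRing R] [IsRegularLocalRing R] {y : R}
    (hy : y ∈ maximalIdeal R) (hy2 : y ∉ maximalIdeal R ^ 2) : (Ideal.span {y}).IsPrime := by
  have := (regular_quotient R y hy hy2).1
  have := regular_isDomain (R ⧸ Ideal.span {y})
  exact (Ideal.Quotient.isDomain_iff_prime _).mp this

theorem exists_prime_not_dvd (R : Type u) [CommRing R] [IsRegularLocalRing R] (a : R) (ha : a ≠ 0)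
    (hd : 2 ≤ ringKrullDim R) :
    ∃ y ∈ maximalIdeal R, y ∉ maximalIdeal R ^ 2 ∧ a ∉ Ideal.span {y} := by
  classical
  have : IsDomain R := regular_isDomain R
  by_contra hcon
  push Not at hcon
  have hfin := Ideal.finite_minimalPrimes_of_isNoetherianRing R (Ideal.span {a})
  have hsub : (maximalIdeal R : Set R) ⊆
      ⋃ i ∈ (↑(insert (maximalIdeal R ^ 2) hfin.toFinset) : Set (Ideal R)),
        ((id i : Ideal R) : Set R) := by
    intro z hz
    by_cases hz2 : z ∈ maximalIdeal R ^ 2
    · exact Set.mem_biUnion (Finset.mem_coe.mpr (Finset.mem_insert_self _ _)) hz2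
    · have hza := hcon z hz hz2
      have hzp := isPrime_span_singleton R hz hz2
      obtain ⟨P, hP, hPle⟩ := Ideal.exists_minimalPrimes_le (I := Ideal.span {a})
        (J := Ideal.span {z}) (by rwa [Ideal.span_singleton_le_iff_mem])
      have hPp : P.IsPrime := hP.1.1
      have haP : a ∈ P := hP.1.2 (Ideal.mem_span_singleton_self a)
      have hzP : z ∈ P := by
        by_contra hzP
        have hPbot : P = ⊥ := by
          apply Submodule.eq_bot_of_le_smul_of_le_jacobson_bot (maximalIdeal R) P
            P.fg_of_isNoetherianRing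
          · intro c hc
            obtain ⟨b, rfl⟩ := Ideal.mem_span_singleton'.mp (hPle hc)
            have hb : b ∈ P := (hPp.mem_or_mem hc).resolve_right hzP
            rw [mul_comm]
            exact Submodule.smul_mem_smul hz hb
          · rw [IsLocalRing.jacobson_eq_maximalIdeal _ bot_ne_top]
        rw [hPbot] at haP
        exact ha haP
      exact Set.mem_biUnion (Finset.mem_coe.mpr (Finset.mem_insert_of_mem
        (hfin.mem_toFinset.mpr hP))) hzP
  obtain ⟨n, hn⟩ := exists_nat_eq_ringKrullDim R
  rw [Ideal.subset_union_prime (f := id) (maximalIdeal R ^ 2) (maximalIdeal R ^ 2)] at hsub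
  · obtain ⟨P, hP, hle⟩ := hsub
    rcases Finset.mem_insert.mp hP with rfl | hP
    · obtain ⟨m, rfl⟩ : ∃ m, n = m + 1 := by
        rw [hn] at hd
        norm_cast at hd
        exact ⟨n - 1, by omega⟩
      exact maximalIdeal_ne_sq R hn hle
    · have hPmin := hfin.mem_toFinset.mp hP
      have hPp : P.IsPrime := hPmin.1.1
      have hPeq : P = maximalIdeal R := le_antisymm (le_maximalIdeal hPp.ne_top) hle
      have h1 : P.height ≤ 1 := by
        have : (Ideal.span {a}).IsPrincipal := ⟨a, rfl⟩
        exact Ideal.height_le_one_of_isPrincipal_of_mem_minimalPrimes _ _ hPmin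
      have h2 := maximalIdeal_height_eq_ringKrullDim (R := R)
      rw [← hPeq] at h2
      rw [← h2] at hd
      have h3 : (2 : WithBot ℕ∞) ≤ ((1 : ℕ∞) : WithBot ℕ∞) := hd.trans (by exact_mod_cast h1)
      norm_cast at h3
  · intro P hP h1 _
    rcases Finset.mem_insert.mp hP with rfl | hP
    · exact absurd rfl h1
    · exact (hfin.mem_toFinset.mp hP).1.1

lemma isPrincipalIdealRing_of_dim_one (S : Type u) [CommRing S] [IsRegularLocalRing S]
    (hS : ringKrullDim S = 1) : IsPrincipalIdealRing S := by
  have : IsDomain S := regular_isDomain S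
  have h1 := exists_nat_ringKrullDim S
  rw [hS] at h1
  have h2 : (maximalIdeal S).spanFinrank = 1 := by
    exact_mod_cast h1.symm
  have h3 : (maximalIdeal S).IsPrincipal := ((Submodule.spanFinrank_eq_one_iff _).mp h2).1
  exact ((tfae_of_isNoetherianRing_of_isLocalRing_of_isDomain S).out 4 0).mp h3

lemma exists_pow_le_span (R : Type u) [CommRing R] [IsRegularLocalRing R]
    (hR : ringKrullDim R = 1) (a : R) (ha : a ≠ 0) :
    ∃ N : ℕ, maximalIdeal R ^ N ≤ Ideal.span {a} := by
  have : IsDomain R := regular_isDomain R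
  have := isPrincipalIdealRing_of_dim_one R hR
  by_cases hu : IsUnit a
  · exact ⟨0, by simp [Ideal.span_singleton_eq_top.mpr hu]⟩
  have h := ((tfae_of_isNoetherianRing_of_isLocalRing_of_isDomain R).out 0 6).mp
    ‹IsPrincipalIdealRing R›
  obtain ⟨N, hN⟩ := h (Ideal.span {a}) (by simpa using ha)
  exact ⟨N, hN.ge⟩

lemma flat_quotient_map (A C : Type u) [CommRing A] [CommRing C] [Algebra A C] [Module.Flat A C]
    (I : Ideal A) : Module.Flat (A ⧸ I) (C ⧸ I.map (algebraMap A C)) := by
  let e₁ : (C ⧸ I.map (algebraMap A C)) ≃ₗ[A] (A ⧸ I) ⊗[A] C :=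
    ((Algebra.TensorProduct.quotIdealMapEquivTensorQuot C I).toLinearEquiv.restrictScalars A).trans
      (TensorProduct.comm A C (A ⧸ I))
  let e₂ : (C ⧸ I.map (algebraMap A C)) ≃ₗ[A ⧸ I] (A ⧸ I) ⊗[A] C :=
    e₁.extendScalarsOfSurjective Ideal.Quotient.mk_surjective
  exact Module.Flat.of_linearEquiv e₂

theorem ker_principal_aux (n : ℕ) : ∀ {R S C A : Type u} [CommRing R] [IsRegularLocalRing R]
    [CommRing S] [IsRegularLocalRing S] [CommRing A] [CommRing C] [IsLocalRing C]
    [Algebra A C] [Module.Flat A C] (ψ : R →+* A) (_ : Function.Surjective ψ) (a : R)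
    (_ : RingHom.ker ψ = Ideal.span {a}) (_ : a ∈ maximalIdeal R ^ 2) (_ : a ≠ 0)
    (_ : ((maximalIdeal R).map ψ).map (algebraMap A C) = maximalIdeal C)
    (φ : S →+* C) (_ : Function.Surjective φ)
    (_ : ringKrullDim R = n) (_ : ringKrullDim S = n),
    ∃ g : S, g ≠ 0 ∧ RingHom.ker φ = Ideal.span {g} := by
  induction n with
  | zero =>
    intro R S C A _ _ _ _ _ _ _ _ _ ψ hψ a hker ha ha0 hloc φ hφ hR hS
    exfalso
    have h1 := exists_nat_ringKrullDim R
    rw [hR] at h1
    have h2 : (maximalIdeal R).spanFinrank = 0 := by exact_mod_cast h1.symm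
    rw [Submodule.spanFinrank_eq_zero_iff_eq_bot ((maximalIdeal R).fg_of_isNoetherianRing)] at h2
    rw [h2] at ha
    apply ha0
    simpa [pow_two] using ha
  | succ n ih =>
    intro R S C A _ _ _ _ _ _ _ _ _ ψ hψ a hker ha ha0 hloc φ hφ hR hS
    have hRd : IsDomain R := regular_isDomain R
    have hSd : IsDomain S := regular_isDomain S
    have hloc' : (maximalIdeal R).map ((algebraMap A C).comp ψ) = maximalIdeal C := by
      rw [← hloc, Ideal.map_map]
    have hA : Nontrivial A := by
      by_contra hcon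
      rw [not_nontrivial_iff_subsingleton] at hcon
      have : (1 : C) = 0 := by
        rw [← map_one (algebraMap A C), Subsingleton.elim (1 : A) 0, map_zero]
      exact one_ne_zero this
    have hAl : IsLocalRing A := .of_surjective' ψ hψ
    have hmA : (maximalIdeal R).map ψ = maximalIdeal A :=
      map_maximalIdeal_of_surjective _ hψ
    have hlh : IsLocalHom (algebraMap A C) := by
      apply ((local_hom_TFAE (algebraMap A C)).out 0 2).mpr
      rw [← hmA, hloc]
    have hff : Module.FaithfullyFlat A C := Module.FaithfullyFlat.of_flat_of_isLocalHom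
    rcases n with _ | n
    · -- dimension one
      have hSp := isPrincipalIdealRing_of_dim_one S (by simpa using hS)
      obtain ⟨N, hN⟩ := exists_pow_le_span R (by simpa using hR) a ha0
      obtain ⟨g, hg⟩ := (IsPrincipalIdealRing.principal (RingHom.ker φ)).principal
      refine ⟨g, ?_, hg⟩
      rintro rfl
      have hinj : Function.Injective φ := by
        rw [RingHom.injective_iff_ker_eq_bot, hg]
        simp
      have hnil : maximalIdeal C ^ N = ⊥ := by
        rw [← hloc', ← Ideal.map_pow, eq_bot_iff]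
        refine (Ideal.map_mono hN).trans ?_
        rw [Ideal.map_span, Set.image_singleton, Ideal.span_singleton_le_iff_mem, Ideal.mem_bot,
          RingHom.comp_apply]
        have : ψ a = 0 := by
          rw [← RingHom.mem_ker, hker]; exact Ideal.mem_span_singleton_self a
        rw [this, map_zero]
      have hbot : maximalIdeal S = ⊥ := by
        rw [eq_bot_iff]
        intro s hs
        have h1 : φ s ∈ maximalIdeal C := by
          rw [← map_maximalIdeal_of_surjective φ hφ]
          exact Ideal.mem_map_of_mem _ hs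
        have h2 : φ (s ^ N) = 0 := by
          have := Ideal.pow_mem_pow h1 N
          rw [hnil] at this
          rw [map_pow]; exact this
        have h3 : s ^ N = 0 := hinj (by rw [h2, map_zero])
        exact eq_zero_of_pow_eq_zero h3
      have h4 := exists_nat_ringKrullDim S
      rw [hbot, Submodule.spanFinrank_bot, hS] at h4
      norm_cast at h4
    · -- dimension at least two
      obtain ⟨y, hy, hy2, hay⟩ := exists_prime_not_dvd R a ha0 (by
        rw [hR]; exact_mod_cast (by omega : 2 ≤ n + 1 + 1))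
      obtain ⟨Y, hY⟩ := hφ (algebraMap A C (ψ y))
      have hyC : algebraMap A C (ψ y) ∈ maximalIdeal C := by
        rw [← hloc]
        exact Ideal.mem_map_of_mem _ (Ideal.mem_map_of_mem _ hy)
      have hYm : Y ∈ maximalIdeal S := by
        rw [mem_maximalIdeal]
        intro hu
        have := hu.map φ
        rw [hY] at this
        exact (mem_maximalIdeal _).mp hyC this
      have hYm2 : Y ∉ maximalIdeal S ^ 2 := by
        intro hcon
        have h1 : algebraMap A C (ψ y) ∈ maximalIdeal C ^ 2 := by
          rw [← hY, ← map_maximalIdeal_of_surjective φ hφ, ← Ideal.map_pow]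
          exact Ideal.mem_map_of_mem _ hcon
        have h2 : ψ y ∈ maximalIdeal A ^ 2 := by
          rw [← Ideal.comap_map_eq_self_of_faithfullyFlat (B := C) (maximalIdeal A ^ 2),
            Ideal.mem_comap, Ideal.map_pow, ← hmA, hloc]
          exact h1
        rw [← hmA, ← Ideal.map_pow] at h2
        obtain ⟨y', hy', hyy⟩ := (Ideal.mem_map_iff_of_surjective ψ hψ).mp h2
        have h3 : y - y' ∈ RingHom.ker ψ := by
          rw [RingHom.mem_ker, map_sub, hyy, sub_self]
        rw [hker] at h3
        have h4 : y - y' ∈ maximalIdeal R ^ 2 :=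
          (Ideal.span_singleton_le_iff_mem _).mpr ha h3
        exact hy2 (by simpa using add_mem h4 hy')
      obtain ⟨hregR, hdimR⟩ := regular_quotient R y hy hy2
      obtain ⟨hregS, hdimS⟩ := regular_quotient S Y hYm hYm2
      -- the quotient data
      let I : Ideal A := Ideal.span {ψ y}
      have hImap : I.map (algebraMap A C) = Ideal.span {algebraMap A C (ψ y)} := by
        rw [Ideal.map_span, Set.image_singleton]
      have hflat : Module.Flat (A ⧸ I) (C ⧸ I.map (algebraMap A C)) := flat_quotient_map A C I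
      have hne : I.map (algebraMap A C) ≠ ⊤ := by
        rw [hImap]
        intro h
        rw [Ideal.span_singleton_eq_top] at h
        exact (mem_maximalIdeal _).mp hyC h
      have hnt : Nontrivial (C ⧸ I.map (algebraMap A C)) := Ideal.Quotient.nontrivial_iff.mpr hne
      have hCl : IsLocalRing (C ⧸ I.map (algebraMap A C)) :=
        .of_surjective' (Ideal.Quotient.mk _) Ideal.Quotient.mk_surjective
      let ψ' : R ⧸ Ideal.span {y} →+* A ⧸ I :=
        Ideal.quotientMap I ψ (by
          rw [Ideal.span_singleton_le_iff_mem, Ideal.mem_comap]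
          exact Ideal.mem_span_singleton_self _)
      have hψ' : Function.Surjective ψ' := Ideal.quotientMap_surjective hψ
      let φ' : S ⧸ Ideal.span {Y} →+* C ⧸ I.map (algebraMap A C) :=
        Ideal.quotientMap _ φ (by
          rw [Ideal.span_singleton_le_iff_mem, Ideal.mem_comap, hImap, hY]
          exact Ideal.mem_span_singleton_self _)
      have hφ' : Function.Surjective φ' := Ideal.quotientMap_surjective hφ
      have hker' : RingHom.ker ψ' = Ideal.span {Ideal.Quotient.mk (Ideal.span {y}) a} := by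
        apply le_antisymm
        · intro r hr
          obtain ⟨r, rfl⟩ := Ideal.Quotient.mk_surjective r
          rw [RingHom.mem_ker, Ideal.quotientMap_mk, Ideal.Quotient.eq_zero_iff_mem] at hr
          obtain ⟨c, hc⟩ := Ideal.mem_span_singleton'.mp hr
          obtain ⟨c, rfl⟩ := hψ c
          have h3 : r - c * y ∈ RingHom.ker ψ := by
            rw [RingHom.mem_ker, map_sub, map_mul, hc, sub_self]
          rw [hker] at h3
          obtain ⟨b, hb⟩ := Ideal.mem_span_singleton'.mp h3
          rw [Ideal.mem_span_singleton']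
          refine ⟨Ideal.Quotient.mk _ b, ?_⟩
          rw [← map_mul, hb, Ideal.Quotient.mk_eq_mk_iff_sub_mem]
          have : r - c * y - r = -(c * y) := by ring
          rw [this, neg_mem_iff]
          exact Ideal.mul_mem_left _ _ (Ideal.mem_span_singleton_self _)
        · rw [Ideal.span_singleton_le_iff_mem, RingHom.mem_ker, Ideal.quotientMap_mk]
          have : ψ a = 0 := by
            rw [← RingHom.mem_ker, hker]; exact Ideal.mem_span_singleton_self a
          rw [this, map_zero]
      have hmR : (maximalIdeal R).map (Ideal.Quotient.mk (Ideal.span {y})) =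
          maximalIdeal (R ⧸ Ideal.span {y}) :=
        map_maximalIdeal_of_surjective _ Ideal.Quotient.mk_surjective
      have ha' : Ideal.Quotient.mk (Ideal.span {y}) a ∈ maximalIdeal (R ⧸ Ideal.span {y}) ^ 2 := by
        rw [← hmR, ← Ideal.map_pow]
        exact Ideal.mem_map_of_mem _ ha
      have ha0' : Ideal.Quotient.mk (Ideal.span {y}) a ≠ 0 := by
        rw [Ne, Ideal.Quotient.eq_zero_iff_mem]
        exact hay
      have hloc'' : ((maximalIdeal (R ⧸ Ideal.span {y})).map ψ').map
          (algebraMap (A ⧸ I) (C ⧸ I.map (algebraMap A C))) =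
          maximalIdeal (C ⧸ I.map (algebraMap A C)) := by
        rw [← hmR, ← map_maximalIdeal_of_surjective (Ideal.Quotient.mk (I.map (algebraMap A C)))
          Ideal.Quotient.mk_surjective, ← hloc, Ideal.map_map, Ideal.map_map, Ideal.map_map,
          Ideal.map_map]
        rfl
      have hdR : ringKrullDim (R ⧸ Ideal.span {y}) = (n + 1 : ℕ) := by
        obtain ⟨k, hk⟩ := exists_nat_eq_ringKrullDim (R ⧸ Ideal.span {y})
        rw [hk, hR] at hdimR
        rw [hk]
        norm_cast at hdimR ⊢
        omega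
      have hdS : ringKrullDim (S ⧸ Ideal.span {Y}) = (n + 1 : ℕ) := by
        obtain ⟨k, hk⟩ := exists_nat_eq_ringKrullDim (S ⧸ Ideal.span {Y})
        rw [hk, hS] at hdimS
        rw [hk]
        norm_cast at hdimS ⊢
        omega
      obtain ⟨g', hg'0, hg'⟩ := ih ψ' hψ' _ hker' ha' ha0' hloc'' φ' hφ' hdR hdS
      obtain ⟨G, hG⟩ := Ideal.Quotient.mk_surjective g'
      have hGk : φ' (Ideal.Quotient.mk _ G) = 0 := by
        rw [← RingHom.mem_ker, hg', hG]; exact Ideal.mem_span_singleton_self _
      rw [Ideal.quotientMap_mk, Ideal.Quotient.eq_zero_iff_mem, hImap] at hGk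
      obtain ⟨c, hc⟩ := Ideal.mem_span_singleton'.mp hGk
      obtain ⟨t, rfl⟩ := hφ c
      have hgk : φ (G - t * Y) = 0 := by
        rw [map_sub, map_mul, hY, hc, sub_self]
      have hgm : Ideal.Quotient.mk (Ideal.span {Y}) (G - t * Y) = g' := by
        rw [map_sub, hG, sub_eq_self, Ideal.Quotient.eq_zero_iff_mem]
        exact Ideal.mul_mem_left _ _ (Ideal.mem_span_singleton_self _)
      refine ⟨G - t * Y, ?_, ?_⟩
      · intro h0
        rw [h0, map_zero] at hgm
        exact hg'0 hgm.symm
      · have hreg : ∀ c : C, algebraMap A C (ψ y) * c = 0 → c = 0 := by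
          have hyA : IsSMulRegular A (ψ y) := by
            rw [isSMulRegular_iff_right_eq_zero_of_smul]
            intro r hr
            obtain ⟨r, rfl⟩ := hψ r
            rw [smul_eq_mul, ← map_mul, ← RingHom.mem_ker, hker] at hr
            obtain ⟨s, hs⟩ := Ideal.mem_span_singleton'.mp hr
            have hyp := isPrime_span_singleton R hy hy2
            have h5 : s * a ∈ Ideal.span {y} := by
              rw [hs]; exact Ideal.mul_mem_right _ _ (Ideal.mem_span_singleton_self _)
            obtain ⟨s', hs'⟩ := Ideal.mem_span_singleton'.mp ((hyp.mem_or_mem h5).resolve_right hay)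
            have hy0 : y ≠ 0 := fun h => hy2 (h ▸ zero_mem _)
            have h6 : s' * a = r := by
              apply mul_left_cancel₀ hy0
              rw [← hs, ← hs']; ring
            rw [← RingHom.mem_ker, hker, ← h6]
            exact Ideal.mul_mem_left _ _ (Ideal.mem_span_singleton_self _)
          have hyC' : IsSMulRegular C (algebraMap A C (ψ y)) := hyA.of_flat
          intro c hc'
          exact isSMulRegular_iff_right_eq_zero_of_smul.mp hyC' c hc'
        apply le_antisymm
        · apply Submodule.le_of_le_smul_of_le_jacobson_bot (I := maximalIdeal S)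
            ((RingHom.ker φ).fg_of_isNoetherianRing)
          · rw [IsLocalRing.jacobson_eq_maximalIdeal _ bot_ne_top]
          · intro κ hκ
            have h7 : Ideal.Quotient.mk (Ideal.span {Y}) κ ∈ RingHom.ker φ' := by
              rw [RingHom.mem_ker, Ideal.quotientMap_mk, hκ, map_zero]
            rw [hg', ← hgm] at h7
            obtain ⟨α, hα⟩ := Ideal.mem_span_singleton'.mp h7
            obtain ⟨α, rfl⟩ := Ideal.Quotient.mk_surjective α
            rw [← map_mul, eq_comm, Ideal.Quotient.mk_eq_mk_iff_sub_mem] at hα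
            obtain ⟨β, hβ⟩ := Ideal.mem_span_singleton'.mp hα
            have h8 : κ = α * (G - t * Y) + β * Y := by rw [hβ]; ring
            have h9 : φ β = 0 := by
              apply hreg
              have := congrArg φ h8
              rw [map_add, map_mul, map_mul, hgk, (RingHom.mem_ker).mp hκ, mul_zero, zero_add,
                hY] at this
              rw [mul_comm]; exact this.symm
            rw [h8]
            apply add_mem
            · exact Ideal.mem_sup_left (Ideal.mul_mem_left _ _ (Ideal.mem_span_singleton_self _))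
            · apply Ideal.mem_sup_right
              rw [mul_comm]
              exact Submodule.smul_mem_smul hYm ((RingHom.mem_ker).mpr h9)
        · rw [Ideal.span_singleton_le_iff_mem, RingHom.mem_ker, hgk]

theorem ker_isPrincipal {R S C : Type u} [CommRing R] [IsRegularLocalRing R]
    [CommRing S] [IsRegularLocalRing S] (hdim : ringKrullDim R = ringKrullDim S)
    [CommRing C] [IsLocalRing C] (a : R) (ha : a ∈ maximalIdeal R ^ 2) (ha0 : a ≠ 0)
    [Algebra (R ⧸ Ideal.span {a}) C] [Module.Flat (R ⧸ Ideal.span {a}) C]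
    (hloc : ((maximalIdeal R).map (Ideal.Quotient.mk (Ideal.span {a}))).map
      (algebraMap (R ⧸ Ideal.span {a}) C) = maximalIdeal C)
    (φ : S →+* C) (hφ : Function.Surjective φ) :
    ∃ g : S, g ≠ 0 ∧ RingHom.ker φ = Ideal.span {g} := by
  obtain ⟨n, hn⟩ := exists_nat_eq_ringKrullDim R
  exact ker_principal_aux n (Ideal.Quotient.mk (Ideal.span {a})) Ideal.Quotient.mk_surjective a
    Ideal.mk_ker ha ha0 hloc φ hφ hn (hdim ▸ hn)

end Vale.Agent.P177
end

section

/-!
Base change along a flat map: vanishing of Tor, quotients by sequences, dimension and depth.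
-/

namespace Vale.Agent.P177

open CategoryTheory TensorProduct Function IsLocalRing RingTheory.Sequence Pointwise

universe u

section general

variable {R : Type u} [CommRing R]

/-- Vanishing of the first Tor against cyclic modules gives flatness. -/
theorem flat_of_tor_one (K : Type u) [AddCommGroup K] [Module R K]
    (h : ∀ I : Ideal R, Subsingleton (TorM R 1 (R ⧸ I) K)) : Module.Flat R K := by
  rw [Module.Flat.iff_rTensor_injective']
  intro I
  have hex : Exact I.subtype I.mkQ := by
    intro x
    rw [Submodule.mkQ_apply, Submodule.Quotient.mk_eq_zero]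
    simp
  obtain ⟨δ, -, h3, -⟩ := exists_torDelta I.subtype I.mkQ (Submodule.injective_subtype _)
    (Submodule.mkQ_surjective _) hex K
  rw [injective_iff_map_eq_zero]
  intro x hx
  have h4 : torMap 0 I.subtype K ((torZero I K).symm x) = 0 := by
    apply (torZero R K).injective
    rw [torZero_naturality, LinearEquiv.apply_symm_apply, map_zero]
    exact hx
  obtain ⟨y, hy⟩ := (h3 0 _).1 h4
  have := h I
  rw [Subsingleton.elim y 0, map_zero] at hy
  rw [← (torZero I K).apply_symm_apply x, ← hy, map_zero]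

variable {T : Type u} [CommRing T] [Algebra R T] [Module.Flat R T]

/-- Vanishing of Tor is preserved by flat base change. -/
theorem tor_vanish_baseChange (m : ℕ) (K : Type u) [AddCommGroup K] [Module R K]
    (hK : ∀ j, m + 1 ≤ j → ∀ I : Ideal R, Subsingleton (TorM R j K (R ⧸ I)))
    (j : ℕ) (hj : m + 1 ≤ j) (X : Type u) [AddCommGroup X] [Module T X] :
    Subsingleton (TorM T j (T ⊗[R] K) X) := by
  induction m generalizing K j with
  | zero =>
    have : Module.Flat R K := flat_of_tor_one K fun I =>
      tor_symm_subsingleton _ _ _ (hK 1 le_rfl I)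
    obtain ⟨j, rfl⟩ : ∃ k, j = k + 1 := ⟨j - 1, by omega⟩
    exact tor_subsingleton_of_flat j
  | succ m ih =>
    obtain ⟨F, K1, _, _, _, _, f, g, hF, hf, hg, hex⟩ := exists_cover R K
    obtain ⟨j, rfl⟩ : ∃ k, j = k + 1 := ⟨j - 1, by omega⟩
    have h1 : ∀ j, m + 1 ≤ j → ∀ I : Ideal R, Subsingleton (TorM R j K1 (R ⧸ I)) := by
      intro j hj I
      obtain ⟨δ, -, h2, -⟩ := exists_torDelta f g hf hg hex (R ⧸ I)
      obtain ⟨i, rfl⟩ : ∃ k, j = k + 1 := ⟨j - 1, by omega⟩
      have h3 : Subsingleton (TorM R (i + 1) F (R ⧸ I)) := tor_subsingleton_of_flat i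
      have h4 := hK (i + 1 + 1) (by omega) I
      refine subsingleton_of_forall_eq 0 fun x => ?_
      obtain ⟨y, rfl⟩ := (h2 (i + 1) x).1 (Subsingleton.elim _ _)
      rw [Subsingleton.elim y 0, map_zero]
    have h2 := ih K1 h1 j (by omega)
    obtain ⟨k1, k2, k3⟩ := baseChange_ses (B := T) f g hf hg hex
    obtain ⟨δ, h4, -, -⟩ := exists_torDelta _ _ k1 k2 k3 X
    have h5 : Subsingleton (TorM T (j + 1) (T ⊗[R] F) X) := tor_subsingleton_of_flat j
    refine subsingleton_of_forall_eq 0 fun x => ?_
    obtain ⟨y, rfl⟩ := (h4 j x).1 (Subsingleton.elim _ _)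
    rw [Subsingleton.elim y 0, map_zero]

omit [Module.Flat R T] in
/-- Base change of a quotient by a sequence. -/
theorem exists_baseChange_quot (zs : List R) (M : Type u) [AddCommGroup M] [Module R M] :
    Nonempty ((T ⊗[R] (M ⧸ (Ideal.ofList zs • ⊤ : Submodule R M))) ≃ₗ[T]
      ((T ⊗[R] M) ⧸ (Ideal.ofList (zs.map (algebraMap R T)) • ⊤ : Submodule T (T ⊗[R] M)))) := by
  set N : Submodule R M := Ideal.ofList zs • ⊤ with hN
  have hex : Exact (N.subtype.baseChange T) (N.mkQ.baseChange T) := by
    rw [LinearMap.baseChange_eq_ltensor, LinearMap.baseChange_eq_ltensor]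
    refine lTensor_exact T ?_ (Submodule.mkQ_surjective _)
    intro x
    simp
  have hsurj : Surjective (N.mkQ.baseChange T) := by
    rw [LinearMap.baseChange_eq_ltensor]
    exact LinearMap.lTensor_surjective T (Submodule.mkQ_surjective _)
  have hker : (Ideal.ofList (zs.map (algebraMap R T)) • ⊤ : Submodule T (T ⊗[R] M)) =
      LinearMap.ker (N.mkQ.baseChange T) := by
    apply le_antisymm
    · rw [Submodule.smul_le]
      intro a ha x _
      have hle : Ideal.ofList (zs.map (algebraMap R T)) ≤
          Module.annihilator T (T ⊗[R] (M ⧸ N)) := by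
        rw [Ideal.ofList, Ideal.span_le]
        intro y hy
        have hy' : y ∈ zs.map (algebraMap R T) := hy
        rw [List.mem_map] at hy'
        obtain ⟨z, hz, rfl⟩ := hy'
        change algebraMap R T z ∈ Module.annihilator T (T ⊗[R] (M ⧸ N))
        rw [Module.mem_annihilator]
        intro w
        induction w using TensorProduct.induction_on with
        | zero => exact smul_zero _
        | tmul t m =>
          obtain ⟨m, rfl⟩ := Submodule.mkQ_surjective N m
          rw [algebraMap_smul, TensorProduct.smul_tmul', TensorProduct.smul_tmul, ← map_smul]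
          have : N.mkQ (z • m) = 0 := by
            rw [Submodule.mkQ_apply, Submodule.Quotient.mk_eq_zero]
            exact Submodule.smul_mem_smul (Ideal.subset_span hz) trivial
          rw [this, TensorProduct.tmul_zero]
        | add x y hx hy => rw [smul_add, hx, hy, add_zero]
      rw [LinearMap.mem_ker, map_smul]
      exact Module.mem_annihilator.1 (hle ha) _
    · rw [LinearMap.exact_iff.1 hex]
      rintro _ ⟨y, rfl⟩
      induction y using TensorProduct.induction_on with
      | zero => rw [map_zero]; exact Submodule.zero_mem _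
      | tmul t n =>
        obtain ⟨n, hn⟩ := n
        change t ⊗ₜ[R] n ∈ _
        rw [hN] at hn
        induction hn using Submodule.smul_induction_on' with
        | smul a ha m _ =>
          have h1 : t ⊗ₜ[R] (a • m) = (algebraMap R T a) • (t ⊗ₜ[R] m) := by
            rw [algebraMap_smul, TensorProduct.tmul_smul]
          rw [h1]
          refine Submodule.smul_mem_smul ?_ trivial
          rw [← Ideal.map_ofList]
          exact Ideal.mem_map_of_mem _ ha
        | add x hx y hy h1 h2 =>
          rw [TensorProduct.tmul_add]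
          exact Submodule.add_mem _ h1 h2
      | add x y hx hy => rw [map_add]; exact Submodule.add_mem _ hx hy
  exact ⟨((Submodule.quotEquivOfEq _ _ hker) ≪≫ₗ
    (N.mkQ.baseChange T).quotKerEquivOfSurjective hsurj).symm⟩

end general

section onesided

variable {R T : Type u} [CommRing R] [IsRegularLocalRing R] [CommRing T] [IsRegularLocalRing T]
  [Algebra R T] [Module.Flat R T] [IsLocalHom (algebraMap R T)] {r t : ℕ}

/-- Dimension of the closed fibre. -/
theorem supportDim_fibre (hr : ringKrullDim R = r) (ht : ringKrullDim T = t) :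
    Module.supportDim T (T ⊗[R] (R ⧸ maximalIdeal R)) = ((t - r : ℕ) : WithBot ℕ∞) := by
  obtain ⟨rs, hrs, hlen, hreg⟩ := exists_rsp R hr
  have h1 : IsWeaklyRegular T (rs.map (algebraMap R T)) := hreg.of_flat
  have h2 := supportDim_quot_of_weaklyRegular ht _ (map_mem_maximalIdeal (fun z hz => by
    rw [← hrs]; exact Ideal.subset_span hz)) h1
  obtain ⟨e⟩ := exists_baseChange_quot (T := T) rs R
  have e1 : (R ⧸ maximalIdeal R) ≃ₗ[R] (R ⧸ (Ideal.ofList rs • ⊤ : Submodule R R)) :=
    Submodule.quotEquivOfEq _ _ (by rw [hrs]; simp)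
  have e2 : (T ⊗[R] R) ≃ₗ[T] T := AlgebraTensorModule.rid R T T
  have e3 : ((T ⊗[R] R) ⧸ (Ideal.ofList (rs.map (algebraMap R T)) • ⊤ :
      Submodule T (T ⊗[R] R))) ≃ₗ[T]
      (T ⧸ (Ideal.ofList (rs.map (algebraMap R T)) • ⊤ : Submodule T T)) :=
    Submodule.Quotient.equiv _ _ e2 (by
      rw [Submodule.map_smul'', Submodule.map_top, LinearEquiv.range])
  rw [Module.supportDim_eq_of_equiv ((AlgebraTensorModule.congr (LinearEquiv.refl T T) e1) ≪≫ₗ
    e ≪≫ₗ e3), h2, List.length_map, hlen]

/-- Lower bound for the dimension of a base change. -/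
theorem le_supportDim_baseChange (hr : ringKrullDim R = r) (ht : ringKrullDim T = t)
    (E : Type u) [AddCommGroup E] [Module R E] [Module.Finite R E] (e : ℕ)
    (he : (e : WithBot ℕ∞) ≤ Module.supportDim R E) :
    ((e + (t - r) : ℕ) : WithBot ℕ∞) ≤ Module.supportDim T (T ⊗[R] E) := by
  have h1 : ∀ (M : Type u) [AddCommGroup M] [Module R M],
      Nonempty (TorM T 0 (T ⊗[R] M) T ≃ₗ[T] (T ⊗[R] M)) := fun M _ _ =>
    ⟨torZero _ _ ≪≫ₗ TensorProduct.rid T _⟩
  have h2 := le_supportDim_tor (S := R) (B := T) T (fun M _ _ _ =>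
    tor_subsingleton_of_projective_right 0) (t - r) (by
      obtain ⟨e1⟩ := h1 (R ⧸ maximalIdeal R)
      rw [Module.supportDim_eq_of_equiv e1, supportDim_fibre hr ht]) e E he
  obtain ⟨e1⟩ := h1 E
  rwa [Module.supportDim_eq_of_equiv e1] at h2

/-- Depth of a base change. -/
theorem exists_regular_baseChange (hr : ringKrullDim R = r) (ht : ringKrullDim T = t)
    (E : Type u) [AddCommGroup E] [Module R E] [Module.Finite R E] (zs : List R)
    (hzs : ∀ z ∈ zs, z ∈ maximalIdeal R) (hreg : IsWeaklyRegular E zs) (hle : zs.length ≤ r) :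
    ∃ ws : List T, ws.length = zs.length + (t - r) ∧ (∀ z ∈ ws, z ∈ maximalIdeal T) ∧
      IsWeaklyRegular (T ⊗[R] E) ws := by
  have hrt := dim_le_dim (R := R) (T := T) hr ht
  have hFL : FL2 ([] : List R) E (R ⧸ maximalIdeal R) := by
    unfold FL2
    rw [Ideal.annihilator_quotient]
    exact (le_sup_of_le_left le_sup_right).trans Ideal.le_radical
  have h1 : ∀ j, r - zs.length + 1 ≤ j → Subsingleton (TorM R j E (R ⧸ maximalIdeal R)) :=
    fun j hj => tor_subsingleton_of_depth hr E (R ⧸ maximalIdeal R) hFL zs [] hzs (by simp)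
      hreg (IsWeaklyRegular.nil _ _) j (by rw [List.length_nil]; omega)
  have h2 := tor_vanish_baseChange (T := T) (r - zs.length) E (fun j hj I =>
    tor_subsingleton_of_residue E (r - zs.length + 1) h1 (R ⧸ I) j hj)
  obtain ⟨ws, hlen, hws, hwreg⟩ := exists_regular_ext_list ht (T ⊗[R] E) []
    (IsWeaklyRegular.nil _ _) (r - zs.length)
    (fun j hj => h2 j (by omega) (T ⧸ maximalIdeal T)) (zs.length + (t - r))
    (by rw [List.length_nil]; omega)
  exact ⟨ws, hlen, hws, by simpa using hwreg⟩

end onesided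

end Vale.Agent.P177
end

section

/-!
The local criterion of flatness for a local map of noetherian local rings, and completions of
regular local rings.
-/

namespace Vale.Agent.P177

open CategoryTheory TensorProduct Function IsLocalRing RingTheory.Sequence Pointwise

universe u

section crit

variable {R C : Type u} [CommRing R] [IsLocalRing R] [IsNoetherianRing R] [CommRing C]
  [IsLocalRing C] [IsNoetherianRing C] [Algebra R C] [IsLocalHom (algebraMap R C)]

/-- Nakayama for the first Tor with a local algebra. -/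
theorem tor_one_subsingleton_of_smul (M : Type u) [AddCommGroup M] [Module R M]
    [Module.Finite R M] (x : R) (hx : x ∈ maximalIdeal R)
    (h : ∀ t : TorM R 1 M C, ∃ t', t = x • t') : Subsingleton (TorM R 1 M C) := by
  obtain ⟨n, g, hg⟩ := Module.Finite.exists_fin' R M
  have hex : Exact (LinearMap.ker g).subtype g := by
    intro y
    simp
  obtain ⟨e1⟩ := tor_one (LinearMap.ker g).subtype g (Submodule.injective_subtype _) hg hex C
  obtain ⟨e2⟩ := ker_comm (N := C) (LinearMap.ker g).subtype
  let θ : C ⊗[R] LinearMap.ker g →ₗ[C] C ⊗[R] (Fin n → R) :=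
    (LinearMap.ker g).subtype.baseChange C
  have hθ : ∀ y, y ∈ LinearMap.ker θ ↔
      y ∈ LinearMap.ker ((LinearMap.ker g).subtype.lTensor C) := fun y => Iff.rfl
  let e := e1 ≪≫ₗ e2
  have hsub : Subsingleton (LinearMap.ker θ) := by
    apply subsingleton_of_smul_surjective (B := C) (LinearMap.ker θ) (algebraMap R C x)
      (algebraMap_mem_maximalIdeal hx)
    rintro ⟨y, hy⟩
    obtain ⟨t', ht'⟩ := h (e.symm ⟨y, hy⟩)
    refine ⟨⟨(e t').1, (e t').2⟩, Subtype.ext ?_⟩
    have h1 : (⟨y, hy⟩ : LinearMap.ker ((LinearMap.ker g).subtype.lTensor C)) = x • e t' := by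
      rw [← map_smul, ← ht', LinearEquiv.apply_symm_apply]
    have h2 := congrArg Subtype.val h1
    change y = algebraMap R C x • (e t').1
    rw [algebraMap_smul]
    exact h2
  refine subsingleton_of_forall_eq 0 fun t => ?_
  apply e.injective
  apply Subtype.ext
  have h1 : (⟨(e t).1, (e t).2⟩ : LinearMap.ker θ) = 0 := Subsingleton.elim _ _
  rw [map_zero]
  exact congrArg Subtype.val h1

theorem tor_one_subsingleton_of_residue
    (h : Subsingleton (TorM R 1 (R ⧸ maximalIdeal R) C)) (M : Type u) [AddCommGroup M]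
    [Module R M] [Module.Finite R M] : Subsingleton (TorM R 1 M C) := by
  suffices H : ∀ I : Ideal R, ∀ (M : Type u) [AddCommGroup M] [Module R M] [Module.Finite R M],
      I ≤ Module.annihilator R M → Subsingleton (TorM R 1 M C) from H ⊥ M bot_le
  intro I
  induction I using IsNoetherian.induction with
  | hgt I ih =>
  intro M _ _ hM hI
  induction hM using IsNoetherianRing.induction_on_isQuotientEquivQuotientPrime R with
  | subsingleton N =>
    have h1 := tor_smul_eq_zero_left (R := R) (M := N) 1 (fun m => Subsingleton.elim _ _) 1 C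
    exact ⟨fun x y => by rw [← one_smul R x, ← one_smul R y, h1, h1]⟩
  | quotient N P e =>
    have hIP : I ≤ P.1 := by
      intro a ha
      have h1 := Module.mem_annihilator.1 (hI ha) (e.symm (Ideal.Quotient.mk P.1 1))
      rw [← map_smul, LinearEquiv.map_eq_zero_iff] at h1
      rw [← Ideal.Quotient.eq_zero_iff_mem, ← h1, Algebra.smul_def, map_one, mul_one]
      rfl
    by_cases hP : P.1 = maximalIdeal R
    · have e1 : N ≃ₗ[R] (R ⧸ maximalIdeal R) := e ≪≫ₗ Submodule.quotEquivOfEq _ _ hP
      exact (torCongrLeft 1 e1 C).toEquiv.subsingleton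
    · have hlt : P.1 < maximalIdeal R := lt_of_le_of_ne (le_maximalIdeal P.2.ne_top) hP
      obtain ⟨x, hxm, hxP⟩ := SetLike.exists_of_lt hlt
      let f : (R ⧸ P.1) →ₗ[R] (R ⧸ P.1) := LinearMap.lsmul R (R ⧸ P.1) x
      let g : (R ⧸ P.1) →ₗ[R] QuotSMulTop x (R ⧸ P.1) := Submodule.mkQ _
      have hfi : Injective f := by
        rw [injective_iff_map_eq_zero]
        intro a ha
        obtain ⟨a, rfl⟩ := Ideal.Quotient.mk_surjective a
        have h1 : Ideal.Quotient.mk P.1 (x * a) = 0 := ha
        rw [Ideal.Quotient.eq_zero_iff_mem] at h1 ⊢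
        exact (P.2.mem_or_mem h1).resolve_left hxP
      have hgs : Surjective g := Submodule.mkQ_surjective _
      have hex : Exact f g := by
        intro y
        rw [Submodule.mkQ_apply, Submodule.Quotient.mk_eq_zero]
        rw [Submodule.mem_smul_pointwise_iff_exists]
        simp [f]
      have hann : I < I ⊔ Ideal.span {x} := by
        refine lt_of_le_of_ne le_sup_left ?_
        intro h
        apply hxP
        apply hIP
        rw [h]
        exact Ideal.mem_sup_right (Ideal.mem_span_singleton_self x)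
      have hq : Subsingleton (TorM R 1 (QuotSMulTop x (R ⧸ P.1)) C) := by
        apply ih _ hann
        rw [sup_le_iff]
        constructor
        · intro a ha
          rw [Module.mem_annihilator]
          intro m
          obtain ⟨m, rfl⟩ := hgs m
          obtain ⟨m, rfl⟩ := Ideal.Quotient.mk_surjective m
          rw [← map_smul, Algebra.smul_def]
          have : (algebraMap R (R ⧸ P.1)) a = 0 := Ideal.Quotient.eq_zero_iff_mem.2 (hIP ha)
          rw [this, zero_mul, map_zero]
        · rw [Ideal.span_singleton_le_iff_mem, Module.mem_annihilator]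
          intro m
          obtain ⟨m, rfl⟩ := hgs m
          rw [← map_smul]
          exact (hex _).2 ⟨m, rfl⟩
      have h5 : Subsingleton (TorM R 1 (R ⧸ P.1) C) := by
        obtain ⟨δ, -, -, h3⟩ := exists_torDelta f g hfi hgs hex C
        apply tor_one_subsingleton_of_smul (R ⧸ P.1) x hxm
        intro t
        obtain ⟨y, rfl⟩ := (h3 1 t).1 (Subsingleton.elim _ _)
        exact ⟨y, torMap_smul_id 1 x f (fun m => rfl) y⟩
      exact (torCongrLeft 1 e C).toEquiv.subsingleton
  | exact N₁ N₂ N₃ f g hf hg h ih1 ih3 =>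
    exact tor_subsingleton_mid f g hf hg h C 1
      (ih1 (hI.trans (LinearMap.annihilator_le_of_injective f hf)))
      (ih3 (hI.trans (LinearMap.annihilator_le_of_surjective g hg)))

/-- The local criterion of flatness. -/
theorem flat_of_tor_residue (h : Subsingleton (TorM R 1 (R ⧸ maximalIdeal R) C)) :
    Module.Flat R C :=
  flat_of_tor_one C fun I => tor_one_subsingleton_of_residue h (R ⧸ I)

end crit

end Vale.Agent.P177
end

section

/-!
Flat change of rings for Tor: comparison as modules.
-/

namespace Vale.Agent.P177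

open CategoryTheory TensorProduct Function IsLocalRing RingTheory.Sequence Pointwise

universe u

variable {S B : Type u} [CommRing S] [CommRing B] [Algebra S B]

theorem tor_bc_common [Module.Flat S B] (n : ℕ) {K X : Type u} [AddCommGroup K] [Module S K]
    [AddCommGroup X] [Module S X] [Module B X] [IsScalarTower S B X]
    {φ : K →ₗ[S] X} (hφ : IsBaseChange B φ)
    (N : Type u) [AddCommGroup N] [Module S N] [Module B N] [IsScalarTower S B N] :
    ∃ (M : Type u) (_ : AddCommGroup M) (_ : Module S M) (_ : Module B M)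
      (_ : IsScalarTower S B M), Nonempty (TorM S n K N ≃ₗ[S] M) ∧
      Nonempty (TorM B n X N ≃ₗ[B] M) := by
  induction n generalizing K X with
  | zero =>
    obtain ⟨e, -⟩ := exists_cancel hφ N
    exact ⟨N ⊗[S] K, inferInstance, inferInstance, inferInstance, inferInstance,
      ⟨torZero K N ≪≫ₗ TensorProduct.comm S K N⟩,
      ⟨torZero X N ≪≫ₗ TensorProduct.comm B X N ≪≫ₗ e⟩⟩
  | succ n ih =>
    obtain ⟨F, K1, _, _, _, _, i, g, hF, hi, hg, h⟩ := exists_cover S K
    obtain ⟨Y, _, _, _, _, ψ, hψ⟩ := exists_baseChange (R := S) B F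
    obtain ⟨X1, _, _, _, _, φ1, hφ1⟩ := exists_baseChange (R := S) B K1
    let j : X1 →ₗ[B] Y := hφ1.lift (ψ ∘ₗ i)
    have hj : ∀ k, j (φ1 k) = ψ (i k) := fun k => hφ1.lift_eq _ k
    let q : Y →ₗ[B] X := hψ.lift (φ ∘ₗ g)
    have hq : ∀ y, q (ψ y) = φ (g y) := fun y => hψ.lift_eq _ y
    have hjinj : Injective j := bc_injective hφ1 hψ i j hj hi
    have hqs : Surjective q := bc_surjective hψ hφ g q hq hg
    have hex : Exact j q := bc_exact hφ1 hψ hφ i j hj g q hq hg h
    have hYflat : Module.Flat B Y := Module.Flat.isBaseChange S B F Y hψ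
    cases n with
    | zero =>
      obtain ⟨e1⟩ := tor_one i g hi hg h N
      obtain ⟨e2⟩ := tor_one j q hjinj hqs hex N
      obtain ⟨θ, hθ, ⟨e⟩⟩ := exists_ker_bc hφ1 hψ i j hj N
      obtain ⟨e3⟩ := ker_comm (N := N) i
      have e4 : LinearMap.ker (i.lTensor N) ≃ₗ[S] LinearMap.ker θ := by
        have : LinearMap.ker (i.lTensor N) = (LinearMap.ker θ).restrictScalars S := by
          ext x
          change i.lTensor N x = 0 ↔ θ x = 0
          rw [hθ]
        rw [this]
        exact LinearEquiv.refl _ _
      exact ⟨LinearMap.ker θ, inferInstance, inferInstance, inferInstance, inferInstance,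
        ⟨e1 ≪≫ₗ e3 ≪≫ₗ e4⟩, ⟨e2 ≪≫ₗ e.symm⟩⟩
    | succ n =>
      obtain ⟨e1⟩ := tor_shift i g hi hg h N n
      obtain ⟨e2⟩ := tor_shift j q hjinj hqs hex N n
      obtain ⟨M, i1, i2, i3, i4, ⟨f1⟩, ⟨f2⟩⟩ := ih hφ1
      exact ⟨M, i1, i2, i3, i4, ⟨e1 ≪≫ₗ f1⟩, ⟨e2 ≪≫ₗ f2⟩⟩

end Vale.Agent.P177
end

section

/-!
Lengths over a base ring in terms of the lengths of the localizations at maximal ideals.
-/

namespace Vale.Agent.P177

open CategoryTheory TensorProduct Function IsLocalRing RingTheory.Sequence Pointwise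

universe u

section simple

variable {B : Type u} [CommRing B]

theorem length_localization_quot_self (m : Ideal B) [hm : m.IsMaximal] :
    Module.length (Localization.AtPrime m) (Localization.AtPrime m ⊗[B] (B ⧸ m)) = 1 := by
  have e := (Algebra.TensorProduct.quotIdealMapEquivTensorQuot (Localization.AtPrime m)
    m).toLinearEquiv
  rw [← e.length_eq, Localization.AtPrime.map_eq_maximalIdeal, Module.length_eq_one_iff]
  exact isSimpleModule_iff_quot_maximal.mpr ⟨_, inferInstance, ⟨LinearEquiv.refl _ _⟩⟩

theorem subsingleton_localization_quot (m m' : Ideal B) [hm : m.IsMaximal] [hm' : m'.IsMaximal]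
    (hne : m ≠ m') : Subsingleton (Localization.AtPrime m ⊗[B] (B ⧸ m')) := by
  have e := (Algebra.TensorProduct.quotIdealMapEquivTensorQuot (Localization.AtPrime m)
    m').toLinearEquiv
  have h1 : m'.map (algebraMap B (Localization.AtPrime m)) = ⊤ := by
    have h2 : ¬ (m' ≤ m) := fun hle => hne (hm'.eq_of_le hm.ne_top hle).symm
    rw [SetLike.not_le_iff_exists] at h2
    obtain ⟨x, hx, hxm⟩ := h2
    exact Ideal.eq_top_of_isUnit_mem _ (Ideal.mem_map_of_mem _ hx)
      (IsLocalization.map_units (Localization.AtPrime m) (⟨x, hxm⟩ : m.primeCompl))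
  have h3 : Subsingleton (Localization.AtPrime m ⧸
      m'.map (algebraMap B (Localization.AtPrime m))) := Ideal.Quotient.subsingleton_iff.2 h1
  exact e.symm.toEquiv.subsingleton

end simple

theorem length_eq_sum {T B : Type u} [CommRing T] [CommRing B] [Algebra T B]
    (S : Finset (MaximalSpectrum B)) (M : Type u) [AddCommGroup M] [Module B M]
    (hfin : IsFiniteLength B M) : ∀ [Module T M] [IsScalarTower T B M],
    (∀ m : MaximalSpectrum B, m ∉ S → Subsingleton (Localization.AtPrime m.asIdeal ⊗[B] M)) →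
    Module.length T M = ∑ m ∈ S, Module.length T (B ⧸ m.asIdeal) *
      Module.length (Localization.AtPrime m.asIdeal) (Localization.AtPrime m.asIdeal ⊗[B] M) := by
  classical
  induction hfin with
  | of_subsingleton =>
    intro _ _ hS
    rename_i M _ _ hM _ _
    rw [Module.length_eq_zero_iff.2 hM, Finset.sum_eq_zero]
    intro m _
    have : Subsingleton (Localization.AtPrime m.asIdeal ⊗[B] M) := inferInstance
    rw [Module.length_eq_zero_iff.2 this, mul_zero]
  | of_simple_quotient hN ih =>
    rename_i M _ _ N hsimple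
    intro _ _ hS
    obtain ⟨m', hm', ⟨e⟩⟩ := isSimpleModule_iff_quot_maximal.1 hsimple
    have hex : Exact N.subtype N.mkQ := by
      intro x
      rw [Submodule.mkQ_apply, Submodule.Quotient.mk_eq_zero]
      simp
    have hsurj : Surjective N.mkQ := Submodule.mkQ_surjective _
    have hlen : Module.length T M = Module.length T N + Module.length T (B ⧸ m') := by
      rw [Module.length_eq_add_of_exact (N.subtype.restrictScalars T) (N.mkQ.restrictScalars T)
        (Submodule.injective_subtype _) hsurj hex]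
      congr 1
      exact (e.restrictScalars T).length_eq
    have hloc : ∀ m : MaximalSpectrum B,
        Injective (N.subtype.baseChange (Localization.AtPrime m.asIdeal)) ∧
        Surjective (N.mkQ.baseChange (Localization.AtPrime m.asIdeal)) ∧
        Exact (N.subtype.baseChange (Localization.AtPrime m.asIdeal))
          (N.mkQ.baseChange (Localization.AtPrime m.asIdeal)) := fun m =>
      baseChange_ses N.subtype N.mkQ (Submodule.injective_subtype _) hsurj hex
    have hSN : ∀ m : MaximalSpectrum B, m ∉ S →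
        Subsingleton (Localization.AtPrime m.asIdeal ⊗[B] N) := fun m hm =>
      haveI := hS m hm
      (hloc m).1.subsingleton
    have eloc : ∀ m : MaximalSpectrum B,
        Module.length (Localization.AtPrime m.asIdeal)
          (Localization.AtPrime m.asIdeal ⊗[B] (M ⧸ N)) = if m = ⟨m', hm'⟩ then 1 else 0 := by
      intro m
      have hmm := m.isMaximal
      rw [(e.baseChange B (Localization.AtPrime m.asIdeal) _ _).length_eq]
      split_ifs with h
      · subst h
        exact length_localization_quot_self m'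
      · have hne : m.asIdeal ≠ m' := fun h' => h (MaximalSpectrum.ext h')
        have := subsingleton_localization_quot m.asIdeal m' hne
        rw [Module.length_eq_zero_iff]
        exact this
    have hmem : (⟨m', hm'⟩ : MaximalSpectrum B) ∈ S := by
      by_contra hcon
      have h1 := hS _ hcon
      have h2 : Subsingleton (Localization.AtPrime m' ⊗[B] (M ⧸ N)) :=
        (hloc ⟨m', hm'⟩).2.1.subsingleton
      have h3 := eloc ⟨m', hm'⟩
      rw [if_pos rfl, Module.length_eq_zero_iff.2 h2] at h3
      exact zero_ne_one h3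
    rw [hlen, ih hSN]
    have hsum : ∀ m ∈ S, Module.length T (B ⧸ m.asIdeal) *
        Module.length (Localization.AtPrime m.asIdeal) (Localization.AtPrime m.asIdeal ⊗[B] M) =
        Module.length T (B ⧸ m.asIdeal) *
        Module.length (Localization.AtPrime m.asIdeal) (Localization.AtPrime m.asIdeal ⊗[B] N) +
        (if m = ⟨m', hm'⟩ then Module.length T (B ⧸ m') else 0) := by
      intro m _
      rw [Module.length_eq_add_of_exact _ _ (hloc m).1 (hloc m).2.1 (hloc m).2.2, eloc m, mul_add]
      congr 1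
      split_ifs with h
      · rw [mul_one, h]
      · rw [mul_zero]
    rw [Finset.sum_congr rfl hsum, Finset.sum_add_distrib, Finset.sum_ite_eq' S, if_pos hmem]

end Vale.Agent.P177
end

section

/-!
Transfer of Euler characteristics from `T` to the localizations of a `T`-algebra `B`.
-/

namespace Vale.Agent.P177

open CategoryTheory TensorProduct Function IsLocalRing RingTheory.Sequence Pointwise

universe u

variable {R₁ T B₁ B : Type u} [CommRing R₁] [CommRing T] [CommRing B₁] [CommRing B]
  [Algebra R₁ T] [Algebra R₁ B₁] [Algebra T B] [Algebra B₁ B] [Algebra R₁ B]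
  [IsScalarTower R₁ B₁ B] [IsScalarTower R₁ T B] [Algebra.IsPushout R₁ T B₁ B]
  [Module.Flat T B]

/-- Comparison of `Tor` over `T`, over `B` and over the localizations of `B`. -/
theorem exists_tor_transfer (V : Type u) [AddCommGroup V] [Module R₁ V] [Module B₁ V]
    [IsScalarTower R₁ B₁ V] (H : Type u) [AddCommGroup H] [Module T H] (n : ℕ) :
    ∃ (M : Type u) (_ : AddCommGroup M) (_ : Module T M) (_ : Module B M)
      (_ : IsScalarTower T B M), Nonempty (TorM T n H (T ⊗[R₁] V) ≃ₗ[T] M) ∧
      Nonempty (TorM B n (B ⊗[T] H) (B ⊗[B₁] V) ≃ₗ[B] M) ∧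
      ∀ m : MaximalSpectrum B, Nonempty (TorM (Localization.AtPrime m.asIdeal) n
        (Localization.AtPrime m.asIdeal ⊗[B] (B ⊗[T] H))
        (Localization.AtPrime m.asIdeal ⊗[B] (B ⊗[B₁] V)) ≃ₗ[Localization.AtPrime m.asIdeal]
        Localization.AtPrime m.asIdeal ⊗[B] M) := by
  obtain ⟨M, i1, i2, i3, i4, ⟨e1⟩, ⟨e2⟩⟩ := tor_bc_common (S := T) (B := B) n
    (TensorProduct.isBaseChange T H B) (B ⊗[B₁] V)
  have e3 : (B ⊗[B₁] V) ≃ₗ[T] (T ⊗[R₁] V) := Algebra.IsPushout.cancelBaseChange R₁ T B₁ B V
  refine ⟨M, i1, i2, i3, i4, ⟨(torCongrRight n H e3).symm ≪≫ₗ e1⟩, ⟨e2⟩, fun m => ?_⟩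
  obtain ⟨e4⟩ := exists_tor_flat_iso (A := B) (C := Localization.AtPrime m.asIdeal) n
    (TensorProduct.isBaseChange B (B ⊗[T] H) (Localization.AtPrime m.asIdeal))
    (TensorProduct.isBaseChange B (B ⊗[B₁] V) (Localization.AtPrime m.asIdeal))
  exact ⟨e4 ≪≫ₗ e2.baseChange B (Localization.AtPrime m.asIdeal) _ _⟩

/-- The Euler characteristic over `T` as a sum over maximal ideals of `B`. -/
theorem eulerTor_eq_sum (V : Type u) [AddCommGroup V] [Module R₁ V] [Module B₁ V]
    [IsScalarTower R₁ B₁ V] (H : Type u) [AddCommGroup H] [Module T H]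
    (hlen : ∀ n, Module.length T (TorM T n H (T ⊗[R₁] V)) ≠ ⊤) (S : Finset (MaximalSpectrum B))
    (hS : ∀ m : MaximalSpectrum B, m ∉ S → ∀ n, Subsingleton (Localization.AtPrime m.asIdeal ⊗[B]
      TorM B n (B ⊗[T] H) (B ⊗[B₁] V))) (N : ℕ) :
    eulerTor T N H (T ⊗[R₁] V) = ∑ m ∈ S, ((Module.length T (B ⧸ m.asIdeal)).toNat : ℤ) *
      eulerTor (Localization.AtPrime m.asIdeal) N
        (Localization.AtPrime m.asIdeal ⊗[B] (B ⊗[T] H))
        (Localization.AtPrime m.asIdeal ⊗[B] (B ⊗[B₁] V)) := by
  have key : ∀ n, ((Module.length T (TorM T n H (T ⊗[R₁] V))).toNat : ℤ) =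
      ∑ m ∈ S, ((Module.length T (B ⧸ m.asIdeal)).toNat : ℤ) *
        ((Module.length (Localization.AtPrime m.asIdeal) (TorM (Localization.AtPrime m.asIdeal) n
        (Localization.AtPrime m.asIdeal ⊗[B] (B ⊗[T] H))
        (Localization.AtPrime m.asIdeal ⊗[B] (B ⊗[B₁] V)))).toNat : ℤ) := by
    intro n
    obtain ⟨M, _, _, _, _, ⟨e1⟩, ⟨e2⟩, e3⟩ := exists_tor_transfer (R₁ := R₁) (T := T) (B₁ := B₁)
      (B := B) V H n
    have h1 : Module.length T M ≠ ⊤ := by
      rw [← e1.length_eq]
      exact hlen n
    have h2 : IsFiniteLength B M := by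
      have h3 := Module.length_ne_top_iff.1 h1
      rw [isFiniteLength_iff_isNoetherian_isArtinian] at h3 ⊢
      obtain ⟨h4, h5⟩ := h3
      exact ⟨isNoetherian_of_tower T h4, isArtinian_of_tower T h5⟩
    have h3 := length_eq_sum (T := T) S M h2 (fun m hm => by
      have := hS m hm n
      exact (e2.baseChange B (Localization.AtPrime m.asIdeal) _ _).symm.toEquiv.subsingleton)
    have h4 : ∀ m ∈ S, Module.length T (B ⧸ m.asIdeal) *
        Module.length (Localization.AtPrime m.asIdeal)
          (Localization.AtPrime m.asIdeal ⊗[B] M) ≠ ⊤ := by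
      intro m hm htop
      apply h1
      rw [h3, eq_top_iff, ← htop]
      exact Finset.single_le_sum (f := fun m : MaximalSpectrum B =>
        Module.length T (B ⧸ m.asIdeal) * Module.length (Localization.AtPrime m.asIdeal)
          (Localization.AtPrime m.asIdeal ⊗[B] M)) (fun _ _ => bot_le) hm
    rw [e1.length_eq, h3, ENat.toNat_sum h4]
    push_cast
    refine Finset.sum_congr rfl fun m _ => ?_
    obtain ⟨e4⟩ := e3 m
    rw [ENat.toNat_mul, e4.length_eq]
    push_cast
    rfl
  unfold eulerTor
  rw [Finset.sum_congr rfl fun n _ => by rw [key n, Finset.mul_sum]]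
  rw [Finset.sum_comm]
  refine Finset.sum_congr rfl fun m _ => ?_
  rw [Finset.mul_sum]
  refine Finset.sum_congr rfl fun n _ => ?_
  ring

end Vale.Agent.P177
end

section

/-!
Finite modules over complete rings; a lemma of Krull and Akizuki.
-/

namespace Vale.Agent.P177

open CategoryTheory TensorProduct Function IsLocalRing RingTheory.Sequence Pointwise

universe u

theorem isPrecomplete_of_finite {R : Type u} [CommRing R] (I : Ideal R) [IsPrecomplete I R]
    (M : Type u) [AddCommGroup M] [Module R M] [Module.Finite R M] : IsPrecomplete I M := by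
  rw [← AdicCompletion.of_surjective_iff]
  intro x
  obtain ⟨y, rfl⟩ := AdicCompletion.ofTensorProduct_surjective_of_finite I M x
  induction y using TensorProduct.induction_on with
  | zero => exact ⟨0, by rw [map_zero, map_zero]⟩
  | tmul a m =>
    obtain ⟨r, rfl⟩ := AdicCompletion.of_surjective I R a
    refine ⟨r • m, ?_⟩
    rw [AdicCompletion.ofTensorProduct_tmul, map_smul]
    exact (algebraMap_smul (AdicCompletion I R) r (AdicCompletion.of I M m)).symm
  | add x y hx hy =>
    obtain ⟨a, ha⟩ := hx
    obtain ⟨b, hb⟩ := hy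
    exact ⟨a + b, by rw [map_add, map_add, ha, hb]⟩

section KA

variable {A : Type u} [CommRing A] [IsLocalRing A]

theorem maximalIdeal_le_radical_of_ne_bot
    (hprime : ∀ q : Ideal A, q.IsPrime → q ≠ ⊥ → q = maximalIdeal A) (I : Ideal A) (hI : I ≠ ⊥) :
    maximalIdeal A ≤ I.radical := by
  rw [Ideal.radical_eq_sInf]
  refine le_sInf ?_
  rintro q ⟨hIq, hq⟩
  refine (hprime q hq ?_).ge
  rintro rfl
  exact hI (le_bot_iff.1 hIq)

variable [IsNoetherianRing A] [IsDomain A]
  (hprime : ∀ q : Ideal A, q.IsPrime → q ≠ ⊥ → q = maximalIdeal A)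
  {U : Type u} [CommRing U] [IsDomain U] [Algebra A U] (hinj : Injective (algebraMap A U))
  (hU : ∀ u : U, ∃ a : A, a ≠ 0 ∧ ∃ c : A, a • u = algebraMap A U c)

omit [IsLocalRing A] [IsNoetherianRing A] [IsDomain U] in
include hU in
theorem exists_common_multiple (M : Submodule A U) (hM : M.FG) :
    ∃ c : A, c ≠ 0 ∧ ∀ m ∈ M, ∃ d : A, c • m = algebraMap A U d := by
  induction M, hM using Submodule.fg_induction with
  | singleton x =>
    obtain ⟨a, ha, c, hc⟩ := hU x
    refine ⟨a, ha, fun m hm => ?_⟩
    obtain ⟨e, rfl⟩ := Submodule.mem_span_singleton.1 hm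
    exact ⟨e * c, by rw [smul_comm, hc, map_mul, Algebra.smul_def]⟩
  | sup N₁ N₂ hN₁ hN₂ h1 h2 =>
    obtain ⟨c1, hc1, hd1⟩ := h1
    obtain ⟨c2, hc2, hd2⟩ := h2
    refine ⟨c1 * c2, mul_ne_zero hc1 hc2, fun m hm => ?_⟩
    obtain ⟨x, hx, y, hy, rfl⟩ := Submodule.mem_sup.1 hm
    obtain ⟨d1, h3⟩ := hd1 x hx
    obtain ⟨d2, h4⟩ := hd2 y hy
    refine ⟨c2 * d1 + c1 * d2, ?_⟩
    rw [smul_add, mul_smul, mul_smul, smul_comm c1 c2 x, h3, h4, Algebra.smul_def,
      Algebra.smul_def, map_add, map_mul, map_mul]

include hprime hinj hU in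
theorem length_quotSMulTop_eq (M : Submodule A U) (hM : M.FG) (h1M : (1 : U) ∈ M) (x : A)
    (hx0 : x ≠ 0) : (Module.length A (QuotSMulTop x M)).toNat =
      (Module.length A (QuotSMulTop x A)).toNat ∧
      Module.length A (QuotSMulTop x M) ≠ ⊤ := by
  have hfin : Module.Finite A M := Module.Finite.iff_fg.2 hM
  let f : A →ₗ[A] M := (Algebra.linearMap A U).codRestrict M (fun a => by
    rw [Algebra.linearMap_apply, Algebra.algebraMap_eq_smul_one]
    exact M.smul_mem a h1M)
  have hf : Injective f := fun a b hab => hinj (congrArg Subtype.val hab)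
  have hex : Exact f (LinearMap.range f).mkQ := by
    intro x
    rw [Submodule.mkQ_apply, Submodule.Quotient.mk_eq_zero]
    rfl
  obtain ⟨c, hc0, hc⟩ := exists_common_multiple hU M hM
  have hFLQ : FL ([] : List A) (M ⧸ LinearMap.range f) := by
    unfold FL
    rw [Ideal.ofList_nil, sup_bot_eq]
    apply maximalIdeal_le_radical_of_ne_bot hprime
    intro hbot
    apply hc0
    have h3 : c ∈ Module.annihilator A (M ⧸ LinearMap.range f) := by
      rw [Module.mem_annihilator]
      intro v
      obtain ⟨⟨m, hm⟩, rfl⟩ := Submodule.mkQ_surjective _ v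
      rw [← map_smul, Submodule.mkQ_apply, Submodule.Quotient.mk_eq_zero]
      obtain ⟨d, hd⟩ := hc m hm
      exact ⟨d, Subtype.ext hd.symm⟩
    rw [hbot] at h3
    exact h3
  have hFLx : ∀ (N : Type u) [AddCommGroup N] [Module A N], FL [x] N := by
    intro N _ _
    unfold FL
    apply maximalIdeal_le_radical_of_ne_bot hprime
    intro hbot
    apply hx0
    have h3 : x ∈ Module.annihilator A N ⊔ Ideal.ofList [x] :=
      Ideal.mem_sup_right (by rw [Ideal.ofList_singleton]; exact Ideal.mem_span_singleton_self x)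
    rw [hbot] at h3
    exact h3
  have hadd := eul_add [x] f (LinearMap.range f).mkQ hf (Submodule.mkQ_surjective _) hex
    (hFLx M)
  rw [eul_cons_eq_zero x [] (M ⧸ LinearMap.range f) hFLQ, add_zero] at hadd
  have htors : ∀ (N : Type u) [AddCommGroup N] [Module A N],
      (∀ n : N, x • n = 0 → n = 0) → eul [x] N =
      ((Module.length A (QuotSMulTop x N)).toNat : ℤ) := by
    intro N _ _ hN
    have : Subsingleton (Submodule.torsionBy A N x) := by
      refine subsingleton_of_forall_eq 0 ?_
      rintro ⟨y, hy⟩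
      exact Subtype.ext (hN y hy)
    change eul [] (QuotSMulTop x N) - eul [] (Submodule.torsionBy A N x) = _
    rw [eul_subsingleton [] (Submodule.torsionBy A N x), sub_zero]
    rfl
  rw [htors M (by
      rintro ⟨m, hm⟩ h
      have h3 : x • m = 0 := congrArg Subtype.val h
      apply Subtype.ext
      rw [Algebra.smul_def] at h3
      exact (mul_eq_zero.1 h3).resolve_left fun h4 => hx0 ((map_eq_zero_iff _ hinj).1 h4)),
    htors A (fun n hn => (mul_eq_zero.1 hn).resolve_left hx0)] at hadd
  refine ⟨by exact_mod_cast hadd, ?_⟩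
  exact ((hFLx M).quot (z := x) (zs := [])).length_ne_top

include hprime hinj hU in
/-- The lemma of Krull and Akizuki. -/
theorem exists_fg_add (x : A) (hx0 : x ≠ 0) :
    ∃ M₀ : Submodule A U, M₀.FG ∧ ∀ u : U, ∃ m ∈ M₀, ∃ u' : U, u = m + x • u' := by
  let π : U →ₗ[A] QuotSMulTop x U := Submodule.mkQ _
  let φ : Submodule A U → ℕ := fun M => (Module.length A (M.map π)).toNat
  have hquot : ∀ M : Submodule A U, M.FG → (1 : U) ∈ M →
      Module.length A (M.map π) ≤ Module.length A (QuotSMulTop x M) := by
    intro M _ _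
    let g0 : M →ₗ[A] M.map π := π.restrict (fun m hm => Submodule.mem_map_of_mem hm)
    let g : QuotSMulTop x M →ₗ[A] M.map π := Submodule.liftQ _ g0 (by
      intro y hy
      rw [Submodule.mem_smul_pointwise_iff_exists] at hy
      obtain ⟨y, -, rfl⟩ := hy
      apply Subtype.ext
      change π (x • (y : U)) = 0
      rw [Submodule.mkQ_apply, Submodule.Quotient.mk_eq_zero]
      exact Submodule.smul_mem_pointwise_smul _ x _ trivial)
    refine Module.length_le_of_surjective g ?_
    rintro ⟨_, m, hm, rfl⟩
    exact ⟨Submodule.Quotient.mk ⟨m, hm⟩, rfl⟩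
  have hne : ∀ M : Submodule A U, M.FG → (1 : U) ∈ M → Module.length A (M.map π) ≠ ⊤ := by
    intro M hM h1 htop
    apply (length_quotSMulTop_eq hprime hinj hU M hM h1 x hx0).2
    rw [eq_top_iff, ← htop]
    exact hquot M hM h1
  have hbd : ∀ M : Submodule A U, M.FG → (1 : U) ∈ M →
      φ M ≤ (Module.length A (QuotSMulTop x A)).toNat := by
    intro M hM h1
    obtain ⟨h3, h4⟩ := length_quotSMulTop_eq hprime hinj hU M hM h1 x hx0
    rw [← h3]
    exact ENat.toNat_le_toNat (hquot M hM h1) h4
  have hmax : ∃ M₀ : Submodule A U, (M₀.FG ∧ (1 : U) ∈ M₀) ∧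
      ∀ M : Submodule A U, M.FG → (1 : U) ∈ M → φ M ≤ φ M₀ := by
    by_contra hcon
    push Not at hcon
    have h3 : ∀ k : ℕ, ∃ M : Submodule A U, (M.FG ∧ (1 : U) ∈ M) ∧ k ≤ φ M := by
      intro k
      induction k with
      | zero => exact ⟨Submodule.span A {1}, ⟨Submodule.fg_span_singleton _,
          Submodule.mem_span_singleton_self _⟩, Nat.zero_le _⟩
      | succ k ih =>
        obtain ⟨M, hM, hk⟩ := ih
        obtain ⟨M', hM', h1', hlt⟩ := hcon M hM
        exact ⟨M', ⟨hM', h1'⟩, by omega⟩
    obtain ⟨M, hM, hk⟩ := h3 ((Module.length A (QuotSMulTop x A)).toNat + 1)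
    have := hbd M hM.1 hM.2
    omega
  obtain ⟨M₀, ⟨hM₀, h1M₀⟩, hmax⟩ := hmax
  refine ⟨M₀, hM₀, fun u => ?_⟩
  have hM₁ : (M₀ ⊔ Submodule.span A {u}).FG := hM₀.sup (Submodule.fg_span_singleton _)
  have h1M₁ : (1 : U) ∈ M₀ ⊔ Submodule.span A {u} := Submodule.mem_sup_left h1M₀
  have hle : M₀.map π ≤ (M₀ ⊔ Submodule.span A {u}).map π := Submodule.map_mono le_sup_left
  have heq : M₀.map π = (M₀ ⊔ Submodule.span A {u}).map π := by
    by_contra hcon
    have hfl := Module.length_ne_top_iff.1 (hne _ hM₁ h1M₁)
    rw [isFiniteLength_iff_isNoetherian_isArtinian] at hfl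
    obtain ⟨_, _⟩ := hfl
    have h3 : (M₀.map π).comap ((M₀ ⊔ Submodule.span A {u}).map π).subtype ≠ ⊤ := by
      intro htop
      apply hcon
      apply le_antisymm hle
      intro y hy
      have h4 : (⟨y, hy⟩ : (M₀ ⊔ Submodule.span A {u}).map π) ∈
          (M₀.map π).comap ((M₀ ⊔ Submodule.span A {u}).map π).subtype := htop ▸ trivial
      exact h4
    have h4 := Submodule.length_lt h3
    rw [(Submodule.comapSubtypeEquivOfLe hle).length_eq] at h4
    have h5 := hmax _ hM₁ h1M₁
    have h6 : φ M₀ < φ (M₀ ⊔ Submodule.span A {u}) := by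
      rw [← ENat.natCast_toNat (hne _ hM₀ h1M₀), ← ENat.natCast_toNat (hne _ hM₁ h1M₁)] at h4
      exact_mod_cast h4
    omega
  have h7 : π u ∈ M₀.map π := by
    rw [heq]
    exact Submodule.mem_map_of_mem (Submodule.mem_sup_right (Submodule.mem_span_singleton_self u))
  obtain ⟨m, hm, hmu⟩ := h7
  have h8 : π (u - m) = 0 := by rw [map_sub, hmu, sub_self]
  rw [Submodule.mkQ_apply, Submodule.Quotient.mk_eq_zero,
    Submodule.mem_smul_pointwise_iff_exists] at h8
  obtain ⟨u', -, hu'⟩ := h8
  exact ⟨m, hm, u', by rw [hu']; ring⟩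

end KA

end Vale.Agent.P177
end

section

/-!
The normalization of a complete one dimensional local domain is a discrete valuation ring, finite
over it.
-/

namespace Vale.Agent.P177

open CategoryTheory TensorProduct Function IsLocalRing RingTheory.Sequence Pointwise

universe u

section KA

variable {A : Type u} [CommRing A] [IsLocalRing A] [IsNoetherianRing A] [IsDomain A]
  (hprime : ∀ q : Ideal A, q.IsPrime → q ≠ ⊥ → q = maximalIdeal A)
  {U : Type u} [CommRing U] [IsDomain U] [Algebra A U] (hinj : Injective (algebraMap A U))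
  (hU : ∀ u : U, ∃ a : A, a ≠ 0 ∧ ∃ c : A, a • u = algebraMap A U c)

include hprime hinj hU in
theorem isNoetherianRing_of_ka : IsNoetherianRing U := by
  refine ⟨fun (I : Ideal U) => ?_⟩
  by_cases hI : I = ⊥
  · rw [hI]; exact Submodule.fg_bot
  obtain ⟨u, huI, hu0⟩ := Submodule.exists_mem_ne_zero_of_ne_bot hI
  obtain ⟨a, ha0, c, hc⟩ := hU u
  have hcI : algebraMap A U c ∈ I := by
    rw [← hc, Algebra.smul_def]
    exact Ideal.mul_mem_left I _ huI
  have hc0 : c ≠ 0 := by
    rintro rfl
    rw [map_zero, Algebra.smul_def] at hc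
    rcases mul_eq_zero.1 hc with h | h
    · exact ha0 ((map_eq_zero_iff _ hinj).1 h)
    · exact hu0 h
  obtain ⟨M₀, hM₀, hM⟩ := exists_fg_add hprime hinj hU c hc0
  have hfin : Module.Finite A M₀ := Module.Finite.iff_fg.2 hM₀
  have hN : (M₀ ⊓ I.restrictScalars A).FG := Submodule.FG.of_le hM₀ inf_le_left
  obtain ⟨s, hs⟩ := hN
  classical
  refine ⟨insert (algebraMap A U c) s, le_antisymm ?_ ?_⟩
  · rw [Submodule.span_le]
    intro y hy
    rw [Finset.coe_insert, Set.mem_insert_iff] at hy
    rcases hy with rfl | hy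
    · exact hcI
    · have h3 : y ∈ M₀ ⊓ I.restrictScalars A := hs ▸ Submodule.subset_span hy
      exact h3.2
  · intro y hy
    obtain ⟨m, hm, u', rfl⟩ := hM y
    have hcu : c • u' ∈ Submodule.span U
        ((insert (algebraMap A U c) s : Finset U) : Set U) := by
      rw [Algebra.smul_def, mul_comm]
      exact Submodule.smul_mem _ _ (Submodule.subset_span (by simp))
    refine Submodule.add_mem _ ?_ hcu
    have hcuI : c • u' ∈ I := by
      rw [Algebra.smul_def]
      exact Ideal.mul_mem_right _ I hcI
    have hmI : m ∈ I := by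
      have h4 := I.sub_mem hy hcuI
      rwa [add_sub_cancel_right] at h4
    have h3 : m ∈ Submodule.span A (s : Set U) := by
      rw [hs]
      exact ⟨hm, hmI⟩
    have h4 : Submodule.span A (s : Set U) ≤ (Submodule.span U
        ((insert (algebraMap A U c) s : Finset U) : Set U)).restrictScalars A := by
      rw [Submodule.span_le]
      intro z hz
      exact Submodule.subset_span (by simp [Finset.mem_coe.1 hz])
    exact h4 h3

variable [Algebra.IsIntegral A U]

omit [IsNoetherianRing A] [IsDomain A] in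
include hinj in
theorem map_ne_top_of_integral : (maximalIdeal A).map (algebraMap A U) ≠ ⊤ := by
  obtain ⟨Q, hQ, hQA⟩ := Ideal.exists_ideal_over_prime_of_isIntegral_of_isDomain (S := U)
    (maximalIdeal A) (by
      rw [(RingHom.injective_iff_ker_eq_bot _).1 hinj]
      exact bot_le)
  intro htop
  apply hQ.ne_top
  rw [eq_top_iff, ← htop, Ideal.map_le_iff_le_comap, hQA]

include hprime hinj hU in
/-- Over a complete ring, `U` is finite. -/
theorem finite_of_complete [IsAdicComplete (maximalIdeal A) A] (hne : maximalIdeal A ≠ ⊥) :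
    Module.Finite A U := by
  have hnoeth := isNoetherianRing_of_ka hprime hinj hU
  have hH : IsHausdorff ((maximalIdeal A).map (algebraMap A U)) U :=
    IsHausdorff.of_isDomain _ (map_ne_top_of_integral hinj)
  have hH' : IsHausdorff (maximalIdeal A) U := IsHausdorff.map_algebraMap_iff.1 hH
  obtain ⟨x, hx, hx0⟩ := Submodule.exists_mem_ne_zero_of_ne_bot hne
  obtain ⟨M₀, hM₀, hM⟩ := exists_fg_add hprime hinj hU x hx0
  have hfin : Module.Finite A M₀ := Module.Finite.iff_fg.2 hM₀
  have hprec : IsPrecomplete (maximalIdeal A) M₀ := isPrecomplete_of_finite _ _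
  have hsurj : Surjective M₀.subtype := by
    apply surjective_of_mkQ_comp_surjective (I := maximalIdeal A)
    intro y
    obtain ⟨u, rfl⟩ := Submodule.mkQ_surjective _ y
    obtain ⟨m, hm, u', rfl⟩ := hM u
    refine ⟨⟨m, hm⟩, ?_⟩
    rw [map_add]
    have h3 : (Submodule.mkQ (maximalIdeal A • ⊤ : Submodule A U)) (x • u') = 0 := by
      rw [Submodule.mkQ_apply, Submodule.Quotient.mk_eq_zero]
      exact Submodule.smul_mem_smul hx trivial
    rw [h3, add_zero]
    rfl
  exact Module.Finite.of_surjective M₀.subtype hsurj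

end KA

section localring

/-- A domain finite over a complete local ring is local. -/
theorem isLocalRing_of_finite (A : Type u) [CommRing A] [IsLocalRing A] [IsNoetherianRing A]
    [IsAdicComplete (maximalIdeal A) A]
    (U : Type u) [CommRing U] [IsDomain U] [Algebra A U] [Module.Finite A U] :
    IsLocalRing U := by
  set J := (maximalIdeal A).map (algebraMap A U) with hJ
  have hprec : IsPrecomplete (maximalIdeal A) U := isPrecomplete_of_finite _ _
  have hhaus : IsHausdorff (maximalIdeal A) U := inferInstance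
  have hcomp : IsAdicComplete (maximalIdeal A) U := { hprec, hhaus with }
  have hJc : IsAdicComplete J U := (IsAdicComplete.map_algebraMap_iff _ _).2 hcomp
  have hjac : J ≤ Ideal.jacobson ⊥ := IsAdicComplete.le_jacobson_bot J
  have hunit : ∀ a : U, IsUnit (Ideal.Quotient.mk J a) → IsUnit a := by
    intro a ha
    obtain ⟨b, hb⟩ := ha.exists_right_inv
    obtain ⟨b, rfl⟩ := Ideal.Quotient.mk_surjective b
    rw [← map_mul, ← map_one (Ideal.Quotient.mk J), Ideal.Quotient.eq] at hb
    have h3 := Ideal.mem_jacobson_bot.1 (hjac hb) 1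
    have h4 : (a * b - 1) * 1 + 1 = a * b := by ring
    rw [h4] at h3
    exact isUnit_of_mul_isUnit_left h3
  have hart : IsArtinianRing (U ⧸ J) := by
    have h1 : FL ([] : List A) (U ⧸ J) := by
      unfold FL
      refine le_trans ?_ Ideal.le_radical
      refine le_trans ?_ le_sup_left
      intro a ha
      rw [Module.mem_annihilator]
      intro x
      obtain ⟨x, rfl⟩ := Ideal.Quotient.mk_surjective x
      have h4 : a • x ∈ J := by
        rw [Algebra.smul_def]
        exact Ideal.mul_mem_right _ _ (Ideal.mem_map_of_mem _ ha)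
      exact Ideal.Quotient.eq_zero_iff_mem.2 h4
    have hfin : Module.Finite A (U ⧸ J) := inferInstance
    have h2 := Module.length_ne_top_iff.1 h1.length_ne_top
    rw [isFiniteLength_iff_isNoetherian_isArtinian] at h2
    exact isArtinian_of_tower A h2.2
  refine IsLocalRing.of_isUnit_or_isUnit_one_sub_self fun a => ?_
  -- an idempotent modulo `J`
  obtain ⟨n, y, hy⟩ := IsArtinian.exists_pow_succ_smul_dvd (Ideal.Quotient.mk J a) (1 : U ⧸ J)
  simp only [smul_eq_mul, mul_one, Nat.succ_eq_add_one] at hy
  set α := Ideal.Quotient.mk J a with hα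
  have hk : ∀ k : ℕ, α ^ n = α ^ (n + k) * y ^ k := by
    intro k
    induction k with
    | zero => simp
    | succ k ih =>
      rw [ih, pow_add α n k, ← hy]
      ring
  have hidem := hk n
  obtain ⟨c, hc⟩ : ∃ c, c = y ^ n := ⟨_, rfl⟩
  rw [← hc, pow_add] at hidem
  -- `α ^ n = α ^ n * α ^ n * c`
  obtain ⟨e, he⟩ := Ideal.Quotient.mk_surjective (α ^ n * c)
  have hee : e ^ 2 - e ∈ J := by
    rw [← Ideal.Quotient.eq_zero_iff_mem, map_sub, map_pow, he]
    have : (α ^ n * c) ^ 2 = α ^ n * α ^ n * c * c := by ring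
    rw [this, ← hidem, sub_self]
  have hhens : HenselianRing U J := inferInstance
  obtain ⟨E, hE, hEe⟩ := hhens.is_henselian (Polynomial.X ^ 2 - Polynomial.X)
    (by monicity!) e (by simpa using hee) (by
      have h5 : (Polynomial.derivative (Polynomial.X ^ 2 - Polynomial.X : Polynomial U)).eval e =
          2 * e - 1 := by
        simp only [Polynomial.derivative_sub, Polynomial.derivative_X_pow,
          Polynomial.derivative_X, Polynomial.eval_sub, Polynomial.eval_mul,
          Polynomial.eval_pow, Polynomial.eval_X, Polynomial.eval_one]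
        norm_num
      rw [h5]
      refine IsUnit.of_mul_eq_one (Ideal.Quotient.mk J (2 * e - 1)) ?_
      rw [← map_mul]
      have h6 : (2 * e - 1) * (2 * e - 1) = 1 + 4 * (e ^ 2 - e) := by ring
      rw [h6, map_add, map_mul, Ideal.Quotient.eq_zero_iff_mem.2 hee, mul_zero, add_zero, map_one])
  have hE2 : E * (E - 1) = 0 := by
    have h7 : E ^ 2 - E = 0 := by simpa using hE
    rw [← h7]; ring
  have hEe' : Ideal.Quotient.mk J E = α ^ n * c := by
    rw [← he, Ideal.Quotient.eq]
    exact hEe
  rcases mul_eq_zero.1 hE2 with h0 | h1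
  · -- `α` is nilpotent
    right
    apply hunit
    rw [map_sub, map_one]
    apply IsNilpotent.isUnit_one_sub
    refine ⟨n, ?_⟩
    change α ^ n = 0
    rw [hidem, mul_assoc, ← hEe', h0, map_zero, mul_zero]
  · left
    apply hunit
    change IsUnit α
    have h8 : α ^ n * c = 1 := by
      rw [← hEe', sub_eq_zero.1 h1, map_one]
    rcases Nat.eq_zero_or_pos n with hn | hn
    · -- `n = 0`
      subst hn
      rw [zero_add, pow_one, pow_zero] at hy
      exact IsUnit.of_mul_eq_one _ hy
    · have h9 : IsUnit (α ^ n) := IsUnit.of_mul_eq_one _ h8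
      exact (isUnit_pow_iff (by omega)).1 h9

end localring

/-- The normalization of a complete one dimensional local domain. -/
theorem exists_dvr (A : Type u) [CommRing A] [IsLocalRing A] [IsNoetherianRing A] [IsDomain A]
    [IsAdicComplete (maximalIdeal A) A]
    (hprime : ∀ q : Ideal A, q.IsPrime → q ≠ ⊥ → q = maximalIdeal A)
    (hne : maximalIdeal A ≠ ⊥) :
    ∃ (V : Type u) (_ : CommRing V) (_ : IsDomain V) (_ : IsDiscreteValuationRing V)
      (_ : Algebra A V), Module.Finite A V ∧ Injective (algebraMap A V) ∧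
      ∃ c : A, c ≠ 0 ∧ ∀ v : V, ∃ d : A, c • v = algebraMap A V d := by
  let K := FractionRing A
  let V := integralClosure A K
  have hinj : Injective (algebraMap A V) := by
    have h1 : Injective (algebraMap A K) := IsFractionRing.injective A K
    have h2 : algebraMap A K = (algebraMap V K).comp (algebraMap A V) :=
      IsScalarTower.algebraMap_eq A V K
    rw [h2, RingHom.coe_comp] at h1
    exact Injective.of_comp h1
  have hU : ∀ u : V, ∃ a : A, a ≠ 0 ∧ ∃ c : A, a • u = algebraMap A V c := by
    intro u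
    obtain ⟨c, ⟨a, ha⟩, hca⟩ := IsLocalization.exists_mk'_eq (nonZeroDivisors A) (u : K)
    refine ⟨a, nonZeroDivisors.ne_zero ha, c, ?_⟩
    apply Subtype.ext
    change a • (u : K) = algebraMap A K c
    rw [← hca, Algebra.smul_def, mul_comm]
    exact IsLocalization.mk'_spec K c ⟨a, ha⟩
  have hint : Algebra.IsIntegral A V := inferInstance
  have hfin : Module.Finite A V := finite_of_complete hprime hinj hU hne
  have hnoeth : IsNoetherianRing V := isNoetherianRing_of_ka hprime hinj hU
  have hloc : IsLocalRing V := isLocalRing_of_finite A V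
  have hic : IsIntegrallyClosed V := integralClosure.isIntegrallyClosedOfFiniteExtension K
  have hmax : ∀ P : Ideal V, P ≠ ⊥ → P.IsPrime → P = maximalIdeal V := by
    intro P hP hPp
    have h1 : P.comap (algebraMap A V) ≠ ⊥ := fun h => hP (Ideal.eq_bot_of_comap_eq_bot h)
    have h2 := hprime (P.comap (algebraMap A V)) (Ideal.comap_isPrime _ _) h1
    have h3 : P.IsMaximal := by
      apply Ideal.isMaximal_of_isIntegral_of_isMaximal_comap (R := A)
      rw [h2]
      infer_instance
    exact IsLocalRing.eq_maximalIdeal h3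
  have h5 : IsIntegrallyClosed V ∧ ∀ P : Ideal V, P ≠ ⊥ → P.IsPrime → P = maximalIdeal V :=
    ⟨hic, hmax⟩
  have hpid : IsPrincipalIdealRing V :=
    ((tfae_of_isNoetherianRing_of_isLocalRing_of_isDomain V).out 3 0).mp h5
  have hdvr : IsDiscreteValuationRing V :=
    { hpid, hloc with
      not_a_field' := by
        intro hbot
        obtain ⟨x, hx, hx0⟩ := Submodule.exists_mem_ne_zero_of_ne_bot hne
        have h1 : algebraMap A V x ∈ maximalIdeal V := by
          have h2 : ((maximalIdeal V).comap (algebraMap A V)) = maximalIdeal A :=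
            IsLocalRing.eq_maximalIdeal (Ideal.isMaximal_comap_of_isIntegral_of_isMaximal _)
          rw [← h2] at hx
          exact hx
        rw [hbot, Ideal.mem_bot, map_eq_zero_iff _ hinj] at h1
        exact hx0 h1 }
  obtain ⟨c, hc0, hc⟩ := exists_common_multiple hU (⊤ : Submodule A V) Module.Finite.fg_top
  exact ⟨V, inferInstance, inferInstance, hdvr, inferInstance, hfin, hinj, c, hc0,
    fun v => hc v trivial⟩

end Vale.Agent.P177
end

section

/-!
The extended Rees algebra of the maximal ideal of a regular local ring.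
-/

namespace Vale.Agent.P177

open MvPolynomial IsLocalRing RingTheory.Sequence Function

universe u

section defs

variable {A : Type u} [CommRing A] {d : ℕ} (x : Fin d → A)

/-- Equations of the extended Rees algebra of the ideal generated by `x`. -/
noncomputable def reesIdeal : Ideal (MvPolynomial (Option (Fin d)) A) :=
  Ideal.span (Set.range fun i : Fin d => C (x i) - X none * X (some i))

/-- The extended Rees algebra (for a regular system of parameters `x`). -/
abbrev ERees := MvPolynomial (Option (Fin d)) A ⧸ reesIdeal x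

/-- The inverse `τ` of the Rees variable. -/
noncomputable def eT : ERees x := Ideal.Quotient.mk _ (X none)

/-- The element `x i * t` of the extended Rees algebra. -/
noncomputable def eY (i : Fin d) : ERees x := Ideal.Quotient.mk _ (X (some i))

theorem algebraMap_rees (i : Fin d) : algebraMap A (ERees x) (x i) = eT x * eY x i := by
  have h : (C (x i) - X none * X (some i) : MvPolynomial (Option (Fin d)) A) ∈ reesIdeal x :=
    Ideal.subset_span ⟨i, rfl⟩
  rw [eT, eY, ← map_mul, ← sub_eq_zero]
  change Ideal.Quotient.mk _ (C (x i)) - _ = _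
  rw [← map_sub]
  exact Ideal.Quotient.eq_zero_iff_mem.2 h

/-- A ring homomorphism out of the extended Rees algebra. -/
noncomputable def eLift {B : Type*} [CommRing B] (f : A →+* B) (t : B) (y : Fin d → B)
    (h : ∀ i, f (x i) = t * y i) : ERees x →+* B :=
  Ideal.Quotient.lift _ (eval₂Hom f (fun o : Option (Fin d) => o.elim t y)) (by
    intro a ha
    have h1 : reesIdeal x ≤ RingHom.ker (eval₂Hom f (fun o : Option (Fin d) => o.elim t y)) := by
      refine Ideal.span_le.2 ?_
      rintro _ ⟨i, rfl⟩
      simp [h i]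
    exact h1 ha)

variable {x}

@[simp]
theorem eLift_algebraMap {B : Type*} [CommRing B] (f : A →+* B) (t : B) (y : Fin d → B)
    (h : ∀ i, f (x i) = t * y i) (a : A) : eLift x f t y h (algebraMap A _ a) = f a := by
  change eval₂Hom f (fun o : Option (Fin d) => o.elim t y) (C a) = _
  simp

@[simp]
theorem eLift_eT {B : Type*} [CommRing B] (f : A →+* B) (t : B) (y : Fin d → B)
    (h : ∀ i, f (x i) = t * y i) : eLift x f t y h (eT x) = t := by
  change eval₂Hom f (fun o : Option (Fin d) => o.elim t y) (X none) = _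
  simp

@[simp]
theorem eLift_eY {B : Type*} [CommRing B] (f : A →+* B) (t : B) (y : Fin d → B)
    (h : ∀ i, f (x i) = t * y i) (i : Fin d) : eLift x f t y h (eY x i) = y i := by
  change eval₂Hom f (fun o : Option (Fin d) => o.elim t y) (X (some i)) = _
  simp

theorem eRees_hom_ext {B : Type*} [CommRing B] {f g : ERees x →+* B}
    (h : ∀ a, f (algebraMap A _ a) = g (algebraMap A _ a)) (hT : f (eT x) = g (eT x))
    (hY : ∀ i, f (eY x i) = g (eY x i)) : f = g := by
  refine Ideal.Quotient.ringHom_ext (MvPolynomial.ringHom_ext (fun a => h a) ?_)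
  rintro (_ | i)
  · exact hT
  · exact hY i

end defs

section res

variable {A : Type u} [CommRing A] [IsLocalRing A] {d : ℕ} {x : Fin d → A}
  (hx : Ideal.span (Set.range x) = maximalIdeal A)

/-- Reduction of the extended Rees algebra modulo `τ`. -/
noncomputable def eRes : ERees x →+* MvPolynomial (Fin d) (ResidueField A) :=
  eLift x (C.comp (residue A)) 0 X (fun i => by
    have : x i ∈ maximalIdeal A := by rw [← hx]; exact Ideal.subset_span ⟨i, rfl⟩
    rw [zero_mul, RingHom.comp_apply, (residue_eq_zero_iff _).2 this, map_zero])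

@[simp]
theorem eRes_algebraMap (a : A) : eRes hx (algebraMap A _ a) = C (residue A a) := by
  simp [eRes]

@[simp]
theorem eRes_eT : eRes hx (eT x) = 0 := by simp [eRes]

@[simp]
theorem eRes_eY (i : Fin d) : eRes hx (eY x i) = X i := by simp [eRes]

theorem eRes_surjective : Surjective (eRes hx) := by
  intro p
  induction p using MvPolynomial.induction_on with
  | C a =>
    obtain ⟨a, rfl⟩ := residue_surjective a
    exact ⟨algebraMap A _ a, eRes_algebraMap hx a⟩
  | add p q hp hq =>
    obtain ⟨p, rfl⟩ := hp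
    obtain ⟨q, rfl⟩ := hq
    exact ⟨p + q, map_add _ _ _⟩
  | mul_X p i hp =>
    obtain ⟨p, rfl⟩ := hp
    exact ⟨p * eY x i, by rw [map_mul, eRes_eY]⟩

theorem eRes_lift {B : Type*} [CommRing B] (q : ERees x →+* B) (hq0 : q (eT x) = 0)
    (F : ERees x) (hF : eRes hx F = 0) : q F = 0 := by
  have hq : ∀ a ∈ maximalIdeal A, (q.comp (algebraMap A _)) a = 0 := by
    intro a ha
    rw [← hx] at ha
    have : Ideal.span (Set.range x) ≤ RingHom.ker (q.comp (algebraMap A _)) := by
      refine Ideal.span_le.2 ?_
      rintro _ ⟨i, rfl⟩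
      change q (algebraMap A _ (x i)) = 0
      rw [algebraMap_rees, map_mul, hq0, zero_mul]
    exact this ha
  let s₀ : ResidueField A →+* B := Ideal.Quotient.lift _ (q.comp (algebraMap A _)) hq
  let s : MvPolynomial (Fin d) (ResidueField A) →+* B := eval₂Hom s₀ (fun i => q (eY x i))
  have hs : s.comp (eRes hx) = q := by
    refine eRees_hom_ext (fun a => ?_) ?_ (fun i => ?_)
    · rw [RingHom.comp_apply, eRes_algebraMap, coe_eval₂Hom, eval₂_C]
      rfl
    · rw [RingHom.comp_apply, eRes_eT, map_zero, hq0]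
    · rw [RingHom.comp_apply, eRes_eY, coe_eval₂Hom, eval₂_X]
  rw [← hs, RingHom.comp_apply, hF, map_zero]

theorem ker_eRes : RingHom.ker (eRes hx) = Ideal.span {eT x} := by
  refine le_antisymm ?_ ?_
  · intro a ha
    rw [← Ideal.Quotient.eq_zero_iff_mem]
    have h0 : Ideal.Quotient.mk (Ideal.span {eT x}) (eT x) = 0 :=
      Ideal.Quotient.eq_zero_iff_mem.2 (Ideal.mem_span_singleton_self _)
    exact eRes_lift (B := ERees x ⧸ Ideal.span {eT x}) hx (Ideal.Quotient.mk _) h0 a ha
  · rw [Ideal.span_le]
    rintro _ rfl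
    exact eRes_eT hx

theorem eRes_aeval (F : MvPolynomial (Fin d) A) :
    eRes hx (aeval (eY x) F) = F.map (residue A) := by
  induction F using MvPolynomial.induction_on with
  | C a => rw [aeval_C, eRes_algebraMap, map_C]
  | add p q hp hq => rw [map_add, map_add, hp, hq, map_add]
  | mul_X p i hp => rw [map_mul, aeval_X, map_mul, hp, eRes_eY, map_mul, map_X]

end res

section loc

/-- The map of localizations induced by a surjective ring homomorphism. -/
theorem exists_localization_surjective {R S : Type*} [CommRing R] [CommRing S] (g : R →+* S)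
    (hg : Surjective g) (q : Ideal S) [q.IsPrime] :
    ∃ G : Localization.AtPrime (q.comap g) →+* Localization.AtPrime q,
      (∀ r, G (algebraMap R _ r) = algebraMap S _ (g r)) ∧ Surjective G ∧
      RingHom.ker G = (RingHom.ker g).map (algebraMap R (Localization.AtPrime (q.comap g))) := by
  have hT : Submonoid.map g (q.comap g).primeCompl = q.primeCompl := by
    ext y
    constructor
    · rintro ⟨r, hr, rfl⟩
      exact hr
    · intro hy
      obtain ⟨r, rfl⟩ := hg y
      exact ⟨r, hy, rfl⟩
  have hle : (q.comap g).primeCompl ≤ Submonoid.comap g q.primeCompl := fun r hr => hr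
  refine ⟨IsLocalization.map (Localization.AtPrime q) g hle, fun r => IsLocalization.map_eq hle r,
    ?_, IsLocalization.ker_map _ g hT⟩
  intro y
  obtain ⟨a, s, rfl⟩ := IsLocalization.exists_mk'_eq q.primeCompl y
  obtain ⟨r, rfl⟩ := hg a
  obtain ⟨t, ht⟩ := hg s
  have ht' : t ∈ (q.comap g).primeCompl := by
    change g t ∉ q
    rw [ht]
    exact s.2
  refine ⟨IsLocalization.mk' _ r ⟨t, ht'⟩, ?_⟩
  rw [IsLocalization.map_mk']
  congr 1
  exact Subtype.ext ht

end loc

section regular

variable {A : Type u} [CommRing A] [IsRegularLocalRing A] {d : ℕ} (hd : ringKrullDim A = d)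
  {x : Fin d → A} (hx : Ideal.span (Set.range x) = maximalIdeal A)

include hd hx in
theorem ofFn_regular : IsWeaklyRegular A (List.ofFn x) := by
  have h1 : Ideal.ofList (List.ofFn x) = maximalIdeal A := by
    rw [← hx, Ideal.ofList]
    congr 1
    ext y
    simp [List.mem_ofFn]
  refine (isRegular_of_ofList_eq_maximalIdeal A (List.ofFn x) h1 ?_).toIsWeaklyRegular
  rw [List.length_ofFn, hd]

/-- The kernel of the reduction map from the polynomial ring. -/
theorem ker_eRes_comp (hx : Ideal.span (Set.range x) = maximalIdeal A) :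
    RingHom.ker ((eRes hx).comp (Ideal.Quotient.mk (reesIdeal x))) =
      Ideal.ofList ((List.ofFn x).map (algebraMap A (MvPolynomial (Option (Fin d)) A)) ++
        [X none]) := by
  refine le_antisymm ?_ ?_
  · intro p hp
    have h1 : Ideal.Quotient.mk (reesIdeal x) p ∈ RingHom.ker (eRes hx) := hp
    rw [ker_eRes, Ideal.mem_span_singleton'] at h1
    obtain ⟨F, hF⟩ := h1
    obtain ⟨f, rfl⟩ := Ideal.Quotient.mk_surjective F
    have h2 : p - f * X none ∈ reesIdeal x := by
      rw [← Ideal.Quotient.eq_zero_iff_mem, map_sub, map_mul, ← hF]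
      exact sub_self _
    have h3 : (X none : MvPolynomial (Option (Fin d)) A) ∈ Ideal.ofList
        ((List.ofFn x).map (algebraMap A (MvPolynomial (Option (Fin d)) A)) ++ [X none]) :=
      Ideal.subset_span (by simp)
    have h4 : reesIdeal x ≤ Ideal.ofList
        ((List.ofFn x).map (algebraMap A (MvPolynomial (Option (Fin d)) A)) ++ [X none]) := by
      refine Ideal.span_le.2 ?_
      rintro _ ⟨i, rfl⟩
      refine sub_mem (Ideal.subset_span ?_) (Ideal.mul_mem_right _ _ h3)
      simp only [List.mem_append, List.mem_map, List.mem_ofFn, Set.mem_ofPred_eq]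
      exact Or.inl ⟨x i, ⟨i, rfl⟩, rfl⟩
    have h5 := add_mem (h4 h2) (Ideal.mul_mem_left _ f h3)
    rwa [sub_add_cancel] at h5
  · refine Ideal.span_le.2 ?_
    intro p hp
    simp only [List.mem_append, List.mem_map, List.mem_ofFn, Set.mem_ofPred_eq,
      List.mem_singleton] at hp
    rcases hp with ⟨_, ⟨i, rfl⟩, rfl⟩ | rfl
    · change eRes hx (algebraMap A _ (x i)) = 0
      have : x i ∈ maximalIdeal A := by rw [← hx]; exact Ideal.subset_span ⟨i, rfl⟩
      rw [eRes_algebraMap, (residue_eq_zero_iff _).2 this, map_zero]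
    · exact eRes_eT hx

include hd in
/-- Localizations of the extended Rees algebra at primes containing `τ` are regular. -/
theorem eRees_regular_aux (hx : Ideal.span (Set.range x) = maximalIdeal A)
    (q : Ideal (MvPolynomial (Fin d) (ResidueField A))) [q.IsPrime] :
    IsRegularLocalRing (Localization.AtPrime (q.comap (eRes hx))) ∧
      (q.comap (eRes hx)).height = q.height + 1 ∧
      algebraMap (ERees x) (Localization.AtPrime (q.comap (eRes hx))) (eT x) ≠ 0 := by
  have hregA : IsRegularRing A := isRegularRing_of_isRegularLocalRing A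
  obtain ⟨G, hG, hGs, hGk⟩ := exists_localization_surjective
    ((eRes hx).comp (Ideal.Quotient.mk (reesIdeal x)))
    ((eRes_surjective hx).comp Ideal.Quotient.mk_surjective) q
  obtain ⟨H, hH, hHs, hHk⟩ := exists_localization_surjective (eRes hx) (eRes_surjective hx) q
  let Pt : Ideal (MvPolynomial (Option (Fin d)) A) :=
    q.comap ((eRes hx).comp (Ideal.Quotient.mk (reesIdeal x)))
  let P : Ideal (ERees x) := q.comap (eRes hx)
  have hB : IsRegularLocalRing (Localization.AtPrime Pt) := inferInstance
  have hκ : IsRegularLocalRing (Localization.AtPrime q) := inferInstance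
  -- a regular sequence
  have hreg : IsWeaklyRegular (Localization.AtPrime Pt)
      (((List.ofFn x).map (algebraMap A (MvPolynomial (Option (Fin d)) A)) ++
        [X none]).map (algebraMap _ (Localization.AtPrime Pt))) := by
    rw [List.map_append, List.map_map, isWeaklyRegular_append_iff]
    have hfl : Module.Flat A (Localization.AtPrime Pt) :=
      Module.Flat.trans A (MvPolynomial (Option (Fin d)) A) _
    have e1 : (algebraMap (MvPolynomial (Option (Fin d)) A) (Localization.AtPrime Pt)) ∘
        (algebraMap A (MvPolynomial (Option (Fin d)) A)) =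
        algebraMap A (Localization.AtPrime Pt) := by
      rw [IsScalarTower.algebraMap_eq A (MvPolynomial (Option (Fin d)) A)
        (Localization.AtPrime Pt)]
      rfl
    rw [e1]
    refine ⟨(ofFn_regular hd hx).of_flat, ?_⟩
    have e2 : Ideal.ofList ((List.ofFn x).map (algebraMap A (Localization.AtPrime Pt))) =
        (maximalIdeal A).map (algebraMap A (Localization.AtPrime Pt)) := by
      rw [← Ideal.map_ofList, ← hx]
      congr 1
      rw [Ideal.ofList]
      congr 1
      ext y
      simp [List.mem_ofFn]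
    rw [List.map_singleton, isWeaklyRegular_singleton_iff, e2]
    -- the extension of the maximal ideal is prime and does not contain `τ`
    let I0 : Ideal (MvPolynomial (Option (Fin d)) A) :=
      (maximalIdeal A).map (algebraMap A (MvPolynomial (Option (Fin d)) A))
    have hI0 : I0 = RingHom.ker (MvPolynomial.map (σ := Option (Fin d)) (residue A)) := by
      rw [MvPolynomial.ker_map, ker_residue]
      rfl
    have hI0p : I0.IsPrime := by
      rw [hI0]
      exact RingHom.ker_isPrime _
    have hI0le : I0 ≤ Pt := by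
      refine Ideal.map_le_iff_le_comap.2 fun a ha => ?_
      change eRes hx (algebraMap A _ a) ∈ q
      rw [eRes_algebraMap, (residue_eq_zero_iff _).2 ha, map_zero]
      exact zero_mem _
    have hdisj : Disjoint (Pt.primeCompl : Set (MvPolynomial (Option (Fin d)) A)) I0 := by
      rw [Set.disjoint_left]
      intro a ha ha'
      exact ha (hI0le ha')
    have hmap : (maximalIdeal A).map (algebraMap A (Localization.AtPrime Pt)) =
        I0.map (algebraMap _ (Localization.AtPrime Pt)) := by
      rw [Ideal.map_map, ← IsScalarTower.algebraMap_eq]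
    have hprime : (I0.map (algebraMap _ (Localization.AtPrime Pt))).IsPrime :=
      IsLocalization.isPrime_of_isPrime_disjoint Pt.primeCompl _ _ hI0p hdisj
    have hτ : algebraMap _ (Localization.AtPrime Pt) (X none : MvPolynomial (Option (Fin d)) A) ∉
        I0.map (algebraMap _ (Localization.AtPrime Pt)) := by
      intro hmem
      have h2 : (X none : MvPolynomial (Option (Fin d)) A) ∈ I0 := by
        rw [← IsLocalization.under_map_of_isPrime_disjoint Pt.primeCompl
          (Localization.AtPrime Pt) hI0p hdisj]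
        exact hmem
      rw [hI0, RingHom.mem_ker, map_X] at h2
      exact X_ne_zero _ h2
    rw [hmap, smul_eq_mul, Ideal.mul_top, isSMulRegular_iff_right_eq_zero_of_smul]
    intro y hy
    obtain ⟨b, rfl⟩ := Submodule.mkQ_surjective _ y
    change Submodule.Quotient.mk (_ • b) = 0 at hy
    rw [Submodule.Quotient.mk_eq_zero] at hy
    change Submodule.Quotient.mk b = 0
    rw [Submodule.Quotient.mk_eq_zero]
    exact (hprime.mem_or_mem hy).resolve_left hτ
  -- dimension of `B`
  have hlen : ((((List.ofFn x).map (algebraMap A (MvPolynomial (Option (Fin d)) A)) ++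
        [X none]).map (algebraMap _ (Localization.AtPrime Pt))).length) = d + 1 := by
    simp
  have hker : RingHom.ker G = Ideal.ofList
      (((List.ofFn x).map (algebraMap A (MvPolynomial (Option (Fin d)) A)) ++
        [X none]).map (algebraMap _ (Localization.AtPrime Pt))) := by
    rw [hGk, ker_eRes_comp hx, Ideal.map_ofList]
  have hreg' : IsRegular (Localization.AtPrime Pt)
      (((List.ofFn x).map (algebraMap A (MvPolynomial (Option (Fin d)) A)) ++
        [X none]).map (algebraMap _ (Localization.AtPrime Pt))) := by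
    refine ⟨hreg, ?_⟩
    rw [smul_eq_mul, Ideal.mul_top, ← hker]
    intro h
    have : (1 : Localization.AtPrime Pt) ∈ RingHom.ker G := h ▸ trivial
    rw [RingHom.mem_ker, map_one] at this
    exact one_ne_zero this
  obtain ⟨zs, hzs, hzslen⟩ := exists_list_maximalIdeal (Localization.AtPrime q)
  have hdimB : ringKrullDim (Localization.AtPrime Pt) = ((zs.length + (d + 1) : ℕ) :
      WithBot ℕ∞) := by
    rw [← ringKrullDim_add_length_eq_ringKrullDim_of_isRegular _ hreg', ← hker, hlen,
      ringKrullDim_eq_of_ringEquiv (RingHom.quotientKerEquivOfSurjective hGs), ← hzslen]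
    norm_cast
  have hqh : q.height = zs.length := by
    have := IsLocalization.AtPrime.ringKrullDim_eq_height q (Localization.AtPrime q)
    rw [← hzslen] at this
    exact_mod_cast this.symm
  have hPth : Pt.height = ((zs.length + (d + 1) : ℕ) : ℕ∞) := by
    have := IsLocalization.AtPrime.ringKrullDim_eq_height Pt (Localization.AtPrime Pt)
    rw [hdimB] at this
    exact_mod_cast this.symm
  -- lower bound for the height of `P`
  have hle : reesIdeal x ≤ Pt := by
    intro p hp
    change (eRes hx) (Ideal.Quotient.mk _ p) ∈ q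
    rw [Ideal.Quotient.eq_zero_iff_mem.2 hp, map_zero]
    exact zero_mem _
  have hPh : ((zs.length + 1 : ℕ) : ℕ∞) ≤ P.height := by
    have h1 := Ideal.height_le_height_add_spanFinrank_of_le hle
    have h2 : Pt.map (Ideal.Quotient.mk (reesIdeal x)) = P := by
      have : Pt = P.comap (Ideal.Quotient.mk (reesIdeal x)) := rfl
      rw [this, Ideal.map_comap_of_surjective _ Ideal.Quotient.mk_surjective]
    have h3 : (reesIdeal x).spanFinrank ≤ d := by
      refine (Submodule.spanFinrank_span_le_ncard_of_finite (Set.finite_range _)).trans ?_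
      rw [← Set.image_univ]
      refine (Set.ncard_image_le Set.finite_univ).trans ?_
      rw [Set.ncard_univ, Nat.card_eq_fintype_card, Fintype.card_fin]
    rw [h2, hPth] at h1
    have h4 : ((zs.length + (d + 1) : ℕ) : ℕ∞) ≤ P.height + d := h1.trans (by gcongr)
    by_cases hfin : P.height = ⊤
    · rw [hfin]; exact le_top
    · obtain ⟨h, hh⟩ := ENat.ne_top_iff_exists.mp hfin
      rw [← hh] at h4 ⊢
      have h5 : zs.length + (d + 1) ≤ h + d := by exact_mod_cast h4
      have h6 : zs.length + 1 ≤ h := by omega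
      exact_mod_cast h6
  -- generators of the maximal ideal of `L`
  have hex : ∃ ws : List (Localization.AtPrime P), ws.map H = zs := by
    obtain ⟨ws, hws⟩ := List.map_surjective_iff.2 hHs zs
    exact ⟨ws, hws⟩
  obtain ⟨ws, hws⟩ := hex
  have hmax : Ideal.ofList (algebraMap (ERees x) (Localization.AtPrime P) (eT x) :: ws) =
      maximalIdeal (Localization.AtPrime P) := by
    have h1 : maximalIdeal (Localization.AtPrime P) =
        (maximalIdeal (Localization.AtPrime q)).comap H := by
      have : IsLocalHom H := IsLocalHom.of_surjective H hHs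
      exact (IsLocalRing.maximalIdeal_comap H).symm
    rw [h1, ← hzs, ← hws, ← Ideal.map_ofList, Ideal.comap_map_of_surjective H hHs, Ideal.ofList_cons]
    rw [sup_comm]
    congr 1
    change _ = RingHom.ker H
    rw [hHk, ker_eRes, Ideal.map_span, Set.image_singleton]
  have hwl : ws.length = zs.length := by rw [← hws, List.length_map]
  have hdimL := IsLocalization.AtPrime.ringKrullDim_eq_height P (Localization.AtPrime P)
  obtain ⟨h1, h2⟩ := isRegularLocalRing_of_list
    (algebraMap (ERees x) (Localization.AtPrime P) (eT x) :: ws) hmax (by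
    rw [hdimL, List.length_cons, hwl]
    exact_mod_cast hPh)
  refine ⟨h1, ?_, ?_⟩
  · rw [hdimL, List.length_cons, hwl] at h2
    rw [hqh]
    exact_mod_cast h2
  · intro h0
    have h3 : RingHom.ker H = ⊥ := by
      rw [hHk, ker_eRes, Ideal.map_span, Set.image_singleton, h0]
      simp
    have h4 := ringKrullDim_eq_of_ringEquiv (RingEquiv.ofBijective H
      ⟨(RingHom.injective_iff_ker_eq_bot H).2 h3, hHs⟩)
    rw [h2, List.length_cons, hwl, ← hzslen] at h4
    have h5 : zs.length + 1 = zs.length := by exact_mod_cast h4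
    omega

include hx in
theorem exists_comap_eRes (P : Ideal (ERees x)) [P.IsPrime] (hP : eT x ∈ P) :
    ∃ q : Ideal (MvPolynomial (Fin d) (ResidueField A)), q.IsPrime ∧ P = q.comap (eRes hx) := by
  have hk : RingHom.ker (eRes hx) ≤ P := by
    rw [ker_eRes, Ideal.span_le]
    rintro _ rfl
    exact hP
  refine ⟨P.map (eRes hx), Ideal.map_isPrime_of_surjective (eRes_surjective hx) hk, ?_⟩
  rw [Ideal.comap_map_of_surjective _ (eRes_surjective hx)]
  exact (sup_eq_left.2 hk).symm

include hd hx in
/-- The element `τ` is a nonzerodivisor in the extended Rees algebra. -/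
theorem eT_regular (F : ERees x) (h : eT x * F = 0) : F = 0 := by
  by_contra hF
  have hne : Ideal.torsionOf (ERees x) (ERees x) F ≠ ⊤ := by
    rw [Ne, Ideal.eq_top_iff_one, Ideal.mem_torsionOf_iff, one_smul]
    exact hF
  obtain ⟨P, hP, hle⟩ := Ideal.exists_le_maximal _ hne
  have hPp : P.IsPrime := hP.isPrime
  have hτ : eT x ∈ P := hle (by rw [Ideal.mem_torsionOf_iff]; exact h)
  obtain ⟨q, hq, rfl⟩ := exists_comap_eRes hx P hτ
  obtain ⟨hreg, -, h0⟩ := eRees_regular_aux hd hx q
  have hdom := regular_isDomain (Localization.AtPrime (q.comap (eRes hx)))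
  have h1 : algebraMap (ERees x) (Localization.AtPrime (q.comap (eRes hx))) F = 0 := by
    have h2 := congrArg (algebraMap (ERees x) (Localization.AtPrime (q.comap (eRes hx)))) h
    rw [map_mul, map_zero] at h2
    exact (mul_eq_zero.1 h2).resolve_left h0
  obtain ⟨c, hc⟩ := (IsLocalization.map_eq_zero_iff (q.comap (eRes hx)).primeCompl
    (Localization.AtPrime (q.comap (eRes hx))) F).1 h1
  exact c.2 (hle (by rw [Ideal.mem_torsionOf_iff]; exact hc))

omit [IsRegularLocalRing A] in
theorem aeval_mul_of_isHomogeneous {B : Type*} [CommRing B] [Algebra A B] (t : B) (y : Fin d → B)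
    (F : MvPolynomial (Fin d) A) (n : ℕ) (hF : F.IsHomogeneous n) :
    aeval (fun i => t * y i) F = t ^ n * aeval y F := by
  rw [aeval_def, aeval_def, eval₂_eq', eval₂_eq', Finset.mul_sum]
  refine Finset.sum_congr rfl fun m hm => ?_
  have hdeg : ∑ i, m i = n := by
    have := hF (mem_support_iff.1 hm)
    rw [← this, Finsupp.weight_apply, Finsupp.sum_fintype]
    · simp
    · simp
  simp only [mul_pow, Finset.prod_mul_distrib, Finset.prod_pow_eq_pow_sum, hdeg]
  ring

omit [IsRegularLocalRing A] in
theorem algebraMap_eval_of_isHomogeneous (F : MvPolynomial (Fin d) A) (n : ℕ)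
    (hF : F.IsHomogeneous n) :
    algebraMap A (ERees x) (eval x F) = eT x ^ n * aeval (eY x) F := by
  have h1 : algebraMap A (ERees x) (eval x F) = aeval (fun i => eT x * eY x i) F := by
    have h2 : (fun i => eT x * eY x i) = fun i => algebraMap A (ERees x) (x i) :=
      funext fun i => (algebraMap_rees x i).symm
    rw [h2]
    exact (MvPolynomial.aeval_algebraMap_apply (ERees x) x F).symm
  rw [h1, aeval_mul_of_isHomogeneous _ _ F n hF]

include hd hx in
/-- The initial form of an element of order `n` does not vanish. -/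
theorem map_residue_eq_zero (F : MvPolynomial (Fin d) A) (n : ℕ) (hF : F.IsHomogeneous n)
    (h : eval x F ∈ maximalIdeal A ^ (n + 1)) : F.map (residue A) = 0 := by
  rw [← hx, Ideal.mem_span_pow_iff_exists_isHomogeneous] at h
  obtain ⟨G, hG, hGF⟩ := h
  have h1 := congrArg (algebraMap A (ERees x)) hGF
  rw [algebraMap_eval_of_isHomogeneous G (n + 1) hG, algebraMap_eval_of_isHomogeneous F n hF,
    pow_succ, mul_assoc] at h1
  have h2 : ∀ m : ℕ, ∀ f g : ERees x, eT x ^ m * f = eT x ^ m * g → f = g := by
    intro m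
    induction m with
    | zero => intro f g hfg; simpa using hfg
    | succ m ih =>
      intro f g hfg
      rw [pow_succ, mul_assoc, mul_assoc] at hfg
      have h3 := ih _ _ hfg
      rw [← sub_eq_zero, ← mul_sub] at h3
      exact sub_eq_zero.1 (eT_regular hd hx _ h3)
  have h3 := congrArg (eRes hx) (h2 n _ _ h1)
  rw [map_mul, eRes_eT, zero_mul] at h3
  rw [← eRes_aeval hx, ← h3]

include hd hx in
/-- The associated graded ring is a domain. -/
theorem mul_notMem_pow {a b : A} {i j : ℕ} (ha : a ∈ maximalIdeal A ^ i)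
    (ha' : a ∉ maximalIdeal A ^ (i + 1)) (hb : b ∈ maximalIdeal A ^ j)
    (hb' : b ∉ maximalIdeal A ^ (j + 1)) : a * b ∉ maximalIdeal A ^ (i + j + 1) := by
  have key : ∀ (a : A) (i : ℕ), a ∈ maximalIdeal A ^ i → a ∉ maximalIdeal A ^ (i + 1) →
      ∃ F : MvPolynomial (Fin d) A, F.IsHomogeneous i ∧ eval x F = a ∧
        F.map (residue A) ≠ 0 := by
    intro a i ha ha'
    rw [← hx, Ideal.mem_span_pow_iff_exists_isHomogeneous] at ha
    obtain ⟨F, hF, hFa⟩ := ha
    refine ⟨F, hF, hFa, fun h0 => ha' ?_⟩
    rw [← hFa, eval_eq']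
    refine Ideal.sum_mem _ fun m hm => ?_
    have hdeg : ∑ i, m i = i := by
      have := hF (mem_support_iff.1 hm)
      rw [← this, Finsupp.weight_apply, Finsupp.sum_fintype]
      · simp
      · simp
    have h1 : F.coeff m ∈ maximalIdeal A := by
      rw [← residue_eq_zero_iff, ← coeff_map, h0, coeff_zero]
    have h2 : ∏ i, x i ^ m i ∈ maximalIdeal A ^ i := by
      rw [← hdeg, ← Finset.prod_pow_eq_pow_sum]
      refine Ideal.prod_mem_prod fun i _ => Ideal.pow_mem_pow ?_ _
      rw [← hx]
      exact Ideal.subset_span ⟨i, rfl⟩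
    rw [pow_succ']
    exact Ideal.mul_mem_mul h1 h2
  obtain ⟨F, hF, rfl, hF0⟩ := key a i ha ha'
  obtain ⟨G, hG, rfl, hG0⟩ := key b j hb hb'
  intro h
  rw [← map_mul] at h
  have h1 := map_residue_eq_zero hd hx (F * G) (i + j) (hF.mul hG) h
  rw [map_mul] at h1
  rcases mul_eq_zero.1 h1 with h1 | h1
  · exact hF0 h1
  · exact hG0 h1

end regular

/-- Multiplication by an element of order one is strict for the adic filtration. -/
theorem mem_pow_of_mul_mem {A : Type u} [CommRing A] [IsRegularLocalRing A] {y c : A}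
    (hy : y ∈ maximalIdeal A) (hy2 : y ∉ maximalIdeal A ^ 2) {m : ℕ}
    (h : y * c ∈ maximalIdeal A ^ (m + 1)) : c ∈ maximalIdeal A ^ m := by
  obtain ⟨rs, hrs, hlen⟩ := exists_list_maximalIdeal A
  let x : Fin rs.length → A := rs.get
  have hx : Ideal.span (Set.range x) = maximalIdeal A := by
    rw [← hrs, Ideal.ofList]
    congr 1
    ext y
    simp [x, List.mem_iff_get]
  by_contra hc
  have hex : ∃ j, c ∉ maximalIdeal A ^ (j + 1) := ⟨m, fun h => hc (Ideal.pow_le_pow_right
    (Nat.le_succ m) h)⟩
  classical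
  let j := Nat.find hex
  have hj : c ∉ maximalIdeal A ^ (j + 1) := Nat.find_spec hex
  have hj' : c ∈ maximalIdeal A ^ j := by
    rcases Nat.eq_zero_or_pos j with h0 | h0
    · rw [h0]; simp
    · obtain ⟨k, hk⟩ : ∃ k, j = k + 1 := ⟨j - 1, by omega⟩
      have := Nat.find_min hex (m := k) (by change k < j; omega)
      rw [not_not] at this
      rw [hk]
      exact this
  have hjm : j < m := by
    by_contra hle
    rw [not_lt] at hle
    exact hc (Ideal.pow_le_pow_right hle hj')
  have h1 := mul_notMem_pow hlen.symm hx (a := y) (i := 1) (by simpa using hy) hy2 hj' hj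
  exact h1 (Ideal.pow_le_pow_right (by omega) h)


end Vale.Agent.P177
end

section

/-!
Relative lengths and Euler characteristics of filtered complexes.
-/

namespace Vale.Agent.P177

open Function

section rl

variable {A : Type*} [CommRing A] {C C' : Type*} [AddCommGroup C] [Module A C] [AddCommGroup C']
  [Module A C']

/-- Length of `X / (X ⊓ Y)`. -/
noncomputable def rl (X Y : Submodule A C) : ℕ∞ := Module.length A (X ⧸ Y.submoduleOf X)

theorem rl_add {X Y Z : Submodule A C} (h1 : Z ≤ Y) (h2 : Y ≤ X) : rl X Z = rl X Y + rl Y Z := by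
  unfold rl
  let f : (Y ⧸ Z.submoduleOf Y) →ₗ[A] (X ⧸ Z.submoduleOf X) :=
    Submodule.mapQ _ _ (Submodule.inclusion h2) (fun v hv => hv)
  let g : (X ⧸ Z.submoduleOf X) →ₗ[A] (X ⧸ Y.submoduleOf X) :=
    Submodule.factor (fun v hv => h1 hv)
  have hf : Injective f := by
    rw [injective_iff_map_eq_zero]
    intro v hv
    obtain ⟨v, rfl⟩ := Submodule.mkQ_surjective _ v
    have h3 : (Submodule.Quotient.mk (Submodule.inclusion h2 v) : X ⧸ Z.submoduleOf X) = 0 := hv
    rw [Submodule.Quotient.mk_eq_zero] at h3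
    exact (Submodule.Quotient.mk_eq_zero _).2 h3
  have hg : Surjective g := by
    intro v
    obtain ⟨v, rfl⟩ := Submodule.mkQ_surjective _ v
    exact ⟨Submodule.Quotient.mk v, rfl⟩
  have hfg : Exact f g := by
    intro v
    obtain ⟨v, rfl⟩ := Submodule.mkQ_surjective _ v
    constructor
    · intro h3
      have h4 : (Submodule.Quotient.mk v : X ⧸ Y.submoduleOf X) = 0 := h3
      rw [Submodule.Quotient.mk_eq_zero] at h4
      exact ⟨Submodule.Quotient.mk ⟨v.1, h4⟩, rfl⟩
    · rintro ⟨w, hw⟩
      obtain ⟨w, rfl⟩ := Submodule.mkQ_surjective _ w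
      rw [← hw]
      change (Submodule.Quotient.mk (Submodule.inclusion h2 w) : X ⧸ Y.submoduleOf X) = 0
      rw [Submodule.Quotient.mk_eq_zero]
      exact w.2
  rw [Module.length_eq_add_of_exact f g hf hg hfg, add_comm]

theorem rl_map (f : C →ₗ[A] C') {X Y : Submodule A C} (h : Y ≤ X) :
    rl X Y = rl (LinearMap.ker f ⊓ X) (LinearMap.ker f ⊓ Y) + rl (X.map f) (Y.map f) := by
  unfold rl
  let u : ((LinearMap.ker f ⊓ X : Submodule A C) ⧸
      (LinearMap.ker f ⊓ Y).submoduleOf (LinearMap.ker f ⊓ X)) →ₗ[A] (X ⧸ Y.submoduleOf X) :=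
    Submodule.mapQ _ _ (Submodule.inclusion inf_le_right) (fun v hv => hv.2)
  let g₀ : X →ₗ[A] X.map f := f.submoduleMap X
  let g : (X ⧸ Y.submoduleOf X) →ₗ[A] (X.map f ⧸ (Y.map f).submoduleOf (X.map f)) :=
    Submodule.mapQ _ _ g₀ (fun v hv => ⟨v.1, hv, rfl⟩)
  have hu : Injective u := by
    rw [injective_iff_map_eq_zero]
    intro v hv
    obtain ⟨v, rfl⟩ := Submodule.mkQ_surjective _ v
    have h3 : (Submodule.Quotient.mk (Submodule.inclusion inf_le_right v) :
      X ⧸ Y.submoduleOf X) = 0 := hv
    rw [Submodule.Quotient.mk_eq_zero] at h3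
    exact (Submodule.Quotient.mk_eq_zero _).2 ⟨v.2.1, h3⟩
  have hg : Surjective g := by
    intro v
    obtain ⟨⟨_, v, hv, rfl⟩, rfl⟩ := Submodule.mkQ_surjective _ v
    exact ⟨Submodule.Quotient.mk ⟨v, hv⟩, rfl⟩
  have hug : Exact u g := by
    intro v
    obtain ⟨v, rfl⟩ := Submodule.mkQ_surjective _ v
    constructor
    · intro h3
      have h4 : (Submodule.Quotient.mk (g₀ v) : X.map f ⧸ (Y.map f).submoduleOf (X.map f)) = 0 := h3
      rw [Submodule.Quotient.mk_eq_zero] at h4
      obtain ⟨y, hy, hyv⟩ := h4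
      have hyv' : f y = f v.1 := hyv
      refine ⟨Submodule.Quotient.mk ⟨v.1 - y, ?_, sub_mem v.2 (h hy)⟩, ?_⟩
      · change f (v.1 - y) = 0
        rw [map_sub, hyv', sub_self]
      · change (Submodule.Quotient.mk (⟨v.1 - y, sub_mem v.2 (h hy)⟩ : X) : X ⧸ Y.submoduleOf X) =
          Submodule.Quotient.mk v
        rw [Submodule.Quotient.eq]
        change (v.1 - y) - v.1 ∈ Y
        rw [sub_sub_cancel_left]
        exact neg_mem hy
    · rintro ⟨w, hw⟩
      obtain ⟨w, rfl⟩ := Submodule.mkQ_surjective _ w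
      rw [← hw]
      change (Submodule.Quotient.mk (g₀ (Submodule.inclusion inf_le_right w)) :
        X.map f ⧸ (Y.map f).submoduleOf (X.map f)) = 0
      rw [Submodule.Quotient.mk_eq_zero]
      change f w.1 ∈ Y.map f
      have : f w.1 = 0 := w.2.1
      rw [this]
      exact zero_mem _
  exact Module.length_eq_add_of_exact u g hu hg hug

theorem rl_eq_zero {X Y : Submodule A C} (h : X ≤ Y) : rl X Y = 0 := by
  unfold rl
  have : Subsingleton (X ⧸ Y.submoduleOf X) := by
    rw [subsingleton_iff_forall_eq 0]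
    intro v
    obtain ⟨v, rfl⟩ := Submodule.mkQ_surjective _ v
    exact (Submodule.Quotient.mk_eq_zero _).2 (h v.2)
  exact Module.length_eq_zero

end rl

section complex

variable {A : Type*} [CommRing A] (C : ℕ → Type*) [∀ i, AddCommGroup (C i)] [∀ i, Module A (C i)]
  (D : ∀ i, C (i + 1) →ₗ[A] C i)

/-- The cycles of a complex. -/
def Zc : ∀ i, Submodule A (C i)
  | 0 => ⊤
  | i + 1 => LinearMap.ker (D i)

theorem numeric_euler (r : ℕ) (a z β h h' : ℕ → ℤ) (h0 : a 0 = z 0)
    (h1 : ∀ i, a (i + 1) = z (i + 1) + β i) (h2 : ∀ i, h i + β i = z i + h' i) (h3 : β r = 0) :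
    ∑ i ∈ Finset.range (r + 1), (-1) ^ i * h i - ∑ i ∈ Finset.range (r + 1), (-1) ^ i * h' i =
      ∑ i ∈ Finset.range (r + 1), (-1) ^ i * a i := by
  have key : ∀ n, ∑ i ∈ Finset.range (n + 1), (-1) ^ i * a i =
      ∑ i ∈ Finset.range (n + 1), (-1) ^ i * h i - ∑ i ∈ Finset.range (n + 1), (-1) ^ i * h' i +
        (-1) ^ n * β n := by
    intro n
    induction n with
    | zero =>
      have := h2 0
      simp
      linarith
    | succ n ih =>
      rw [Finset.sum_range_succ, ih, Finset.sum_range_succ _ (n + 1),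
        Finset.sum_range_succ (fun i => (-1) ^ i * h' i) (n + 1), h1 n, pow_succ]
      have := h2 (n + 1)
      have e : z (n + 1) = h (n + 1) + β (n + 1) - h' (n + 1) := by linarith
      rw [e]
      ring
  rw [key r, h3]
  ring

/-- Comparison of the Euler characteristics of a complex and a subcomplex of finite colength. -/
theorem rel_euler (r : ℕ) (hr : Subsingleton (C (r + 1))) (hD : ∀ i v, D i (D (i + 1) v) = 0)
    (K K' : ∀ i, Submodule A (C i)) (hle : ∀ i, K' i ≤ K i)
    (hK : ∀ i, (K (i + 1)).map (D i) ≤ K i) (hK' : ∀ i, (K' (i + 1)).map (D i) ≤ K' i)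
    (hfin : ∀ i, rl (K i) (K' i) ≠ ⊤)
    (hH : ∀ i, rl (Zc C D i ⊓ K i) ((K (i + 1)).map (D i)) ≠ ⊤) :
    (∀ i, rl (Zc C D i ⊓ K' i) ((K' (i + 1)).map (D i)) ≠ ⊤) ∧
    ∑ i ∈ Finset.range (r + 1), (-1) ^ i *
        ((rl (Zc C D i ⊓ K i) ((K (i + 1)).map (D i))).toNat : ℤ) -
      ∑ i ∈ Finset.range (r + 1), (-1) ^ i *
        ((rl (Zc C D i ⊓ K' i) ((K' (i + 1)).map (D i))).toNat : ℤ) =
      ∑ i ∈ Finset.range (r + 1), (-1) ^ i * ((rl (K i) (K' i)).toNat : ℤ) := by
  have hB : ∀ i, LinearMap.range (D i) ≤ Zc C D i := by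
    intro i
    cases i with
    | zero => exact le_top
    | succ i =>
      rintro _ ⟨v, rfl⟩
      exact hD i v
  have hBK : ∀ i, (K (i + 1)).map (D i) ≤ Zc C D i ⊓ K i := fun i =>
    le_inf (LinearMap.map_le_range.trans (hB i)) (hK i)
  have hBK' : ∀ i, (K' (i + 1)).map (D i) ≤ Zc C D i ⊓ K' i := fun i =>
    le_inf (LinearMap.map_le_range.trans (hB i)) (hK' i)
  have e0 : rl (K 0) (K' 0) = rl (Zc C D 0 ⊓ K 0) (Zc C D 0 ⊓ K' 0) := by
    change _ = rl (⊤ ⊓ K 0) (⊤ ⊓ K' 0)
    rw [top_inf_eq, top_inf_eq]
  have e1 : ∀ i, rl (K (i + 1)) (K' (i + 1)) = rl (Zc C D (i + 1) ⊓ K (i + 1))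
      (Zc C D (i + 1) ⊓ K' (i + 1)) + rl ((K (i + 1)).map (D i)) ((K' (i + 1)).map (D i)) :=
    fun i => rl_map (D i) (hle (i + 1))
  have e2 : ∀ i, rl (Zc C D i ⊓ K i) ((K (i + 1)).map (D i)) +
      rl ((K (i + 1)).map (D i)) ((K' (i + 1)).map (D i)) =
      rl (Zc C D i ⊓ K i) (Zc C D i ⊓ K' i) + rl (Zc C D i ⊓ K' i) ((K' (i + 1)).map (D i)) := by
    intro i
    rw [← rl_add (Submodule.map_mono (hle (i + 1))) (hBK i),
      ← rl_add (hBK' i) (inf_le_inf_left _ (hle i))]
  have hβ : ∀ i, rl ((K (i + 1)).map (D i)) ((K' (i + 1)).map (D i)) ≠ ⊤ := by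
    intro i h
    apply hfin (i + 1)
    rw [e1, h, add_top]
  have hz : ∀ i, rl (Zc C D i ⊓ K i) (Zc C D i ⊓ K' i) ≠ ⊤ := by
    intro i h
    cases i with
    | zero => exact hfin 0 (by rw [e0, h])
    | succ i => exact hfin (i + 1) (by rw [e1, h, top_add])
  have hH' : ∀ i, rl (Zc C D i ⊓ K' i) ((K' (i + 1)).map (D i)) ≠ ⊤ := by
    intro i h
    have := e2 i
    rw [h, add_top] at this
    exact (WithTop.add_ne_top.2 ⟨hH i, hβ i⟩) this
  refine ⟨hH', ?_⟩
  refine numeric_euler r _
    (fun i => ((rl (Zc C D i ⊓ K i) (Zc C D i ⊓ K' i)).toNat : ℤ))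
    (fun i => ((rl ((K (i + 1)).map (D i)) ((K' (i + 1)).map (D i))).toNat : ℤ)) _ _ ?_ ?_ ?_ ?_
  · rw [e0]
  · intro i
    rw [e1, ENat.toNat_add (hz _) (hβ i)]
    push_cast
    rfl
  · intro i
    have := congrArg ENat.toNat (e2 i)
    rw [ENat.toNat_add (hH i) (hβ i), ENat.toNat_add (hz i) (hH' i)] at this
    exact_mod_cast this
  · have h0 : rl ((K (r + 1)).map (D r)) ((K' (r + 1)).map (D r)) = 0 := by
      apply rl_eq_zero
      rintro _ ⟨v, -, rfl⟩
      rw [Subsingleton.elim v 0, map_zero]
      exact zero_mem _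
    rw [h0]
    rfl

end complex

end Vale.Agent.P177
end

section

/-!
Meeting point of the two halves of the corank at most one theorem: the local theorem with one
fixed parameter (`locStmtRel`, from `FLoc`) and the relative diagonal method (`K13`).
-/
end
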