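import Mathlib

set_option linter.all false

section

/-! Data for the reduction to the diagonal. -/

namespace Vale.Agent.P177

open IsLocalRing RingTheory.Sequence

universe u

/-- Data for the reduction to the diagonal. -/
structure DiagData (S B : Type u) [CommRing S] [IsLocalRing S] [CommRing B] (d : ℕ) where
  i₁ : S →+* B
  i₂ : S →+* B
  flat₁ : i₁.Flat
  flat₂ : i₂.Flat
  μ : B →+* S
  μ_i₁ : μ.comp i₁ = RingHom.id S
  μ_i₂ : μ.comp i₂ = RingHom.id S
  ρ : B →+* S
  ρ_i₁ : ρ.comp i₁ = RingHom.id S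
  ker_ρ : RingHom.ker ρ = (maximalIdeal S).map i₂
  δ : List B
  length_δ : δ.length = d
  ker_μ : RingHom.ker μ = Ideal.ofList δ
  regular_δ : IsRegular B δ

end Vale.Agent.P177
end

section

/-!
Height inequality for primes of `R₁ ⊗[A] R₂`.
-/

namespace Vale.Agent.P177

open Function IsLocalRing TensorProduct

universe u

section fiber

variable {R S : Type u} [CommRing R] [CommRing S] [Algebra R S]

theorem height_quot_eq_fiber (p : PrimeSpectrum R) (P : PrimeSpectrum S)
    (h : P ∈ PrimeSpectrum.comap (algebraMap R S) ⁻¹' {p}) :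
    (P.asIdeal.map (Ideal.Quotient.mk (p.asIdeal.map (algebraMap R S)))).height =
      (PrimeSpectrum.preimageOrderIsoFiber R S p ⟨P, h⟩).asIdeal.height := by
  let X := PrimeSpectrum.comap (algebraMap R S) ⁻¹' {p}
  have hX : ∀ x : X, p.asIdeal.map (algebraMap R S) ≤ x.1.asIdeal := by
    intro x
    rw [Ideal.map_le_iff_le_comap]
    have h1 := x.2
    simp only [X, Set.mem_preimage, Set.mem_singleton_iff] at h1
    rw [← h1]
    rfl
  let f : X → PrimeSpectrum (S ⧸ p.asIdeal.map (algebraMap R S)) := fun x =>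
    ⟨x.1.asIdeal.map (Ideal.Quotient.mk _),
      Ideal.map_isPrime_of_surjective Ideal.Quotient.mk_surjective (by
        rw [Ideal.mk_ker]
        exact hX x)⟩
  have hcf : ∀ x : X, (f x).asIdeal.comap (Ideal.Quotient.mk _) = x.1.asIdeal := by
    intro x
    change (x.1.asIdeal.map (Ideal.Quotient.mk _)).comap (Ideal.Quotient.mk _) = _
    rw [Ideal.comap_map_of_surjective' _ Ideal.Quotient.mk_surjective, Ideal.mk_ker,
      sup_eq_left.2 (hX x)]
  have hf : StrictMono f := by
    intro x y hxy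
    refine lt_of_le_not_ge (Ideal.map_mono hxy.le) ?_
    intro hcon
    have h1 : (f y).asIdeal.comap (Ideal.Quotient.mk _) ≤
        (f x).asIdeal.comap (Ideal.Quotient.mk _) := Ideal.comap_mono hcon
    rw [hcf, hcf] at h1
    exact absurd h1 (not_le_of_gt hxy)
  have h1 := Order.height_eq_of_strictMono f hf (by
    intro a b hb
    have h2 : (PrimeSpectrum.comap (Ideal.Quotient.mk _) b).asIdeal ≤ a.1.asIdeal := by
      rw [← hcf a]
      exact Ideal.comap_mono hb.le
    have h3 : p.asIdeal.map (algebraMap R S) ≤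
        (PrimeSpectrum.comap (Ideal.Quotient.mk _) b).asIdeal := by
      intro x hx
      rw [PrimeSpectrum.comap_asIdeal, Ideal.mem_comap, Ideal.Quotient.eq_zero_iff_mem.2 hx]
      exact zero_mem _
    have h4 : PrimeSpectrum.comap (Ideal.Quotient.mk _) b ∈ X := by
      simp only [X, Set.mem_preimage, Set.mem_singleton_iff]
      apply PrimeSpectrum.ext
      apply le_antisymm
      · have h5 := a.2
        simp only [X, Set.mem_preimage, Set.mem_singleton_iff] at h5
        exact (Ideal.comap_mono h2).trans (congrArg PrimeSpectrum.asIdeal h5).le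
      · rw [PrimeSpectrum.comap_asIdeal, ← Ideal.map_le_iff_le_comap]
        exact h3
    have h6 : f ⟨_, h4⟩ = b := by
      apply PrimeSpectrum.ext
      change ((PrimeSpectrum.comap (Ideal.Quotient.mk _) b).asIdeal).map _ = _
      rw [PrimeSpectrum.comap_asIdeal, Ideal.map_comap_of_surjective _ Ideal.Quotient.mk_surjective]
    refine ⟨⟨_, h4⟩, ?_, h6⟩
    rw [← h6] at hb
    refine lt_of_le_not_ge h2 ?_
    intro hcon
    exact absurd (Ideal.map_mono (f := Ideal.Quotient.mk _) hcon : f a ≤ f ⟨_, h4⟩)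
      (not_le_of_gt hb)) ⟨P, h⟩
  rw [PrimeSpectrum.height_eq_orderHeight, Order.height_orderIso, h1,
    ← PrimeSpectrum.height_eq_orderHeight]

theorem isNoetherianRing_fiber (p : Ideal R) [p.IsPrime] [IsNoetherianRing S] :
    IsNoetherianRing (p.Fiber S) := by
  let _ : Algebra S (p.Fiber S) := Algebra.TensorProduct.rightAlgebra
  exact isNoetherianRing_of_ringEquiv _ (Ideal.Fiber.algEquivAux₁ (S := S) p).symm.toRingEquiv

end fiber

section fields

theorem flat_includeRight (k K F : Type u) [CommRing k] [CommRing K] [CommRing F]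
    [Algebra k K] [Algebra k F] [Module.Flat k K] :
    ((Algebra.TensorProduct.includeRight : F →ₐ[k] K ⊗[k] F) : F →+* K ⊗[k] F).Flat := by
  have h1 : (algebraMap F (F ⊗[k] K)).Flat := by
    rw [RingHom.flat_algebraMap_iff]
    infer_instance
  have h2 : ((Algebra.TensorProduct.comm k F K : F ⊗[k] K →ₐ[k] K ⊗[k] F) :
      F ⊗[k] K →+* K ⊗[k] F).Flat :=
    RingHom.Flat.of_bijective (Algebra.TensorProduct.comm k F K).bijective
  have h3 := h1.comp h2
  convert h3 using 1
  ext x
  rw [RingHom.comp_apply, Algebra.TensorProduct.algebraMap_apply]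
  change Algebra.TensorProduct.includeRight x =
    Algebra.TensorProduct.comm k F K (algebraMap F F x ⊗ₜ[k] (1 : K))
  rw [Algebra.TensorProduct.comm_tmul]
  rfl

theorem exists_flat_map (A R₁ R₂ k K : Type u) [CommRing A] [CommRing R₁] [CommRing R₂]
    [Algebra A R₁] [Algebra A R₂] [Field k] [Field K] [Algebra A k] [Algebra A K] [Algebra R₁ K]
    [Algebra k K] [IsScalarTower A k K] [IsScalarTower A R₁ K] :
    ∃ φ : k ⊗[A] R₂ →+* K ⊗[R₁] (R₁ ⊗[A] R₂), φ.Flat ∧ ∀ r : R₂, φ (1 ⊗ₜ r) = 1 ⊗ₜ (1 ⊗ₜ r) := by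
  let e₁ : K ⊗[R₁] (R₁ ⊗[A] R₂) ≃ₐ[K] K ⊗[A] R₂ :=
    Algebra.TensorProduct.cancelBaseChange A R₁ K K R₂
  let e₂ : K ⊗[k] (k ⊗[A] R₂) ≃ₐ[K] K ⊗[A] R₂ := Algebra.TensorProduct.cancelBaseChange A k K K R₂
  have h1 : ∀ r : R₂, e₂ ((1 : K) ⊗ₜ[k] ((1 : k) ⊗ₜ[A] r)) = 1 ⊗ₜ r := fun r => by
    simp only [e₂, Algebra.TensorProduct.cancelBaseChange_tmul, one_smul]
  have h2 : ∀ r : R₂, e₁.symm (1 ⊗ₜ r) = ((1 : K) ⊗ₜ[R₁] ((1 : R₁) ⊗ₜ[A] r)) := fun r => by
    rw [AlgEquiv.symm_apply_eq]
    simp only [e₁, Algebra.TensorProduct.cancelBaseChange_tmul, one_smul]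
  have f1 := flat_includeRight k K (k ⊗[A] R₂)
  have f2 : (e₂ : K ⊗[k] (k ⊗[A] R₂) →+* K ⊗[A] R₂).Flat :=
    RingHom.Flat.of_bijective e₂.bijective
  have f3 : (e₁.symm : K ⊗[A] R₂ →+* K ⊗[R₁] (R₁ ⊗[A] R₂)).Flat :=
    RingHom.Flat.of_bijective e₁.symm.bijective
  refine ⟨_, (f1.comp f2).comp f3, ?_⟩
  intro r
  simp only [RingHom.coe_comp, comp_apply, RingHom.coe_coe,
    Algebra.TensorProduct.includeRight_apply]
  rw [h1, h2]

end fields

section

variable {A R₁ R₂ : Type u} [CommRing A] [CommRing R₁] [CommRing R₂] [Algebra A R₁]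
  [Algebra A R₂] [IsNoetherianRing A] [IsNoetherianRing R₁] [IsNoetherianRing R₂]
  [IsNoetherianRing (R₁ ⊗[A] R₂)] [Module.Flat A R₂]

theorem height_bound (Q : Ideal (R₁ ⊗[A] R₂)) [Q.IsPrime] :
    (Q.comap (algebraMap R₁ (R₁ ⊗[A] R₂))).height +
      (Q.comap (Algebra.TensorProduct.includeRight : R₂ →ₐ[A] R₁ ⊗[A] R₂)).height ≤
      Q.height + (Q.comap (algebraMap A (R₁ ⊗[A] R₂))).height := by
  let P₁ : PrimeSpectrum R₁ := ⟨Q.comap (algebraMap R₁ (R₁ ⊗[A] R₂)), Ideal.IsPrime.comap _⟩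
  let P₂ : PrimeSpectrum R₂ :=
    ⟨Q.comap (Algebra.TensorProduct.includeRight : R₂ →ₐ[A] R₁ ⊗[A] R₂), Ideal.IsPrime.comap _⟩
  let q : PrimeSpectrum A := ⟨Q.comap (algebraMap A (R₁ ⊗[A] R₂)), Ideal.IsPrime.comap _⟩
  have hP₁ : q = PrimeSpectrum.comap (algebraMap A R₁) P₁ := by
    apply PrimeSpectrum.ext
    change Q.comap _ = (Q.comap _).comap _
    rw [Ideal.comap_comap, ← IsScalarTower.algebraMap_eq]
  have hP₂ : q = PrimeSpectrum.comap (algebraMap A R₂) P₂ := by
    apply PrimeSpectrum.ext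
    ext x
    change algebraMap A (R₁ ⊗[A] R₂) x ∈ Q ↔
      (Algebra.TensorProduct.includeRight : R₂ →ₐ[A] R₁ ⊗[A] R₂) (algebraMap A R₂ x) ∈ Q
    rw [AlgHom.commutes]
  have hq₁ : Q.comap (algebraMap A (R₁ ⊗[A] R₂)) = q.asIdeal := rfl
  -- fields
  let φ₀ : q.asIdeal.ResidueField →ₐ[A] P₁.asIdeal.ResidueField :=
    Ideal.ResidueField.mapₐ q.asIdeal P₁.asIdeal (Algebra.ofId _ _)
      (congrArg PrimeSpectrum.asIdeal hP₁)
  let _ : Algebra q.asIdeal.ResidueField P₁.asIdeal.ResidueField := φ₀.toRingHom.toAlgebra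
  have htow : IsScalarTower A q.asIdeal.ResidueField P₁.asIdeal.ResidueField :=
    IsScalarTower.of_algebraMap_eq fun x => (φ₀.commutes x).symm
  obtain ⟨φ, hφflat, hφ⟩ := exists_flat_map A R₁ R₂ q.asIdeal.ResidueField
    P₁.asIdeal.ResidueField
  let _ : Algebra (q.asIdeal.Fiber R₂) (P₁.asIdeal.Fiber (R₁ ⊗[A] R₂)) := φ.toAlgebra
  have : Module.Flat (q.asIdeal.Fiber R₂) (P₁.asIdeal.Fiber (R₁ ⊗[A] R₂)) := hφflat
  have : Algebra.HasGoingDown (q.asIdeal.Fiber R₂) (P₁.asIdeal.Fiber (R₁ ⊗[A] R₂)) :=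
    Algebra.HasGoingDown.of_flat
  have hF : IsNoetherianRing (q.asIdeal.Fiber R₂) := isNoetherianRing_fiber q.asIdeal
  have hG : IsNoetherianRing (P₁.asIdeal.Fiber (R₁ ⊗[A] R₂)) := isNoetherianRing_fiber P₁.asIdeal
  have m₂ : P₂ ∈ PrimeSpectrum.comap (algebraMap A R₂) ⁻¹' {q} := hP₂.symm
  have m₁ : (⟨Q, inferInstance⟩ : PrimeSpectrum (R₁ ⊗[A] R₂)) ∈
      PrimeSpectrum.comap (algebraMap R₁ (R₁ ⊗[A] R₂)) ⁻¹' {P₁} := rfl
  let PF := PrimeSpectrum.preimageOrderIsoFiber A R₂ q ⟨P₂, m₂⟩
  let QG := PrimeSpectrum.preimageOrderIsoFiber R₁ (R₁ ⊗[A] R₂) P₁ ⟨_, m₁⟩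
  have hcom : PrimeSpectrum.comap φ QG = PF := by
    apply (PrimeSpectrum.preimageOrderIsoFiber A R₂ q).symm.injective
    rw [OrderIso.symm_apply_apply]
    apply Subtype.ext
    apply PrimeSpectrum.ext
    ext r
    have h1 : r ∈ (((PrimeSpectrum.preimageOrderIsoFiber A R₂ q).symm
        (PrimeSpectrum.comap φ QG)).1).asIdeal ↔ φ (1 ⊗ₜ r) ∈ QG.asIdeal := by
      rfl
    have h2 : ((PrimeSpectrum.preimageOrderIsoFiber R₁ (R₁ ⊗[A] R₂) P₁).symm QG) = ⟨_, m₁⟩ :=
      OrderIso.symm_apply_apply _ _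
    have h3 : ∀ x : R₁ ⊗[A] R₂, x ∈ Q ↔ ((1 : P₁.asIdeal.ResidueField) ⊗ₜ x) ∈ QG.asIdeal := by
      intro x
      have h4 : x ∈ (((PrimeSpectrum.preimageOrderIsoFiber R₁ (R₁ ⊗[A] R₂) P₁).symm QG).1).asIdeal
          ↔ ((1 : P₁.asIdeal.ResidueField) ⊗ₜ x) ∈ QG.asIdeal := by
        rfl
      rw [h2] at h4
      exact h4
    rw [h1, hφ, ← h3]
    rfl
  have i1 : P₂.asIdeal.LiesOver q.asIdeal := ⟨congrArg PrimeSpectrum.asIdeal hP₂⟩
  have i2 : Q.LiesOver P₁.asIdeal := ⟨rfl⟩
  have i3 : QG.asIdeal.LiesOver PF.asIdeal := ⟨(congrArg PrimeSpectrum.asIdeal hcom).symm⟩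
  have h1 := Ideal.height_le_height_add_of_liesOver q.asIdeal P₂.asIdeal
  have h2 := Ideal.height_eq_height_add_of_liesOver_of_hasGoingDown PF.asIdeal QG.asIdeal
  have hflat1 : Module.Flat R₁ (R₁ ⊗[A] R₂) := inferInstance
  have hgd1 : Algebra.HasGoingDown R₁ (R₁ ⊗[A] R₂) := Algebra.HasGoingDown.of_flat
  have h3 := Ideal.height_eq_height_add_of_liesOver_of_hasGoingDown P₁.asIdeal Q
  have h4 := height_quot_eq_fiber q P₂ m₂
  have h5 := height_quot_eq_fiber P₁ ⟨Q, inferInstance⟩ m₁
  have h6 : PF.asIdeal.height ≤ QG.asIdeal.height := by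
    rw [h2]
    exact le_self_add
  change P₁.asIdeal.height + P₂.asIdeal.height ≤ Q.height + q.asIdeal.height
  rw [h4] at h1
  rw [h3]
  change (Q.map _).height = QG.asIdeal.height at h5
  rw [h5]
  calc P₁.asIdeal.height + P₂.asIdeal.height ≤
      P₁.asIdeal.height + (q.asIdeal.height + PF.asIdeal.height) := by gcongr
    _ ≤ P₁.asIdeal.height + (q.asIdeal.height + QG.asIdeal.height) := by gcongr
    _ = _ := by ring

end

end Vale.Agent.P177
end

section

/-!
Heights of primes in polynomial rings: upper bound and the product bound.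
-/

namespace Vale.Agent.P177

open TensorProduct

universe u

theorem height_le_comap_C_add {R : Type u} [CommRing R] [IsNoetherianRing R] {σ : Type}
    [Fintype σ] (P : Ideal (MvPolynomial σ R)) [P.IsPrime] :
    P.height ≤ (P.comap MvPolynomial.C).height + Fintype.card σ := by
  let p : PrimeSpectrum R := ⟨P.comap (algebraMap R (MvPolynomial σ R)), Ideal.IsPrime.comap _⟩
  have m₁ : (⟨P, inferInstance⟩ : PrimeSpectrum (MvPolynomial σ R)) ∈
      PrimeSpectrum.comap (algebraMap R (MvPolynomial σ R)) ⁻¹' {p} := rfl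
  have i2 : P.LiesOver p.asIdeal := ⟨rfl⟩
  have h1 := Ideal.height_le_height_add_of_liesOver p.asIdeal P
  have h5 := height_quot_eq_fiber p ⟨P, inferInstance⟩ m₁
  have hG : IsNoetherianRing (p.asIdeal.Fiber (MvPolynomial σ R)) := isNoetherianRing_fiber p.asIdeal
  let e : p.asIdeal.Fiber (MvPolynomial σ R) ≃ₐ[p.asIdeal.ResidueField]
      MvPolynomial σ p.asIdeal.ResidueField := MvPolynomial.algebraTensorAlgEquiv _ _
  have h6 : ringKrullDim (p.asIdeal.Fiber (MvPolynomial σ R)) = Fintype.card σ := by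
    rw [ringKrullDim_eq_of_ringEquiv e.toRingEquiv, MvPolynomial.ringKrullDim_of_isNoetherianRing,
      ringKrullDim_eq_zero_of_field, zero_add, Nat.card_eq_fintype_card]
  have h7 : ((PrimeSpectrum.preimageOrderIsoFiber R (MvPolynomial σ R) p
      ⟨⟨P, inferInstance⟩, m₁⟩).asIdeal.height : WithBot ℕ∞) ≤ Fintype.card σ := by
    rw [← h6]
    exact Ideal.height_le_ringKrullDim_of_isPrime
  rw [← h5] at h7
  have h8 : (P.map (Ideal.Quotient.mk (p.asIdeal.map (algebraMap R (MvPolynomial σ R))))).height ≤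
      (Fintype.card σ : ℕ∞) := by exact_mod_cast h7
  exact h1.trans (add_le_add_right h8 _)

/-- The product bound for primes in a polynomial ring over a field. -/
theorem height_add_le_sum {k : Type u} [Field k] {σ τ : Type} [Fintype σ] [Fintype τ]
    (P : Ideal (MvPolynomial (σ ⊕ τ) k)) [P.IsPrime] :
    (P.comap (MvPolynomial.rename (R := k) (Sum.inl : σ → σ ⊕ τ))).height +
      (P.comap (MvPolynomial.rename (R := k) (Sum.inr : τ → σ ⊕ τ))).height ≤ P.height := by
  let e : MvPolynomial σ k ⊗[k] MvPolynomial τ k ≃ₐ[k] MvPolynomial (σ ⊕ τ) k :=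
    MvPolynomial.tensorEquivSum k σ τ k
  have hN : IsNoetherianRing (MvPolynomial σ k ⊗[k] MvPolynomial τ k) :=
    isNoetherianRing_of_ringEquiv _ e.symm.toRingEquiv
  let Q : Ideal (MvPolynomial σ k ⊗[k] MvPolynomial τ k) := P.comap (e : _ →+* _)
  have hQ : Q.IsPrime := Ideal.IsPrime.comap _
  have hht : Q.height = P.height := RingEquiv.height_comap e.toRingEquiv P
  have h := height_bound (A := k) (R₁ := MvPolynomial σ k) (R₂ := MvPolynomial τ k) Q
  have h0 : (Q.comap (algebraMap k (MvPolynomial σ k ⊗[k] MvPolynomial τ k))).height = 0 := by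
    have : (Q.comap (algebraMap k (MvPolynomial σ k ⊗[k] MvPolynomial τ k))).IsPrime :=
      Ideal.IsPrime.comap _
    rw [Ideal.eq_bot_of_prime (Q.comap (algebraMap k (MvPolynomial σ k ⊗[k] MvPolynomial τ k)))]
    exact Ideal.height_bot
  have h1 : (e : MvPolynomial σ k ⊗[k] MvPolynomial τ k →ₐ[k] MvPolynomial (σ ⊕ τ) k).comp
      (Algebra.TensorProduct.includeLeft) = MvPolynomial.rename (R := k) Sum.inl := by
    ext i
    simp [e]
  have h2 : (e : MvPolynomial σ k ⊗[k] MvPolynomial τ k →ₐ[k] MvPolynomial (σ ⊕ τ) k).comp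
      (Algebra.TensorProduct.includeRight) = MvPolynomial.rename (R := k) Sum.inr := by
    ext i
    simp [e]
  rw [h0, add_zero, hht] at h
  refine le_trans (le_of_eq ?_) h
  congr 2
  · ext x
    rw [Ideal.mem_comap, ← h1]
    rfl
  · ext x
    rw [Ideal.mem_comap, ← h2]
    rfl

end Vale.Agent.P177
end

section

/-!
Stable filtrations and strict free covers.
-/

namespace Vale.Agent.P177

open IsLocalRing Function Pointwise

universe u

section fil

variable {A : Type*} [CommRing A] (I : Ideal A)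

/-- A stable filtration starting with the whole module. -/
structure GoodFil {M : Type*} [AddCommGroup M] [Module A M] (F : ℕ → Submodule A M) : Prop where
  top : F 0 = ⊤
  anti : ∀ n, F (n + 1) ≤ F n
  smul : ∀ n, I • F n ≤ F (n + 1)
  stable : ∃ n₀, ∀ n, n₀ ≤ n → I • F n = F (n + 1)

variable {I}
variable {M N : Type*} [AddCommGroup M] [Module A M] [AddCommGroup N] [Module A N]
  {F : ℕ → Submodule A M} {G : ℕ → Submodule A N}

theorem GoodFil.antitone (hF : GoodFil I F) : Antitone F := antitone_nat_of_succ_le hF.anti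

theorem GoodFil.pow_smul (hF : GoodFil I F) (k n : ℕ) : I ^ k • F n ≤ F (n + k) := by
  induction k with
  | zero => simp
  | succ k ih =>
    rw [pow_succ', mul_smul]
    exact (smul_mono_right I ih).trans (hF.smul _)

theorem GoodFil.smul_mem (hF : GoodFil I F) {k n : ℕ} {c : A} {m : M} (hc : c ∈ I ^ k)
    (hm : m ∈ F n) : c • m ∈ F (n + k) :=
  hF.pow_smul k n (Submodule.smul_mem_smul hc hm)

/-- The underlying filtration in the sense of Mathlib. -/
def GoodFil.toFiltration (hF : GoodFil I F) : I.Filtration M where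
  N := F
  mono := hF.anti
  smul_le := hF.smul

theorem GoodFil.toFiltration_stable (hF : GoodFil I F) : hF.toFiltration.Stable := by
  obtain ⟨n₀, h⟩ := hF.stable
  exact ⟨n₀, fun n hn => h n hn⟩

variable (I M) in
theorem goodFil_pow : GoodFil I (fun n => (I ^ n • ⊤ : Submodule A M)) where
  top := by simp
  anti n := by
    rw [pow_succ]
    exact Submodule.smul_mono_left Ideal.mul_le_left
  smul n := by rw [pow_succ', mul_smul]
  stable := ⟨0, fun n _ => by rw [pow_succ', mul_smul]⟩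

variable (I) in
theorem goodFil_self : GoodFil I (fun n => (I ^ n : Ideal A)) := by
  have := goodFil_pow I A
  simpa using this

/-- The weighted filtration on a power of a module. -/
def wfil (G : ℕ → Submodule A N) {b : ℕ} (a : Fin b → ℕ) (n : ℕ) : Submodule A (Fin b → N) :=
  Submodule.pi Set.univ (fun j => G (n - a j))

theorem mem_wfil {b : ℕ} {a : Fin b → ℕ} {n : ℕ} {f : Fin b → N} :
    f ∈ wfil G a n ↔ ∀ j, f j ∈ G (n - a j) := by
  simp [wfil, Submodule.mem_pi]

theorem GoodFil.weighted (hG : GoodFil I G) {b : ℕ} (a : Fin b → ℕ) : GoodFil I (wfil G a) where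
  top := by
    ext f
    simp [mem_wfil, hG.top]
  anti n := by
    intro f hf
    rw [mem_wfil] at hf ⊢
    exact fun j => hG.antitone (by omega) (hf j)
  smul n := by
    rw [Submodule.smul_le]
    intro c hc f hf
    rw [mem_wfil] at hf ⊢
    intro j
    have h1 := hG.smul_mem (k := 1) (by simpa using hc) (hf j)
    exact hG.antitone (by omega) h1
  stable := by
    obtain ⟨n₀, hn₀⟩ := hG.stable
    refine ⟨n₀ + ∑ j, a j, fun n hn => ?_⟩
    have haj : ∀ j, a j ≤ ∑ j, a j := fun j =>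
      Finset.single_le_sum (f := a) (fun _ _ => Nat.zero_le _) (Finset.mem_univ j)
    refine le_antisymm ?_ ?_
    · rw [Submodule.smul_le]
      intro c hc f hf
      rw [mem_wfil] at hf ⊢
      intro j
      have h1 := hG.smul_mem (k := 1) (by simpa using hc) (hf j)
      exact hG.antitone (by omega) h1
    · intro f hf
      rw [mem_wfil] at hf
      have h1 : f = ∑ j, LinearMap.single A (fun _ => N) j (f j) := by
        funext i
        simp [Finset.sum_apply, Pi.single_apply]
      rw [h1]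
      refine Submodule.sum_mem _ fun j _ => ?_
      have h2 : f j ∈ I • G (n - a j) := by
        have h3 := haj j
        rw [hn₀ _ (by omega)]
        have h4 : n - a j + 1 = n + 1 - a j := by omega
        rw [h4]
        exact hf j
      have h5 : (I • G (n - a j)).map (LinearMap.single A (fun _ : Fin b => N) j) ≤
          I • wfil G a n := by
        rw [Submodule.map_smul'']
        refine smul_mono_right I ?_
        rintro _ ⟨y, hy, rfl⟩
        rw [mem_wfil]
        intro i
        by_cases hij : i = j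
        · subst hij
          simpa using hy
        · simp [Pi.single_eq_of_ne hij]
      exact h5 ⟨_, h2, rfl⟩

/-- Restriction of a stable filtration to a submodule (Artin-Rees). -/
theorem GoodFil.comap_subtype [IsNoetherianRing A] [Module.Finite A M] (hF : GoodFil I F)
    (K : Submodule A M) : GoodFil I (fun n => (F n).comap K.subtype) where
  top := by simp [hF.top]
  anti n := Submodule.comap_mono (hF.anti n)
  smul n := by
    rw [Submodule.smul_le]
    intro c hc f hf
    exact hF.smul n (Submodule.smul_mem_smul hc hf)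
  stable := by
    have h1 := hF.toFiltration_stable.inter_right (I.trivialFiltration K)
    obtain ⟨n₀, h2⟩ := h1
    refine ⟨n₀, fun n hn => ?_⟩
    apply Submodule.map_injective_of_injective K.injective_subtype
    have h3 := h2 n hn
    change I • (F n ⊓ K) = F (n + 1) ⊓ K at h3
    rw [Submodule.map_smul'', Submodule.map_comap_subtype, Submodule.map_comap_subtype,
      inf_comm, h3, inf_comm]

/-- The linear map on a free module given by the images of the basis vectors. -/
noncomputable def lc {b : ℕ} (k : Fin b → M) : (Fin b → A) →ₗ[A] M :=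
  Fintype.linearCombination A k

theorem lc_apply {b : ℕ} (k : Fin b → M) (f : Fin b → A) : lc k f = ∑ j, f j • k j :=
  Fintype.linearCombination_apply _ _ _

theorem lc_mem (hF : GoodFil I F) {b : ℕ} {a : Fin b → ℕ} {k : Fin b → M}
    (hk : ∀ j, k j ∈ F (a j)) {n : ℕ} {f : Fin b → A}
    (hf : f ∈ wfil (fun k => (I ^ k : Ideal A)) a n) : lc k f ∈ F n := by
  rw [lc_apply]
  rw [mem_wfil] at hf
  refine Submodule.sum_mem _ fun j _ => ?_
  exact hF.antitone (by omega) (hF.smul_mem (hf j) (hk j))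

/-- Existence of strict free covers. -/
theorem exists_strict_cover [IsNoetherianRing A] [Module.Finite A M] (hF : GoodFil I F) :
    ∃ (b : ℕ) (a : Fin b → ℕ) (φ : (Fin b → A) →ₗ[A] M),
      ∀ n, (wfil (fun k => (I ^ k : Ideal A)) a n).map φ = F n := by
  obtain ⟨n₀, hn₀⟩ := hF.stable
  have hfg : ∀ i : Fin (n₀ + 1), ∃ (m : ℕ) (s : Fin m → M), Submodule.span A (Set.range s) = F i :=
    fun i => (Submodule.fg_iff_exists_fin_generating_family.1
      (IsNoetherian.noetherian (F i)))
  choose m s hs using hfg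
  let e := Fintype.equivFin (Σ i : Fin (n₀ + 1), Fin (m i))
  let a : Fin (Fintype.card (Σ i : Fin (n₀ + 1), Fin (m i))) → ℕ := fun j => (e.symm j).1
  let k : Fin (Fintype.card (Σ i : Fin (n₀ + 1), Fin (m i))) → M :=
    fun j => s (e.symm j).1 (e.symm j).2
  have hk : ∀ j, k j ∈ F (a j) := fun j => by
    rw [← hs]
    exact Submodule.subset_span ⟨_, rfl⟩
  refine ⟨_, a, lc k, fun n => le_antisymm ?_ ?_⟩
  · rintro _ ⟨f, hf, rfl⟩
    exact lc_mem hF hk hf
  · -- first the case `n ≤ n₀`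
    have h1 : ∀ n, n ≤ n₀ → F n ≤ (wfil (fun k => (I ^ k : Ideal A)) a n).map (lc k) := by
      intro n hn
      have h2 := hs ⟨n, by omega⟩
      change _ = F n at h2
      rw [← h2, Submodule.span_le]
      rintro _ ⟨t, rfl⟩
      refine ⟨Pi.single (e ⟨⟨n, by omega⟩, t⟩) 1, ?_, ?_⟩
      · rw [SetLike.mem_coe, mem_wfil]
        intro j
        by_cases hj : j = e ⟨⟨n, by omega⟩, t⟩
        · subst hj
          simp [a]
        · simp [Pi.single_eq_of_ne hj]
      · rw [lc_apply]
        rw [Finset.sum_eq_single (e ⟨⟨n, by omega⟩, t⟩)]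
        · rw [Pi.single_eq_same, one_smul]
          change s (e.symm (e _)).1 (e.symm (e _)).2 = _
          rw [Equiv.symm_apply_apply]
        · intro j _ hj
          simp [Pi.single_eq_of_ne hj]
        · simp
    induction n with
    | zero => exact h1 0 (Nat.zero_le _)
    | succ n ih =>
      by_cases hn : n + 1 ≤ n₀
      · exact h1 _ hn
      · rw [← hn₀ n (by omega)]
        refine (smul_mono_right I ih).trans ?_
        rw [← Submodule.map_smul'']
        exact Submodule.map_mono (((goodFil_self I).weighted a).smul n)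

end fil

end Vale.Agent.P177
end

section

/-!
Integer sequences of Hilbert polynomial type.
-/

namespace Vale.Agent.P177

open PowerSeries

/-- The sequence `f` grows like a polynomial of degree `D` with positive leading coefficient. -/
def HP (f : ℕ → ℤ) (D : ℕ) : Prop :=
  ∃ P : Polynomial ℤ, 0 < P.eval 1 ∧ (1 - X) ^ (D + 1) * mk f = (P : ℤ⟦X⟧)

theorem one_sub_X_ne_zero : (1 - X : ℤ⟦X⟧) ≠ 0 := by
  intro h
  have := congrArg (coeff 0) h
  simp at this

/-- The sequence of differences. -/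
def dif (f : ℕ → ℤ) : ℕ → ℤ
  | 0 => f 0
  | n + 1 => f (n + 1) - f n

theorem one_sub_X_mul_mk (f : ℕ → ℤ) : (1 - X) * mk f = mk (dif f) := by
  ext n
  cases n with
  | zero => simp [dif]
  | succ n =>
    rw [sub_mul, one_mul, map_sub, coeff_succ_X_mul, coeff_mk, coeff_mk, coeff_mk]
    rfl

theorem sum_dif (f : ℕ → ℤ) (n : ℕ) : ∑ i ∈ Finset.range (n + 1), dif f i = f n := by
  induction n with
  | zero => simp [dif]
  | succ n ih =>
    rw [Finset.sum_range_succ, ih]
    simp [dif]

theorem HP.dif {f : ℕ → ℤ} {D : ℕ} (h : HP f (D + 1)) : HP (dif f) D := by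
  obtain ⟨P, hP, he⟩ := h
  refine ⟨P, hP, ?_⟩
  rw [← one_sub_X_mul_mk, ← mul_assoc, ← pow_succ]
  exact he

theorem HP.eventually_zero {f : ℕ → ℤ} (P : Polynomial ℤ)
    (he : (1 - X) ^ (0 + 1) * mk f = (P : ℤ⟦X⟧)) (n : ℕ) (hn : P.natDegree ≤ n) :
    f n = P.eval 1 := by
  rw [zero_add, pow_one, one_sub_X_mul_mk] at he
  rw [← sum_dif f n, Polynomial.eval_eq_sum_range' (Nat.lt_succ_of_le hn)]
  refine Finset.sum_congr rfl fun i _ => ?_
  have := congrArg (coeff i) he
  rw [coeff_mk, Polynomial.coeff_coe] at this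
  rw [this, one_pow, mul_one]

theorem tendsto_of_dif {f : ℕ → ℤ} (n₀ : ℕ) (h : ∀ n, n₀ ≤ n → 1 ≤ dif f n) :
    Filter.Tendsto f Filter.atTop Filter.atTop := by
  have key : ∀ k : ℕ, f n₀ + k ≤ f (n₀ + k) := by
    intro k
    induction k with
    | zero => simp
    | succ k ih =>
      have := h (n₀ + k + 1) (by omega)
      change 1 ≤ f (n₀ + k + 1) - f (n₀ + k) at this
      have e : n₀ + (k + 1) = n₀ + k + 1 := by omega
      rw [e]
      push_cast
      linarith
  rw [Filter.tendsto_atTop_atTop]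
  intro b
  refine ⟨n₀ + (b - f n₀).toNat, fun n hn => ?_⟩
  obtain ⟨k, rfl⟩ := Nat.exists_eq_add_of_le (show n₀ ≤ n by omega)
  have h1 := key k
  have h2 : b - f n₀ ≤ (b - f n₀).toNat := Int.self_le_toNat _
  have h3 : (((b - f n₀).toNat : ℕ) : ℤ) ≤ k := by exact_mod_cast (by omega : (b - f n₀).toNat ≤ k)
  linarith

theorem HP.eventually_pos {f : ℕ → ℤ} {D : ℕ} (h : HP f D) : ∃ n₀, ∀ n, n₀ ≤ n → 1 ≤ f n := by
  induction D generalizing f with
  | zero =>
    obtain ⟨P, hP, he⟩ := h
    exact ⟨P.natDegree, fun n hn => by rw [HP.eventually_zero P he n hn]; omega⟩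
  | succ D ih =>
    obtain ⟨n₀, hn₀⟩ := ih h.dif
    have := (Filter.tendsto_atTop_atTop.1 (tendsto_of_dif n₀ hn₀)) 1
    exact this

theorem HP.tendsto {f : ℕ → ℤ} {D : ℕ} (h : HP f (D + 1)) :
    Filter.Tendsto f Filter.atTop Filter.atTop := by
  obtain ⟨n₀, hn₀⟩ := h.dif.eventually_pos
  exact tendsto_of_dif n₀ hn₀

/-- Comparison of growth. -/
theorem HP.le_of_le {f g : ℕ → ℤ} {D E : ℕ} (hf : HP f D) (hg : HP g E) (n₀ : ℕ)
    (h : ∀ n, n₀ ≤ n → f n ≤ g n) : D ≤ E := by
  by_contra hcon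
  rw [not_le] at hcon
  obtain ⟨P, hP, he⟩ := hf
  obtain ⟨Q, hQ, he'⟩ := hg
  obtain ⟨k, rfl⟩ := Nat.exists_eq_add_of_lt hcon
  have h1 : HP (fun n => f n - g n) (E + k + 1) := by
    refine ⟨P - Q * (1 - Polynomial.X) ^ (k + 1), by simp [hP], ?_⟩
    have e1 : (mk fun n => f n - g n) = mk f - mk g := by
      ext n
      simp
    rw [e1, mul_sub, he]
    have e2 : (1 - X : ℤ⟦X⟧) ^ (E + k + 1 + 1) = (1 - X) ^ (k + 1) * (1 - X) ^ (E + 1) := by
      rw [← pow_add]
      congr 1
      omega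
    rw [e2, mul_assoc, he']
    push_cast
    ring
  have h2 := (Filter.tendsto_atTop_atTop.1 h1.tendsto) 1
  obtain ⟨n₁, hn₁⟩ := h2
  have h3 := hn₁ (max n₀ n₁) (le_max_right _ _)
  have h4 := h (max n₀ n₁) (le_max_left _ _)
  linarith

/-- Classification of nonnegative sequences with rational generating function. -/
theorem exists_HP {f : ℕ → ℤ} {k : ℕ} {P : Polynomial ℤ} (he : (1 - X) ^ k * mk f = (P : ℤ⟦X⟧))
    (n₀ : ℕ) (hf : ∀ n, n₀ ≤ n → 1 ≤ f n) : ∃ D, D < k ∧ HP f D := by
  have hP0 : P ≠ 0 := by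
    rintro rfl
    have h1 : mk f = 0 := by
      rw [Polynomial.coe_zero] at he
      exact (mul_eq_zero.1 he).resolve_left (pow_ne_zero _ one_sub_X_ne_zero)
    have h2 := congrArg (coeff n₀) h1
    rw [coeff_mk, map_zero] at h2
    have := hf n₀ le_rfl
    omega
  obtain ⟨Q, hQ, hdvd⟩ := Polynomial.exists_eq_pow_rootMultiplicity_mul_and_not_dvd P hP0 1
  set u := P.rootMultiplicity 1 with hu
  rw [Polynomial.dvd_iff_isRoot, Polynomial.IsRoot.def] at hdvd
  -- pass to powers of `1 - X`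
  let Q' : Polynomial ℤ := (-1) ^ u * Q
  have hQ' : P = (1 - Polynomial.X) ^ u * Q' := by
    rw [hQ]
    have : (Polynomial.X - Polynomial.C 1 : Polynomial ℤ) = (-1) * (1 - Polynomial.X) := by
      simp
    rw [this, mul_pow]
    ring
  have hQ'1 : Q'.eval 1 ≠ 0 := by
    simp only [Q', Polynomial.eval_mul, Polynomial.eval_pow, Polynomial.eval_neg,
      Polynomial.eval_one]
    exact mul_ne_zero (pow_ne_zero _ (by norm_num)) hdvd
  have hPc : (P : ℤ⟦X⟧) = (1 - X) ^ u * (Q' : ℤ⟦X⟧) := by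
    rw [hQ']
    push_cast
    ring
  rw [hPc] at he
  by_cases huk : k ≤ u
  · exfalso
    obtain ⟨v, hv⟩ := Nat.exists_eq_add_of_le huk
    have h1 : mk f = ((((1 - Polynomial.X) ^ v * Q' : Polynomial ℤ)) : ℤ⟦X⟧) := by
      apply mul_left_cancel₀ (pow_ne_zero k one_sub_X_ne_zero)
      rw [he, hv, pow_add]
      push_cast
      ring
    have h2 := congrArg (coeff (max n₀ (((1 - Polynomial.X) ^ v * Q' : Polynomial ℤ).natDegree + 1)))
      h1
    rw [coeff_mk, Polynomial.coeff_coe, Polynomial.coeff_eq_zero_of_natDegree_lt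
      (lt_of_lt_of_le (Nat.lt_succ_self _) (le_max_right _ _))] at h2
    have := hf _ (le_max_left n₀ (((1 - Polynomial.X) ^ v * Q' : Polynomial ℤ).natDegree + 1))
    omega
  · rw [not_le] at huk
    obtain ⟨D, rfl⟩ := Nat.exists_eq_add_of_lt huk
    have h1 : (1 - X) ^ (D + 1) * mk f = (Q' : ℤ⟦X⟧) := by
      apply mul_left_cancel₀ (pow_ne_zero u one_sub_X_ne_zero)
      rw [← he, ← mul_assoc, ← pow_add]
      congr 2
    refine ⟨D, by omega, Q', ?_, h1⟩
    by_contra hneg
    have h2 : HP (fun n => - f n) D := by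
      refine ⟨-Q', ?_, ?_⟩
      · rw [Polynomial.eval_neg]
        omega
      · have e1 : (mk fun n => - f n) = - mk f := by
          ext n
          simp
        rw [e1, mul_neg, h1]
        push_cast
        rfl
    obtain ⟨n₁, hn₁⟩ := h2.eventually_pos
    have h3 := hn₁ (max n₀ n₁) (le_max_right _ _)
    have h4 := hf (max n₀ n₁) (le_max_left _ _)
    omega

/-- The shifted sequence. -/
def shiftSeq (f : ℕ → ℤ) : ℕ → ℤ
  | 0 => 0
  | n + 1 => f n

theorem X_mul_mk (f : ℕ → ℤ) : X * mk f = mk (shiftSeq f) := by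
  ext n
  cases n with
  | zero => simp [shiftSeq]
  | succ n =>
    rw [coeff_succ_X_mul, coeff_mk, coeff_mk]
    rfl

/-- The three cases for the intersection function. -/
theorem prod_cases {f g ψ : ℕ → ℤ} {d D E : ℕ} (hf : HP f D) (hg : HP g E)
    (h : X * mk ψ = (1 - X) ^ (d + 1) * (mk f * mk g)) :
    (D + E < d → ∃ n₀, ∀ n, n₀ ≤ n → ψ n = 0) ∧
    (D + E = d → ∃ n₀, ∀ n, n₀ ≤ n → 1 ≤ ψ n) ∧
    (d < D + E → Filter.Tendsto ψ Filter.atTop Filter.atTop) := by
  obtain ⟨P, hP, he⟩ := hf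
  obtain ⟨Q, hQ, he'⟩ := hg
  have key : (1 - X) ^ (D + 1) * (1 - X) ^ (E + 1) * mk (shiftSeq ψ) =
      (1 - X) ^ (d + 1) * ((P * Q : Polynomial ℤ) : ℤ⟦X⟧) := by
    rw [← X_mul_mk, h]
    push_cast
    rw [← he, ← he']
    ring
  have hpos : ∀ j, D + E = d + j → HP (shiftSeq ψ) j := by
    intro j hj
    refine ⟨P * Q, by rw [Polynomial.eval_mul]; exact mul_pos hP hQ, ?_⟩
    apply mul_left_cancel₀ (pow_ne_zero (d + 1) one_sub_X_ne_zero)
    rw [← key, ← pow_add, ← mul_assoc, ← pow_add]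
    congr 2
    omega
  refine ⟨?_, ?_, ?_⟩
  · intro hlt
    obtain ⟨j, rfl⟩ := Nat.exists_eq_add_of_lt hlt
    have h1 : mk (shiftSeq ψ) = (((1 - Polynomial.X) ^ j * (P * Q) : Polynomial ℤ) : ℤ⟦X⟧) := by
      apply mul_left_cancel₀ (pow_ne_zero (D + E + 2) one_sub_X_ne_zero)
      have e1 : (1 - X : ℤ⟦X⟧) ^ (D + E + 2) = (1 - X) ^ (D + 1) * (1 - X) ^ (E + 1) := by
        rw [← pow_add]
        congr 1
        omega
      rw [e1, key]
      have e2 : (1 - X : ℤ⟦X⟧) ^ (D + E + j + 1 + 1) =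
          (1 - X) ^ (D + 1) * (1 - X) ^ (E + 1) * (1 - X) ^ j := by
        rw [← pow_add, ← pow_add]
        congr 1
        omega
      rw [e2]
      push_cast
      ring
    refine ⟨((1 - Polynomial.X) ^ j * (P * Q) : Polynomial ℤ).natDegree, fun n hn => ?_⟩
    have h2 := congrArg (coeff (n + 1)) h1
    rw [coeff_mk, Polynomial.coeff_coe, Polynomial.coeff_eq_zero_of_natDegree_lt (by omega)] at h2
    exact h2
  · intro heq
    obtain ⟨n₀, hn₀⟩ := (hpos 0 (by omega)).eventually_pos
    exact ⟨n₀, fun n hn => hn₀ (n + 1) (by omega)⟩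
  · intro hlt
    obtain ⟨j, hj⟩ := Nat.exists_eq_add_of_lt hlt
    have h1 := (hpos (j + 1) (by omega)).tendsto
    have h2 : ψ = fun n => shiftSeq ψ (n + 1) := rfl
    rw [h2]
    exact h1.comp (Filter.tendsto_add_atTop_nat 1)

end Vale.Agent.P177
end

section

/-!
The canonical map from the Witt vectors of a perfect residue field to a complete local ring.
-/

namespace Vale.Agent.P177

open IsLocalRing Ideal Function

universe u

section witt

variable {S : Type u} [CommRing S] [IsLocalRing S] (p : ℕ) [Fact p.Prime]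

theorem mk_ghostComponent_eq_zero (hp : (p : S) ∈ maximalIdeal S) (n : ℕ) (x : WittVector p S)
    (hx : WittVector.map (residue S) x = 0) :
    Ideal.Quotient.mk (maximalIdeal S ^ (n + 1)) (WittVector.ghostComponent n x) = 0 := by
  have hc : ∀ i, x.coeff i ∈ maximalIdeal S := by
    intro i
    have h1 := congrArg (fun y => WittVector.coeff y i) hx
    simp only [WittVector.map_coeff, WittVector.zero_coeff] at h1
    exact (residue_eq_zero_iff _).1 h1
  rw [Ideal.Quotient.eq_zero_iff_mem, WittVector.ghostComponent_apply, aeval_wittPolynomial]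
  refine Ideal.sum_mem _ fun i hi => ?_
  have hi' : i ≤ n := Nat.lt_succ_iff.1 (Finset.mem_range.1 hi)
  have h2 : n + 1 ≤ i + p ^ (n - i) := by
    have := Nat.lt_pow_self (Fact.out (p := p.Prime)).one_lt (n := n - i)
    omega
  have h3 : (p : S) ^ i * x.coeff i ^ p ^ (n - i) ∈ maximalIdeal S ^ (i + p ^ (n - i)) := by
    rw [pow_add]
    exact Ideal.mul_mem_mul (Ideal.pow_mem_pow hp i) (Ideal.pow_mem_pow (hc i) _)
  exact Ideal.pow_le_pow_right h2 h3

/-- The `n`-th ghost component modulo a power of the maximal ideal. -/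
noncomputable def ghostMod (hp : (p : S) ∈ maximalIdeal S) (n : ℕ) :
    WittVector p (ResidueField S) →+* S ⧸ maximalIdeal S ^ (n + 1) :=
  RingHom.liftOfSurjective (WittVector.map (residue S))
    (WittVector.map_surjective _ residue_surjective)
    ⟨(Ideal.Quotient.mk (maximalIdeal S ^ (n + 1))).comp (WittVector.ghostComponent n),
      fun x hx => mk_ghostComponent_eq_zero p hp n x hx⟩

theorem ghostMod_map (hp : (p : S) ∈ maximalIdeal S) (n : ℕ) (x : WittVector p S) :
    ghostMod p hp n (WittVector.map (residue S) x) =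
      Ideal.Quotient.mk (maximalIdeal S ^ (n + 1)) (WittVector.ghostComponent n x) :=
  RingHom.liftOfSurjective_comp_apply ..

variable [CharP (ResidueField S) p] [PerfectRing (ResidueField S) p]

/-- The inverse of the Frobenius map. -/
noncomputable def rootHom (k : Type u) [Field k] [CharP k p] [PerfectRing k p] : k →+* k :=
  ((frobeniusEquiv k p).symm : k →+* k)

/-- The canonical map modulo a power of the maximal ideal. -/
noncomputable def wittMod (hp : (p : S) ∈ maximalIdeal S) (n : ℕ) :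
    WittVector p (ResidueField S) →+* S ⧸ maximalIdeal S ^ (n + 1) :=
  (ghostMod p hp n).comp (WittVector.map (rootHom p (ResidueField S) ^ n))

theorem wittMod_teichmuller (hp : (p : S) ∈ maximalIdeal S) (n : ℕ) (a : ResidueField S) (b : S)
    (hb : residue S b = (rootHom p (ResidueField S) ^ n) a) :
    wittMod p hp n (WittVector.teichmuller p a) =
      Ideal.Quotient.mk (maximalIdeal S ^ (n + 1)) (b ^ p ^ n) := by
  rw [wittMod, RingHom.comp_apply, WittVector.map_teichmuller, ← hb,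
    ← WittVector.map_teichmuller, ghostMod_map, WittVector.ghostComponent_teichmuller]

theorem factorPowSucc_comp_wittMod (hp : (p : S) ∈ maximalIdeal S) (n : ℕ) :
    (Ideal.Quotient.factorPowSucc (maximalIdeal S) (n + 1)).comp (wittMod p hp (n + 1)) =
      wittMod p hp n := by
  apply WittVector.eq_of_apply_teichmuller_eq
  · refine ⟨n + 1, ?_⟩
    rw [← map_natCast (Ideal.Quotient.mk (maximalIdeal S ^ (n + 1))), ← map_pow,
      Ideal.Quotient.eq_zero_iff_mem]
    exact Ideal.pow_mem_pow hp _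
  · intro a
    obtain ⟨b, hb⟩ := residue_surjective ((rootHom p (ResidueField S) ^ (n + 1)) a)
    have hb' : residue S (b ^ p) = (rootHom p (ResidueField S) ^ n) a := by
      rw [map_pow, hb]
      have h1 : (rootHom p (ResidueField S) ^ (n + 1)) a =
          rootHom p (ResidueField S) ((rootHom p (ResidueField S) ^ n) a) := by
        rw [pow_succ']
        rfl
      rw [h1]
      exact frobeniusEquiv_symm_pow_p _ _ _
    rw [RingHom.comp_apply, wittMod_teichmuller p hp (n + 1) a b hb,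
      wittMod_teichmuller p hp n a (b ^ p) hb']
    rw [← pow_mul, ← pow_succ']
    rfl

theorem exists_witt_hom [IsAdicComplete (maximalIdeal S) S] :
    ∃ σ : WittVector p (ResidueField S) →+* S, ∀ w, residue S (σ w) = w.coeff 0 := by
  have hp : (p : S) ∈ maximalIdeal S := by
    rw [← residue_eq_zero_iff, map_natCast]
    exact CharP.cast_eq_zero _ _
  refine ⟨IsAdicComplete.StrictMono.liftRingHom (maximalIdeal S) Order.succ_strictMono
    (fun n => wittMod p hp n) (factorPowSucc_comp_wittMod p hp _), fun w => ?_⟩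
  have h1 := IsAdicComplete.StrictMono.mk_liftRingHom (maximalIdeal S) Order.succ_strictMono
    (fun n => wittMod p hp n) (factorPowSucc_comp_wittMod p hp _) (n := 0) w
  obtain ⟨x, rfl⟩ := WittVector.map_surjective (p := p) _ (residue_surjective (R := S)) w
  set y := IsAdicComplete.StrictMono.liftRingHom (maximalIdeal S) Order.succ_strictMono
    (fun n => wittMod p hp n) (factorPowSucc_comp_wittMod p hp _)
    (WittVector.map (residue S) x)
  have h2 : wittMod p hp 0 (WittVector.map (residue S) x) =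
      Ideal.Quotient.mk (maximalIdeal S ^ (0 + 1)) (x.coeff 0) := by
    have h3 : wittMod p hp 0 (WittVector.map (residue S) x) =
        ghostMod p hp 0 (WittVector.map (residue S) x) := by
      rw [wittMod, RingHom.comp_apply]
      congr 1
    rw [h3, ghostMod_map]
    congr 1
    rw [WittVector.ghostComponent_apply, aeval_wittPolynomial]
    simp
  have h4 : Ideal.Quotient.mk (maximalIdeal S ^ (0 + 1)) y =
      Ideal.Quotient.mk (maximalIdeal S ^ (0 + 1)) (x.coeff 0) := h1.trans h2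
  rw [Ideal.Quotient.mk_eq_mk_iff_sub_mem, zero_add, pow_one] at h4
  rw [WittVector.map_coeff, ← sub_eq_zero, ← map_sub, residue_eq_zero_iff]
  exact h4

end witt

end Vale.Agent.P177
end
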