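import Mathlib
import Vale.Agent.P177.Bd3.B1
import Vale.Agent.P177.Bd3.B2

set_option linter.all false

section

/-!
Systems of parameters and the height inequality for a pair of maps of regular local rings whose
maximal ideals generate the maximal ideal of the target.
-/

namespace Vale.Agent.P177

open IsLocalRing RingTheory.Sequence Function

universe u

/-- Parameters for a quotient of a noetherian local ring. -/
theorem exists_parameters {R : Type u} [CommRing R] [IsLocalRing R] [IsNoetherianRing R]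
    (P : Ideal R) (hP : P ≠ ⊤) (n : ℕ) (hn : Module.supportDim R (R ⧸ P) = (n : WithBot ℕ∞)) :
    ∃ xs : List R, xs.length = n ∧ (∀ x ∈ xs, x ∈ maximalIdeal R) ∧
      maximalIdeal R ≤ (P ⊔ Ideal.ofList xs).radical := by
  have hnt : Nontrivial (R ⧸ P) := Ideal.Quotient.nontrivial_iff.2 hP
  have hloc : IsLocalRing (R ⧸ P) :=
    .of_surjective' (Ideal.Quotient.mk P) Ideal.Quotient.mk_surjective
  obtain ⟨s, hs, hcard⟩ :=
    Ideal.exists_finset_card_eq_height_of_isNoetherianRing (maximalIdeal (R ⧸ P))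
  have hdim : ((maximalIdeal (R ⧸ P)).height : WithBot ℕ∞) = (n : WithBot ℕ∞) := by
    rw [IsLocalRing.maximalIdeal_height_eq_ringKrullDim, ← hn,
      Module.supportDim_quotient_eq_ringKrullDim]
  have hcard' : s.card = n := by
    have h1 : ((s.card : ℕ∞) : WithBot ℕ∞) = (n : WithBot ℕ∞) := by rw [hcard, hdim]
    exact_mod_cast h1
  have hrad : maximalIdeal (R ⧸ P) ≤ (Ideal.span (s : Set (R ⧸ P))).radical := by
    rw [Ideal.radical_eq_sInf]
    refine le_sInf ?_
    rintro q ⟨hq1, hq⟩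
    exact hs.2 ⟨hq, hq1⟩ (le_maximalIdeal hq.ne_top)
  refine ⟨s.toList.map (surjInv (Ideal.Quotient.mk_surjective (I := P))), by simpa using hcard',
    ?_, ?_⟩
  · intro x hx
    rw [List.mem_map] at hx
    obtain ⟨y, hy, rfl⟩ := hx
    have hy' : y ∈ maximalIdeal (R ⧸ P) := hs.1.2 (Ideal.subset_span (by simpa using hy))
    rw [mem_maximalIdeal, mem_nonunits_iff]
    intro hu
    rw [mem_maximalIdeal, mem_nonunits_iff] at hy'
    apply hy'
    rw [← surjInv_eq (Ideal.Quotient.mk_surjective (I := P)) y]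
    exact hu.map _
  intro x hx
  have h1 : Ideal.Quotient.mk P x ∈ maximalIdeal (R ⧸ P) := by
    have h2 : (maximalIdeal R).map (Ideal.Quotient.mk P) = maximalIdeal (R ⧸ P) :=
      map_maximalIdeal_of_surjective _ Ideal.Quotient.mk_surjective
    rw [← h2]
    exact Ideal.mem_map_of_mem _ hx
  obtain ⟨k, hk⟩ := hrad h1
  refine ⟨k, ?_⟩
  have h3 : Ideal.span (s : Set (R ⧸ P)) ≤ (Ideal.ofList (s.toList.map
      (surjInv (Ideal.Quotient.mk_surjective (I := P))))).map (Ideal.Quotient.mk P) := by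
    rw [Ideal.span_le]
    intro y hy
    rw [← surjInv_eq (Ideal.Quotient.mk_surjective (I := P)) y]
    apply Ideal.mem_map_of_mem
    apply Ideal.subset_span
    exact List.mem_map.2 ⟨y, by simpa using hy, rfl⟩
  have h4 := h3 hk
  rw [← map_pow, Ideal.mem_map_iff_of_surjective _ Ideal.Quotient.mk_surjective] at h4
  obtain ⟨y, hy, hxy⟩ := h4
  rw [eq_comm, Ideal.Quotient.mk_eq_mk_iff_sub_mem] at hxy
  have h5 := Ideal.add_mem _ (Ideal.mem_sup_left hxy) (Ideal.mem_sup_right hy)
  rwa [sub_add_cancel] at h5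

/-- Height inequality. -/
theorem height_le_of_sup {R T : Type u} [CommRing R] [CommRing T] [IsRegularLocalRing R]
    [IsRegularLocalRing T] (i₁ i₂ : R →+* T) {d t a : ℕ} (hd : ringKrullDim R = d)
    (ht : ringKrullDim T = t)
    (hsup : (maximalIdeal R).map i₁ ⊔ (maximalIdeal R).map i₂ = maximalIdeal T)
    (ha : 2 * d ≤ t + a) (Q : Ideal T) [hQ : Q.IsPrime] (r₁ r₂ q : ℕ)
    (h1 : (Q.comap i₁).height = r₁) (h2 : (Q.comap i₂).height = r₂) (hq : Q.height = q) :
    r₁ + r₂ ≤ q + a := by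
  obtain ⟨zs, -, -, hzl, hzh, hzd, -⟩ := exists_ci ht Q
  obtain ⟨ws, -, -, hwl, hwh, hwd, -⟩ := exists_ci hd (Q.comap i₁)
  obtain ⟨vs, -, -, hvl, hvh, hvd, -⟩ := exists_ci hd (Q.comap i₂)
  obtain ⟨xs, hxl, hxm, hx⟩ := exists_parameters (Q.comap i₁)
    (Ideal.comap_ne_top i₁ hQ.ne_top) _ hwd
  obtain ⟨ys, hyl, hym, hy⟩ := exists_parameters (Q.comap i₂)
    (Ideal.comap_ne_top i₂ hQ.ne_top) _ hvd
  have hcov : ∀ (i : R →+* T) (us : List R),
      maximalIdeal R ≤ (Q.comap i ⊔ Ideal.ofList us).radical →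
      (maximalIdeal R).map i ≤ (Q ⊔ Ideal.ofList (us.map i)).radical := by
    intro i us hus
    refine (Ideal.map_mono hus).trans ((Ideal.map_radical_le _).trans (Ideal.radical_mono ?_))
    rw [Ideal.map_sup]
    refine sup_le_sup Ideal.map_comap_le ?_
    rw [Ideal.map_ofList]
  have hFL : FL (xs.map i₁ ++ ys.map i₂) (T ⧸ Q) := by
    unfold FL
    rw [Ideal.annihilator_quotient]
    refine hsup.ge.trans (sup_le ((hcov i₁ xs hx).trans (Ideal.radical_mono ?_))
      ((hcov i₂ ys hy).trans (Ideal.radical_mono ?_)))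
    · rw [Ideal.ofList_append]
      exact sup_le_sup le_rfl le_sup_left
    · rw [Ideal.ofList_append]
      exact sup_le_sup le_rfl le_sup_right
  have hmem : ∀ z ∈ xs.map i₁ ++ ys.map i₂, z ∈ maximalIdeal T := by
    intro z hz
    rw [List.mem_append, List.mem_map, List.mem_map] at hz
    rw [← hsup]
    rcases hz with ⟨x, hx, rfl⟩ | ⟨y, hy, rfl⟩
    · exact Ideal.mem_sup_left (Ideal.mem_map_of_mem _ (hxm x hx))
    · exact Ideal.mem_sup_right (Ideal.mem_map_of_mem _ (hym y hy))
  have hle := supportDim_le_length _ hmem _ hFL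
  rw [hzd, List.length_append, List.length_map, List.length_map, hxl, hyl] at hle
  have hle' : t - zs.length ≤ (d - ws.length) + (d - vs.length) := by exact_mod_cast hle
  rw [h1] at hwh
  rw [h2] at hvh
  rw [hq] at hzh
  have e1 : r₁ = ws.length := by exact_mod_cast hwh
  have e2 : r₂ = vs.length := by exact_mod_cast hvh
  have e3 : q = zs.length := by exact_mod_cast hzh
  omega

end Vale.Agent.P177
end

section

/-! Flatness of the inclusions of power series rings. -/

namespace Vale.Agent.P177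

/-- Power series over a Noetherian ring are flat. -/
theorem mvPowerSeries_flat (ι T : Type*) [Finite ι] [CommRing T] [IsNoetherianRing T] :
    Module.Flat T (MvPowerSeries ι T) := by
  have h1 : Module.Flat T (MvPolynomial ι T) := inferInstance
  have h2 : Module.Flat (MvPolynomial ι T) (MvPowerSeries ι T) :=
    Module.Flat.of_linearEquiv (MvPowerSeries.toAdicCompletionAlgEquiv ι T).toLinearEquiv
  have : IsScalarTower T (MvPolynomial ι T) (MvPowerSeries ι T) := inferInstance
  exact Module.Flat.trans T (MvPolynomial ι T) (MvPowerSeries ι T)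

theorem optionEquivLeft_rename_some {σ k : Type*} [Finite σ] [CommRing k]
    (p : MvPowerSeries σ k) :
    MvPowerSeries.optionEquivLeft σ k (MvPowerSeries.rename (some : σ → Option σ) p) =
      PowerSeries.C p := by
  ext n x
  rw [MvPowerSeries.coeff_coeff_optionEquivLeft, PowerSeries.coeff_C]
  split_ifs with hn
  · subst hn
    have h1 : x.optionElim 0 = Finsupp.embDomain Function.Embedding.some x := by
      rw [Finsupp.embDomain_eq_mapDomain]
      ext a
      cases a with
      | none =>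
        rw [Finsupp.mapDomain_of_notMem_range _ _ (by simp)]
        simp
      | some a =>
        rw [Finsupp.optionElim_apply_some]
        exact (Finsupp.mapDomain_apply (Option.some_injective σ) x a).symm
    rw [h1]
    exact MvPowerSeries.coeff_embDomain_rename Function.Embedding.some p x
  · rw [map_zero]
    apply MvPowerSeries.coeff_rename_eq_zero
    rintro ⟨y, hy⟩
    apply hn
    have h2 : Finsupp.mapDomain some y none = (x.optionElim n) none := by rw [hy]
    rw [Finsupp.mapDomain_of_notMem_range _ _ (by simp)] at h2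
    simpa using h2.symm

theorem flat_rename_some (σ k : Type*) [Finite σ] [CommRing k] [IsNoetherianRing k] :
    (MvPowerSeries.rename (R := k) (some : σ → Option σ)).toRingHom.Flat := by
  have h1 : (PowerSeries.C (R := MvPowerSeries σ k)).Flat := by
    have := mvPowerSeries_flat Unit (MvPowerSeries σ k)
    rw [← PowerSeries.algebraMap_eq, RingHom.flat_algebraMap_iff]
    exact this
  have h2 : (MvPowerSeries.rename (R := k) (some : σ → Option σ)).toRingHom =
      ((MvPowerSeries.optionEquivLeft σ k).symm.toRingEquiv.toRingHom).comp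
        (PowerSeries.C (R := MvPowerSeries σ k)) := by
    ext1 p
    apply (MvPowerSeries.optionEquivLeft σ k).injective
    exact (optionEquivLeft_rename_some p).trans
      ((MvPowerSeries.optionEquivLeft σ k).apply_symm_apply _).symm
  rw [h2]
  exact RingHom.Flat.comp h1 (RingHom.Flat.of_bijective
    (MvPowerSeries.optionEquivLeft σ k).symm.bijective)

theorem flat_rename_of_bijective {σ τ k : Type*} [Finite σ] [Finite τ] [CommRing k] (e : σ ≃ τ) :
    (MvPowerSeries.rename (R := k) e).toRingHom.Flat :=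
  RingHom.Flat.of_bijective (MvPowerSeries.renameEquiv k e).bijective

universe u v

theorem flat_rename_aux (k : Type*) [CommRing k] [IsNoetherianRing k] (σ : Type u) [Finite σ]
    (n : ℕ) : ∀ (τ : Type v) [Finite τ] (e : σ ↪ τ), Nat.card τ = Nat.card σ + n →
      (MvPowerSeries.rename (R := k) e).toRingHom.Flat := by
  induction n with
  | zero =>
    intro τ _ e h
    have hb : Function.Bijective e :=
      Function.Injective.bijective_of_nat_card_le e.injective (by omega)
    exact flat_rename_of_bijective (Equiv.ofBijective e hb)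
  | succ n ih =>
    intro τ _ e h
    classical
    obtain ⟨t, ht⟩ : ∃ t, t ∉ Set.range e := by
      by_contra hcon
      push Not at hcon
      have := Nat.card_congr (Equiv.ofBijective e ⟨e.injective, hcon⟩)
      omega
    let e' : σ ↪ {x : τ // x ≠ t} := ⟨fun s => ⟨e s, fun h => ht ⟨s, h⟩⟩, fun a b hab => by
      exact e.injective (congrArg Subtype.val hab)⟩
    have hcard : Nat.card {x : τ // x ≠ t} = Nat.card σ + n := by
      have h5 := Nat.card_congr (Equiv.optionSubtypeNe t)
      rw [Finite.card_option] at h5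
      omega
    have h1 := ih _ e' hcard
    have h2 := flat_rename_some {x : τ // x ≠ t} k
    have h3 := flat_rename_of_bijective (k := k) (Equiv.optionSubtypeNe t)
    have h4 : (MvPowerSeries.rename (R := k) e).toRingHom =
      ((MvPowerSeries.rename (R := k) (Equiv.optionSubtypeNe t)).toRingHom.comp
        (MvPowerSeries.rename (R := k)
          (some : {x : τ // x ≠ t} → Option {x : τ // x ≠ t})).toRingHom).comp
        (MvPowerSeries.rename (R := k) e').toRingHom := by
      ext1 p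
      change MvPowerSeries.rename e p = MvPowerSeries.rename (Equiv.optionSubtypeNe t)
        (MvPowerSeries.rename some (MvPowerSeries.rename e' p))
      rw [MvPowerSeries.rename_rename, MvPowerSeries.rename_rename]
      rfl
    rw [h4]
    exact h1.comp (h2.comp h3)

theorem flat_rename {σ τ k : Type*} [Finite σ] [Finite τ] [CommRing k] [IsNoetherianRing k]
    (e : σ ↪ τ) : (MvPowerSeries.rename (R := k) e).toRingHom.Flat := by
  obtain ⟨n, hn⟩ := Nat.exists_eq_add_of_le (Nat.card_le_card_of_injective e e.injective)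
  exact flat_rename_aux k σ n τ e hn

end Vale.Agent.P177
end

section

/-! Reduction to the diagonal for power series rings over a field. -/

namespace Vale.Agent.P177

open IsLocalRing RingTheory.Sequence

/-- Kernel of a retraction of local rings. -/
theorem ker_le_of_retraction {S B : Type*} [CommRing S] [IsLocalRing S]
    [IsAdicComplete (maximalIdeal S) S] [CommRing B] [IsLocalRing B] [IsNoetherianRing B]
    (i : S →+* B) (π : B →+* S) (hπ : π.comp i = RingHom.id S) (J : Ideal B)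
    (hJ : J ≤ RingHom.ker π) (hm : (maximalIdeal S).map i ⊔ J = maximalIdeal B)
    (hres : ∀ b : B, ∃ s : S, b - i s ∈ maximalIdeal B) : RingHom.ker π = J := by
  apply le_antisymm _ hJ
  have hJm : J ≤ maximalIdeal B := hm ▸ le_sup_right
  have hnt : Nontrivial (B ⧸ J) :=
    Ideal.Quotient.nontrivial_iff.mpr (fun h => (maximalIdeal.isMaximal B).ne_top
      (top_le_iff.mp (h ▸ hJm)))
  have hloc : IsLocalRing (B ⧸ J) :=
    IsLocalRing.of_surjective' (Ideal.Quotient.mk J) Ideal.Quotient.mk_surjective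
  let f : S →+* B ⧸ J := (Ideal.Quotient.mk J).comp i
  have hmap : (maximalIdeal S).map f = (maximalIdeal B).map (Ideal.Quotient.mk J) := by
    rw [← Ideal.map_map, ← hm, Ideal.map_sup, Ideal.map_quotient_self, sup_bot_eq]
  have hle : (maximalIdeal B).map (Ideal.Quotient.mk J) ≤ maximalIdeal (B ⧸ J) := by
    rw [Ideal.map_le_iff_le_comap]
    intro b hb hu
    obtain ⟨u, hu⟩ := hu
    obtain ⟨c, hc⟩ := Ideal.Quotient.mk_surjective (u⁻¹ : (B ⧸ J)ˣ).val
    have h1 : b * c - 1 ∈ J := by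
      rw [← Ideal.Quotient.mk_eq_mk_iff_sub_mem, map_mul, hc, ← hu, Units.mul_inv, map_one]
    have h2 : (1 : B) ∈ maximalIdeal B := by
      have h3 := Ideal.sub_mem _ (Ideal.mul_mem_right c _ hb) (hJm h1)
      rwa [sub_sub_cancel] at h3
    exact (maximalIdeal.isMaximal B).ne_top (Ideal.eq_top_of_isUnit_mem _ h2 isUnit_one)
  have hH : IsHausdorff ((maximalIdeal S).map f) (B ⧸ J) := by
    rw [hmap]
    refine IsHausdorff.of_isLocalRing _ _ (fun h => ?_)
    rw [h] at hle
    exact (maximalIdeal.isMaximal (B ⧸ J)).ne_top (top_le_iff.mp hle)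
  have hsurj : Function.Surjective f := by
    apply surjective_of_mk_map_comp_surjective (I := maximalIdeal S) f
    intro y
    obtain ⟨y, rfl⟩ := Ideal.Quotient.mk_surjective y
    obtain ⟨b, rfl⟩ := Ideal.Quotient.mk_surjective y
    obtain ⟨s, hs⟩ := hres b
    refine ⟨s, ?_⟩
    rw [RingHom.comp_apply, Ideal.Quotient.mk_eq_mk_iff_sub_mem, hmap, ← neg_mem_iff, neg_sub]
    exact Ideal.mem_map_of_mem _ hs
  intro b hb
  obtain ⟨s, hs⟩ := hsurj (Ideal.Quotient.mk J b)
  have h1 : i s - b ∈ J := by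
    rw [← Ideal.Quotient.mk_eq_mk_iff_sub_mem]
    exact hs
  have h2 : π (i s - b) = 0 := hJ h1
  have h3 : π (i s) = s := RingHom.congr_fun hπ s
  rw [map_sub, h3, RingHom.mem_ker.mp hb, sub_zero] at h2
  rw [h2, map_zero, zero_sub, neg_mem_iff] at h1
  exact h1

section

variable (k : Type*) [Field k] (d : ℕ)

/-- The diagonal elements. -/
noncomputable def diagList : List (MvPowerSeries (Fin d ⊕ Fin d) k) :=
  List.ofFn (fun j : Fin d => MvPowerSeries.X (Sum.inl j) - MvPowerSeries.X (Sum.inr j))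

theorem ofList_diagList : Ideal.ofList (diagList k d) =
    Ideal.span (Set.range (fun j : Fin d =>
      (MvPowerSeries.X (Sum.inl j) - MvPowerSeries.X (Sum.inr j) :
        MvPowerSeries (Fin d ⊕ Fin d) k))) := by
  rw [Ideal.ofList, diagList]
  congr 1
  ext x
  simp [List.mem_ofFn]

theorem map_maximalIdeal_rename (e : Fin d ↪ Fin d ⊕ Fin d)
    [IsLocalRing (MvPowerSeries (Fin d) k)] :
    (maximalIdeal (MvPowerSeries (Fin d) k)).map (MvPowerSeries.rename (R := k) e).toRingHom =
      Ideal.span (Set.range (fun j : Fin d => MvPowerSeries.X (e j))) := by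
  rw [mvPowerSeries_maximalIdeal, Ideal.map_span, ← Set.range_comp]
  congr 2
  ext1 j
  exact MvPowerSeries.rename_X e j

theorem sub_C_mem (σ : Type*) [Finite σ] [IsLocalRing (MvPowerSeries σ k)]
    (b : MvPowerSeries σ k) :
    b - MvPowerSeries.C (MvPowerSeries.constantCoeff b) ∈ maximalIdeal (MvPowerSeries σ k) := by
  rw [mvPowerSeries_maximalIdeal]
  apply mem_span_X_of_constantCoeff_eq_zero
  simp

theorem maximalIdeal_eq_sup :
    (maximalIdeal (MvPowerSeries (Fin d ⊕ Fin d) k)) =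
      Ideal.span (Set.range (fun j : Fin d => MvPowerSeries.X (Sum.inl j))) ⊔
      Ideal.span (Set.range (fun j : Fin d => MvPowerSeries.X (Sum.inr j))) := by
  rw [mvPowerSeries_maximalIdeal, ← Ideal.span_union]
  congr 1
  ext x
  simp

theorem maximalIdeal_eq_sup' :
    (maximalIdeal (MvPowerSeries (Fin d ⊕ Fin d) k)) =
      Ideal.span (Set.range (fun j : Fin d => MvPowerSeries.X (Sum.inl j))) ⊔
      Ideal.ofList (diagList k d) := by
  rw [maximalIdeal_eq_sup, ofList_diagList]
  apply le_antisymm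
  · refine sup_le le_sup_left ?_
    rw [Ideal.span_le]
    rintro _ ⟨j, rfl⟩
    have h1 : (MvPowerSeries.X (Sum.inl j) : MvPowerSeries (Fin d ⊕ Fin d) k) ∈
        Ideal.span (Set.range (fun j : Fin d =>
          (MvPowerSeries.X (Sum.inl j) : MvPowerSeries (Fin d ⊕ Fin d) k))) :=
      Ideal.subset_span ⟨j, rfl⟩
    have h2 : (MvPowerSeries.X (Sum.inl j) - MvPowerSeries.X (Sum.inr j) :
        MvPowerSeries (Fin d ⊕ Fin d) k) ∈ Ideal.span (Set.range (fun j : Fin d =>
          (MvPowerSeries.X (Sum.inl j) - MvPowerSeries.X (Sum.inr j) :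
          MvPowerSeries (Fin d ⊕ Fin d) k))) :=
      Ideal.subset_span ⟨j, rfl⟩
    have h3 := Ideal.sub_mem _ (Ideal.mem_sup_left h1) (Ideal.mem_sup_right h2)
    rwa [sub_sub_cancel] at h3
  · refine sup_le le_sup_left ?_
    rw [Ideal.span_le]
    rintro _ ⟨j, rfl⟩
    exact Ideal.sub_mem _ (Ideal.mem_sup_left (Ideal.subset_span ⟨j, rfl⟩))
      (Ideal.mem_sup_right (Ideal.subset_span ⟨j, rfl⟩))

theorem isAdicComplete_mvPowerSeries (σ : Type*) [Finite σ] [IsLocalRing (MvPowerSeries σ k)] :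
    IsAdicComplete (maximalIdeal (MvPowerSeries σ k)) (MvPowerSeries σ k) := by
  rw [mvPowerSeries_maximalIdeal]
  infer_instance

theorem isRegular_diagList : IsRegular (MvPowerSeries (Fin d ⊕ Fin d) k) (diagList k d) := by
  have hreg := mvPowerSeries_isRegularLocalRing (Fin d ⊕ Fin d) k
  have h1 := isRegular_of_ofList_eq_maximalIdeal (MvPowerSeries (Fin d ⊕ Fin d) k)
    (diagList k d ++ List.ofFn (fun j : Fin d => MvPowerSeries.X (Sum.inl j))) (by
      rw [Ideal.ofList_append, maximalIdeal_eq_sup', sup_comm]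
      congr 1
      rw [Ideal.ofList]
      congr 1
      ext x
      simp [List.mem_ofFn]) (by
      rw [mvPowerSeries_ringKrullDim]
      simp [diagList])
  have h2 := (isWeaklyRegular_append_iff _ _ _).mp h1.toIsWeaklyRegular
  refine ⟨h2.1, fun htop => ?_⟩
  apply h1.top_ne_smul
  refine le_antisymm (htop.le.trans (Submodule.smul_mono_left ?_)) le_top
  rw [Ideal.ofList_append]
  exact le_sup_left

end

universe u

theorem exists_diagData (k : Type u) [Field k] (d : ℕ) [IsLocalRing (MvPowerSeries (Fin d) k)] :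
    Nonempty (DiagData (MvPowerSeries (Fin d) k) (MvPowerSeries (Fin d ⊕ Fin d) k) d) := by
  have hS := isAdicComplete_mvPowerSeries k (Fin d)
  have hres : ∀ b : MvPowerSeries (Fin d ⊕ Fin d) k, ∃ s : MvPowerSeries (Fin d) k,
      b - (MvPowerSeries.rename (R := k) Function.Embedding.inl).toRingHom s ∈
        maximalIdeal (MvPowerSeries (Fin d ⊕ Fin d) k) := by
    intro b
    refine ⟨MvPowerSeries.C (MvPowerSeries.constantCoeff b), ?_⟩
    have h1 : (MvPowerSeries.rename (R := k)
        (Function.Embedding.inl : Fin d ↪ Fin d ⊕ Fin d)).toRingHom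
        (MvPowerSeries.C (MvPowerSeries.constantCoeff b)) =
        MvPowerSeries.C (MvPowerSeries.constantCoeff b) := MvPowerSeries.rename_C _ _
    rw [h1]
    exact sub_C_mem k _ b
  refine ⟨{
    i₁ := (MvPowerSeries.rename (R := k) Function.Embedding.inl).toRingHom
    i₂ := (MvPowerSeries.rename (R := k) Function.Embedding.inr).toRingHom
    flat₁ := flat_rename _
    flat₂ := flat_rename _
    μ := (MvPowerSeries.rename (R := k) (Sum.elim id id)).toRingHom
    μ_i₁ := ?_
    μ_i₂ := ?_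
    ρ := (MvPowerSeries.killCompl (R := k) Function.Embedding.inl).toRingHom
    ρ_i₁ := ?_
    ker_ρ := ?_
    δ := diagList k d
    length_δ := by simp [diagList]
    ker_μ := ?_
    regular_δ := isRegular_diagList k d }⟩
  · ext1 p
    change MvPowerSeries.rename (Sum.elim id id) (MvPowerSeries.rename
      (Function.Embedding.inl : Fin d ↪ Fin d ⊕ Fin d) p) = p
    rw [MvPowerSeries.rename_rename]
    exact MvPowerSeries.rename_id_apply p
  · ext1 p
    change MvPowerSeries.rename (Sum.elim id id) (MvPowerSeries.rename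
      (Function.Embedding.inr : Fin d ↪ Fin d ⊕ Fin d) p) = p
    rw [MvPowerSeries.rename_rename]
    exact MvPowerSeries.rename_id_apply p
  · ext1 p
    exact MvPowerSeries.killCompl_rename_app p
  · apply ker_le_of_retraction
      (i := (MvPowerSeries.rename (R := k) Function.Embedding.inl).toRingHom)
      (hres := hres)
    · ext1 p
      exact MvPowerSeries.killCompl_rename_app p
    · rw [map_maximalIdeal_rename, Ideal.span_le]
      rintro _ ⟨j, rfl⟩
      exact MvPowerSeries.killCompl_X_eq_zero (by simp)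
    · rw [map_maximalIdeal_rename, map_maximalIdeal_rename, maximalIdeal_eq_sup]
      rfl
  · apply ker_le_of_retraction
      (i := (MvPowerSeries.rename (R := k) Function.Embedding.inl).toRingHom)
      (hres := hres)
    · ext1 p
      change MvPowerSeries.rename (Sum.elim id id) (MvPowerSeries.rename
        (Function.Embedding.inl : Fin d ↪ Fin d ⊕ Fin d) p) = p
      rw [MvPowerSeries.rename_rename]
      exact MvPowerSeries.rename_id_apply p
    · rw [ofList_diagList, Ideal.span_le]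
      rintro _ ⟨j, rfl⟩
      change MvPowerSeries.rename (Sum.elim id id) _ = 0
      rw [map_sub, MvPowerSeries.rename_X, MvPowerSeries.rename_X]
      simp
    · rw [map_maximalIdeal_rename, maximalIdeal_eq_sup']
      rfl

end Vale.Agent.P177
end

section

/-!
Serre positivity over power series rings over a field.
-/

namespace Vale.Agent.P177

open CategoryTheory TensorProduct Function IsLocalRing RingTheory.Sequence Pointwise

universe u

theorem serre_abstract {S₁ S₂ B : Type u} [CommRing S₁] [CommRing S₂] [CommRing B]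
    [IsLocalRing S₁] [IsNoetherianRing S₁] [IsLocalRing S₂] [IsNoetherianRing S₂]
    [IsLocalRing B] [IsNoetherianRing B]
    (i₁ : S₁ →+* B) (i₂ : S₂ →+* B) (h₁ : i₁.Flat) (h₂ : i₂.Flat) [hl₁ : IsLocalHom i₁]
    [hl₂ : IsLocalHom i₂]
    (ρ : B →+* S₁) (hρ : ρ.comp i₁ = RingHom.id S₁)
    (hkerρ : RingHom.ker ρ = (maximalIdeal S₂).map i₂)
    (μ : B →+* S₁) (hμ : μ.comp i₁ = RingHom.id S₁) (δ : List B)
    (hkerμ : RingHom.ker μ = Ideal.ofList δ) (hδreg : IsWeaklyRegular B δ)
    (hδm : ∀ z ∈ δ, z ∈ maximalIdeal B)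
    (θ : S₂ ≃+* S₁) (hθ : ∀ s, μ (i₂ s) = θ s)
    (M N : Type u) [AddCommGroup M] [Module S₂ M] [Module.Finite S₂ M]
    [AddCommGroup N] [Module S₁ N] [Module S₂ N] [Module.Finite S₁ N]
    (hN : ∀ (s : S₂) (t : N), s • t = θ s • t)
    (hlen : Module.length S₂ (M ⊗[S₂] N) ≠ ⊤) (n : ℕ) (hn : 1 + δ.length ≤ n) :
    0 ≤ eulerTor S₂ n M N ∧ ∀ a b : ℕ, (a : WithBot ℕ∞) ≤ Module.supportDim S₂ M →
      (b : WithBot ℕ∞) ≤ Module.supportDim S₁ N →
      (a + b ≤ δ.length) ∧ (δ.length ≤ a + b → 0 < eulerTor S₂ n M N) := by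
  let _ : Algebra S₁ B := i₁.toAlgebra
  let _ : Algebra S₂ B := i₂.toAlgebra
  have a₁ : ∀ s, algebraMap S₁ B s = i₁ s := fun s => rfl
  have a₂ : ∀ s, algebraMap S₂ B s = i₂ s := fun s => rfl
  have : Module.Flat S₁ B := h₁
  have : Module.Flat S₂ B := h₂
  have : IsLocalHom (algebraMap S₁ B) := hl₁
  have : IsLocalHom (algebraMap S₂ B) := hl₂
  have hμi : ∀ s, μ (i₁ s) = s := fun s => congrArg (fun f => f s) hμ
  have hρi : ∀ s, ρ (i₁ s) = s := fun s => congrArg (fun f => f s) hρ
  have hμs : Surjective μ := fun s => ⟨i₁ s, hμi s⟩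
  have hρs : Surjective ρ := fun s => ⟨i₁ s, hρi s⟩
  -- Tor independence
  have hv : ∀ (N : Type u) [AddCommGroup N] [Module S₁ N] [Module.Finite S₁ N]
      (M : Type u) [AddCommGroup M] [Module S₂ M] [Module.Finite S₂ M] (j : ℕ), 1 ≤ j →
      Subsingleton (TorM B j (B ⊗[S₂] M) (B ⊗[S₁] N)) := by
    let _ : Module B S₁ := Module.compHom S₁ ρ
    have hsm : ∀ (b : B) (t : S₁), b • t = ρ b * t := fun b t => rfl
    have : IsScalarTower S₁ B S₁ := ⟨fun s b t => by
      rw [hsm, hsm, Algebra.smul_def, map_mul, a₁, hρi, smul_eq_mul, mul_assoc]⟩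
    let ρl : B →ₗ[B] S₁ :=
      { toFun := ρ
        map_add' := map_add ρ
        map_smul' := fun b c => by
          rw [smul_eq_mul, map_mul, RingHom.id_apply, hsm] }
    have hker : LinearMap.ker ρl = (maximalIdeal S₂).map (algebraMap S₂ B) := by
      ext b
      have h1 : b ∈ RingHom.ker ρ ↔ b ∈ (maximalIdeal S₂).map i₂ := by rw [hkerρ]
      exact h1
    have e : (B ⊗[S₂] (S₂ ⧸ maximalIdeal S₂)) ≃ₗ[B] S₁ :=
      (Algebra.TensorProduct.quotIdealMapEquivTensorQuot B (maximalIdeal S₂)).symm.toLinearEquiv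
        ≪≫ₗ Submodule.quotEquivOfEq _ _ hker.symm ≪≫ₗ ρl.quotKerEquivOfSurjective hρs
    intro N _ _ _ M _ _ _ j hj
    exact tor_independent S₁ e N M j hj
  -- the module `N` over `B`
  let _ : Module B N := Module.compHom N μ
  have hsN : ∀ (b : B) (t : N), b • t = μ b • t := fun b t => rfl
  have : IsScalarTower S₁ B N := ⟨fun s b t => by
    rw [hsN, hsN, Algebra.smul_def, map_mul, a₁, hμi, mul_smul]⟩
  have : IsScalarTower S₂ B N := ⟨fun s b t => by
    rw [hsN, hsN, Algebra.smul_def, map_mul, a₂, hθ, mul_smul, hN]⟩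
  have hres : ∀ b : B, ∃ s : S₁, b - algebraMap S₁ B s ∈ Ideal.ofList δ := by
    intro b
    refine ⟨μ b, ?_⟩
    rw [← hkerμ, RingHom.mem_ker, map_sub, a₁, hμi, sub_self]
  have hkill : ∀ z ∈ Ideal.ofList δ, ∀ t : N, z • t = 0 := by
    intro z hz t
    rw [← hkerμ, RingHom.mem_ker] at hz
    rw [hsN, hz, zero_smul]
  have hN2 : ∀ b : B, ∃ s : S₂, ∀ t : N, b • t = s • t := by
    intro b
    refine ⟨θ.symm (μ b), fun t => ?_⟩
    rw [hN, RingEquiv.apply_symm_apply, hsN]
  obtain ⟨heq, hFL⟩ : eulerTor S₂ n M N = eul δ (TorM B 0 (B ⊗[S₁] N) (B ⊗[S₂] M)) ∧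
      FL2 δ (B ⊗[S₁] N) (B ⊗[S₂] M) := by
    let _ : Module B S₁ := Module.compHom S₁ μ
    have hsm : ∀ (b : B) (t : S₁), b • t = μ b * t := fun b t => rfl
    have : IsScalarTower S₁ B S₁ := ⟨fun s b t => by
      rw [hsm, hsm, Algebra.smul_def, map_mul, a₁, hμi, smul_eq_mul, mul_assoc]⟩
    let μl : B →ₗ[B] S₁ :=
      { toFun := μ
        map_add' := map_add μ
        map_smul' := fun b c => by
          rw [smul_eq_mul, map_mul, RingHom.id_apply, hsm] }
    have hker : LinearMap.ker μl = (Ideal.ofList δ • ⊤ : Submodule B B) := by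
      rw [smul_eq_mul, Ideal.mul_top, ← hkerμ]
      rfl
    have e : (B ⧸ (Ideal.ofList δ • ⊤ : Submodule B B)) ≃ₗ[B] S₁ :=
      Submodule.quotEquivOfEq _ _ hker.symm ≪≫ₗ μl.quotKerEquivOfSurjective hμs
    exact eulerTor_eq_eul δ hδm hδreg hres S₁ e N hkill hN2 M (hv N M) hlen n hn
  have hfin := tor_finite (R := B) 0 (B ⊗[S₁] N) (B ⊗[S₂] M)
  have hpos := eul_nonneg_pos δ hδm (TorM B 0 (B ⊗[S₁] N) (B ⊗[S₂] M)) (hFL.tor 0)
  rw [heq]
  refine ⟨hpos.1, ?_⟩
  intro a b ha hb
  have h5 := le_supportDim_external (S₁ := S₁) (S₂ := S₂) (B := B)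
    (fun N _ _ _ M _ _ _ => hv N M 1 le_rfl) N M a b ha hb
  obtain ⟨e⟩ := tor_symm (R := B) 0 (B ⊗[S₂] M) (B ⊗[S₁] N)
  rw [Module.supportDim_eq_of_equiv e] at h5
  constructor
  · have h6 := h5.trans (supportDim_le_length δ hδm _ (hFL.tor 0))
    exact_mod_cast h6
  · intro hab
    apply hpos.2
    refine le_trans ?_ h5
    exact_mod_cast hab

/-- Serre's theorem over a ring with diagonal data. -/
theorem serre_of_diagData {S B : Type u} [CommRing S] [IsLocalRing S] [IsNoetherianRing S]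
    [CommRing B] [IsLocalRing B] [IsNoetherianRing B] {d : ℕ} (D : DiagData S B d)
    (M N : Type u) [AddCommGroup M] [Module S M] [Module.Finite S M]
    [AddCommGroup N] [Module S N] [Module.Finite S N]
    (hlen : Module.length S (M ⊗[S] N) ≠ ⊤) (n : ℕ) (hn : 1 + d ≤ n) :
    0 ≤ eulerTor S n M N ∧ ∀ a b : ℕ, (a : WithBot ℕ∞) ≤ Module.supportDim S M →
      (b : WithBot ℕ∞) ≤ Module.supportDim S N →
      (a + b ≤ d) ∧ (d ≤ a + b → 0 < eulerTor S n M N) := by
  have hμ1 : ∀ s, D.μ (D.i₁ s) = s := fun s => congrArg (fun f => f s) D.μ_i₁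
  have hμ2 : ∀ s, D.μ (D.i₂ s) = s := fun s => congrArg (fun f => f s) D.μ_i₂
  have hμs : Surjective D.μ := fun s => ⟨D.i₁ s, hμ1 s⟩
  have hμloc : IsLocalHom D.μ := by
    have := IsLocalHom.of_surjective D.μ hμs
    exact this
  have hl₁ : IsLocalHom D.i₁ := ⟨fun s hs => by
    have := hs.map D.μ
    rwa [hμ1] at this⟩
  have hl₂ : IsLocalHom D.i₂ := ⟨fun s hs => by
    have := hs.map D.μ
    rwa [hμ2] at this⟩
  have hδm : ∀ z ∈ D.δ, z ∈ maximalIdeal B := by
    intro z hz
    have h1 : z ∈ RingHom.ker D.μ := by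
      rw [D.ker_μ]
      exact Ideal.subset_span hz
    rw [mem_maximalIdeal, mem_nonunits_iff]
    intro hu
    have h2 := hu.map D.μ
    rw [(RingHom.mem_ker).1 h1] at h2
    exact not_isUnit_zero h2
  have h := serre_abstract D.i₁ D.i₂ D.flat₁ D.flat₂ D.ρ D.ρ_i₁ D.ker_ρ D.μ D.μ_i₁ D.δ D.ker_μ
    D.regular_δ.toIsWeaklyRegular hδm (RingEquiv.refl S) hμ2 M N (fun s t => rfl) hlen n
    (by rw [D.length_δ]; exact hn)
  rw [D.length_δ] at h
  exact h

/-- Serre's theorem over `k[[x_1, …, x_d]]`. -/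
theorem serre_mvPowerSeries (k : Type u) [Field k] (d : ℕ)
    (M N : Type u) [AddCommGroup M] [Module (MvPowerSeries (Fin d) k) M]
    [Module.Finite (MvPowerSeries (Fin d) k) M]
    [AddCommGroup N] [Module (MvPowerSeries (Fin d) k) N]
    [Module.Finite (MvPowerSeries (Fin d) k) N]
    (hlen : Module.length (MvPowerSeries (Fin d) k) (M ⊗[MvPowerSeries (Fin d) k] N) ≠ ⊤)
    (n : ℕ) (hn : 1 + d ≤ n) :
    0 ≤ eulerTor (MvPowerSeries (Fin d) k) n M N ∧
      ∀ a b : ℕ, (a : WithBot ℕ∞) ≤ Module.supportDim (MvPowerSeries (Fin d) k) M →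
      (b : WithBot ℕ∞) ≤ Module.supportDim (MvPowerSeries (Fin d) k) N →
      (a + b ≤ d) ∧ (d ≤ a + b → 0 < eulerTor (MvPowerSeries (Fin d) k) n M N) := by
  have h1 : IsRegularLocalRing (MvPowerSeries (Fin d) k) := mvPowerSeries_isRegularLocalRing _ _
  have h2 : IsRegularLocalRing (MvPowerSeries (Fin d ⊕ Fin d) k) :=
    mvPowerSeries_isRegularLocalRing _ _
  obtain ⟨D⟩ := exists_diagData k d
  exact serre_of_diagData D M N hlen n hn

end Vale.Agent.P177
end

section

/-!
Localizing a flat map `R → T` at a prime `Q` of `T`.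
-/

namespace Vale.Agent.P177

open CategoryTheory TensorProduct Function IsLocalRing RingTheory.Sequence Pointwise

universe u

section loc

variable (R T : Type u) [CommRing R] [CommRing T] [Algebra R T] [Module.Flat R T]
  [IsRegularLocalRing R]

/-- Localization data at a prime. -/
structure LocData (Q : Ideal T) [Q.IsPrime] (L : Type u) [CommRing L] [Algebra R L]
    [Algebra L (Localization.AtPrime Q)] : Prop where
  reg : IsRegularLocalRing L
  flat : Module.Flat L (Localization.AtPrime Q)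
  loc : IsLocalHom (algebraMap L (Localization.AtPrime Q))
  dim : ringKrullDim L = (Q.comap (algebraMap R T)).height
  isloc : IsLocalization (Q.comap (algebraMap R T)).primeCompl L
  tower : IsScalarTower R L (Localization.AtPrime Q)

theorem exists_locData (Q : Ideal T) [Q.IsPrime] :
    ∃ (L : Type u) (_ : CommRing L) (_ : Algebra R L)
      (_ : Algebra L (Localization.AtPrime Q)), LocData R T Q L := by
  let P := Q.under R
  let _ := Localization.AtPrime.algebraOfLiesOver P Q
  have hloc : IsLocalHom (algebraMap (Localization.AtPrime P) (Localization.AtPrime Q)) := by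
    rw [RingHom.algebraMap_toAlgebra]
    exact Localization.isLocalHom_localRingHom P Q (algebraMap R T) Ideal.LiesOver.over
  refine ⟨Localization.AtPrime P, inferInstance, inferInstance, inferInstance, ?_⟩
  exact
    { reg := isRegularLocalRing_localization R P (Localization.AtPrime P)
      flat := inferInstance
      loc := hloc
      dim := IsLocalization.AtPrime.ringKrullDim_eq_height P (Localization.AtPrime P)
      isloc := inferInstanceAs (IsLocalization P.primeCompl (Localization.AtPrime P))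
      tower := inferInstance }

end loc

section cancel

variable {R T : Type u} [CommRing R] [CommRing T] [Algebra R T]

theorem exists_cancel_loc (Q : Ideal T) [Q.IsPrime] (L : Type u) [CommRing L] [Algebra R L]
    [Algebra L (Localization.AtPrime Q)] [IsScalarTower R L (Localization.AtPrime Q)]
    (M : Type u) [AddCommGroup M] [Module R M] :
    Nonempty ((Localization.AtPrime Q ⊗[L] (L ⊗[R] M)) ≃ₗ[Localization.AtPrime Q]
      (Localization.AtPrime Q ⊗[T] (T ⊗[R] M))) :=
  ⟨AlgebraTensorModule.cancelBaseChange R L (Localization.AtPrime Q) (Localization.AtPrime Q) M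
    ≪≫ₗ (AlgebraTensorModule.cancelBaseChange R T (Localization.AtPrime Q)
      (Localization.AtPrime Q) M).symm⟩

end cancel

section ann

variable {R L : Type u} [CommRing R] [CommRing L] [Algebra R L]

theorem map_annihilator_le (M : Type u) [AddCommGroup M] [Module R M] :
    (Module.annihilator R M).map (algebraMap R L) ≤ Module.annihilator L (L ⊗[R] M) := by
  rw [Ideal.map_le_iff_le_comap]
  intro a ha
  rw [Ideal.mem_comap, Module.mem_annihilator]
  intro z
  induction z using TensorProduct.induction_on with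
  | zero => exact smul_zero _
  | tmul b x =>
    rw [TensorProduct.smul_tmul', smul_eq_mul, ← Algebra.smul_def, TensorProduct.smul_tmul,
      Module.mem_annihilator.1 ha, TensorProduct.tmul_zero]
  | add x y hx hy => rw [smul_add, hx, hy, add_zero]

end ann

section dims

theorem krullDim_mono_of_subset {α : Type*} [Preorder α] {s t : Set α} (h : s ⊆ t) :
    Order.krullDim s ≤ Order.krullDim t :=
  Order.krullDim_le_of_strictMono (Set.inclusion h) (fun _ _ hab => hab)

/-- Lower bound for the dimension of a localization. -/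
theorem le_supportDim_localization (R : Type u) [CommRing R] [IsRegularLocalRing R]
    (P P₀ : Ideal R) [P.IsPrime] [hP₀ : P₀.IsPrime] (hle : P₀ ≤ P)
    (L : Type u) [CommRing L] [Algebra R L] [IsLocalization P.primeCompl L]
    [IsRegularLocalRing L] (M : Type u) [AddCommGroup M] [Module R M] [Module.Finite R M]
    (hM : (⟨P₀, hP₀⟩ : PrimeSpectrum R) ∈ Module.support R M) (p p₀ : ℕ)
    (hp : P.height = p) (hp₀ : P₀.height = p₀) :
    ((p - p₀ : ℕ) : WithBot ℕ∞) ≤ Module.supportDim L (L ⊗[R] M) := by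
  have hdisj : Disjoint (P.primeCompl : Set R) P₀ := by
    rw [Set.disjoint_left]
    intro x hx hx0
    exact hx (hle hx0)
  have hprime : (P₀.map (algebraMap R L)).IsPrime :=
    IsLocalization.isPrime_of_isPrime_disjoint P.primeCompl L P₀ hP₀ hdisj
  have hcomap : (P₀.map (algebraMap R L)).comap (algebraMap R L) = P₀ :=
    IsLocalization.comap_map_of_isPrime_disjoint P.primeCompl L hP₀ hdisj
  have hht : (P₀.map (algebraMap R L)).height = p₀ := by
    rw [IsLocalization.height_map_of_disjoint P.primeCompl P₀ hdisj, hp₀]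
  have hL : IsLocalization.AtPrime L P := ‹_›
  have hdimL : ringKrullDim L = (p : WithBot ℕ∞) := by
    rw [IsLocalization.AtPrime.ringKrullDim_eq_height P L, hp]
    rfl
  obtain ⟨zs, -, -, -, h1, h2, -⟩ := exists_ci hdimL (P₀.map (algebraMap R L))
  have h3 : zs.length = p₀ := by
    rw [hht] at h1
    exact_mod_cast h1.symm
  rw [h3] at h2
  rw [← h2]
  apply krullDim_mono_of_subset
  intro Q hQ
  rw [support_quotient_prime] at hQ
  have hflat : Module.Flat R L := IsLocalization.flat L P.primeCompl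
  apply mem_support_baseChange
  refine Module.mem_support_mono ?_ hM
  change P₀ ≤ Q.asIdeal.comap (algebraMap R L)
  rw [← hcomap]
  exact Ideal.comap_mono hQ

end dims

end Vale.Agent.P177
end

section

/-!
The local contributions.
-/

namespace Vale.Agent.P177

open CategoryTheory TensorProduct Function IsLocalRing RingTheory.Sequence Pointwise

universe u

section

theorem ringKrullDim_le_add_of_radical (L₁ L₂ U : Type u) [CommRing L₁] [CommRing L₂] [CommRing U]
    [IsRegularLocalRing L₁] [IsRegularLocalRing L₂] [IsLocalRing U] [IsNoetherianRing U]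
    [Algebra L₁ U]
    [Algebra L₂ U] [IsLocalHom (algebraMap L₁ U)] [IsLocalHom (algebraMap L₂ U)] (r₁ r₂ : ℕ)
    (h₁ : ringKrullDim L₁ = r₁) (h₂ : ringKrullDim L₂ = r₂)
    (h : maximalIdeal U ≤ ((maximalIdeal L₁).map (algebraMap L₁ U) ⊔
      (maximalIdeal L₂).map (algebraMap L₂ U)).radical) :
    ringKrullDim U ≤ ((r₁ + r₂ : ℕ) : WithBot ℕ∞) := by
  obtain ⟨s₁, hs₁, hl₁⟩ := exists_list_maximalIdeal L₁
  obtain ⟨s₂, hs₂, hl₂⟩ := exists_list_maximalIdeal L₂
  have e₁ : s₁.length = r₁ := by rw [h₁] at hl₁; exact_mod_cast hl₁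
  have e₂ : s₂.length = r₂ := by rw [h₂] at hl₂; exact_mod_cast hl₂
  have k₁ : (maximalIdeal L₁).map (algebraMap L₁ U) ≤ maximalIdeal U :=
    ((IsLocalRing.local_hom_TFAE (algebraMap L₁ U)).out 0 2).mp ‹_›
  have k₂ : (maximalIdeal L₂).map (algebraMap L₂ U) ≤ maximalIdeal U :=
    ((IsLocalRing.local_hom_TFAE (algebraMap L₂ U)).out 0 2).mp ‹_›
  have hof : Ideal.ofList (s₁.map (algebraMap L₁ U) ++ s₂.map (algebraMap L₂ U)) =
      (maximalIdeal L₁).map (algebraMap L₁ U) ⊔ (maximalIdeal L₂).map (algebraMap L₂ U) := by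
    rw [Ideal.ofList_append, ← hs₁, ← hs₂, Ideal.map_ofList, Ideal.map_ofList]
  have hmem : ∀ z ∈ s₁.map (algebraMap L₁ U) ++ s₂.map (algebraMap L₂ U),
      z ∈ maximalIdeal U := by
    intro z hz
    have h1 : z ∈ Ideal.ofList (s₁.map (algebraMap L₁ U) ++ s₂.map (algebraMap L₂ U)) :=
      Ideal.subset_span hz
    rw [hof] at h1
    exact (sup_le k₁ k₂) h1
  have hFL : FL (s₁.map (algebraMap L₁ U) ++ s₂.map (algebraMap L₂ U)) U := by
    unfold FL
    rw [hof]
    exact h.trans (Ideal.radical_mono le_sup_right)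
  have h5 := supportDim_le_length _ hmem U hFL
  rw [Module.supportDim_self_eq_ringKrullDim, List.length_append, List.length_map,
    List.length_map, e₁, e₂] at h5
  exact h5

theorem maximalIdeal_le_radical_of_minimal {T : Type u} [CommRing T] (I Q : Ideal T) [hQp : Q.IsPrime]
    (hQ : Q ∈ I.minimalPrimes) :
    maximalIdeal (Localization.AtPrime Q) ≤
      (I.map (algebraMap T (Localization.AtPrime Q))).radical := by
  rw [Ideal.radical_eq_sInf]
  refine le_sInf ?_
  rintro q ⟨hq, hqp⟩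
  have h1 : I ≤ q.comap (algebraMap T (Localization.AtPrime Q)) := Ideal.map_le_iff_le_comap.1 hq
  have h2 : q ≤ maximalIdeal (Localization.AtPrime Q) := le_maximalIdeal hqp.ne_top
  have h3 : q.comap (algebraMap T (Localization.AtPrime Q)) ≤ Q := by
    have h4 := Ideal.comap_mono (f := algebraMap T (Localization.AtPrime Q)) h2
    have h5 : (maximalIdeal (Localization.AtPrime Q)).comap
        (algebraMap T (Localization.AtPrime Q)) = Q :=
      IsLocalization.AtPrime.comap_maximalIdeal (Localization.AtPrime Q) Q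
    rwa [h5] at h4
  have hqc : (q.comap (algebraMap T (Localization.AtPrime Q))).IsPrime :=
    Ideal.IsPrime.comap _
  have h6 : Q ≤ q.comap (algebraMap T (Localization.AtPrime Q)) := hQ.2 ⟨hqc, h1⟩ h3
  rw [← IsLocalization.AtPrime.map_eq_maximalIdeal Q (Localization.AtPrime Q),
    Ideal.map_le_iff_le_comap]
  exact h6

end

section

variable {R₁ R₂ T : Type u} [CommRing R₁] [CommRing R₂] [CommRing T]
    [IsRegularLocalRing R₁] [IsRegularLocalRing R₂] [IsRegularLocalRing T]
    [Algebra R₁ T] [Algebra R₂ T] [Module.Flat R₁ T] [Module.Flat R₂ T]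

/-- The local Euler characteristic. -/
noncomputable def locEul (Q : Ideal T) [Q.IsPrime] (n : ℕ) (X Y : Type u) [AddCommGroup X]
    [Module T X] [AddCommGroup Y] [Module T Y] : ℤ :=
  ∑ j ∈ Finset.range n, (-1 : ℤ) ^ j * ((locLen Q (TorM T j X Y)).toNat : ℤ)

omit [IsRegularLocalRing T] in
theorem locEul_eq (Q : Ideal T) [Q.IsPrime] (n : ℕ) (X Y : Type u) [AddCommGroup X]
    [Module T X] [AddCommGroup Y] [Module T Y] :
    locEul Q n X Y = eulerTor (Localization.AtPrime Q) n (Localization.AtPrime Q ⊗[T] X)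
      (Localization.AtPrime Q ⊗[T] Y) := by
  have hflat : Module.Flat T (Localization.AtPrime Q) := IsLocalization.flat _ Q.primeCompl
  unfold locEul eulerTor
  refine Finset.sum_congr rfl fun j _ => ?_
  obtain ⟨e⟩ := exists_tor_flat_iso (C := Localization.AtPrime Q) j
    (TensorProduct.isBaseChange T X (Localization.AtPrime Q))
    (TensorProduct.isBaseChange T Y (Localization.AtPrime Q))
  rw [e.length_eq]
  rfl

theorem local_value (a : ℕ) (hLoc : LocPos.{u} a) (N M : Type u) [AddCommGroup N] [Module R₁ N]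
    [Module.Finite R₁ N] [AddCommGroup M] [Module R₂ M] [Module.Finite R₂ M]
    (Q : Ideal T) [hQp : Q.IsPrime]
    (hQ : Q ∈ ((Module.annihilator R₁ N).map (algebraMap R₁ T) ⊔
      (Module.annihilator R₂ M).map (algebraMap R₂ T)).minimalPrimes)
    (r₁ r₂ q : ℕ) (h₁ : (Q.comap (algebraMap R₁ T)).height = r₁)
    (h₂ : (Q.comap (algebraMap R₂ T)).height = r₂) (hq : Q.height = q)
    (hb : r₁ + r₂ ≤ q + a) (n : ℕ) (hn : q + 1 ≤ n) :
    ∃ b : ℕ, r₁ + r₂ = q + b ∧ 0 ≤ locEul Q n (T ⊗[R₁] N) (T ⊗[R₂] M) ∧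
      ∀ (P₁ P₂ : ℕ) (p₁ : PrimeSpectrum R₁) (p₂ : PrimeSpectrum R₂), p₁ ∈ Module.support R₁ N →
        p₂ ∈ Module.support R₂ M → p₁.asIdeal ≤ Q.comap (algebraMap R₁ T) →
        p₂.asIdeal ≤ Q.comap (algebraMap R₂ T) → p₁.asIdeal.height = P₁ →
        p₂.asIdeal.height = P₂ →
        (r₁ - P₁) + (r₂ - P₂) ≤ b ∧ (b ≤ (r₁ - P₁) + (r₂ - P₂) →
          0 < locEul Q n (T ⊗[R₁] N) (T ⊗[R₂] M)) := by
  have hUreg : IsRegularLocalRing (Localization.AtPrime Q) :=
    isRegularLocalRing_localization T Q (Localization.AtPrime Q)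
  obtain ⟨L₁, _, _, _, D₁⟩ := exists_locData R₁ T Q
  obtain ⟨L₂, _, _, _, D₂⟩ := exists_locData R₂ T Q
  have i1 := D₁.reg
  have i2 := D₂.reg
  have i3 := D₁.flat
  have i4 := D₂.flat
  have i5 := D₁.loc
  have i6 := D₂.loc
  have i7 := D₁.isloc
  have i8 := D₂.isloc
  have i9 := D₁.tower
  have i10 := D₂.tower
  have d₁ : ringKrullDim L₁ = r₁ := by rw [D₁.dim, h₁]; rfl
  have d₂ : ringKrullDim L₂ = r₂ := by rw [D₂.dim, h₂]; rfl
  have dU : ringKrullDim (Localization.AtPrime Q) = q := by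
    rw [IsLocalization.AtPrime.ringKrullDim_eq_height Q, hq]; rfl
  -- the radical condition
  have hrad := maximalIdeal_le_radical_of_minimal _ Q hQ
  have hmap₁ : ∀ I : Ideal R₁, (I.map (algebraMap R₁ T)).map
      (algebraMap T (Localization.AtPrime Q)) =
      (I.map (algebraMap R₁ L₁)).map (algebraMap L₁ (Localization.AtPrime Q)) := by
    intro I
    rw [Ideal.map_map, Ideal.map_map, ← IsScalarTower.algebraMap_eq,
      ← IsScalarTower.algebraMap_eq]
  have hmap₂ : ∀ I : Ideal R₂, (I.map (algebraMap R₂ T)).map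
      (algebraMap T (Localization.AtPrime Q)) =
      (I.map (algebraMap R₂ L₂)).map (algebraMap L₂ (Localization.AtPrime Q)) := by
    intro I
    rw [Ideal.map_map, Ideal.map_map, ← IsScalarTower.algebraMap_eq,
      ← IsScalarTower.algebraMap_eq]
  rw [Ideal.map_sup, hmap₁, hmap₂] at hrad
  have hFP : FP L₁ L₂ (Localization.AtPrime Q) (L₁ ⊗[R₁] N) (L₂ ⊗[R₂] M) := by
    unfold FP
    refine hrad.trans (Ideal.radical_mono (sup_le_sup ?_ ?_))
    · exact Ideal.map_mono (map_annihilator_le N)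
    · exact Ideal.map_mono (map_annihilator_le M)
  -- dimension bound
  have hle₁ : (Module.annihilator R₁ N).map (algebraMap R₁ L₁) ≤ maximalIdeal L₁ := by
    rw [← IsLocalization.AtPrime.map_eq_maximalIdeal (Q.comap (algebraMap R₁ T)) L₁]
    apply Ideal.map_mono
    rw [← Ideal.map_le_iff_le_comap]
    exact le_sup_left.trans hQ.1.2
  have hle₂ : (Module.annihilator R₂ M).map (algebraMap R₂ L₂) ≤ maximalIdeal L₂ := by
    rw [← IsLocalization.AtPrime.map_eq_maximalIdeal (Q.comap (algebraMap R₂ T)) L₂]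
    apply Ideal.map_mono
    rw [← Ideal.map_le_iff_le_comap]
    exact le_sup_right.trans hQ.1.2
  have hdim := ringKrullDim_le_add_of_radical L₁ L₂ (Localization.AtPrime Q) r₁ r₂ d₁ d₂
    (hrad.trans (Ideal.radical_mono (sup_le_sup (Ideal.map_mono hle₁) (Ideal.map_mono hle₂))))
  rw [dU] at hdim
  have hqle : q ≤ r₁ + r₂ := by exact_mod_cast hdim
  obtain ⟨b, hbq⟩ := Nat.exists_eq_add_of_le hqle
  have hba : b ≤ a := by omega
  obtain ⟨c1, c2, c3⟩ := hLoc L₁ L₂ (Localization.AtPrime Q) r₁ r₂ q b d₁ d₂ dU hbq hba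
    (L₁ ⊗[R₁] N) (L₂ ⊗[R₂] M) hFP
  -- comparison
  obtain ⟨e₁⟩ := exists_cancel_loc (R := R₁) (T := T) Q L₁ N
  obtain ⟨e₂⟩ := exists_cancel_loc (R := R₂) (T := T) Q L₂ M
  have hval : locEul Q n (T ⊗[R₁] N) (T ⊗[R₂] M) =
      eulerTor (Localization.AtPrime Q) (q + 1) (Localization.AtPrime Q ⊗[L₁] (L₁ ⊗[R₁] N))
        (Localization.AtPrime Q ⊗[L₂] (L₂ ⊗[R₂] M)) := by
    rw [locEul_eq, eulerTor_congr e₁ e₂]
    apply eulerTor_shrink _ _ _ _ hn
    intro j hj
    exact regular_tor_vanish _ q dU _ _ j hj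
  rw [hval]
  refine ⟨b, hbq, c2, ?_⟩
  intro P₁ P₂ p₁ p₂ hp₁ hp₂ hp₁Q hp₂Q hP₁ hP₂
  have k₁ := le_supportDim_localization R₁ (Q.comap (algebraMap R₁ T)) p₁.asIdeal hp₁Q L₁ N hp₁
    r₁ P₁ h₁ hP₁
  have k₂ := le_supportDim_localization R₂ (Q.comap (algebraMap R₂ T)) p₂.asIdeal hp₂Q L₂ M hp₂
    r₂ P₂ h₂ hP₂
  exact ⟨c1 _ _ k₁ k₂, c3 _ _ k₁ k₂⟩

end

end Vale.Agent.P177
end

section

/-!
From local positivity to global positivity via reduction to the diagonal.
-/

namespace Vale.Agent.P177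

open CategoryTheory TensorProduct Function IsLocalRing RingTheory.Sequence Pointwise

universe u

section

theorem exists_prime_of_le_supportDim {R : Type u} [CommRing R] [IsRegularLocalRing R] {d : ℕ}
    (hd : ringKrullDim R = d) (M : Type u) [AddCommGroup M] [Module R M] (m : ℕ)
    (hm : (m : WithBot ℕ∞) ≤ Module.supportDim R M) :
    ∃ (p : PrimeSpectrum R) (P : ℕ), p ∈ Module.support R M ∧ p.asIdeal.height = P ∧
      P + m ≤ d := by
  unfold Module.supportDim at hm
  obtain ⟨l, hl⟩ := Order.le_krullDim_iff.1 hm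
  have h1 : (m : WithBot ℕ∞) ≤ Module.supportDim R (R ⧸ l.head.1.asIdeal) := by
    unfold Module.supportDim
    rw [Order.le_krullDim_iff]
    exact ⟨{ length := l.length
             toFun := fun i => ⟨(l i).1, (support_quotient_prime _ _).2 (l.head_le i)⟩
             step := fun i => l.step i }, hl⟩
  obtain ⟨zs, -, -, hz, h2, h3, -⟩ := exists_ci hd l.head.1.asIdeal
  rw [h3] at h1
  have h4 : m ≤ d - zs.length := by exact_mod_cast h1
  exact ⟨l.head.1, zs.length, l.head.2, h2, by omega⟩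

theorem supportDim_prime_eq {R : Type u} [CommRing R] [IsRegularLocalRing R] {d : ℕ}
    (hd : ringKrullDim R = d) (P : Ideal R) [P.IsPrime] :
    ∃ h : ℕ, P.height = h ∧ h ≤ d ∧ Module.supportDim R (R ⧸ P) = ((d - h : ℕ) : WithBot ℕ∞) := by
  obtain ⟨zs, -, -, hz, h2, h3, -⟩ := exists_ci hd P
  exact ⟨zs.length, h2, hz, h3⟩

end

theorem global_pos {R₁ R₂ T : Type u} [CommRing R₁] [CommRing R₂] [CommRing T]
    [IsRegularLocalRing R₁] [IsRegularLocalRing R₂] [IsRegularLocalRing T]
    [Algebra R₁ T] [Algebra R₂ T] [Module.Flat R₁ T] [Module.Flat R₂ T]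
    (a : ℕ) (hLoc : LocPos.{u} a)
    (μ : T →+* R₁) (hμ : ∀ s, μ (algebraMap R₁ T s) = s) (z : List T)
    (hkerμ : RingHom.ker μ = Ideal.ofList z) (hz : IsWeaklyRegular T z)
    (θ : R₂ ≃+* R₁) (hθ : ∀ s, μ (algebraMap R₂ T s) = θ s)
    (d : ℕ) (hd : ringKrullDim R₁ = d)
    (hb : ∀ (Q : Ideal T) [Q.IsPrime] (r₁ r₂ q : ℕ), (Q.comap (algebraMap R₁ T)).height = r₁ →
      (Q.comap (algebraMap R₂ T)).height = r₂ → Q.height = q → r₁ + r₂ ≤ q + a)
    (M N : Type u) [AddCommGroup M] [Module R₂ M] [Module.Finite R₂ M]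
    [AddCommGroup N] [Module R₁ N] [Module R₂ N] [Module.Finite R₁ N]
    (hN : ∀ (s : R₂) (t : N), s • t = θ s • t)
    (hlen : Module.length R₂ (M ⊗[R₂] N) ≠ ⊤) :
    0 ≤ eulerTor R₂ (d + 1) M N ∧ ∀ m n : ℕ, (m : WithBot ℕ∞) ≤ Module.supportDim R₂ M →
      (n : WithBot ℕ∞) ≤ Module.supportDim R₁ N →
      (m + n ≤ d) ∧ (d ≤ m + n → 0 < eulerTor R₂ (d + 1) M N) := by
  classical
  -- basic facts
  have hμs : Surjective μ := fun s => ⟨algebraMap R₁ T s, hμ s⟩
  have hμloc : IsLocalHom μ := IsLocalHom.of_surjective μ hμs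
  have hl₁ : IsLocalHom (algebraMap R₁ T) := ⟨fun s hs => by
    have := hs.map μ
    rwa [hμ] at this⟩
  have hl₂ : IsLocalHom (algebraMap R₂ T) := ⟨fun s hs => by
    have h1 := (hs.map μ).map θ.symm
    rwa [hθ, RingEquiv.symm_apply_apply] at h1⟩
  have hzm : ∀ y ∈ z, y ∈ maximalIdeal T := by
    intro y hy
    have h1 : y ∈ RingHom.ker μ := by
      rw [hkerμ]
      exact Ideal.subset_span hy
    rw [mem_maximalIdeal, mem_nonunits_iff]
    intro hu
    have h2 := hu.map μ
    rw [(RingHom.mem_ker).1 h1] at h2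
    exact not_isUnit_zero h2
  have hd₂ : ringKrullDim R₂ = d := by rw [ringKrullDim_eq_of_ringEquiv θ, hd]
  have ht : ringKrullDim T = ((d + z.length : ℕ) : WithBot ℕ∞) := by
    have hreg : IsRegular T z := by
      refine ⟨hz, ?_⟩
      intro h
      have h1 : (Ideal.ofList z • ⊤ : Ideal T) ≤ maximalIdeal T := by
        rw [smul_eq_mul, Ideal.mul_top]
        exact Ideal.span_le.2 hzm
      rw [← h] at h1
      exact (maximalIdeal.isMaximal T).ne_top (top_le_iff.1 h1)
    have h2 := ringKrullDim_add_length_eq_ringKrullDim_of_isRegular _ hreg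
    rw [← h2]
    have e : (T ⧸ Ideal.ofList z) ≃+* R₁ :=
      (Ideal.quotEquivOfEq hkerμ.symm).trans (RingHom.quotientKerEquivOfSurjective hμs)
    rw [ringKrullDim_eq_of_ringEquiv e, hd]
    push_cast
    rfl
  -- the ideal
  let I : Ideal T := (Module.annihilator R₁ N).map (algebraMap R₁ T) ⊔
    (Module.annihilator R₂ M).map (algebraMap R₂ T)
  -- Fact A
  have hann : ∀ v ∈ Module.annihilator R₂ N, θ v ∈ Module.annihilator R₁ N := by
    intro v hv
    rw [Module.mem_annihilator] at hv ⊢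
    intro t
    rw [← hN, hv]
  have : Module.Finite R₂ N := by
    let _ : Algebra R₂ R₁ := (θ : R₂ →+* R₁).toAlgebra
    have : IsScalarTower R₂ R₁ N := IsScalarTower.of_algebraMap_smul fun s t => (hN s t).symm
    have : Module.Finite R₂ R₁ := Module.Finite.of_surjective (Algebra.linearMap R₂ R₁)
      θ.surjective
    exact Module.Finite.trans R₁ N
  have hA : maximalIdeal T ≤ (I ⊔ Ideal.ofList z).radical := by
    obtain ⟨k, hk⟩ := exists_pow_le_sup_annihilator (R := R₂) M N hlen
    intro x hx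
    refine ⟨k, ?_⟩
    have h1 : θ.symm (μ x) ∈ maximalIdeal R₂ := by
      rw [mem_maximalIdeal, mem_nonunits_iff] at hx ⊢
      intro hu
      apply hx
      have h2 := hu.map θ
      rw [RingEquiv.apply_symm_apply] at h2
      exact isUnit_of_map_unit μ x h2
    obtain ⟨u, hu, v, hv, huv⟩ := Submodule.mem_sup.1 (hk (Ideal.pow_mem_pow h1 k))
    have h3 : x ^ k - algebraMap R₂ T u - algebraMap R₁ T (θ v) ∈ Ideal.ofList z := by
      rw [← hkerμ, RingHom.mem_ker, map_sub, map_sub, hθ, hμ, map_pow, sub_sub, ← map_add, huv,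
        map_pow, RingEquiv.apply_symm_apply, sub_self]
    have h4 : x ^ k = (algebraMap R₁ T (θ v) + algebraMap R₂ T u) +
        (x ^ k - algebraMap R₂ T u - algebraMap R₁ T (θ v)) := by ring
    rw [h4]
    exact Submodule.add_mem_sup (Submodule.add_mem_sup (Ideal.mem_map_of_mem _ (hann v hv))
      (Ideal.mem_map_of_mem _ hu)) h3
  -- Fact C
  have hC : ∀ Q : Ideal T, I ≤ Q → Module.supportDim T (T ⧸ Q) ≤ (z.length : WithBot ℕ∞) := by
    intro Q hQ
    apply supportDim_le_length z hzm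
    unfold FL
    rw [Ideal.annihilator_quotient]
    exact hA.trans (Ideal.radical_mono (sup_le_sup_right hQ _))
  have hmin : ∀ Q : PrimeSpectrum T, I ≤ Q.asIdeal → (z.length : WithBot ℕ∞) ≤
      Module.supportDim T (T ⧸ Q.asIdeal) → Q.asIdeal ∈ I.minimalPrimes := by
    intro Q hQ hQd
    refine ⟨⟨Q.isPrime, hQ⟩, ?_⟩
    rintro Q' ⟨hQ'p, hQ'⟩ hle
    by_contra hcon
    have hlt : Q' < Q.asIdeal := lt_of_le_not_ge hle hcon
    have h1 := (supportDim_quotient_strict hlt z.length hQd).trans (hC Q' hQ')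
    have h2 : z.length + 1 ≤ z.length := by exact_mod_cast h1
    omega
  have hWfin : {Q : PrimeSpectrum T | I ≤ Q.asIdeal ∧ (z.length : WithBot ℕ∞) ≤
      Module.supportDim T (T ⧸ Q.asIdeal)}.Finite := by
    refine Set.Finite.of_finite_image (f := PrimeSpectrum.asIdeal) ?_ ?_
    · refine (Ideal.finite_minimalPrimes_of_isNoetherianRing T I).subset ?_
      rintro _ ⟨Q, hQ, rfl⟩
      exact hmin Q hQ.1 hQ.2
    · intro Q _ Q' _ h
      exact PrimeSpectrum.ext h
  let W : Finset (PrimeSpectrum T) := hWfin.toFinset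
  have hWmem : ∀ Q, Q ∈ W ↔ I ≤ Q.asIdeal ∧ (z.length : WithBot ℕ∞) ≤
      Module.supportDim T (T ⧸ Q.asIdeal) := fun Q => by
    rw [Set.Finite.mem_toFinset]; rfl
  have hWdim : ∀ Q ∈ W, Module.supportDim T (T ⧸ Q.asIdeal) = (z.length : WithBot ℕ∞) := by
    intro Q hQ
    rw [hWmem] at hQ
    exact le_antisymm (hC _ hQ.1) hQ.2
  -- the main identity
  have hfin : ∀ j, Module.Finite T (TorM T j (T ⊗[R₁] N) (T ⊗[R₂] M)) := fun j =>
    tor_finite (R := T) j _ _
  have hIann : ∀ j, I ≤ Module.annihilator T (TorM T j (T ⊗[R₁] N) (T ⊗[R₂] M)) := by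
    intro j
    refine sup_le ?_ ?_
    · refine (map_annihilator_le N).trans ?_
      intro x hx
      rw [Module.mem_annihilator]
      exact tor_smul_eq_zero_left x (fun m => Module.mem_annihilator.1 hx m) j _
    · refine (map_annihilator_le M).trans ?_
      intro x hx
      rw [Module.mem_annihilator]
      exact tor_smul_eq_zero_right x (fun m => Module.mem_annihilator.1 hx m) j _
  have hv : ∀ j, d + z.length + 1 ≤ j →
      Subsingleton (TorM T j (T ⊗[R₁] N) (T ⊗[R₂] M)) := fun j hj =>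
    regular_tor_vanish T _ ht _ _ j hj
  let n : ℕ := d + z.length + 1 + z.length
  obtain ⟨heq, hFL⟩ : eulerTor R₂ n M N = ∑ j ∈ Finset.range n,
        (-1 : ℤ) ^ j * eul z (TorM T j (T ⊗[R₁] N) (T ⊗[R₂] M)) ∧
      FL2 z (T ⊗[R₁] N) (T ⊗[R₂] M) := by
    let _ : Module T N := Module.compHom N μ
    have hsN : ∀ (b : T) (t : N), b • t = μ b • t := fun b t => rfl
    have : IsScalarTower R₁ T N := ⟨fun s b t => by
      rw [hsN, hsN, Algebra.smul_def, map_mul, hμ, mul_smul]⟩
    have : IsScalarTower R₂ T N := ⟨fun s b t => by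
      rw [hsN, hsN, Algebra.smul_def, map_mul, hθ, mul_smul, hN]⟩
    have hres : ∀ b : T, ∃ s : R₁, b - algebraMap R₁ T s ∈ Ideal.ofList z := by
      intro b
      refine ⟨μ b, ?_⟩
      rw [← hkerμ, RingHom.mem_ker, map_sub, hμ, sub_self]
    have hkill : ∀ y ∈ Ideal.ofList z, ∀ t : N, y • t = 0 := by
      intro y hy t
      rw [← hkerμ, RingHom.mem_ker] at hy
      rw [hsN, hy, zero_smul]
    have hN2 : ∀ b : T, ∃ s : R₂, ∀ t : N, b • t = s • t := by
      intro b
      refine ⟨θ.symm (μ b), fun t => ?_⟩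
      rw [hN, RingEquiv.apply_symm_apply, hsN]
    let _ : Module T R₁ := Module.compHom R₁ μ
    have hsm : ∀ (b : T) (t : R₁), b • t = μ b * t := fun b t => rfl
    have : IsScalarTower R₁ T R₁ := ⟨fun s b t => by
      rw [hsm, hsm, Algebra.smul_def, map_mul, hμ, smul_eq_mul, mul_assoc]⟩
    let μl : T →ₗ[T] R₁ :=
      { toFun := μ
        map_add' := map_add μ
        map_smul' := fun b c => by
          rw [smul_eq_mul, map_mul, RingHom.id_apply, hsm] }
    have hker : LinearMap.ker μl = (Ideal.ofList z • ⊤ : Submodule T T) := by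
      rw [smul_eq_mul, Ideal.mul_top, ← hkerμ]
      rfl
    have e : (T ⧸ (Ideal.ofList z • ⊤ : Submodule T T)) ≃ₗ[T] R₁ :=
      Submodule.quotEquivOfEq _ _ hker.symm ≪≫ₗ μl.quotKerEquivOfSurjective hμs
    exact eulerTor_eq_sum_eul z hzm hz hres R₁ e N hkill hN2 M (d + z.length + 1) hv hlen n le_rfl
  have hassoc : ∀ j, eul z (TorM T j (T ⊗[R₁] N) (T ⊗[R₂] M)) =
      ∑ Q ∈ W, ((locLen Q.asIdeal (TorM T j (T ⊗[R₁] N) (T ⊗[R₂] M))).toNat : ℤ) *
        eul z (T ⧸ Q.asIdeal) := by
    intro j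
    have := hfin j
    refine (assoc_formula z hzm W hWdim _ (hFL.tor j) ?_).2
    intro Q hQ hQd
    rw [hWmem]
    refine ⟨?_, hQd⟩
    rw [Module.support_eq_zeroLocus] at hQ
    exact (hIann j).trans hQ
  have hsum : eulerTor R₂ n M N = ∑ Q ∈ W,
      locEul Q.asIdeal n (T ⊗[R₁] N) (T ⊗[R₂] M) * eul z (T ⧸ Q.asIdeal) := by
    rw [heq]
    simp only [hassoc, Finset.mul_sum]
    rw [Finset.sum_comm]
    refine Finset.sum_congr rfl fun Q _ => ?_
    unfold locEul
    rw [Finset.sum_mul]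
    refine Finset.sum_congr rfl fun j _ => ?_
    ring
  have hshrink : eulerTor R₂ n M N = eulerTor R₂ (d + 1) M N := by
    have : Module.Finite R₂ N := ‹_›
    exact eulerTor_shrink M N (d + 1) n (by omega) fun j hj =>
      regular_tor_vanish R₂ d hd₂ M N j hj
  rw [← hshrink, hsum]
  -- positivity of the second factor
  have heul : ∀ Q : Ideal T, I ≤ Q → 0 ≤ eul z (T ⧸ Q) ∧
      ((z.length : WithBot ℕ∞) ≤ Module.supportDim T (T ⧸ Q) → 0 < eul z (T ⧸ Q)) := by
    intro Q hQ
    apply eul_nonneg_pos z hzm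
    unfold FL
    rw [Ideal.annihilator_quotient]
    exact hA.trans (Ideal.radical_mono (sup_le_sup_right hQ _))
  -- heights
  have hht : ∀ Q : Ideal T, Q.IsPrime → ∃ r₁ r₂ q : ℕ, (Q.comap (algebraMap R₁ T)).height = r₁ ∧
      (Q.comap (algebraMap R₂ T)).height = r₂ ∧ Q.height = q ∧ r₁ + r₂ ≤ q + a ∧
      q ≤ d + z.length ∧ Module.supportDim T (T ⧸ Q) = ((d + z.length - q : ℕ) : WithBot ℕ∞) := by
    intro Q hQ
    have h1 : (Q.comap (algebraMap R₁ T)).IsPrime := Ideal.IsPrime.comap _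
    have h2 : (Q.comap (algebraMap R₂ T)).IsPrime := Ideal.IsPrime.comap _
    obtain ⟨r₁, hr₁, -, -⟩ := supportDim_prime_eq hd (Q.comap (algebraMap R₁ T))
    obtain ⟨r₂, hr₂, -, -⟩ := supportDim_prime_eq hd₂ (Q.comap (algebraMap R₂ T))
    obtain ⟨q, hq, hq', hq''⟩ := supportDim_prime_eq ht Q
    exact ⟨r₁, r₂, q, hr₁, hr₂, hq, hb Q r₁ r₂ q hr₁ hr₂ hq, hq', hq''⟩
  have hterm : ∀ Q ∈ W, 0 ≤ locEul Q.asIdeal n (T ⊗[R₁] N) (T ⊗[R₂] M) *
      eul z (T ⧸ Q.asIdeal) := by
    intro Q hQ
    have hQ' := (hWmem Q).1 hQ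
    have hQp := Q.isPrime
    obtain ⟨r₁, r₂, q, hr₁, hr₂, hq, hbb, hqt, -⟩ := hht Q.asIdeal Q.isPrime
    obtain ⟨b, -, h1, -⟩ := local_value a hLoc N M Q.asIdeal (hmin Q hQ'.1 hQ'.2) r₁ r₂ q hr₁
      hr₂ hq hbb n (by omega)
    exact mul_nonneg h1 (heul _ hQ'.1).1
  refine ⟨Finset.sum_nonneg hterm, ?_⟩
  intro m k hm hk
  obtain ⟨p₂, P₂, hp₂, hP₂, hm'⟩ := exists_prime_of_le_supportDim hd₂ M m hm
  obtain ⟨p₁, P₁, hp₁, hP₁, hk'⟩ := exists_prime_of_le_supportDim hd N k hk
  -- the minimal prime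
  let J : Ideal T := p₁.asIdeal.map (algebraMap R₁ T) ⊔ p₂.asIdeal.map (algebraMap R₂ T)
  have hJ : J ≤ maximalIdeal T := by
    refine sup_le ?_ ?_
    · exact (Ideal.map_mono (le_maximalIdeal p₁.isPrime.ne_top)).trans
        (((IsLocalRing.local_hom_TFAE (algebraMap R₁ T)).out 0 2).mp hl₁)
    · exact (Ideal.map_mono (le_maximalIdeal p₂.isPrime.ne_top)).trans
        (((IsLocalRing.local_hom_TFAE (algebraMap R₂ T)).out 0 2).mp hl₂)
  obtain ⟨Q, hQ, -⟩ := Ideal.exists_minimalPrimes_le hJ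
  have hQp : Q.IsPrime := hQ.1.1
  have hIJ : I ≤ J := by
    rw [Module.support_eq_zeroLocus] at hp₁ hp₂
    exact sup_le_sup (Ideal.map_mono hp₁) (Ideal.map_mono hp₂)
  have hIQ : I ≤ Q := hIJ.trans hQ.1.2
  obtain ⟨r₁, r₂, q, hr₁, hr₂, hq, hbb, hqt, hQd⟩ := hht Q hQp
  have hle₁ : p₁.asIdeal ≤ Q.comap (algebraMap R₁ T) := by
    rw [← Ideal.map_le_iff_le_comap]
    exact le_sup_left.trans hQ.1.2
  have hle₂ : p₂.asIdeal ≤ Q.comap (algebraMap R₂ T) := by
    rw [← Ideal.map_le_iff_le_comap]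
    exact le_sup_right.trans hQ.1.2
  have hP₁r : P₁ ≤ r₁ := by
    have := Ideal.height_mono hle₁
    rw [hP₁, hr₁] at this
    exact_mod_cast this
  have hP₂r : P₂ ≤ r₂ := by
    have := Ideal.height_mono hle₂
    rw [hP₂, hr₂] at this
    exact_mod_cast this
  have hqP : q ≤ P₁ + P₂ := by
    have hQ2 : Q ∈ ((Module.annihilator R₁ (R₁ ⧸ p₁.asIdeal)).map (algebraMap R₁ T) ⊔
        (Module.annihilator R₂ (R₂ ⧸ p₂.asIdeal)).map (algebraMap R₂ T)).minimalPrimes := by
      rw [Ideal.annihilator_quotient, Ideal.annihilator_quotient]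
      exact hQ
    obtain ⟨b, hb1, -, hb2⟩ := local_value a hLoc (R₁ ⧸ p₁.asIdeal) (R₂ ⧸ p₂.asIdeal) Q hQ2
      r₁ r₂ q hr₁ hr₂ hq hbb n (by omega)
    have h5 := (hb2 P₁ P₂ p₁ p₂ ((support_quotient_prime _ _).2 le_rfl)
      ((support_quotient_prime _ _).2 le_rfl) hle₁ hle₂ hP₁ hP₂).1
    omega
  have hCQ := hC Q hIQ
  rw [hQd] at hCQ
  have hCQ' : d + z.length - q ≤ z.length := by exact_mod_cast hCQ
  constructor
  · omega
  · intro hdm
    have hqd : q = d := by omega
    have hPP : P₁ + P₂ = d := by omega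
    have hQz : (z.length : WithBot ℕ∞) ≤ Module.supportDim T (T ⧸ Q) := by
      rw [hQd]
      have : z.length ≤ d + z.length - q := by omega
      exact_mod_cast this
    have hQW : (⟨Q, hQp⟩ : PrimeSpectrum T) ∈ W := (hWmem _).2 ⟨hIQ, hQz⟩
    obtain ⟨b, hb1, -, hb2⟩ := local_value a hLoc N M Q (hmin ⟨Q, hQp⟩ hIQ hQz)
      r₁ r₂ q hr₁ hr₂ hq hbb n (by omega)
    have h6 := (hb2 P₁ P₂ p₁ p₂ hp₁ hp₂ hle₁ hle₂ hP₁ hP₂).2 (by omega)
    exact Finset.sum_pos' hterm ⟨_, hQW, mul_pos h6 ((heul Q hIQ).2 hQz)⟩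

end Vale.Agent.P177
end

section

/-!
Quotients of regular local rings with injective conormal map; smooth algebras.
-/

namespace Vale.Agent.P177

open Function IsLocalRing RingTheory.Sequence Pointwise

universe u

section lemK

theorem isWeaklyRegular_cons_of_quotient {P : Type u} [CommRing P] (y : P) (hy : IsSMulRegular P y)
    (zs : List P) (h : IsWeaklyRegular (P ⧸ Ideal.span {y})
      (zs.map (Ideal.Quotient.mk (Ideal.span {y})))) : IsWeaklyRegular P (y :: zs) := by
  rw [isWeaklyRegular_cons_iff']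
  refine ⟨hy, ?_⟩
  have heq : (Ideal.span {y} : Submodule P P) = y • ⊤ := by
    rw [← Submodule.ideal_span_singleton_smul, smul_eq_mul, Ideal.mul_top]
  refine (AddEquiv.isWeaklyRegular_congr
    (e := (Submodule.quotEquivOfEq _ _ heq).toAddEquiv) ?_).mp h
  refine List.forall₂_same.mpr fun t _ x => ?_
  obtain ⟨a, rfl⟩ := Ideal.Quotient.mk_surjective t
  change Submodule.quotEquivOfEq _ _ heq (algebraMap P (P ⧸ Ideal.span {y}) a • x) =
    algebraMap P (P ⧸ Ideal.span {y}) a • Submodule.quotEquivOfEq _ _ heq x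
  rw [algebraMap_smul, algebraMap_smul, map_smul]

theorem exists_regular_list (n : ℕ) (P : Type u) [CommRing P] [IsRegularLocalRing P]
    (hn : ringKrullDim P = n) (J : Ideal P) (hJm : J ≤ maximalIdeal P)
    (hJ : J ⊓ maximalIdeal P ^ 2 ≤ maximalIdeal P * J) :
    ∃ z : List P, Ideal.ofList z = J ∧ IsWeaklyRegular P z ∧ IsRegularLocalRing (P ⧸ J) := by
  induction n using Nat.strong_induction_on generalizing P J with
  | _ n ih =>
    by_cases hJ0 : J = ⊥
    · subst hJ0
      refine ⟨[], Ideal.ofList_nil, IsWeaklyRegular.nil P P, ?_⟩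
      exact IsRegularLocalRing.of_ringEquiv (RingEquiv.quotientBot P).symm
    · have h1 : ∃ y ∈ J, y ∉ maximalIdeal P * J := by
        by_contra hcon
        push Not at hcon
        apply hJ0
        refine Submodule.eq_bot_of_le_smul_of_le_jacobson_bot (maximalIdeal P) J
          (IsNoetherian.noetherian J) hcon ?_
        rw [IsLocalRing.jacobson_eq_maximalIdeal _ bot_ne_top]
      obtain ⟨y, hyJ, hy⟩ := h1
      have hy2 : y ∉ maximalIdeal P ^ 2 := fun h => hy (hJ ⟨hyJ, h⟩)
      obtain ⟨hreg, hdim⟩ := regular_quotient P y (hJm hyJ) hy2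
      have hdom : IsDomain P := regular_isDomain P
      have hy0 : y ≠ 0 := fun h => hy2 (h ▸ zero_mem _)
      obtain ⟨k, hk⟩ := exists_nat_eq_ringKrullDim (P ⧸ Ideal.span {y})
      have hkn : k + 1 = n := by
        rw [hk, hn] at hdim
        exact_mod_cast hdim
      have hspan : Ideal.span {y} ≤ J := by
        rw [Ideal.span_singleton_le_iff_mem]
        exact hyJ
      have hmm : (maximalIdeal P).map (Ideal.Quotient.mk (Ideal.span {y})) =
          maximalIdeal (P ⧸ Ideal.span {y}) :=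
        map_maximalIdeal_of_surjective _ Ideal.Quotient.mk_surjective
      obtain ⟨z', hz', hzr, hq⟩ := ih k (by omega) (P ⧸ Ideal.span {y}) hk
        (J.map (Ideal.Quotient.mk (Ideal.span {y}))) (by
          rw [← hmm]
          exact Ideal.map_mono hJm) (by
          rintro x' ⟨hx1, hx2⟩
          obtain ⟨x, hx, rfl⟩ := (Ideal.mem_map_iff_of_surjective _
            Ideal.Quotient.mk_surjective).1 hx1
          rw [← hmm, ← Ideal.map_pow] at hx2
          obtain ⟨u, hu, hux⟩ := (Ideal.mem_map_iff_of_surjective _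
            Ideal.Quotient.mk_surjective).1 hx2
          have h2 : u - x ∈ J := hspan ((Ideal.Quotient.mk_eq_mk_iff_sub_mem _ _).1 hux)
          have h3 : u ∈ J := by
            have := J.add_mem h2 hx
            rwa [sub_add_cancel] at this
          rw [← hux, ← hmm, ← Ideal.map_mul]
          exact Ideal.mem_map_of_mem _ (hJ ⟨h3, hu⟩))
      obtain ⟨zs, rfl⟩ : ∃ zs : List P, zs.map (Ideal.Quotient.mk (Ideal.span {y})) = z' :=
        (List.map_surjective_iff.2 Ideal.Quotient.mk_surjective) z'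
      refine ⟨y :: zs, ?_, isWeaklyRegular_cons_of_quotient y
        (IsRegular.of_ne_zero hy0).left.isSMulRegular zs hzr, ?_⟩
      · rw [← Ideal.map_ofList] at hz'
        have h4 := congrArg (Ideal.comap (Ideal.Quotient.mk (Ideal.span {y}))) hz'
        rw [Ideal.comap_map_of_surjective' _ Ideal.Quotient.mk_surjective,
          Ideal.comap_map_of_surjective' _ Ideal.Quotient.mk_surjective, Ideal.mk_ker,
          sup_eq_left.2 hspan] at h4
        rw [Ideal.ofList_cons, sup_comm, h4]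
      · exact IsRegularLocalRing.of_ringEquiv (DoubleQuot.quotQuotEquivQuotOfLE hspan)

end lemK

section lemS

/-- The conormal map of a surjection onto a formally smooth algebra is injective modulo the
maximal ideal. -/
theorem inf_sq_le_of_formallySmooth (A P S : Type u) [CommRing A] [CommRing P] [CommRing S]
    [Algebra A P] [Algebra A S] [IsLocalRing P] [Algebra.FormallySmooth A S]
    (f : P →ₐ[A] S) (hf : Surjective f) (hJm : RingHom.ker f ≤ maximalIdeal P) :
    RingHom.ker f ⊓ maximalIdeal P ^ 2 ≤ maximalIdeal P * RingHom.ker f := by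
  let J := RingHom.ker f
  let B := P ⧸ J ^ 2
  let g : B →ₐ[A] S := Ideal.Quotient.liftₐ (J ^ 2) f (by
    intro a ha
    have : a ∈ J := Ideal.pow_le_self two_ne_zero ha
    exact this)
  have hg : ∀ x : P, g (Ideal.Quotient.mk (J ^ 2) x) = f x := fun x => rfl
  have hgs : Surjective g := fun s => by
    obtain ⟨x, rfl⟩ := hf s
    exact ⟨_, hg x⟩
  have hker : ∀ b : B, g b = 0 → b ∈ J.map (Ideal.Quotient.mk (J ^ 2)) := by
    intro b hb
    obtain ⟨x, rfl⟩ := Ideal.Quotient.mk_surjective b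
    rw [hg] at hb
    exact Ideal.mem_map_of_mem _ hb
  have hnil : IsNilpotent (RingHom.ker (g : B →+* S)) := by
    refine ⟨2, ?_⟩
    rw [Ideal.zero_eq_bot, eq_bot_iff]
    have h1 : RingHom.ker (g : B →+* S) ≤ J.map (Ideal.Quotient.mk (J ^ 2)) := hker
    refine (Ideal.pow_right_mono h1 2).trans ?_
    rw [← Ideal.map_pow, Ideal.map_quotient_self]
  let σ : S →ₐ[A] B := Algebra.FormallySmooth.liftOfSurjective (AlgHom.id A S) g hgs hnil
  have hσ : ∀ s, g (σ s) = s := fun s =>
    Algebra.FormallySmooth.liftOfSurjective_apply (AlgHom.id A S) g hgs hnil s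
  have hδ : ∀ x : P, Ideal.Quotient.mk (J ^ 2) x - σ (f x) ∈
      J.map (Ideal.Quotient.mk (J ^ 2)) := by
    intro x
    apply hker
    rw [map_sub, hg, hσ, sub_self]
  have key : ∀ x ∈ maximalIdeal P ^ 2, Ideal.Quotient.mk (J ^ 2) x - σ (f x) ∈
      (maximalIdeal P * J).map (Ideal.Quotient.mk (J ^ 2)) := by
    intro x hx
    rw [pow_two] at hx
    induction hx using Submodule.mul_induction_on' with
    | mem_mul_mem a ha b hb =>
      have h1 : Ideal.Quotient.mk (J ^ 2) (a * b) - σ (f (a * b)) =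
          Ideal.Quotient.mk (J ^ 2) a * (Ideal.Quotient.mk (J ^ 2) b - σ (f b)) +
          σ (f b) * (Ideal.Quotient.mk (J ^ 2) a - σ (f a)) := by
        rw [map_mul, map_mul, map_mul]
        ring
      rw [h1, Ideal.map_mul]
      refine add_mem (Ideal.mul_mem_mul (Ideal.mem_map_of_mem _ ha) (hδ b))
        (Ideal.mul_mem_mul ?_ (hδ a))
      have h2 : σ (f b) = Ideal.Quotient.mk (J ^ 2) b -
          (Ideal.Quotient.mk (J ^ 2) b - σ (f b)) := by ring
      rw [h2]
      exact sub_mem (Ideal.mem_map_of_mem _ hb) (Ideal.map_mono hJm (hδ b))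
    | add x _ y _ hx hy =>
      have h1 : Ideal.Quotient.mk (J ^ 2) (x + y) - σ (f (x + y)) =
          (Ideal.Quotient.mk (J ^ 2) x - σ (f x)) +
          (Ideal.Quotient.mk (J ^ 2) y - σ (f y)) := by
        rw [map_add, map_add, map_add]
        ring
      rw [h1]
      exact add_mem hx hy
  rintro x ⟨hx1, hx2⟩
  have h3 := key x hx2
  have h4 : f x = 0 := hx1
  rw [h4, map_zero, sub_zero] at h3
  have h5 := Ideal.mem_comap.2 h3
  rw [Ideal.comap_map_of_surjective' _ Ideal.Quotient.mk_surjective, Ideal.mk_ker] at h5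
  have h6 : J ^ 2 ≤ maximalIdeal P * J := by
    rw [pow_two]
    exact Ideal.mul_mono_left hJm
  exact (sup_le le_rfl h6 : maximalIdeal P * J ⊔ J ^ 2 ≤ maximalIdeal P * J) h5

/-- A regular local algebra surjecting onto a formally smooth one. -/
theorem exists_regular_list_of_formallySmooth (A P S : Type u) [CommRing A] [CommRing P]
    [CommRing S] [Algebra A P] [Algebra A S] [IsRegularLocalRing P] [Nontrivial S]
    [Algebra.FormallySmooth A S] (f : P →ₐ[A] S) (hf : Surjective f) :
    IsRegularLocalRing S ∧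
      ∃ z : List P, Ideal.ofList z = RingHom.ker f ∧ IsWeaklyRegular P z := by
  have hJm : RingHom.ker f ≤ maximalIdeal P := by
    apply le_maximalIdeal
    intro h
    have h1 : (1 : P) ∈ RingHom.ker f := by rw [h]; trivial
    have h2 : f 1 = 0 := h1
    rw [map_one] at h2
    exact one_ne_zero h2
  obtain ⟨n, hn⟩ := exists_nat_eq_ringKrullDim P
  obtain ⟨z, h1, h2, h3⟩ := exists_regular_list n P hn (RingHom.ker f) hJm
    (inf_sq_le_of_formallySmooth A P S f hf hJm)
  have h4 : IsRegularLocalRing (P ⧸ RingHom.ker (f : P →+* S)) := h3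
  exact ⟨IsRegularLocalRing.of_ringEquiv (RingHom.quotientKerEquivOfSurjective (f := (f : P →+* S))
    hf), z, h1, h2⟩

end lemS

section ess

/-- A local algebra essentially of finite type is a quotient of a localization of a polynomial
ring at a prime. -/
theorem exists_surjective_localization (A S : Type u) [CommRing A] [CommRing S] [Algebra A S]
    [IsLocalRing S] [Algebra.EssFiniteType A S] :
    ∃ (σ : Finset S) (𝔭 : Ideal (MvPolynomial σ A)) (_ : 𝔭.IsPrime)
      (f : Localization.AtPrime 𝔭 →ₐ[A] S), Surjective f := by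
  obtain ⟨σ, hσ⟩ := (Algebra.essFiniteType_iff A S).1 inferInstance
  let g : MvPolynomial σ A →ₐ[A] S := MvPolynomial.aeval fun i : σ => (i : S)
  have hg : ∀ s ∈ Algebra.adjoin A (σ : Set S), ∃ x, g x = s := by
    intro s hs
    have h1 : Algebra.adjoin A (σ : Set S) = g.range := by
      rw [Algebra.adjoin_eq_range]
      rfl
    rw [h1] at hs
    exact hs
  let 𝔭 : Ideal (MvPolynomial σ A) := (maximalIdeal S).comap g
  have h𝔭 : 𝔭.IsPrime := Ideal.IsPrime.comap _
  have hunit : ∀ y : 𝔭.primeCompl, IsUnit (g y) := by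
    intro y
    by_contra hcon
    exact y.2 ((mem_maximalIdeal _).2 hcon)
  let f : Localization.AtPrime 𝔭 →ₐ[A] S := IsLocalization.liftAlgHom (M := 𝔭.primeCompl)
    (S := Localization.AtPrime 𝔭) (f := g) hunit
  have hf : ∀ x, f (algebraMap _ _ x) = g x := by
    intro x
    exact IsLocalization.lift_eq (S := Localization.AtPrime 𝔭) (g := (g : _ →+* S)) hunit x
  refine ⟨σ, 𝔭, h𝔭, f, ?_⟩
  intro s
  obtain ⟨t, ht, htu, hst⟩ := hσ s
  obtain ⟨a, ha⟩ := hg _ hst
  obtain ⟨b, hb⟩ := hg t ht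
  have hb' : b ∈ 𝔭.primeCompl := by
    intro hb2
    have : g b ∈ maximalIdeal S := hb2
    rw [hb] at this
    exact this htu
  refine ⟨IsLocalization.mk' _ a (⟨b, hb'⟩ : 𝔭.primeCompl), ?_⟩
  have h2 := congrArg f (IsLocalization.mk'_spec (Localization.AtPrime 𝔭) a
    (⟨b, hb'⟩ : 𝔭.primeCompl))
  rw [map_mul, hf, hf] at h2
  change _ * g b = g a at h2
  rw [ha, hb] at h2
  exact htu.mul_right_cancel h2

/-- Essentially smooth local algebras over a regular local ring are regular and flat. -/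
theorem regular_flat_of_essSmooth (A S : Type u) [CommRing A] [CommRing S] [Algebra A S]
    [IsRegularLocalRing A] [IsLocalRing S] [Algebra.EssFiniteType A S]
    [Algebra.FormallySmooth A S] : IsRegularLocalRing S ∧ Module.Flat A S := by
  obtain ⟨σ, 𝔭, h𝔭, f, hf⟩ := exists_surjective_localization A S
  have h1 : IsRegularRing A := isRegularRing_of_isRegularLocalRing A
  have h2 : IsRegularRing (MvPolynomial σ A) := inferInstance
  have h3 : IsRegularLocalRing (Localization.AtPrime 𝔭) :=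
    h2.isRegularLocalRing_localization 𝔭
  refine ⟨(exists_regular_list_of_formallySmooth A _ S f hf).1, ?_⟩
  exact Algebra.FormallySmooth.flat_of_algHom_of_isNoetherianRing f hf

end ess

end Vale.Agent.P177
end

section

/-!
Positivity for essentially smooth algebras over a regular local ring of small dimension, from the
local positivity statement.
-/

namespace Vale.Agent.P177

open CategoryTheory TensorProduct Function IsLocalRing RingTheory.Sequence Pointwise

universe u

/-- `global_pos` with explicit ring homomorphisms. -/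
theorem global_pos_hom {R₁ R₂ T : Type u} [CommRing R₁] [CommRing R₂] [CommRing T]
    [IsRegularLocalRing R₁] [IsRegularLocalRing R₂] [IsRegularLocalRing T]
    (i₁ : R₁ →+* T) (i₂ : R₂ →+* T) (h₁ : i₁.Flat) (h₂ : i₂.Flat)
    (a : ℕ) (hLoc : LocPos.{u} a)
    (μ : T →+* R₁) (hμ : ∀ s, μ (i₁ s) = s) (z : List T)
    (hkerμ : RingHom.ker μ = Ideal.ofList z) (hz : IsWeaklyRegular T z)
    (θ : R₂ ≃+* R₁) (hθ : ∀ s, μ (i₂ s) = θ s)
    (d : ℕ) (hd : ringKrullDim R₁ = d)
    (hb : ∀ (Q : Ideal T) [Q.IsPrime] (r₁ r₂ q : ℕ), (Q.comap i₁).height = r₁ →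
      (Q.comap i₂).height = r₂ → Q.height = q → r₁ + r₂ ≤ q + a)
    (M N : Type u) [AddCommGroup M] [Module R₂ M] [Module.Finite R₂ M]
    [AddCommGroup N] [Module R₁ N] [Module R₂ N] [Module.Finite R₁ N]
    (hN : ∀ (s : R₂) (t : N), s • t = θ s • t)
    (hlen : Module.length R₂ (M ⊗[R₂] N) ≠ ⊤) :
    0 ≤ eulerTor R₂ (d + 1) M N ∧ ∀ m n : ℕ, (m : WithBot ℕ∞) ≤ Module.supportDim R₂ M →
      (n : WithBot ℕ∞) ≤ Module.supportDim R₁ N →
      (m + n ≤ d) ∧ (d ≤ m + n → 0 < eulerTor R₂ (d + 1) M N) := by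
  let _ : Algebra R₁ T := i₁.toAlgebra
  let _ : Algebra R₂ T := i₂.toAlgebra
  have : Module.Flat R₁ T := h₁
  have : Module.Flat R₂ T := h₂
  exact global_pos a hLoc μ hμ z hkerμ hz θ hθ d hd hb M N hN hlen

theorem serre_essSmooth (a : ℕ) (hLoc : LocPos.{u} a) (A R : Type u) [CommRing A]
    [IsRegularLocalRing A] (hA : ringKrullDim A ≤ a) [CommRing R] [IsLocalRing R] [Algebra A R]
    [Algebra.EssFiniteType A R] [Algebra.FormallySmooth A R] (d : ℕ) (hd : ringKrullDim R = d)
    (M N : Type u) [AddCommGroup M] [Module R M] [Module.Finite R M]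
    [AddCommGroup N] [Module R N] [Module.Finite R N]
    (hlen : Module.length R (M ⊗[R] N) ≠ ⊤) :
    0 ≤ eulerTor R (d + 1) M N ∧ ∀ m n : ℕ, (m : WithBot ℕ∞) ≤ Module.supportDim R M →
      (n : WithBot ℕ∞) ≤ Module.supportDim R N →
      (m + n ≤ d) ∧ (d ≤ m + n → 0 < eulerTor R (d + 1) M N) := by
  obtain ⟨hR, hflat⟩ := regular_flat_of_essSmooth A R
  let μ₀ : R ⊗[A] R →ₐ[R] R := Algebra.TensorProduct.lift (AlgHom.id R R) (AlgHom.id A R)
    (fun x y => mul_comm _ _)
  have hμ₀ : ∀ x y, μ₀ (x ⊗ₜ y) = x * y := fun x y => Algebra.TensorProduct.lift_tmul _ _ _ _ _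
  let 𝔐 : Ideal (R ⊗[A] R) := (maximalIdeal R).comap μ₀
  have h𝔐 : 𝔐.IsPrime := Ideal.IsPrime.comap _
  have hunit : ∀ y : 𝔐.primeCompl, IsUnit (μ₀ y) := by
    intro y
    by_contra hcon
    exact y.2 ((mem_maximalIdeal _).2 hcon)
  let μ : Localization.AtPrime 𝔐 →ₐ[R] R := IsLocalization.liftAlgHom (M := 𝔐.primeCompl)
    (S := Localization.AtPrime 𝔐) (f := μ₀) hunit
  have hμ : ∀ x, μ (algebraMap _ _ x) = μ₀ x := by
    intro x
    exact IsLocalization.lift_eq (S := Localization.AtPrime 𝔐) (g := (μ₀ : _ →+* R)) hunit x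
  have hμs : Surjective μ := fun s => ⟨algebraMap R _ s, μ.commutes s⟩
  have f1 : Algebra.FormallySmooth (R ⊗[A] R) (Localization.AtPrime 𝔐) :=
    Algebra.FormallySmooth.of_isLocalization 𝔐.primeCompl
  have f2 : Algebra.FormallySmooth R (Localization.AtPrime 𝔐) :=
    Algebra.FormallySmooth.comp R (R ⊗[A] R) (Localization.AtPrime 𝔐)
  obtain ⟨hT, hTflat⟩ := regular_flat_of_essSmooth R (Localization.AtPrime 𝔐)
  obtain ⟨-, z, hz1, hz2⟩ := exists_regular_list_of_formallySmooth R (Localization.AtPrime 𝔐) R μ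
    hμs
  have hN1 : IsNoetherianRing (R ⊗[A] R) := Algebra.EssFiniteType.isNoetherianRing R (R ⊗[A] R)
  have hflat1 : (algebraMap R (Localization.AtPrime 𝔐)).Flat := by
    rw [RingHom.flat_algebraMap_iff]
    exact hTflat
  have hflat2 : ((algebraMap (R ⊗[A] R) (Localization.AtPrime 𝔐)).comp
      ((Algebra.TensorProduct.includeRight : R →ₐ[A] R ⊗[A] R) : R →+* R ⊗[A] R)).Flat := by
    refine (flat_includeRight A R R).comp ?_
    rw [RingHom.flat_algebraMap_iff]
    exact IsLocalization.flat _ 𝔐.primeCompl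
  refine global_pos_hom (algebraMap R (Localization.AtPrime 𝔐))
    ((algebraMap (R ⊗[A] R) (Localization.AtPrime 𝔐)).comp
      ((Algebra.TensorProduct.includeRight : R →ₐ[A] R ⊗[A] R) : R →+* R ⊗[A] R))
    hflat1 hflat2 a hLoc (μ : Localization.AtPrime 𝔐 →+* R) (fun s => μ.commutes s) z hz1.symm hz2
    (RingEquiv.refl R) ?_ d hd ?_ M N (fun s t => rfl) hlen
  · intro s
    change μ (algebraMap (R ⊗[A] R) _ (1 ⊗ₜ s)) = s
    rw [hμ, hμ₀, one_mul]
  · intro Q hQ r₁ r₂ q h₁ h₂ hq
    have hQ' : (Q.comap (algebraMap (R ⊗[A] R) (Localization.AtPrime 𝔐))).IsPrime :=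
      Ideal.IsPrime.comap _
    have h5 := height_bound (Q.comap (algebraMap (R ⊗[A] R) (Localization.AtPrime 𝔐)))
    have h6 : (Q.comap (algebraMap (R ⊗[A] R) (Localization.AtPrime 𝔐))).height = q := by
      rw [← hq]
      exact IsLocalization.height_under 𝔐.primeCompl Q
    have h7 : ((Q.comap (algebraMap (R ⊗[A] R) (Localization.AtPrime 𝔐))).comap
        (algebraMap R (R ⊗[A] R))).height = r₁ := by
      rw [← h₁, Ideal.comap_comap, ← IsScalarTower.algebraMap_eq]
    have h8 : ((Q.comap (algebraMap (R ⊗[A] R) (Localization.AtPrime 𝔐))).comap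
        (Algebra.TensorProduct.includeRight : R →ₐ[A] R ⊗[A] R)).height = r₂ := by
      rw [← h₂]
      rfl
    have hq3 : ((Q.comap (algebraMap (R ⊗[A] R) (Localization.AtPrime 𝔐))).comap
        (algebraMap A (R ⊗[A] R))).IsPrime := Ideal.IsPrime.comap _
    have h9 := Ideal.height_le_ringKrullDim_of_ne_top hq3.ne_top
    have h10 := h9.trans hA
    have h11 : ((Q.comap (algebraMap (R ⊗[A] R) (Localization.AtPrime 𝔐))).comap
        (algebraMap A (R ⊗[A] R))).height ≤ (a : ℕ∞) := by exact_mod_cast h10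
    rw [h6, h7, h8] at h5
    have h12 : ((r₁ : ℕ∞) + r₂) ≤ q + a := h5.trans (by gcongr)
    exact_mod_cast h12

end Vale.Agent.P177
end

section

/-!
Serre's statements for power series rings over a regular local ring of small dimension.
-/

namespace Vale.Agent.P177

open CategoryTheory TensorProduct Function IsLocalRing RingTheory.Sequence Pointwise

section

variable (A : Type*) [CommRing A] (n : ℕ)

theorem idealX_eq_sup :
    (Ideal.span (Set.range MvPowerSeries.X) : Ideal (MvPowerSeries (Fin n ⊕ Fin n) A)) =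
      Ideal.span (Set.range (fun j : Fin n => MvPowerSeries.X (Sum.inl j))) ⊔
      Ideal.span (Set.range (fun j : Fin n => MvPowerSeries.X (Sum.inr j))) := by
  rw [← Ideal.span_union]
  congr 1
  ext x
  simp

/-- The diagonal elements. -/
noncomputable def diagListGen : List (MvPowerSeries (Fin n ⊕ Fin n) A) :=
  List.ofFn (fun j : Fin n => MvPowerSeries.X (Sum.inl j) - MvPowerSeries.X (Sum.inr j))

theorem ofList_diagListGen : Ideal.ofList (diagListGen A n) =
    Ideal.span (Set.range (fun j : Fin n =>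
      (MvPowerSeries.X (Sum.inl j) - MvPowerSeries.X (Sum.inr j) :
        MvPowerSeries (Fin n ⊕ Fin n) A))) := by
  rw [Ideal.ofList, diagListGen]
  congr 1
  ext x
  simp [List.mem_ofFn]

theorem map_idealX_rename (e : Fin n ↪ Fin n ⊕ Fin n) :
    (Ideal.span (Set.range MvPowerSeries.X) : Ideal (MvPowerSeries (Fin n) A)).map
      (MvPowerSeries.rename (R := A) e).toRingHom =
      Ideal.span (Set.range (fun j : Fin n => MvPowerSeries.X (e j))) := by
  rw [Ideal.map_span, ← Set.range_comp]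
  congr 2
  ext1 j
  exact MvPowerSeries.rename_X e j

theorem idealX_eq_sup' :
    (Ideal.span (Set.range MvPowerSeries.X) : Ideal (MvPowerSeries (Fin n ⊕ Fin n) A)) =
      Ideal.span (Set.range (fun j : Fin n => MvPowerSeries.X (Sum.inl j))) ⊔
      Ideal.ofList (diagListGen A n) := by
  rw [idealX_eq_sup, ofList_diagListGen]
  apply le_antisymm
  · refine sup_le le_sup_left ?_
    rw [Ideal.span_le]
    rintro _ ⟨j, rfl⟩
    have h1 : (MvPowerSeries.X (Sum.inl j) : MvPowerSeries (Fin n ⊕ Fin n) A) ∈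
        Ideal.span (Set.range (fun j : Fin n =>
          (MvPowerSeries.X (Sum.inl j) : MvPowerSeries (Fin n ⊕ Fin n) A))) :=
      Ideal.subset_span ⟨j, rfl⟩
    have h2 : (MvPowerSeries.X (Sum.inl j) - MvPowerSeries.X (Sum.inr j) :
        MvPowerSeries (Fin n ⊕ Fin n) A) ∈ Ideal.span (Set.range (fun j : Fin n =>
          (MvPowerSeries.X (Sum.inl j) - MvPowerSeries.X (Sum.inr j) :
          MvPowerSeries (Fin n ⊕ Fin n) A))) :=
      Ideal.subset_span ⟨j, rfl⟩
    have h3 := Ideal.sub_mem _ (Ideal.mem_sup_left h1) (Ideal.mem_sup_right h2)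
    rwa [sub_sub_cancel] at h3
  · refine sup_le le_sup_left ?_
    rw [Ideal.span_le]
    rintro _ ⟨j, rfl⟩
    exact Ideal.sub_mem _ (Ideal.mem_sup_left (Ideal.subset_span ⟨j, rfl⟩))
      (Ideal.mem_sup_right (Ideal.subset_span ⟨j, rfl⟩))

theorem sub_C_mem_gen (σ : Type*) [Finite σ] (b : MvPowerSeries σ A) :
    b - MvPowerSeries.C (MvPowerSeries.constantCoeff b) ∈
      (Ideal.span (Set.range MvPowerSeries.X) : Ideal (MvPowerSeries σ A)) := by
  apply mem_span_X_of_constantCoeff_eq_zero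
  simp

variable [IsRegularLocalRing A]

theorem isWeaklyRegular_diagListGen {a : ℕ} (ha : ringKrullDim A = a) :
    IsWeaklyRegular (MvPowerSeries (Fin n ⊕ Fin n) A) (diagListGen A n) := by
  obtain ⟨hreg, hdim⟩ := mvPowerSeries_regular (A := A) (n + n) (finSumFinEquiv (m := n) (n := n)) ha
  obtain ⟨rs, hrs, hlen⟩ := exists_list_maximalIdeal A
  have hlen' : rs.length = a := by
    rw [ha] at hlen
    exact_mod_cast hlen
  have h1 := isRegular_of_ofList_eq_maximalIdeal (MvPowerSeries (Fin n ⊕ Fin n) A)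
    (diagListGen A n ++ (List.ofFn (fun j : Fin n => MvPowerSeries.X (Sum.inl j)) ++
      rs.map (MvPowerSeries.C (σ := Fin n ⊕ Fin n)))) (by
      rw [Ideal.ofList_append, Ideal.ofList_append, ← Ideal.map_ofList, hrs,
        mvPowerSeries_maximalIdeal_gen, idealX_eq_sup', ← sup_assoc, sup_comm,
        sup_comm (Ideal.ofList (diagListGen A n))]
      congr 2
      rw [Ideal.ofList]
      congr 1
      ext x
      simp [List.mem_ofFn]) (by
      rw [hdim]
      simp only [List.length_append, List.length_ofFn, List.length_map, hlen', diagListGen]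
      congr 1
      omega)
  exact ((isWeaklyRegular_append_iff _ _ _).mp h1.toIsWeaklyRegular).1

end

universe u

/-- Serre's statements for power series rings over a regular local ring. -/
theorem serre_powerSeries (a : ℕ) (hLoc : LocPos.{u} a) (A : Type u) [CommRing A]
    [IsRegularLocalRing A] (hA : ringKrullDim A ≤ a) (n : ℕ) (d : ℕ)
    (hd : ringKrullDim (MvPowerSeries (Fin n) A) = d)
    (M N : Type u) [AddCommGroup M] [Module (MvPowerSeries (Fin n) A) M]
    [Module.Finite (MvPowerSeries (Fin n) A) M]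
    [AddCommGroup N] [Module (MvPowerSeries (Fin n) A) N]
    [Module.Finite (MvPowerSeries (Fin n) A) N]
    (hlen : Module.length (MvPowerSeries (Fin n) A) (M ⊗[MvPowerSeries (Fin n) A] N) ≠ ⊤) :
    0 ≤ eulerTor (MvPowerSeries (Fin n) A) (d + 1) M N ∧ ∀ m n' : ℕ,
      (m : WithBot ℕ∞) ≤ Module.supportDim (MvPowerSeries (Fin n) A) M →
      (n' : WithBot ℕ∞) ≤ Module.supportDim (MvPowerSeries (Fin n) A) N →
      (m + n' ≤ d) ∧ (d ≤ m + n' → 0 < eulerTor (MvPowerSeries (Fin n) A) (d + 1) M N) := by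
  obtain ⟨a', ha'⟩ : ∃ a' : ℕ, ringKrullDim A = a' := by
    obtain ⟨rs, -, hlen⟩ := exists_list_maximalIdeal A
    exact ⟨_, hlen.symm⟩
  have haa : a' ≤ a := by
    rw [ha'] at hA
    exact_mod_cast hA
  obtain ⟨hregR, hdimR⟩ := mvPowerSeries_regular (A := A) n (Equiv.refl (Fin n)) ha'
  obtain ⟨hregT, hdimT⟩ :=
    mvPowerSeries_regular (A := A) (n + n) (finSumFinEquiv (m := n) (n := n)) ha'
  have hcomp : IsAdicComplete (Ideal.span (Set.range MvPowerSeries.X) :
    Ideal (MvPowerSeries (Fin n) A)) (MvPowerSeries (Fin n) A) := inferInstance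
  have hker : RingHom.ker (MvPowerSeries.rename (R := A)
      (Sum.elim id id : Fin n ⊕ Fin n → Fin n)).toRingHom = Ideal.ofList (diagListGen A n) := by
    refine ker_le_of_retraction_ideal (Ideal.span (Set.range MvPowerSeries.X))
      (MvPowerSeries.rename (R := A) (Embedding.inl : Fin n ↪ Fin n ⊕ Fin n)).toRingHom
      _ ?_ (Ideal.ofList (diagListGen A n)) (Ideal.span (Set.range MvPowerSeries.X)) ?_ ?_ ?_ ?_
    · ext1 p
      change MvPowerSeries.rename (Sum.elim id id) (MvPowerSeries.rename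
        (Function.Embedding.inl : Fin n ↪ Fin n ⊕ Fin n) p) = p
      rw [MvPowerSeries.rename_rename]
      exact MvPowerSeries.rename_id_apply p
    · rw [ofList_diagListGen, Ideal.span_le]
      rintro _ ⟨j, rfl⟩
      change MvPowerSeries.rename (Sum.elim id id) _ = 0
      rw [map_sub, MvPowerSeries.rename_X, MvPowerSeries.rename_X]
      simp
    · rw [mvPowerSeries_maximalIdeal_gen]
      exact le_sup_right
    · rw [map_idealX_rename, idealX_eq_sup']
      rfl
    · intro b
      refine ⟨MvPowerSeries.C (MvPowerSeries.constantCoeff b), ?_⟩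
      have h1 : (MvPowerSeries.rename (R := A)
          (Function.Embedding.inl : Fin n ↪ Fin n ⊕ Fin n)).toRingHom
          (MvPowerSeries.C (MvPowerSeries.constantCoeff b)) =
          MvPowerSeries.C (MvPowerSeries.constantCoeff b) := MvPowerSeries.rename_C _ _
      rw [h1]
      exact sub_C_mem_gen A _ b
  have hsup : (maximalIdeal (MvPowerSeries (Fin n) A)).map (MvPowerSeries.rename (R := A)
      (Embedding.inl : Fin n ↪ Fin n ⊕ Fin n)).toRingHom ⊔
      (maximalIdeal (MvPowerSeries (Fin n) A)).map (MvPowerSeries.rename (R := A)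
      (Embedding.inr : Fin n ↪ Fin n ⊕ Fin n)).toRingHom =
      maximalIdeal (MvPowerSeries (Fin n ⊕ Fin n) A) := by
    have hC : ∀ e : Fin n ↪ Fin n ⊕ Fin n, ((maximalIdeal A).map
        (MvPowerSeries.C (σ := Fin n))).map (MvPowerSeries.rename (R := A) e).toRingHom =
        (maximalIdeal A).map (MvPowerSeries.C (σ := Fin n ⊕ Fin n)) := by
      intro e
      rw [Ideal.map_map]
      congr 1
      ext1 x
      exact MvPowerSeries.rename_C _ _
    rw [mvPowerSeries_maximalIdeal_gen, mvPowerSeries_maximalIdeal_gen, Ideal.map_sup,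
      Ideal.map_sup, map_idealX_rename, map_idealX_rename, hC, hC, ← sup_sup_distrib_left,
      idealX_eq_sup]
    rfl
  have hdd : d = a' + n := by
    rw [hd] at hdimR
    exact_mod_cast hdimR
  refine global_pos_hom
    (MvPowerSeries.rename (R := A) (Embedding.inl : Fin n ↪ Fin n ⊕ Fin n)).toRingHom
    (MvPowerSeries.rename (R := A) (Embedding.inr : Fin n ↪ Fin n ⊕ Fin n)).toRingHom
    (flat_rename _) (flat_rename _) a hLoc
    (MvPowerSeries.rename (R := A) (Sum.elim id id : Fin n ⊕ Fin n → Fin n)).toRingHom ?_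
    (diagListGen A n) hker (isWeaklyRegular_diagListGen A n ha')
    (RingEquiv.refl _) ?_ d hd ?_ M N (fun s t => rfl) hlen
  · intro p
    change MvPowerSeries.rename (Sum.elim id id) (MvPowerSeries.rename
      (Function.Embedding.inl : Fin n ↪ Fin n ⊕ Fin n) p) = p
    rw [MvPowerSeries.rename_rename]
    exact MvPowerSeries.rename_id_apply p
  · intro p
    change MvPowerSeries.rename (Sum.elim id id) (MvPowerSeries.rename
      (Function.Embedding.inr : Fin n ↪ Fin n ⊕ Fin n) p) = p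
    rw [MvPowerSeries.rename_rename]
    exact MvPowerSeries.rename_id_apply p
  · intro Q hQ r₁ r₂ q h₁ h₂ hq
    have h3 := height_le_of_sup _ _ hdimR hdimT hsup (a := a') (by omega) Q r₁ r₂ q h₁ h₂ hq
    omega

end Vale.Agent.P177
end

section

/-!
Descent of Serre's statements along flat local maps with trivial closed fibre.
-/

namespace Vale.Agent.P177

open CategoryTheory TensorProduct Function IsLocalRing RingTheory.Sequence Pointwise

universe u

/-- Serre's statements for all pairs of modules over a ring of dimension `d`. -/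
def SerreAll (R : Type u) [CommRing R] (d : ℕ) : Prop :=
  ∀ (M N : Type u) [AddCommGroup M] [Module R M] [Module.Finite R M]
    [AddCommGroup N] [Module R N] [Module.Finite R N],
    Module.length R (M ⊗[R] N) ≠ ⊤ →
    0 ≤ eulerTor R (d + 1) M N ∧ ∀ m n : ℕ, (m : WithBot ℕ∞) ≤ Module.supportDim R M →
      (n : WithBot ℕ∞) ≤ Module.supportDim R N →
      (m + n ≤ d) ∧ (d ≤ m + n → 0 < eulerTor R (d + 1) M N)

theorem serreAll_essSmooth (a : ℕ) (hLoc : LocPos.{u} a) (A R : Type u) [CommRing A]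
    [IsRegularLocalRing A] (hA : ringKrullDim A ≤ a) [CommRing R] [IsLocalRing R] [Algebra A R]
    [Algebra.EssFiniteType A R] [Algebra.FormallySmooth A R] (d : ℕ) (hd : ringKrullDim R = d) :
    SerreAll R d :=
  fun M N _ _ _ _ _ _ hlen => serre_essSmooth a hLoc A R hA d hd M N hlen

theorem serreAll_powerSeries (a : ℕ) (hLoc : LocPos.{u} a) (A : Type u) [CommRing A]
    [IsRegularLocalRing A] (hA : ringKrullDim A ≤ a) (n : ℕ) (d : ℕ)
    (hd : ringKrullDim (MvPowerSeries (Fin n) A) = d) : SerreAll (MvPowerSeries (Fin n) A) d :=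
  fun M N _ _ _ _ _ _ hlen => serre_powerSeries a hLoc A hA n d hd M N hlen

section

variable {R C : Type u} [CommRing R] [CommRing C] [IsLocalRing R] [IsNoetherianRing R]
  [IsLocalRing C] [IsNoetherianRing C] [Algebra R C] [Module.Flat R C]

theorem SerreAll.descend (hloc : (maximalIdeal R).map (algebraMap R C) = maximalIdeal C) {d : ℕ}
    (h : SerreAll C d) : SerreAll R d := by
  intro M N _ _ _ _ _ _ hlen
  have e : (C ⊗[R] M) ⊗[C] (C ⊗[R] N) ≃ₗ[C] C ⊗[R] (M ⊗[R] N) :=
    (AlgebraTensorModule.distribBaseChange R C M N).symm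
  have hlenC : Module.length C ((C ⊗[R] M) ⊗[C] (C ⊗[R] N)) ≠ ⊤ := by
    rw [e.length_eq, length_baseChange' R C hloc]
    exact hlen
  obtain ⟨h1, h2⟩ := h (C ⊗[R] M) (C ⊗[R] N) hlenC
  have heq : eulerTor C (d + 1) (C ⊗[R] M) (C ⊗[R] N) = eulerTor R (d + 1) M N := by
    unfold eulerTor
    refine Finset.sum_congr rfl fun j _ => ?_
    rw [length_tor_bc₂ (A := R) (C := C) hloc j (TensorProduct.isBaseChange R M C)
      (TensorProduct.isBaseChange R N C)]
  rw [heq] at h1 h2
  exact ⟨h1, fun m n hm hn => h2 m n (hm.trans (supportDim_le_baseChange R C hloc M))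
    (hn.trans (supportDim_le_baseChange R C hloc N))⟩

end

theorem ringKrullDim_eq_of_flat {R C : Type u} [CommRing R] [CommRing C] [IsRegularLocalRing R]
    [IsLocalRing C] [IsNoetherianRing C] [Algebra R C] [Module.Flat R C]
    (hloc : (maximalIdeal R).map (algebraMap R C) = maximalIdeal C) :
    ringKrullDim C = ringKrullDim R := by
  obtain ⟨rs, hrs, hlen⟩ := exists_list_maximalIdeal R
  have hreg := isRegular_of_ofList_eq_maximalIdeal R rs hrs hlen
  have h1 : IsWeaklyRegular C (rs.map (algebraMap R C)) := hreg.toIsWeaklyRegular.of_flat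
  have h2 := length_le_height (maximalIdeal C) _ (fun z hz => by
    rw [List.mem_map] at hz
    obtain ⟨y, hy, rfl⟩ := hz
    rw [← hloc]
    exact Ideal.mem_map_of_mem _ (by rw [← hrs]; exact Ideal.subset_span hy)) h1
  rw [List.length_map] at h2
  have h3 : (rs.length : WithBot ℕ∞) ≤ ringKrullDim C := by
    refine le_trans ?_ (Ideal.height_le_ringKrullDim_of_isPrime (I := maximalIdeal C))
    exact_mod_cast h2
  have h4 := isRegularLocalRing_of_list (B := C) (rs.map (algebraMap R C)) (by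
    rw [← Ideal.map_ofList, hrs, hloc]) (by rw [List.length_map]; exact h3)
  rw [h4.2, List.length_map, hlen]

end Vale.Agent.P177
end

section

/-! Coefficient fields of complete local rings of prime characteristic. -/

namespace Vale.Agent.P177

open IsLocalRing Polynomial

/-- A surjection from a ring of characteristic `p` onto a field with square-zero kernel
has a section. -/
theorem exists_section_of_sq_zero {B k : Type*} [CommRing B] [Field k] (p : ℕ) [Fact p.Prime]
    [CharP B p] (π : B →+* k) (hπ : Function.Surjective π) (hI : (RingHom.ker π) ^ 2 = ⊥) :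
    ∃ s : k →+* B, π.comp s = RingHom.id k := by
  classical
  have hp : p.Prime := Fact.out
  have hchar : CharP k p := by
    have h0 : (p : k) = 0 := by
      rw [← map_natCast π, CharP.cast_eq_zero, map_zero]
    exact (CharP.charP_iff_prime_eq_zero hp).mpr h0
  have hsq : ∀ b : B, π b = 0 → b ^ 2 = 0 := by
    intro b hb
    have : b ^ 2 ∈ (RingHom.ker π) ^ 2 := Ideal.pow_mem_pow (RingHom.mem_ker.mpr hb) 2
    rw [hI] at this
    simpa using this
  have hpow : ∀ b : B, π b = 0 → b ^ p = 0 := by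
    intro b hb
    obtain ⟨c, hc⟩ := Nat.exists_eq_add_of_le hp.two_le
    rw [hc, pow_add, hsq b hb, zero_mul]
  have hunit : ∀ b : B, π b ≠ 0 → IsUnit b := by
    intro b hb
    obtain ⟨c, hc⟩ := hπ (π b)⁻¹
    have h1 : π (b * c - 1) = 0 := by
      rw [map_sub, map_mul, hc, mul_inv_cancel₀ hb, map_one, sub_self]
    have h2 := hsq _ h1
    have h3 : b * (c * (2 - b * c)) = 1 := by
      linear_combination -h2
    exact IsUnit.of_mul_eq_one _ h3
  let S : Set (Subring B) := {K | (frobenius B p).range ≤ K ∧ ∀ x ∈ K, π x = 0 → x = 0}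
  have hne : (frobenius B p).range ∈ S := by
    refine ⟨le_rfl, ?_⟩
    rintro x ⟨y, rfl⟩ hx
    rw [frobenius_def, map_pow] at hx
    have : π y = 0 := pow_eq_zero_iff hp.ne_zero |>.mp hx
    rw [frobenius_def]
    exact hpow y this
  obtain ⟨K, hKle, hKmax⟩ := zorn_le_nonempty₀ S (by
    intro c hcS hc y hy
    refine ⟨sSup c, ⟨?_, ?_⟩, fun z hz => le_sSup hz⟩
    · exact le_trans (hcS hy).1 (le_sSup hy)
    · intro x hx hx0
      rw [Subring.mem_sSup_of_directedOn ⟨y, hy⟩ hc.directedOn] at hx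
      obtain ⟨z, hz, hxz⟩ := hx
      exact (hcS hz).2 x hxz hx0) _ hne
  have hKS : K ∈ S := hKmax.prop
  have hfrob : ∀ x : B, x ^ p ∈ K := fun x => hKS.1 ⟨x, rfl⟩
  -- the image as a subfield
  let L : Subfield k :=
    { K.map π with
      inv_mem' := by
        rintro x ⟨y, hy, rfl⟩
        by_cases hy0 : π y = 0
        · rw [hy0, inv_zero]
          exact ⟨0, K.zero_mem, map_zero π⟩
        · obtain ⟨u, hu⟩ := hunit y hy0
          refine ⟨y ^ (p - 1) * ((u⁻¹ : Bˣ) : B) ^ p, K.mul_mem (K.pow_mem hy _) (hfrob _), ?_⟩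
          have h1 : π y * π ((u⁻¹ : Bˣ) : B) = 1 := by
            rw [← map_mul, ← hu, Units.mul_inv, map_one]
          have h2 : π ((u⁻¹ : Bˣ) : B) = (π y)⁻¹ := eq_inv_of_mul_eq_one_right h1
          rw [map_mul, map_pow, map_pow, h2]
          obtain ⟨q, hq⟩ := Nat.exists_eq_succ_of_ne_zero hp.ne_zero
          subst hq
          rw [Nat.succ_sub_one, pow_succ, ← mul_assoc, ← mul_pow, mul_inv_cancel₀ hy0, one_pow,
            one_mul] }
  have hL : ∀ x, x ∈ L ↔ ∃ y ∈ K, π y = x := fun x => Iff.rfl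
  have hsurj : ∀ b : k, b ∈ L := by
    by_contra hcon
    obtain ⟨b, hb⟩ := not_forall.mp hcon
    obtain ⟨β, rfl⟩ := hπ b
    -- the irreducible polynomial
    have hbp : (π β) ^ p ∈ L := ⟨β ^ p, hfrob β, map_pow π β p⟩
    have hirr : Irreducible (X ^ p - C (⟨(π β) ^ p, hbp⟩ : L)) := by
      apply X_pow_sub_C_irreducible_of_prime hp
      intro c hc
      have h1 : ((c : k)) ^ p = (π β) ^ p := by
        have := congrArg (Subtype.val) hc
        simpa using this
      have h2 : (c : k) = π β := frobenius_inj k p (by simpa [frobenius_def] using h1)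
      exact hb (h2 ▸ c.2)
    have hmin : minpoly L (π β) = X ^ p - C (⟨(π β) ^ p, hbp⟩ : L) := by
      symm
      apply minpoly.eq_of_irreducible_of_monic hirr
      · simp only [map_sub, map_pow, aeval_X, aeval_C]
        exact sub_self _
      · exact monic_X_pow_sub_C _ hp.ne_zero
    -- the adjoined ring
    let K' : Subring B := (Algebra.adjoin K {β}).toSubring
    have hKK' : K ≤ K' := by
      intro x hx
      exact (Algebra.adjoin K {β}).algebraMap_mem ⟨x, hx⟩
    have hβK' : β ∈ K' := Algebra.subset_adjoin rfl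
    have hK'S : K' ∈ S := by
      refine ⟨le_trans hKS.1 hKK', ?_⟩
      intro x hx hx0
      have hx' : x ∈ Algebra.adjoin K {β} := hx
      rw [Algebra.adjoin_singleton_eq_range_aeval] at hx'
      obtain ⟨P, rfl⟩ := hx'
      let Q : K[X] := X ^ p - C ⟨β ^ p, hfrob β⟩
      have hQ : Q.Monic := monic_X_pow_sub_C _ hp.ne_zero
      have hQβ : aeval β Q = 0 := by
        simp only [Q, map_sub, map_pow, aeval_X, aeval_C]
        exact sub_self _
      have hdiv : aeval β (P %ₘ Q) = aeval β P := by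
        conv_rhs => rw [← modByMonic_add_div P Q]
        rw [map_add, map_mul, hQβ, zero_mul, add_zero]
      have : Nontrivial K := by
        have hnt : Nontrivial B := π.domain_nontrivial
        infer_instance
      have hdeg : (P %ₘ Q).degree < p := by
        have := degree_modByMonic_lt P hQ
        rwa [degree_X_pow_sub_C hp.pos] at this
      let πK : K →+* L := (π.comp K.subtype).codRestrict L (fun x => ⟨x, x.2, rfl⟩)
      have hπK : Function.Injective πK := by
        rw [injective_iff_map_eq_zero]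
        intro y hy
        have : π y = 0 := congrArg Subtype.val hy
        exact Subtype.ext (hKS.2 y y.2 this)
      have hzero : aeval (π β) ((P %ₘ Q).map πK) = 0 := by
        have hx1 : π (aeval β P) = 0 := hx0
        rw [← hdiv] at hx1
        rw [← hx1, aeval_def, eval₂_map, aeval_def, hom_eval₂]
        rfl
      have hdvd := minpoly.dvd L (π β) hzero
      have hPz : (P %ₘ Q).map πK = 0 := by
        apply eq_zero_of_dvd_of_degree_lt hdvd
        rw [hmin, degree_X_pow_sub_C hp.pos]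
        exact lt_of_le_of_lt degree_map_le hdeg
      have hPz' : P %ₘ Q = 0 := (Polynomial.map_eq_zero_iff hπK).mp hPz
      change aeval β P = 0
      rw [← hdiv, hPz', map_zero]
    have hle : K' ≤ K := hKmax.le_of_ge hK'S hKK'
    exact hb ⟨β, hle hβK', rfl⟩
  have hbij : Function.Bijective (π.comp K.subtype) := by
    constructor
    · rw [injective_iff_map_eq_zero]
      intro y hy
      exact Subtype.ext (hKS.2 y y.2 hy)
    · intro x
      obtain ⟨y, hy, hyx⟩ := hsurj x
      exact ⟨⟨y, hy⟩, hyx⟩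
  let e : K ≃+* k := RingEquiv.ofBijective _ hbij
  refine ⟨K.subtype.comp (e.symm : k →+* K), ?_⟩
  ext x
  exact e.apply_symm_apply x

/-- Every field of characteristic `p` is formally smooth over its prime field. -/
theorem formallySmooth_zmod (k : Type*) [Field k] (p : ℕ) [Fact p.Prime] [Algebra (ZMod p) k] :
    Algebra.FormallySmooth (ZMod p) k := by
  let P := Algebra.Generators.self (ZMod p) k
  let f := IsScalarTower.toAlgHom (ZMod p) P.Ring k
  have hf : Function.Surjective f := P.algebraMap_surjective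
  rw [Algebra.FormallySmooth.iff_split_surjection f hf]
  have hs : Function.Surjective f.kerSquareLift :=
    Ideal.Quotient.lift_surjective_of_surjective _ _ P.algebraMap_surjective
  have hsq : RingHom.ker f.kerSquareLift.toRingHom ^ 2 = ⊥ := by
    rw [AlgHom.ker_kerSquareLift, Ideal.cotangentIdeal_square]
  have hk : CharP k p := (CharP.charP_iff_prime_eq_zero Fact.out).mpr (by
    rw [← map_natCast (algebraMap (ZMod p) k), ZMod.natCast_self, map_zero])
  have hB : CharP (P.Ring ⧸ RingHom.ker f.toRingHom ^ 2) p := by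
    have hnt : Nontrivial (P.Ring ⧸ RingHom.ker f.toRingHom ^ 2) :=
      (f.kerSquareLift.toRingHom).domain_nontrivial
    exact (CharP.charP_iff_prime_eq_zero Fact.out).mpr (by
      rw [← map_natCast (algebraMap (ZMod p) _), ZMod.natCast_self, map_zero])
  obtain ⟨s, hs'⟩ := exists_section_of_sq_zero p f.kerSquareLift.toRingHom hs hsq
  refine ⟨{ s with commutes' := fun r => ?_ }, ?_⟩
  · exact RingHom.congr_fun (Subsingleton.elim (s.comp (algebraMap (ZMod p) k))
      (algebraMap (ZMod p) _)) r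
  · ext x
    exact congr($hs' x)

theorem exists_coefficientField (A : Type*) [CommRing A] [IsLocalRing A]
    (p : ℕ) [Fact p.Prime] [CharP A p] [IsAdicComplete (maximalIdeal A) A] :
    ∃ σ : ResidueField A →+* A, ∀ x, residue A (σ x) = x := by
  let algA : Algebra (ZMod p) A := ZMod.algebra A p
  have hfs : Algebra.FormallySmooth (ZMod p) (ResidueField A) :=
    formallySmooth_zmod (ResidueField A) p
  obtain ⟨g, hg⟩ := @Algebra.FormallySmooth.exists_mkₐ_comp_eq_of_isAdicComplete
    (ZMod p) (ResidueField A) _ _ _ A _ _ hfs (maximalIdeal A) _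
    (AlgHom.id (ZMod p) (ResidueField A))
  exact ⟨g.toRingHom, fun x => congr($hg x)⟩

end Vale.Agent.P177
end

section

/-! Evaluation homomorphisms out of power series rings and the structure theorem surjection. -/

namespace Vale.Agent.P177

open IsLocalRing

/-- Evaluation of power series at elements of an ideal for which the target is complete. -/
theorem exists_evalHom {ι R A : Type*} [Finite ι] [CommRing R] [CommRing A] (J : Ideal A)
    [IsAdicComplete J A] (σ : R →+* A) (x : ι → A) (hx : ∀ i, x i ∈ J) :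
    ∃ φ : MvPowerSeries ι R →+* A,
      ∀ p : MvPolynomial ι R, φ (p : MvPowerSeries ι R) = MvPolynomial.eval₂Hom σ x p := by
  have hI : ∀ n, MvPolynomial.idealOfVars ι R ^ n ≤
      (J ^ n).comap (MvPolynomial.eval₂Hom σ x) := by
    intro n
    rw [← Ideal.map_le_iff_le_comap, Ideal.map_pow]
    apply Ideal.pow_right_mono
    rw [MvPolynomial.idealOfVars, Ideal.map_span, Ideal.span_le]
    rintro _ ⟨_, ⟨i, rfl⟩, rfl⟩
    simpa using hx i
  let f : (n : ℕ) → MvPowerSeries ι R →+* A ⧸ J ^ n := fun n =>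
    (Ideal.quotientMap (J ^ n) (MvPolynomial.eval₂Hom σ x) (hI n)).comp
      (MvPowerSeries.truncTotalAlgHom ι R n).toRingHom
  have hf : ∀ {m n : ℕ} (hle : m ≤ n), (Ideal.Quotient.factorPow J hle).comp (f n) = f m := by
    intro m n hle
    ext p
    have h1 := hI m (MvPowerSeries.truncTotal_sub_truncTotal_mem_pow_idealOfVars hle le_rfl p)
    rw [Ideal.mem_comap, map_sub, ← Ideal.Quotient.mk_eq_mk_iff_sub_mem] at h1
    exact h1
  refine ⟨IsAdicComplete.liftRingHom J f hf, fun p => ?_⟩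
  rw [← sub_eq_zero]
  apply IsHausdorff.haus (I := J) inferInstance
  intro n
  rw [SModEq.zero, smul_eq_mul, Ideal.mul_top, ← Ideal.Quotient.eq_zero_iff_mem, map_sub,
    IsAdicComplete.mk_liftRingHom, sub_eq_zero]
  have h2 := (MvPowerSeries.truncTotalAlgHom ι R n).commutes p
  change Ideal.quotientMap (J ^ n) (MvPolynomial.eval₂Hom σ x) (hI n)
    (MvPowerSeries.truncTotalAlgHom ι R n (p : MvPowerSeries ι R)) = _
  erw [h2]
  rfl

theorem exists_powerSeries_surjective' {ι A k : Type*} [Finite ι] [CommRing A] [IsLocalRing A]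
    [IsAdicComplete (maximalIdeal A) A] [Field k] (σ : k →+* A)
    (hσ : Function.Surjective (fun x => residue A (σ x))) (x : ι → A)
    (hx : Ideal.span (Set.range x) = maximalIdeal A) :
    ∃ φ : MvPowerSeries ι k →+* A, Function.Surjective φ ∧
      (∀ p : MvPolynomial ι k, φ (p : MvPowerSeries ι k) = MvPolynomial.eval₂Hom σ x p) := by
  obtain ⟨φ, hφ⟩ := exists_evalHom (maximalIdeal A) σ x
    (fun i => hx ▸ Ideal.subset_span ⟨i, rfl⟩)
  refine ⟨φ, ?_, hφ⟩
  have hX : ∀ i, φ (MvPowerSeries.X i) = x i := by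
    intro i
    rw [← MvPolynomial.coe_X, hφ]
    simp
  have hmap : (Ideal.span (Set.range MvPowerSeries.X) : Ideal (MvPowerSeries ι k)).map φ =
      maximalIdeal A := by
    rw [Ideal.map_span, ← Set.range_comp, ← hx]
    congr 2
    ext i
    exact hX i
  have hH : IsHausdorff ((Ideal.span (Set.range MvPowerSeries.X) :
      Ideal (MvPowerSeries ι k)).map φ) A := by
    rw [hmap]
    infer_instance
  apply surjective_of_mk_map_comp_surjective (I := Ideal.span (Set.range MvPowerSeries.X)) φ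
  intro y
  obtain ⟨a, rfl⟩ := Ideal.Quotient.mk_surjective y
  obtain ⟨c, hc⟩ := hσ (residue A a)
  refine ⟨MvPowerSeries.C c, ?_⟩
  rw [← MvPolynomial.coe_C, RingHom.comp_apply, hφ]
  simp only [MvPolynomial.coe_eval₂Hom, MvPolynomial.eval₂_C]
  rw [Ideal.Quotient.mk_eq_mk_iff_sub_mem, hmap]
  rw [← Ideal.Quotient.mk_eq_mk_iff_sub_mem]
  exact hc

theorem exists_powerSeries_surjective (A : Type*) [CommRing A] [IsLocalRing A]
    [IsAdicComplete (maximalIdeal A) A] (k : Type*) [Field k] (σ : k →+* A)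
    (hσ : Function.Surjective (fun x => residue A (σ x))) (d : ℕ) (x : Fin d → A)
    (hx : Ideal.span (Set.range x) = maximalIdeal A) :
    ∃ φ : MvPowerSeries (Fin d) k →+* A, Function.Surjective φ := by
  obtain ⟨φ, hφ, _⟩ := exists_powerSeries_surjective' σ hσ x hx
  exact ⟨φ, hφ⟩

end Vale.Agent.P177
end

section

/-!
Positivity for modules killed by `p`.
-/

namespace Vale.Agent.P177

open CategoryTheory TensorProduct Function IsLocalRing RingTheory.Sequence Pointwise

universe u

theorem exists_completion (A : Type u) [CommRing A] [IsLocalRing A] [IsNoetherianRing A]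
    (p : ℕ) [hpp : Fact p.Prime] (hp : (p : A) = 0) (e : ℕ) (x : Fin e → A)
    (hx : Ideal.span (Set.range x) = maximalIdeal A) :
    ∃ (C : Type u) (_ : CommRing C) (_ : IsLocalRing C) (_ : Algebra A C) (_ : Module.Flat A C)
      (k : Type u) (_ : Field k) (φ : MvPowerSeries (Fin e) k →+* C),
      (maximalIdeal A).map (algebraMap A C) = maximalIdeal C ∧ Function.Surjective φ := by
  let C := AdicCompletion (maximalIdeal A) A
  have hloc : (maximalIdeal A).map (algebraMap A C) = maximalIdeal C :=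
    (AdicCompletion.maximalIdeal_eq_map (R := A)).symm
  have hpC : (p : C) = 0 := by
    have := congrArg (algebraMap A C) hp
    rwa [map_natCast, map_zero] at this
  have hchar : CharP C p := (CharP.charP_iff_prime_eq_zero hpp.out).2 hpC
  obtain ⟨σ, hσ⟩ := exists_coefficientField C p
  have hspan : Ideal.span (Set.range (algebraMap A C ∘ x)) = maximalIdeal C := by
    rw [Set.range_comp, ← Ideal.map_span, hx, hloc]
  obtain ⟨φ, hφ⟩ := exists_powerSeries_surjective C (ResidueField C) σ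
    (fun y => ⟨y, hσ y⟩) e (algebraMap A C ∘ x) hspan
  exact ⟨C, inferInstance, inferInstance, inferInstance, inferInstance, ResidueField C,
    inferInstance, φ, hloc, hφ⟩

/-- Data over the power series ring attached to a pair of `A`-modules. -/
theorem exists_powerSeries_modules (A : Type u) [CommRing A] [IsLocalRing A] [IsNoetherianRing A]
    (C : Type u) [CommRing C] [IsLocalRing C] [Algebra A C] [Module.Flat A C]
    (hloc : (maximalIdeal A).map (algebraMap A C) = maximalIdeal C)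
    (k : Type u) [Field k] (e : ℕ) [Algebra (MvPowerSeries (Fin e) k) C]
    (hφ : Surjective (algebraMap (MvPowerSeries (Fin e) k) C))
    (M N : Type u) [AddCommGroup M] [Module A M] [Module.Finite A M]
    [AddCommGroup N] [Module A N] [Module.Finite A N]
    (hlen : Module.length A (M ⊗[A] N) ≠ ⊤) :
    ∃ (X Y : Type u) (_ : AddCommGroup X) (_ : Module C X) (_ : Module (MvPowerSeries (Fin e) k) X)
      (_ : IsScalarTower (MvPowerSeries (Fin e) k) C X)
      (_ : AddCommGroup Y) (_ : Module C Y) (_ : Module (MvPowerSeries (Fin e) k) Y)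
      (_ : IsScalarTower (MvPowerSeries (Fin e) k) C Y),
      (∀ n, Module.length A (TorM A n M N) = Module.length C (TorM C n X Y)) ∧
      (0 ≤ eulerTor (MvPowerSeries (Fin e) k) (e + 1) X Y) ∧
      (Module.Finite (MvPowerSeries (Fin e) k) X) ∧ (Module.Finite (MvPowerSeries (Fin e) k) Y) ∧
      (∀ a b : ℕ, (a : WithBot ℕ∞) ≤ Module.supportDim A M →
        (b : WithBot ℕ∞) ≤ Module.supportDim A N →
        (a + b ≤ e) ∧ (e ≤ a + b → 0 < eulerTor (MvPowerSeries (Fin e) k) (e + 1) X Y)) := by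
  let S := MvPowerSeries (Fin e) k
  obtain ⟨X, _, _, _, _, φ, hφX⟩ := exists_baseChange (R := A) C M
  obtain ⟨Y, _, _, _, _, ψ, hψY⟩ := exists_baseChange (R := A) C N
  let mX : Module (MvPowerSeries (Fin e) k) X := Module.compHom X (algebraMap (MvPowerSeries (Fin e) k) C)
  let mY : Module (MvPowerSeries (Fin e) k) Y := Module.compHom Y (algebraMap (MvPowerSeries (Fin e) k) C)
  have sX : IsScalarTower (MvPowerSeries (Fin e) k) C X := ⟨fun s b t => by
    rw [Algebra.smul_def, mul_smul]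
    rfl⟩
  have sY : IsScalarTower (MvPowerSeries (Fin e) k) C Y := ⟨fun s b t => by
    rw [Algebra.smul_def, mul_smul]
    rfl⟩
  have fX : Module.Finite C X := Module.Finite.of_surjective hφX.equiv.toLinearMap hφX.equiv.surjective
  have fY : Module.Finite C Y := Module.Finite.of_surjective hψY.equiv.toLinearMap hψY.equiv.surjective
  have fC : Module.Finite (MvPowerSeries (Fin e) k) C :=
    Module.Finite.of_surjective (Algebra.linearMap _ C) hφ
  have fX' : Module.Finite (MvPowerSeries (Fin e) k) X := Module.Finite.trans C X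
  have fY' : Module.Finite (MvPowerSeries (Fin e) k) Y := Module.Finite.trans C Y
  have ht : ∀ n, Module.length A (TorM A n M N) = Module.length C (TorM C n X Y) := fun n =>
    length_tor_bc₂ hloc n hφX hψY
  have hlenS : Module.length (MvPowerSeries (Fin e) k) (X ⊗[MvPowerSeries (Fin e) k] Y) ≠ ⊤ := by
    rw [length_tensor_baseChange hφ (isBaseChange_id_of_surjective hφ X) Y,
      ← (torZero X Y).length_eq, ← ht 0, (torZero M N).length_eq]
    exact hlen
  obtain ⟨h1, h2⟩ := serre_mvPowerSeries k e X Y hlenS (e + 1) (by omega)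
  have hdim : ∀ (M : Type u) [AddCommGroup M] [Module A M] [Module.Finite A M]
      (X : Type u) [AddCommGroup X] [Module A X] [Module C X] [IsScalarTower A C X]
      [Module (MvPowerSeries (Fin e) k) X] [IsScalarTower (MvPowerSeries (Fin e) k) C X]
      [Module.Finite (MvPowerSeries (Fin e) k) X]
      (φ : M →ₗ[A] X), IsBaseChange C φ →
      Module.supportDim A M ≤ Module.supportDim (MvPowerSeries (Fin e) k) X := by
    intro M _ _ _ X _ _ _ _ _ _ _ φ hφX
    rw [supportDim_eq_of_surjective hφ X, ← Module.supportDim_eq_of_equiv hφX.equiv]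
    have h5 := isLocalHom_of_map_maximalIdeal A C hloc
    have h6 : Module.FaithfullyFlat A C := Module.FaithfullyFlat.of_flat_of_isLocalHom
    exact supportDim_le_baseChange_of_faithfullyFlat M
  refine ⟨X, Y, inferInstance, inferInstance, mX, sX, inferInstance, inferInstance, mY, sY, ht, h1,
    fX', fY', ?_⟩
  intro a b ha hb
  exact h2 a b (ha.trans (hdim M X φ hφX)) (hb.trans (hdim N Y ψ hψY))

/-- The conclusion of Serre's conjectures for a pair. -/
def Good (R : Type u) [CommRing R] (d : ℕ) (M N : Type u) [AddCommGroup M] [Module R M]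
    [AddCommGroup N] [Module R N] : Prop :=
  0 ≤ eulerTor R (d + 1) M N ∧ ∀ a b : ℕ, (a : WithBot ℕ∞) ≤ Module.supportDim R M →
      (b : WithBot ℕ∞) ≤ Module.supportDim R N → d ≤ a + b → 0 < eulerTor R (d + 1) M N

section base

variable (R : Type u) [CommRing R] [IsRegularLocalRing R] (d : ℕ) (hd : ringKrullDim R = d)
  (p : ℕ) [Fact p.Prime] (hp0 : (p : R) ≠ 0) (hpm : (p : R) ∈ maximalIdeal R)

include hd hp0 in
/-- Ramified case, modules over `A = R/p`. -/
theorem good_ramified (hp2 : (p : R) ∈ maximalIdeal R ^ 2)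
    (M N : Type u) [AddCommGroup M] [Module R M] [Module.Finite R M]
    [Module (R ⧸ Ideal.span {(p : R)}) M] [IsScalarTower R (R ⧸ Ideal.span {(p : R)}) M]
    [AddCommGroup N] [Module R N] [Module.Finite R N]
    [Module (R ⧸ Ideal.span {(p : R)}) N] [IsScalarTower R (R ⧸ Ideal.span {(p : R)}) N]
    (hlen : Module.length R (M ⊗[R] N) ≠ ⊤) : Good R d M N := by
  have hdom : IsDomain R := regular_isDomain R
  have hpm : (p : R) ∈ maximalIdeal R := Ideal.pow_le_self two_ne_zero hp2
  have hne : Ideal.span {(p : R)} ≠ ⊤ := by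
    rw [Ne, Ideal.span_singleton_eq_top]
    exact hpm
  have hnt : Nontrivial (R ⧸ Ideal.span {(p : R)}) := Ideal.Quotient.nontrivial_iff.2 hne
  have hlA : IsLocalRing (R ⧸ Ideal.span {(p : R)}) :=
    IsLocalRing.of_surjective' (Ideal.Quotient.mk _) Ideal.Quotient.mk_surjective
  have hmA : (maximalIdeal R).map (Ideal.Quotient.mk (Ideal.span {(p : R)})) =
      maximalIdeal (R ⧸ Ideal.span {(p : R)}) :=
    map_maximalIdeal_of_surjective _ Ideal.Quotient.mk_surjective
  have hsurj : Surjective (algebraMap R (R ⧸ Ideal.span {(p : R)})) :=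
    Ideal.Quotient.mk_surjective
  have fM : Module.Finite (R ⧸ Ideal.span {(p : R)}) M :=
    Module.Finite.of_restrictScalars_finite R _ M
  have fN : Module.Finite (R ⧸ Ideal.span {(p : R)}) N :=
    Module.Finite.of_restrictScalars_finite R _ N
  have H : IsHypersurface R (R ⧸ Ideal.span {(p : R)}) (p : R) :=
    { regular := fun x y hxy => mul_left_cancel₀ hp0 hxy
      surj := hsurj
      ker := Ideal.mk_ker }
  -- generators
  obtain ⟨rs, hrs, hlenrs⟩ := exists_list_maximalIdeal R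
  have hrsd : rs.length = d := by
    rw [hd] at hlenrs
    exact_mod_cast hlenrs
  subst hrsd
  have hx : Ideal.span (Set.range (fun i : Fin rs.length =>
      Ideal.Quotient.mk (Ideal.span {(p : R)}) (rs.get i))) =
      maximalIdeal (R ⧸ Ideal.span {(p : R)}) := by
    rw [← hmA, ← hrs, Ideal.ofList, Ideal.map_span]
    congr 1
    ext z
    constructor
    · rintro ⟨i, rfl⟩
      exact ⟨rs.get i, List.get_mem rs i, rfl⟩
    · rintro ⟨y, hy, rfl⟩
      obtain ⟨i, rfl⟩ := List.get_of_mem hy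
      exact ⟨i, rfl⟩
  have hpA : (p : (R ⧸ Ideal.span {(p : R)})) = 0 := by
    rw [← map_natCast (Ideal.Quotient.mk (Ideal.span {(p : R)})) p]
    exact Ideal.Quotient.eq_zero_iff_mem.2 (Ideal.mem_span_singleton_self _)
  obtain ⟨C, _, _, _, _, k, _, φ, hloc, hφ⟩ := exists_completion (R ⧸ Ideal.span {(p : R)}) p hpA
    rs.length _ hx
  have hSreg : IsRegularLocalRing (MvPowerSeries (Fin rs.length) k) :=
    mvPowerSeries_isRegularLocalRing _ _
  have hSdim : ringKrullDim (MvPowerSeries (Fin rs.length) k) = rs.length := by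
    rw [mvPowerSeries_ringKrullDim]
    simp
  have hSdom : IsDomain (MvPowerSeries (Fin rs.length) k) := regular_isDomain _
  obtain ⟨g, hg0, hg⟩ := ker_isPrincipal (R := R) (S := MvPowerSeries (Fin rs.length) k)
    (by rw [hd, hSdim]) (p : R) hp2 hp0 (by rw [hmA]; exact hloc) φ hφ
  let _ : Algebra (MvPowerSeries (Fin rs.length) k) C := φ.toAlgebra
  have H' : IsHypersurface (MvPowerSeries (Fin rs.length) k) C g :=
    { regular := fun x y hxy => mul_left_cancel₀ hg0 hxy
      surj := hφ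
      ker := hg }
  have hlenA : Module.length (R ⧸ Ideal.span {(p : R)})
      (M ⊗[R ⧸ Ideal.span {(p : R)}] N) ≠ ⊤ := by
    rw [← length_tensor_baseChange hsurj (isBaseChange_id_of_surjective hsurj M) N]
    exact hlen
  obtain ⟨X, Y, _, _, _, _, _, _, _, _, ht, h1, fX, fY, h2⟩ :=
    exists_powerSeries_modules (R ⧸ Ideal.span {(p : R)}) C hloc k rs.length hφ M N hlenA
  have hfinA : ∀ n, Module.length (R ⧸ Ideal.span {(p : R)})
      (TorM (R ⧸ Ideal.span {(p : R)}) n M N) ≠ ⊤ := fun n =>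
    tor_length_ne_top n M N hlenA
  have hfinC : ∀ n, Module.length C (TorM C n X Y) ≠ ⊤ := fun n => by
    rw [← ht]
    exact hfinA n
  have hRv : Module.length R (TorM R (rs.length + 1) M N) = 0 := by
    have := regular_tor_vanish R rs.length hd M N (rs.length + 1) le_rfl
    exact Module.length_eq_zero
  have hSv : Module.length (MvPowerSeries (Fin rs.length) k)
      (TorM (MvPowerSeries (Fin rs.length) k) (rs.length + 1) X Y) = 0 := by
    have := regular_tor_vanish (MvPowerSeries (Fin rs.length) k) rs.length hSdim X Y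
      (rs.length + 1) le_rfl
    exact Module.length_eq_zero
  have heq : eulerTor R (rs.length + 1) M N =
      eulerTor (MvPowerSeries (Fin rs.length) k) (rs.length + 1) X Y := by
    rw [H.eulerTor_eq M N hfinA rs.length hRv, H'.eulerTor_eq X Y hfinC rs.length hSv, ht, ht]
  unfold Good
  rw [heq]
  refine ⟨h1, ?_⟩
  intro a b ha hb hab
  rw [supportDim_eq_of_surjective hsurj M] at ha
  rw [supportDim_eq_of_surjective hsurj N] at hb
  exact (h2 a b ha hb).2 hab

include hd hp0 hpm in
/-- Unramified case, modules over `A = R/p`. -/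
theorem good_unramified (hp2 : (p : R) ∉ maximalIdeal R ^ 2)
    (M N : Type u) [AddCommGroup M] [Module R M] [Module.Finite R M]
    [Module (R ⧸ Ideal.span {(p : R)}) M] [IsScalarTower R (R ⧸ Ideal.span {(p : R)}) M]
    [AddCommGroup N] [Module R N] [Module.Finite R N]
    [Module (R ⧸ Ideal.span {(p : R)}) N] [IsScalarTower R (R ⧸ Ideal.span {(p : R)}) N]
    (hlen : Module.length R (M ⊗[R] N) ≠ ⊤) : Good R d M N := by
  have hdom : IsDomain R := regular_isDomain R
  obtain ⟨hAreg, hAdim⟩ := regular_quotient R (p : R) hpm hp2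
  obtain ⟨e, he⟩ := exists_nat_eq_ringKrullDim (R ⧸ Ideal.span {(p : R)})
  have hed : e + 1 = d := by
    rw [he, hd] at hAdim
    exact_mod_cast hAdim
  subst hed
  have hsurj : Surjective (algebraMap R (R ⧸ Ideal.span {(p : R)})) :=
    Ideal.Quotient.mk_surjective
  have fM : Module.Finite (R ⧸ Ideal.span {(p : R)}) M :=
    Module.Finite.of_restrictScalars_finite R _ M
  have fN : Module.Finite (R ⧸ Ideal.span {(p : R)}) N :=
    Module.Finite.of_restrictScalars_finite R _ N
  have H : IsHypersurface R (R ⧸ Ideal.span {(p : R)}) (p : R) :=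
    { regular := fun x y hxy => mul_left_cancel₀ hp0 hxy
      surj := hsurj
      ker := Ideal.mk_ker }
  obtain ⟨rs, hrs, hlenrs⟩ := exists_list_maximalIdeal (R ⧸ Ideal.span {(p : R)})
  have hrsd : rs.length = e := by
    rw [he] at hlenrs
    exact_mod_cast hlenrs
  subst hrsd
  have hx : Ideal.span (Set.range (fun i : Fin rs.length => rs.get i)) =
      maximalIdeal (R ⧸ Ideal.span {(p : R)}) := by
    rw [← hrs, Ideal.ofList]
    congr 1
    ext z
    constructor
    · rintro ⟨i, rfl⟩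
      exact List.get_mem rs i
    · intro hz
      obtain ⟨i, rfl⟩ := List.get_of_mem hz
      exact ⟨i, rfl⟩
  have hpA : (p : (R ⧸ Ideal.span {(p : R)})) = 0 := by
    rw [← map_natCast (Ideal.Quotient.mk (Ideal.span {(p : R)})) p]
    exact Ideal.Quotient.eq_zero_iff_mem.2 (Ideal.mem_span_singleton_self _)
  obtain ⟨C, _, _, _, _, k, _, φ, hloc, hφ⟩ := exists_completion (R ⧸ Ideal.span {(p : R)}) p hpA
    rs.length _ hx
  let _ : Algebra (MvPowerSeries (Fin rs.length) k) C := φ.toAlgebra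
  have hlenA : Module.length (R ⧸ Ideal.span {(p : R)})
      (M ⊗[R ⧸ Ideal.span {(p : R)}] N) ≠ ⊤ := by
    rw [← length_tensor_baseChange hsurj (isBaseChange_id_of_surjective hsurj M) N]
    exact hlen
  obtain ⟨X, Y, _, _, _, _, _, _, _, _, -, -, -, -, h2⟩ :=
    exists_powerSeries_modules (R ⧸ Ideal.span {(p : R)}) C hloc k rs.length hφ M N hlenA
  have hfinA : ∀ n, Module.length (R ⧸ Ideal.span {(p : R)})
      (TorM (R ⧸ Ideal.span {(p : R)}) n M N) ≠ ⊤ := fun n =>
    tor_length_ne_top n M N hlenA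
  have hAv : ∀ n, rs.length + 1 ≤ n → Module.length (R ⧸ Ideal.span {(p : R)})
      (TorM (R ⧸ Ideal.span {(p : R)}) n M N) = 0 := by
    intro n hn
    have := regular_tor_vanish (R ⧸ Ideal.span {(p : R)}) rs.length he M N n hn
    exact Module.length_eq_zero
  have hRv : Module.length R (TorM R (rs.length + 1 + 1) M N) = 0 := by
    have := regular_tor_vanish R (rs.length + 1) hd M N (rs.length + 1 + 1) le_rfl
    exact Module.length_eq_zero
  constructor
  · rw [H.eulerTor_eq M N hfinA (rs.length + 1) hRv, hAv _ le_rfl, hAv _ (by omega)]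
    simp
  · intro a b ha hb hab
    exfalso
    rw [supportDim_eq_of_surjective hsurj M] at ha
    rw [supportDim_eq_of_surjective hsurj N] at hb
    have := (h2 a b ha hb).1
    omega

include hd hp0 hpm in
/-- Modules killed by `p`. -/
theorem good_killed_by_p
    (M N : Type u) [AddCommGroup M] [Module R M] [Module.Finite R M]
    [AddCommGroup N] [Module R N] [Module.Finite R N]
    (hM : ∀ m : M, (p : R) • m = 0) (hN : ∀ m : N, (p : R) • m = 0)
    (hlen : Module.length R (M ⊗[R] N) ≠ ⊤) : Good R d M N := by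
  have tM : Module.IsTorsionBySet R M (Ideal.span {(p : R)} : Set R) := by
    intro x a
    obtain ⟨c, hc⟩ := Ideal.mem_span_singleton'.1 a.2
    rw [← hc, mul_smul, hM, smul_zero]
  have tN : Module.IsTorsionBySet R N (Ideal.span {(p : R)} : Set R) := by
    intro x a
    obtain ⟨c, hc⟩ := Ideal.mem_span_singleton'.1 a.2
    rw [← hc, mul_smul, hN, smul_zero]
  let _ : Module (R ⧸ Ideal.span {(p : R)}) M := tM.module
  let _ : Module (R ⧸ Ideal.span {(p : R)}) N := tN.module
  have _ : IsScalarTower R (R ⧸ Ideal.span {(p : R)}) M := tM.isScalarTower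
  have _ : IsScalarTower R (R ⧸ Ideal.span {(p : R)}) N := tN.isScalarTower
  by_cases hp2 : (p : R) ∈ maximalIdeal R ^ 2
  · exact good_ramified R d hd p hp0 hp2 M N hlen
  · exact good_unramified R d hd p hp0 hpm hp2 M N hlen

end base

end Vale.Agent.P177
end

section

/-!
Heights of primes in polynomial rings: elimination of variables.
-/

namespace Vale.Agent.P177

section step

variable {Γ : Type*} [CommRing Γ] [IsNoetherianRing Γ]

theorem height_comap_le_of_flat {R S : Type*} [CommRing R] [CommRing S] [IsNoetherianRing R]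
    [IsNoetherianRing S] [Algebra R S] [Module.Flat R S] (P : Ideal S) [P.IsPrime] :
    (P.comap (algebraMap R S)).height ≤ P.height := by
  have : Algebra.HasGoingDown R S := Algebra.HasGoingDown.of_flat
  have : P.LiesOver (P.comap (algebraMap R S)) := ⟨rfl⟩
  rw [Ideal.height_eq_height_add_of_liesOver_of_hasGoingDown (P.comap (algebraMap R S)) P]
  exact le_self_add

theorem elim_step (P : Ideal (Polynomial Γ)) [P.IsPrime] (c u : Γ)
    (hcu : Polynomial.C c - Polynomial.C u * Polynomial.X ∈ P) (hu : Polynomial.C u ∉ P) :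
    (P.comap Polynomial.C).height + 1 ≤ P.height := by
  set p := P.comap Polynomial.C with hp
  have hpp : p.IsPrime := Ideal.IsPrime.comap _
  have hmp : (p.map Polynomial.C).IsPrime := Ideal.isPrime_map_C_of_isPrime
  have hle : p.map Polynomial.C ≤ P := Ideal.map_comap_le
  have hcomap : (p.map Polynomial.C).comap Polynomial.C = p := by
    apply le_antisymm
    · exact (Ideal.comap_mono hle).trans hp.ge
    · exact Ideal.le_comap_map
  have hlt : p.map Polynomial.C < P := by
    refine lt_of_le_of_ne hle ?_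
    intro h
    rw [← h] at hcu
    have h1 := Ideal.mem_map_C_iff.1 hcu 1
    simp only [Polynomial.coeff_sub, Polynomial.coeff_C_mul, Polynomial.coeff_X_one, mul_one,
      Polynomial.coeff_C_succ, zero_sub, neg_mem_iff] at h1
    exact hu h1
  have h2 := Ideal.height_add_one_le_of_lt_of_isPrime hlt
  have h3 : p.height ≤ (p.map Polynomial.C).height := by
    have h4 := height_comap_le_of_flat (R := Γ) (S := Polynomial Γ) (p.map Polynomial.C)
    change ((p.map Polynomial.C).comap Polynomial.C).height ≤ _ at h4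
    rwa [hcomap] at h4
  exact (add_le_add_left h3 1).trans h2

theorem elim_fin (n : ℕ) (Q : Ideal (MvPolynomial (Fin n) Γ)) [Q.IsPrime] (c : Fin n → Γ) (u : Γ)
    (hu : MvPolynomial.C u ∉ Q)
    (hc : ∀ i, MvPolynomial.C (c i) - MvPolynomial.C u * MvPolynomial.X i ∈ Q) :
    (Q.comap MvPolynomial.C).height + n ≤ Q.height := by
  induction n with
  | zero =>
    have h := height_comap_le_of_flat (R := Γ) (S := MvPolynomial (Fin 0) Γ) Q
    simpa using h
  | succ n ih =>
    let e := MvPolynomial.finSuccEquiv Γ n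
    let Q' : Ideal (Polynomial (MvPolynomial (Fin n) Γ)) := Q.comap (e.symm : _ →+* _)
    have hQ' : Q'.IsPrime := Ideal.IsPrime.comap _
    have hmem : ∀ x, e x ∈ Q' ↔ x ∈ Q := by
      intro x
      change e.symm (e x) ∈ Q ↔ _
      rw [AlgEquiv.symm_apply_apply]
    have hht : Q'.height = Q.height := RingEquiv.height_comap e.symm.toRingEquiv Q
    have hP : (Q'.comap Polynomial.C).IsPrime := Ideal.IsPrime.comap _
    have h1 := elim_step Q' (MvPolynomial.C (c 0)) (MvPolynomial.C u) (by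
      have := (hmem _).2 (hc 0)
      simpa [e, MvPolynomial.finSuccEquiv_apply] using this) (by
      intro h
      apply hu
      rw [← hmem]
      simpa [e, MvPolynomial.finSuccEquiv_apply] using h)
    have h2 := ih (Q'.comap Polynomial.C) (fun i => c i.succ) (by
      intro h
      apply hu
      rw [← hmem]
      rw [Ideal.mem_comap] at h
      simpa [e, MvPolynomial.finSuccEquiv_apply] using h) (by
      intro i
      rw [Ideal.mem_comap]
      have := (hmem _).2 (hc i.succ)
      simpa [e, MvPolynomial.finSuccEquiv_apply] using this)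
    have h3 : (Q'.comap Polynomial.C).comap MvPolynomial.C = Q.comap MvPolynomial.C := by
      ext x
      change Polynomial.C (MvPolynomial.C x) ∈ Q' ↔ MvPolynomial.C x ∈ Q
      have hx : e (MvPolynomial.C x) = Polynomial.C (MvPolynomial.C x) := by
        simp [e, MvPolynomial.finSuccEquiv_apply]
      rw [← hx, hmem]
    rw [h3] at h2
    rw [← hht]
    push_cast
    rw [← add_assoc]
    exact (add_le_add_left h2 1).trans h1

theorem elim_fintype {ι : Type*} [Fintype ι] (Q : Ideal (MvPolynomial ι Γ)) [Q.IsPrime]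
    (c : ι → Γ) (u : Γ) (hu : MvPolynomial.C u ∉ Q)
    (hc : ∀ i, MvPolynomial.C (c i) - MvPolynomial.C u * MvPolynomial.X i ∈ Q) :
    (Q.comap MvPolynomial.C).height + Fintype.card ι ≤ Q.height := by
  let e := MvPolynomial.renameEquiv Γ (Fintype.equivFin ι)
  let Q' : Ideal (MvPolynomial (Fin (Fintype.card ι)) Γ) := Q.comap (e.symm : _ →+* _)
  have hQ' : Q'.IsPrime := Ideal.IsPrime.comap _
  have hmem : ∀ x, e x ∈ Q' ↔ x ∈ Q := by
    intro x
    change e.symm (e x) ∈ Q ↔ _
    rw [AlgEquiv.symm_apply_apply]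
  have hht : Q'.height = Q.height := RingEquiv.height_comap e.symm.toRingEquiv Q
  have hC : ∀ x, e (MvPolynomial.C x) = MvPolynomial.C x := fun x => by
    simp [e]
  have hX : ∀ i, e (MvPolynomial.X i) = MvPolynomial.X (Fintype.equivFin ι i) := fun i => by
    simp [e]
  have h := elim_fin (Fintype.card ι) Q' (fun i => c ((Fintype.equivFin ι).symm i)) u (by
    rwa [← hC, hmem]) (by
    intro i
    have := (hmem _).2 (hc ((Fintype.equivFin ι).symm i))
    rw [map_sub, map_mul, hC, hC, hX, Equiv.apply_symm_apply] at this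
    exact this)
  have h3 : Q'.comap MvPolynomial.C = Q.comap MvPolynomial.C := by
    ext x
    change MvPolynomial.C x ∈ Q' ↔ MvPolynomial.C x ∈ Q
    rw [← hC, hmem]
  rwa [h3, hht] at h

/-- Elimination of the variables in `s`. -/
theorem elim_supported {ι : Type*} [Fintype ι] [DecidableEq ι] (s : Finset ι)
    (Q : Ideal (MvPolynomial ι Γ)) [Q.IsPrime]
    (c : ι → MvPolynomial ι Γ) (u : Γ) (hcs : ∀ i ∈ s, c i ∈ MvPolynomial.supported Γ (sᶜ : Set ι))
    (hu : MvPolynomial.C u ∉ Q)
    (hc : ∀ i ∈ s, c i - MvPolynomial.C u * MvPolynomial.X i ∈ Q) :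
    (Q.comap MvPolynomial.C).height + s.card ≤ Q.height := by
  classical
  let e₁ := MvPolynomial.renameEquiv Γ (Equiv.sumCompl (fun x => x ∈ s)).symm
  let e₂ := MvPolynomial.sumRingEquiv Γ {x // x ∈ s} {x // ¬ x ∈ s}
  let e : MvPolynomial ι Γ ≃+* MvPolynomial {x // x ∈ s} (MvPolynomial {x // ¬ x ∈ s} Γ) :=
    e₁.toRingEquiv.trans e₂
  have he : ∀ x, e x = e₂ (e₁ x) := fun x => rfl
  let Q' : Ideal (MvPolynomial {x // x ∈ s} (MvPolynomial {x // ¬ x ∈ s} Γ)) :=
    Q.comap (e.symm : _ →+* _)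
  have hQ' : Q'.IsPrime := Ideal.IsPrime.comap _
  have hmem : ∀ x, e x ∈ Q' ↔ x ∈ Q := by
    intro x
    change e.symm (e x) ∈ Q ↔ _
    rw [RingEquiv.symm_apply_apply]
  have hht : Q'.height = Q.height := RingEquiv.height_comap e.symm Q
  have hC : ∀ x, e (MvPolynomial.C x) = MvPolynomial.C (MvPolynomial.C x) := fun x => by
    rw [he]
    simp [e₁, e₂]
  have hX : ∀ i : {x // x ∈ s}, e (MvPolynomial.X i.1) = MvPolynomial.X i := fun i => by
    rw [he]
    have : e₁ (MvPolynomial.X i.1) = MvPolynomial.X (Sum.inl i) := by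
      simp [e₁, Equiv.sumCompl_symm_apply_of_pos i.2]
    rw [this]
    simp [e₂]
  have hX' : ∀ i : {x // ¬ x ∈ s}, e (MvPolynomial.X i.1) =
      MvPolynomial.C (MvPolynomial.X i) := fun i => by
    rw [he]
    have : e₁ (MvPolynomial.X i.1) = MvPolynomial.X (Sum.inr i) := by
      simp [e₁, Equiv.sumCompl_symm_apply_of_neg i.2]
    rw [this]
    simp [e₂]
  have hsupp : ∀ i : {x // x ∈ s}, ∃ c' : MvPolynomial {x // ¬ x ∈ s} Γ,
      e (c i.1) = MvPolynomial.C c' := by
    intro i
    have h1 := hcs i.1 i.2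
    rw [MvPolynomial.supported] at h1
    refine Algebra.adjoin_induction (p := fun y _ => ∃ c' : MvPolynomial {x // ¬ x ∈ s} Γ,
      e y = MvPolynomial.C c') ?_ ?_ ?_ ?_ h1
    · rintro _ ⟨j, hj, rfl⟩
      exact ⟨MvPolynomial.X ⟨j, by simpa using hj⟩, hX' ⟨j, by simpa using hj⟩⟩
    · intro r
      exact ⟨MvPolynomial.C r, hC r⟩
    · rintro x y - - ⟨cx, hx⟩ ⟨cy, hy⟩
      exact ⟨cx + cy, by rw [map_add, hx, hy, map_add]⟩
    · rintro x y - - ⟨cx, hx⟩ ⟨cy, hy⟩
      exact ⟨cx * cy, by rw [map_mul, hx, hy, map_mul]⟩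
  choose c' hc' using hsupp
  have h := elim_fintype Q' c' (MvPolynomial.C u) (by
    rwa [← hC, hmem]) (by
    intro i
    have := (hmem _).2 (hc i.1 i.2)
    rw [map_sub, map_mul, hc', hC, hX] at this
    exact this)
  have hP : (Q'.comap MvPolynomial.C).IsPrime := Ideal.IsPrime.comap _
  have h2 := height_comap_le_of_flat (R := Γ) (S := MvPolynomial {x // ¬ x ∈ s} Γ)
    (Q'.comap MvPolynomial.C)
  have h3 : (Q'.comap MvPolynomial.C).comap (algebraMap Γ (MvPolynomial {x // ¬ x ∈ s} Γ)) =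
      Q.comap MvPolynomial.C := by
    ext x
    change MvPolynomial.C (MvPolynomial.C x) ∈ Q' ↔ MvPolynomial.C x ∈ Q
    rw [← hC, hmem]
  rw [h3] at h2
  rw [hht, Fintype.card_coe] at h
  exact (add_le_add_left h2 _).trans h

end step

end Vale.Agent.P177
end

section

/-!
The elements `h_i - ∑_l (A_il - A_li) u_l` and elimination of `d - 1` variables.
-/

namespace Vale.Agent.P177

open MvPolynomial

variable {Γ : Type*} [CommRing Γ] {d : ℕ}

/-- The elements `h_i - ∑_l (A_il - A_li) u_l`. -/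
noncomputable def altElt (h u : Fin d → Γ) (i : Fin d) : MvPolynomial (Fin d × Fin d) Γ :=
  C (h i) - ∑ l, (X (i, l) - X (l, i)) * C (u l)

theorem sum_alt_eq_zero {S : Type*} [CommRing S] (A : Fin d × Fin d → S) (u : Fin d → S) :
    ∑ i, u i * ∑ l, (A (i, l) - A (l, i)) * u l = 0 := by
  have h1 : ∑ i, u i * ∑ l, (A (i, l) - A (l, i)) * u l =
      ∑ i, ∑ l, A (i, l) * u i * u l - ∑ i, ∑ l, A (l, i) * u i * u l := by
    rw [← Finset.sum_sub_distrib]
    refine Finset.sum_congr rfl fun i _ => ?_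
    rw [Finset.mul_sum, ← Finset.sum_sub_distrib]
    refine Finset.sum_congr rfl fun l _ => ?_
    ring
  rw [h1, sub_eq_zero]
  rw [Finset.sum_comm]
  refine Finset.sum_congr rfl fun i _ => Finset.sum_congr rfl fun l _ => ?_
  ring

theorem elim_main [IsNoetherianRing Γ] (h u : Fin d → Γ)
    (Q : Ideal (MvPolynomial (Fin d × Fin d) Γ)) [Q.IsPrime] (hE : ∀ i, altElt h u i ∈ Q)
    (j : Fin d) (hj : C (u j) ∉ Q) : (Q.comap C).height + d ≤ Q.height + 1 := by
  classical
  let s : Finset (Fin d × Fin d) := (Finset.univ.erase j).image (fun i => (i, j))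
  have hs : ∀ p, p ∈ s ↔ p.1 ≠ j ∧ p.2 = j := by
    rintro ⟨a, b⟩
    simp only [s, Finset.mem_image, Finset.mem_erase, Finset.mem_univ, and_true, Prod.mk.injEq]
    constructor
    · rintro ⟨i, hi, rfl, rfl⟩
      exact ⟨hi, rfl⟩
    · rintro ⟨ha, rfl⟩
      exact ⟨a, ha, rfl, rfl⟩
  have hcard : s.card + 1 = d := by
    rw [Finset.card_image_of_injective _ (fun a b hab => (Prod.mk.inj hab).1),
      Finset.card_erase_of_mem (Finset.mem_univ j), Finset.card_univ, Fintype.card_fin]
    have := j.pos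
    omega
  have hX : ∀ p, p ∉ s → (X p : MvPolynomial (Fin d × Fin d) Γ) ∈
      supported Γ (sᶜ : Set (Fin d × Fin d)) := by
    intro p hp
    exact Algebra.subset_adjoin ⟨p, by simpa using hp, rfl⟩
  have hC : ∀ a : Γ, (C a : MvPolynomial (Fin d × Fin d) Γ) ∈
      supported Γ (sᶜ : Set (Fin d × Fin d)) := fun a => Subalgebra.algebraMap_mem _ a
  have h1 := elim_supported s Q (fun p => altElt h u p.1 + C (u j) * X p) (u j) (by
    intro p hp
    obtain ⟨h1, h2⟩ := (hs p).1 hp
    obtain ⟨i, j'⟩ := p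
    simp only at h1 h2
    subst h2
    have h3 : altElt h u i + C (u j') * X (i, j') =
        C (h i) - ∑ l ∈ Finset.univ.erase j', (X (i, l) - X (l, i)) * C (u l) +
          X (j', i) * C (u j') := by
      rw [altElt, ← Finset.add_sum_erase Finset.univ _ (Finset.mem_univ j')]
      ring
    simp only
    rw [h3]
    refine Subalgebra.add_mem _ (Subalgebra.sub_mem _ (hC _) (Subalgebra.sum_mem _ ?_))
      (Subalgebra.mul_mem _ (hX _ ?_) (hC _))
    · intro l hl
      refine Subalgebra.mul_mem _ (Subalgebra.sub_mem _ (hX _ ?_) (hX _ ?_)) (hC _)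
      · rw [hs]
        rintro ⟨-, h⟩
        exact (Finset.mem_erase.1 hl).1 h
      · rw [hs]
        rintro ⟨-, h⟩
        exact h1 h
    · rw [hs]
      rintro ⟨-, h⟩
      exact h1 h) hj (by
    intro p hp
    rw [add_sub_cancel_right]
    exact hE p.1)
  calc (Q.comap C).height + d = ((Q.comap C).height + s.card) + 1 := by
        rw [add_assoc]
        congr 1
        exact_mod_cast hcard.symm
    _ ≤ Q.height + 1 := add_le_add_left h1 1

end Vale.Agent.P177
end

section

/-!
Flatness of a local map from a regular sequence generating the maximal ideal.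
-/

namespace Vale.Agent.P177

open CategoryTheory TensorProduct Function IsLocalRing RingTheory.Sequence Pointwise

universe u

section

variable {B : Type u} [CommRing B]

theorem tor_vanish_of_pair (zs : List B) (Z : Type u) [AddCommGroup Z] [Module B Z]
    (hreg : IsWeaklyRegular Z zs) (W : Type u) [AddCommGroup W] [Module B W]
    (hW : IsWeaklyRegular (Z ⊗[B] W) zs)
    (h : ∀ j, 1 ≤ j → Subsingleton (TorM B j Z W)) :
    ∀ j, 1 ≤ j → Subsingleton (TorM B j (Z ⧸ (Ideal.ofList zs • ⊤ : Submodule B Z)) W) := by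
  induction zs generalizing Z with
  | nil =>
    intro j hj
    have := h j hj
    have e : (Z ⧸ (Ideal.ofList ([] : List B) • ⊤ : Submodule B Z)) ≃ₗ[B] Z :=
      Submodule.quotEquivOfEqBot _ (by simp)
    exact (torCongrLeft j e W).toEquiv.subsingleton
  | cons z zs ih =>
    intro j hj
    rw [isWeaklyRegular_cons_iff] at hreg hW
    have h1 : ∀ j, 1 ≤ j → Subsingleton (TorM B j (QuotSMulTop z Z) W) := by
      intro j hj
      obtain ⟨j, rfl⟩ : ∃ k, j = k + 1 := ⟨j - 1, by omega⟩
      obtain ⟨f, g, hf, hi, hs, hex⟩ := quot_ses Z z hreg.1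
      obtain ⟨δ, h2, h3, -⟩ := exists_torDelta f g hi hs hex W
      have h4 : Injective (torMap j f W) := by
        rcases Nat.eq_zero_or_pos j with rfl | hj
        · rw [injective_iff_map_eq_zero]
          intro x hx
          apply (torZero Z W).injective
          rw [map_zero]
          have h5 : z • torZero Z W x = 0 := by
            rw [← map_smul, ← torMap_smul_id 0 z f hf x, hx, map_zero]
          exact hW.1 (by
            change z • torZero Z W x = z • (0 : Z ⊗[B] W)
            rw [h5, smul_zero])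
        · have := h j hj
          exact injective_of_subsingleton _
      refine subsingleton_of_forall_eq 0 fun x => ?_
      have := h (j + 1) (by omega)
      have h6 : δ j x = 0 := by
        apply h4
        rw [map_zero]
        exact (h3 j).apply_apply_eq_zero x
      obtain ⟨y, rfl⟩ := (h2 j x).1 h6
      rw [Subsingleton.elim y 0, map_zero]
    have h2 := ih (QuotSMulTop z Z) hreg.2
      (((QuotSMulTop.quotSMulTopTensorEquivQuotSMulTop z W Z).isWeaklyRegular_congr zs).2 hW.2) h1 j hj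
    exact (torCongrLeft j
      (Submodule.quotOfListConsSMulTopEquivQuotSMulTopInner Z z zs) W).toEquiv.subsingleton

end

theorem flat_of_weaklyRegular {R C : Type u} [CommRing R] [IsLocalRing R] [IsNoetherianRing R]
    [CommRing C] [IsLocalRing C] [IsNoetherianRing C] [Algebra R C] [IsLocalHom (algebraMap R C)]
    (rs : List R) (hrs : Ideal.ofList rs = maximalIdeal R) (hR : IsWeaklyRegular R rs)
    (hC : IsWeaklyRegular C (rs.map (algebraMap R C))) : Module.Flat R C := by
  apply flat_of_tor_residue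
  rw [isWeaklyRegular_map_algebraMap_iff] at hC
  have h1 := tor_vanish_of_pair rs R hR C
    (((TensorProduct.lid R C).isWeaklyRegular_congr rs).2 hC) (fun j hj => by
      obtain ⟨j, rfl⟩ : ∃ k, j = k + 1 := ⟨j - 1, by omega⟩
      exact tor_subsingleton_of_flat j) 1 le_rfl
  have e : (R ⧸ maximalIdeal R) ≃ₗ[R] (R ⧸ (Ideal.ofList rs • ⊤ : Submodule R R)) :=
    Submodule.quotEquivOfEq _ _ (by rw [hrs]; simp)
  exact (torCongrLeft 1 e C).toEquiv.subsingleton

end Vale.Agent.P177
end

section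

/-!
Quotients of the localization of a polynomial ring over a local ring at the origin.
-/

namespace Vale.Agent.P177

open TensorProduct IsLocalRing MvPolynomial

universe u

theorem sub_C_constantCoeff_mem {ι : Type*} {Γ : Type*} [CommRing Γ] (p : MvPolynomial ι Γ) :
    p - C (constantCoeff p) ∈ Ideal.span (Set.range (X : ι → MvPolynomial ι Γ)) := by
  induction p using MvPolynomial.induction_on with
  | C a => simp
  | add p q hp hq =>
    have := Ideal.add_mem _ hp hq
    rw [map_add, map_add]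
    convert this using 1
    ring
  | mul_X p i _ =>
    rw [map_mul, constantCoeff_X, mul_zero, map_zero, sub_zero]
    exact Ideal.mul_mem_left _ _ (Ideal.subset_span ⟨i, rfl⟩)

theorem comap_constantCoeff_eq {ι : Type*} {Γ : Type*} [CommRing Γ] (I : Ideal Γ) :
    I.comap (constantCoeff : MvPolynomial ι Γ →+* Γ) =
      I.map C ⊔ Ideal.span (Set.range (X : ι → MvPolynomial ι Γ)) := by
  apply le_antisymm
  · intro p hp
    rw [Ideal.mem_comap] at hp
    have h1 := Ideal.add_mem _ (Ideal.mem_sup_right (sub_C_constantCoeff_mem p))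
      (Ideal.mem_sup_left (Ideal.mem_map_of_mem (C : Γ →+* MvPolynomial ι Γ) hp))
    rwa [sub_add_cancel] at h1
  · refine sup_le ?_ ?_
    · rw [Ideal.map_le_iff_le_comap]
      intro a ha
      rw [Ideal.mem_comap, Ideal.mem_comap, constantCoeff_C]
      exact ha
    · rw [Ideal.span_le]
      rintro _ ⟨i, rfl⟩
      rw [SetLike.mem_coe, Ideal.mem_comap, constantCoeff_X]
      exact I.zero_mem

theorem exists_local_quotient {Γ : Type u} [CommRing Γ] [IsLocalRing Γ] [IsNoetherianRing Γ]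
    (ι : Type) [Fintype ι] (g : ℕ) (hg : ringKrullDim Γ = (g : WithBot ℕ∞)) (n : ℕ)
    (E : Fin n → MvPolynomial ι Γ) (hE : ∀ i, constantCoeff (E i) ∈ maximalIdeal Γ) :
    ∃ (T : Type u) (_ : CommRing T) (_ : IsLocalRing T) (_ : IsNoetherianRing T)
      (f : MvPolynomial ι Γ →+* T),
      (∀ i, f (E i) = 0) ∧
      maximalIdeal T = (maximalIdeal Γ).map (f.comp C) ⊔
        Ideal.span (Set.range (fun i => f (X i))) ∧
      ((g + Fintype.card ι : ℕ) : WithBot ℕ∞) ≤ ringKrullDim T + n ∧
      (∀ Q : Ideal T, Q.IsPrime → (Q.comap f).height ≤ Q.height + n) ∧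
      (∀ (R' : Type u) [CommRing R'] (φ : MvPolynomial ι Γ →+* R'), (∀ i, φ (E i) = 0) →
        (∀ p, constantCoeff p ∉ maximalIdeal Γ → IsUnit (φ p)) →
        ∃ ν : T →+* R', ν.comp f = φ) := by
  classical
  let P := MvPolynomial ι Γ
  let 𝔐 : Ideal P := (maximalIdeal Γ).comap constantCoeff
  have hM : 𝔐.IsPrime := Ideal.IsPrime.comap _
  let S := Localization.AtPrime 𝔐
  have hSN : IsNoetherianRing S := IsLocalization.isNoetherianRing 𝔐.primeCompl S inferInstance
  have hms : maximalIdeal S = 𝔐.map (algebraMap P S) :=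
    (IsLocalization.AtPrime.map_eq_maximalIdeal 𝔐 S).symm
  let s : Finset S := Finset.univ.image (fun i => algebraMap P S (E i))
  have hcard : s.card ≤ n := by
    refine Finset.card_image_le.trans ?_
    simp
  let J : Ideal S := Ideal.span (s : Set S)
  have hsm : (s : Set S) ⊆ maximalIdeal S := by
    intro y hy
    simp only [s, Finset.coe_image, Finset.coe_univ, Set.image_univ, Set.mem_range] at hy
    obtain ⟨i, rfl⟩ := hy
    rw [hms]
    exact Ideal.mem_map_of_mem _ (hE i)
  have hJ : J ≤ maximalIdeal S := Ideal.span_le.2 hsm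
  have hJtop : J ≠ ⊤ := fun h => (maximalIdeal.isMaximal S).ne_top (top_le_iff.1 (h ▸ hJ))
  have hnt : Nontrivial (S ⧸ J) := Ideal.Quotient.nontrivial_iff.2 hJtop
  have hloc : IsLocalRing (S ⧸ J) :=
    .of_surjective' (Ideal.Quotient.mk J) Ideal.Quotient.mk_surjective
  let f : P →+* S ⧸ J := (Ideal.Quotient.mk J).comp (algebraMap P S)
  refine ⟨S ⧸ J, inferInstance, hloc, inferInstance, f, ?_, ?_, ?_, ?_, ?_⟩
  · intro i
    apply Ideal.Quotient.eq_zero_iff_mem.2
    apply Ideal.subset_span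
    simp only [s, Finset.coe_image, Finset.coe_univ, Set.image_univ]
    exact ⟨i, rfl⟩
  · have hmT : (maximalIdeal S).map (Ideal.Quotient.mk J) = maximalIdeal (S ⧸ J) :=
      map_maximalIdeal_of_surjective _ Ideal.Quotient.mk_surjective
    rw [← hmT, hms, Ideal.map_map]
    change Ideal.map f 𝔐 = _
    have h1 : Ideal.map f 𝔐 = Ideal.map f ((maximalIdeal Γ).map C ⊔
        Ideal.span (Set.range (X : ι → MvPolynomial ι Γ))) :=
      congrArg (Ideal.map f) (comap_constantCoeff_eq (maximalIdeal Γ))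
    rw [h1, Ideal.map_sup, Ideal.map_map, Ideal.map_span, ← Set.range_comp]
    rfl
  · have h1 : ((g + Fintype.card ι : ℕ) : ℕ∞) ≤ 𝔐.height := by
      have h2 := elim_fintype 𝔐 (fun _ => 0) 1 (by
        change constantCoeff (C 1) ∉ maximalIdeal Γ
        rw [constantCoeff_C]
        exact (Ideal.ne_top_iff_one _).1 (maximalIdeal.isMaximal Γ).ne_top) (fun i => by
        change constantCoeff (C 0 - C 1 * X i) ∈ maximalIdeal Γ
        simp)
      have h3 : 𝔐.comap C = maximalIdeal Γ := by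
        ext a
        change constantCoeff (C a) ∈ maximalIdeal Γ ↔ _
        rw [constantCoeff_C]
      rw [h3] at h2
      have h4 : ((maximalIdeal Γ).height : WithBot ℕ∞) = (g : WithBot ℕ∞) := by
        rw [IsLocalRing.maximalIdeal_height_eq_ringKrullDim, hg]
      have h5 : (maximalIdeal Γ).height = (g : ℕ∞) := by exact_mod_cast h4
      rw [h5] at h2
      exact_mod_cast h2
    have h2 : ringKrullDim S = 𝔐.height := IsLocalization.AtPrime.ringKrullDim_eq_height 𝔐 S
    have h3 := ringKrullDim_le_ringKrullDim_quotient_add_card s (by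
      rw [IsLocalRing.ringJacobson_eq_maximalIdeal]
      exact hsm)
    rw [h2] at h3
    calc ((g + Fintype.card ι : ℕ) : WithBot ℕ∞) ≤ (𝔐.height : WithBot ℕ∞) := by
          exact_mod_cast h1
      _ ≤ ringKrullDim (S ⧸ J) + s.card := h3
      _ ≤ ringKrullDim (S ⧸ J) + n := by
          gcongr
  · intro Q hQ
    have hQS : (Q.comap (Ideal.Quotient.mk J)).IsPrime := Ideal.IsPrime.comap _
    have h1 := Ideal.height_le_height_add_encard_of_subset (s : Set S)
      (p := Q.comap (Ideal.Quotient.mk J)) (by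
        intro y hy
        rw [SetLike.mem_coe, Ideal.mem_comap, Ideal.Quotient.eq_zero_iff_mem.2
          (Ideal.subset_span hy)]
        exact Q.zero_mem)
    have h2 : (Q.comap (Ideal.Quotient.mk J)).map (Ideal.Quotient.mk J) = Q :=
      Ideal.map_comap_of_surjective _ Ideal.Quotient.mk_surjective _
    have h3 : ((Q.comap (Ideal.Quotient.mk J)).under P).height =
        (Q.comap (Ideal.Quotient.mk J)).height :=
      IsLocalization.height_under 𝔐.primeCompl _
    have h4 : (Q.comap (Ideal.Quotient.mk J)).under P = Q.comap f := rfl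
    rw [← h4, h3]
    refine h1.trans ?_
    have h5 : (s : Set S).encard ≤ n := by
      rw [Set.encard_coe_eq_coe_finsetCard]
      exact_mod_cast hcard
    change ((Q.comap (Ideal.Quotient.mk J)).map (Ideal.Quotient.mk J)).height + _ ≤ _
    rw [h2]
    exact add_le_add_right h5 _
  · intro R' _ φ hφ hu
    let ψ : S →+* R' := IsLocalization.lift (M := 𝔐.primeCompl) (g := φ) (fun y => hu y.1 y.2)
    have hψ : ∀ p, ψ (algebraMap P S p) = φ p := fun p => IsLocalization.lift_eq _ p
    have hJψ : ∀ a ∈ J, ψ a = 0 := by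
      intro a ha
      have h1 : J ≤ RingHom.ker ψ := by
        rw [Ideal.span_le]
        intro y hy
        simp only [s, Finset.coe_image, Finset.coe_univ, Set.image_univ, Set.mem_range] at hy
        obtain ⟨i, rfl⟩ := hy
        rw [SetLike.mem_coe, RingHom.mem_ker, hψ, hφ]
      exact h1 ha
    refine ⟨Ideal.Quotient.lift J ψ hJψ, ?_⟩
    apply RingHom.ext
    intro p
    change Ideal.Quotient.lift J ψ hJψ (Ideal.Quotient.mk J (algebraMap P S p)) = φ p
    rw [Ideal.Quotient.lift_mk, hψ]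

end Vale.Agent.P177
end

section

/-!
The ring `T` attached to a quadratic hypersurface.
-/

namespace Vale.Agent.P177

open TensorProduct IsLocalRing MvPolynomial RingTheory.Sequence

universe u

/-- The data attached to a hypersurface `G` in a regular local ring `B`. -/
structure QData (d : ℕ) (B Γ : Type u) [CommRing B] [IsRegularLocalRing B] [CommRing Γ]
    [IsRegularLocalRing Γ] where
  a₁ : B →+* Γ
  a₂ : B →+* Γ
  μ : Γ →+* B
  μ₁ : ∀ b, μ (a₁ b) = b
  μ₂ : ∀ b, μ (a₂ b) = b
  x : Fin d → B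
  G : B
  u : Fin d → Γ
  β : Matrix (Fin d) (Fin d) Γ
  γ : Matrix (Fin d) (Fin d) Γ
  dimB : ringKrullDim B = ((d + 1 : ℕ) : WithBot ℕ∞)
  dimΓ : ringKrullDim Γ = ((2 * d + 1 : ℕ) : WithBot ℕ∞)
  maxB : maximalIdeal B = Ideal.span {G} ⊔ Ideal.span (Set.range x)
  maxΓ : maximalIdeal Γ = Ideal.span {a₁ G} ⊔ Ideal.span (Set.range fun i => a₁ (x i)) ⊔
    Ideal.span (Set.range fun i => a₂ (x i) - a₁ (x i))
  hG : a₂ G = a₁ G - ∑ i, (a₂ (x i) - a₁ (x i)) * u i
  hu : ∀ i, u i = ∑ m, β i m * a₁ (x m) + ∑ m, γ i m * (a₂ (x m) - a₁ (x m))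
  diag : ∀ b, a₂ b - a₁ b ∈ Ideal.span (Set.range fun i => a₂ (x i) - a₁ (x i))

namespace QData

variable {d : ℕ} {B Γ : Type u} [CommRing B] [IsRegularLocalRing B] [CommRing Γ]
  [IsRegularLocalRing Γ] (D : QData d B Γ)

/-- The elements generating the diagonal ideal. -/
def h (i : Fin d) : Γ := D.a₂ (D.x i) - D.a₁ (D.x i)

/-- The data of the ring `T`. -/
structure TD (T : Type u) [CommRing T] [IsRegularLocalRing T] where
  f : MvPolynomial (Fin d × Fin d) Γ →+* T
  hE : ∀ i, f (altElt D.h D.u i) = 0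
  hG : f (C (D.a₁ D.G)) = 0
  maxT : maximalIdeal T = Ideal.span (Set.range fun i => f (C (D.a₁ (D.x i)))) ⊔
    Ideal.span (Set.range fun p => f (X p))
  dimT : ringKrullDim T = ((d + d * d : ℕ) : WithBot ℕ∞)
  ht : ∀ Q : Ideal T, Q.IsPrime → (Q.comap f).height ≤ Q.height + ((d + 1 : ℕ) : ℕ∞)
  ν : T →+* B ⧸ Ideal.span {D.G}
  hν : ∀ y, ν (f (C y)) = Ideal.Quotient.mk _ (D.μ y)
  hνX : ∀ p, ν (f (X p)) = 0

theorem h_eq {T : Type*} [CommRing T] (f : MvPolynomial (Fin d × Fin d) Γ →+* T)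
    (hE : ∀ i, f (altElt D.h D.u i) = 0) (i : Fin d) :
    f (C (D.h i)) = ∑ l, (f (X (i, l)) - f (X (l, i))) * f (C (D.u l)) := by
  have h1 := hE i
  rw [altElt, map_sub, sub_eq_zero, map_sum] at h1
  rw [h1]
  refine Finset.sum_congr rfl fun l _ => ?_
  rw [map_mul, map_sub]

theorem exists_nat_ringKrullDim (T : Type*) [CommRing T] [IsLocalRing T] [IsNoetherianRing T] :
    ∃ t : ℕ, ringKrullDim T = (t : WithBot ℕ∞) := by
  have h1 := Ideal.height_ne_top_of_isPrime (I := maximalIdeal T)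
  lift (maximalIdeal T).height to ℕ using h1 with t ht
  refine ⟨t, ?_⟩
  rw [← IsLocalRing.maximalIdeal_height_eq_ringKrullDim, ← ht]
  rfl

theorem exists_TD : ∃ (T : Type u) (_ : CommRing T) (_ : IsRegularLocalRing T),
    Nonempty (D.TD T) := by
  let E : Fin (d + 1) → MvPolynomial (Fin d × Fin d) Γ :=
    Fin.cons (C (D.a₁ D.G)) (altElt D.h D.u)
  have hE0 : E 0 = C (D.a₁ D.G) := rfl
  have hEs : ∀ i : Fin d, E i.succ = altElt D.h D.u i := fun i => rfl
  have hh : ∀ i, D.h i ∈ maximalIdeal Γ := by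
    intro i
    rw [D.maxΓ]
    exact Ideal.mem_sup_right (Ideal.subset_span ⟨i, rfl⟩)
  have hcE : ∀ i, constantCoeff (altElt D.h D.u i) = D.h i := by
    intro i
    simp [altElt]
  obtain ⟨T, _, _, _, f, h1, h2, h3, h4, h5⟩ := exists_local_quotient (Γ := Γ) (Fin d × Fin d)
    (2 * d + 1) D.dimΓ (d + 1) E (by
      intro i
      refine Fin.cases ?_ (fun i => ?_) i
      · rw [hE0, constantCoeff_C, D.maxΓ]
        exact Ideal.mem_sup_left (Ideal.mem_sup_left (Ideal.subset_span rfl))
      · rw [hEs, hcE]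
        exact hh i)
  have fG : f (C (D.a₁ D.G)) = 0 := h1 0
  have fE : ∀ i, f (altElt D.h D.u i) = 0 := fun i => h1 i.succ
  have hmax : maximalIdeal T = Ideal.span (Set.range fun i => f (C (D.a₁ (D.x i)))) ⊔
      Ideal.span (Set.range fun p => f (X p)) := by
    rw [h2, D.maxΓ, Ideal.map_sup, Ideal.map_sup, Ideal.map_span, Ideal.map_span, Ideal.map_span,
      Set.image_singleton, RingHom.comp_apply, fG, Ideal.span_singleton_eq_bot.2 rfl, bot_sup_eq,
      ← Set.range_comp, ← Set.range_comp]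
    refine le_antisymm ?_ ?_
    · refine sup_le (sup_le ?_ ?_) le_sup_right
      · exact le_sup_left
      · refine le_sup_of_le_right ?_
        rw [Ideal.span_le]
        rintro _ ⟨i, rfl⟩
        change f (C (D.h i)) ∈ _
        rw [D.h_eq f fE i]
        exact Ideal.sum_mem _ fun l _ => Ideal.mul_mem_right _ _
          (Ideal.sub_mem _ (Ideal.subset_span ⟨_, rfl⟩) (Ideal.subset_span ⟨_, rfl⟩))
    · exact sup_le_sup_right le_sup_left _
  obtain ⟨t, ht⟩ := exists_nat_ringKrullDim T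
  have hcard : Fintype.card (Fin d × Fin d) = d * d := by simp
  rw [ht, hcard] at h3
  have h3' : 2 * d + 1 + d * d ≤ t + (d + 1) := by exact_mod_cast h3
  let rs : List T := List.ofFn (fun i => f (C (D.a₁ (D.x i)))) ++
    (Finset.univ : Finset (Fin d × Fin d)).toList.map (fun p => f (X p))
  have hrs : Ideal.ofList rs = maximalIdeal T := by
    rw [Ideal.ofList_append, hmax]
    congr 1
    · rw [Ideal.ofList]
      congr 1
      ext y
      simp [List.mem_ofFn]
    · rw [Ideal.ofList]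
      congr 1
      ext y
      simp
  have hrl : rs.length = d + d * d := by
    simp [rs]
  obtain ⟨hreg, hdim⟩ := isRegularLocalRing_of_list rs hrs (by
    rw [ht, hrl]
    exact_mod_cast (by omega : d + d * d ≤ t))
  let φ : MvPolynomial (Fin d × Fin d) Γ →+* B ⧸ Ideal.span {D.G} :=
    eval₂Hom ((Ideal.Quotient.mk _).comp D.μ) (fun _ => 0)
  have hφ : ∀ p, φ p = Ideal.Quotient.mk _ (D.μ (constantCoeff p)) := by
    intro p
    have h6 : φ = ((Ideal.Quotient.mk _).comp D.μ).comp constantCoeff := by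
      apply MvPolynomial.ringHom_ext
      · intro a
        simp [φ]
      · intro p
        simp [φ]
    rw [h6]
    rfl
  obtain ⟨ν, hν⟩ := h5 (B ⧸ Ideal.span {D.G}) φ (by
    intro i
    rw [hφ]
    refine Fin.cases ?_ (fun i => ?_) i
    · rw [hE0, constantCoeff_C, D.μ₁]
      exact Ideal.Quotient.eq_zero_iff_mem.2 (Ideal.subset_span rfl)
    · rw [hEs, hcE, QData.h, map_sub, D.μ₁, D.μ₂, sub_self, map_zero]) (by
    intro p hp
    rw [hφ]
    rw [mem_maximalIdeal, mem_nonunits_iff, not_not] at hp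
    exact (hp.map D.μ).map _)
  refine ⟨T, inferInstance, hreg, ⟨{
    f := f
    hE := fE
    hG := fG
    maxT := hmax
    dimT := by rw [hdim, hrl]
    ht := h4
    ν := ν
    hν := fun y => ?_
    hνX := fun p => ?_ }⟩⟩
  · have := RingHom.congr_fun hν (C y)
    rw [RingHom.comp_apply, hφ, constantCoeff_C] at this
    exact this
  · have := RingHom.congr_fun hν (X p)
    rw [RingHom.comp_apply, hφ, constantCoeff_X, map_zero, map_zero] at this
    exact this

end QData

end Vale.Agent.P177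
end

section

/-!
Properties of the ring `T` attached to a quadratic hypersurface.
-/

namespace Vale.Agent.P177

open TensorProduct IsLocalRing MvPolynomial RingTheory.Sequence

universe u

namespace QData

variable {d : ℕ} {B Γ : Type u} [CommRing B] [IsRegularLocalRing B] [CommRing Γ]
  [IsRegularLocalRing Γ] (D : QData d B Γ)

theorem G_mem : D.G ∈ maximalIdeal B := by
  rw [D.maxB]
  exact Ideal.mem_sup_left (Ideal.subset_span rfl)

/-- The list of parameters of `B/G`. -/
noncomputable def xs : List (B ⧸ Ideal.span {D.G}) :=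
  List.ofFn (fun i => Ideal.Quotient.mk (Ideal.span {D.G}) (D.x i))

theorem nontrivial_quot : Nontrivial (B ⧸ Ideal.span {D.G}) := by
  apply Ideal.Quotient.nontrivial_iff.2
  rw [Ne, Ideal.span_singleton_eq_top]
  exact D.G_mem

theorem isLocal_quot : IsLocalRing (B ⧸ Ideal.span {D.G}) :=
  have := D.nontrivial_quot
  .of_surjective' (Ideal.Quotient.mk _) Ideal.Quotient.mk_surjective

theorem quot_regular : ∃ (_ : IsRegularLocalRing (B ⧸ Ideal.span {D.G})),
    Ideal.ofList D.xs = maximalIdeal (B ⧸ Ideal.span {D.G}) ∧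
    ringKrullDim (B ⧸ Ideal.span {D.G}) = (d : WithBot ℕ∞) := by
  have h0 := D.nontrivial_quot
  have h1 := D.isLocal_quot
  have hm : (maximalIdeal B).map (Ideal.Quotient.mk (Ideal.span {D.G})) =
      maximalIdeal (B ⧸ Ideal.span {D.G}) :=
    map_maximalIdeal_of_surjective _ Ideal.Quotient.mk_surjective
  have h2 : Ideal.ofList D.xs = maximalIdeal (B ⧸ Ideal.span {D.G}) := by
    rw [← hm, D.maxB, Ideal.map_sup, Ideal.map_quotient_self, bot_sup_eq, Ideal.map_span,
      ← Set.range_comp, Ideal.ofList]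
    congr 1
    ext y
    simp [xs, List.mem_ofFn]
  obtain ⟨t, ht⟩ := exists_nat_ringKrullDim (B ⧸ Ideal.span {D.G})
  have h3 := ringKrullDim_le_ringKrullDim_quotient_add_card ({D.G} : Finset B) (by
    rw [IsLocalRing.ringJacobson_eq_maximalIdeal]
    simpa using D.G_mem)
  rw [Finset.coe_singleton, D.dimB, ht, Finset.card_singleton] at h3
  have h4 : d + 1 ≤ t + 1 := by exact_mod_cast h3
  have hlen : D.xs.length = d := by simp [xs]
  obtain ⟨h5, h6⟩ := isRegularLocalRing_of_list D.xs h2 (by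
    rw [ht, hlen]
    exact_mod_cast (by omega : d ≤ t))
  refine ⟨h5, h2, ?_⟩
  rw [h6, hlen]

theorem height_comap_mk (p : Ideal (B ⧸ Ideal.span {D.G})) [p.IsPrime] (r s : ℕ)
    (hr : p.height = r) (hs : (p.comap (Ideal.Quotient.mk (Ideal.span {D.G}))).height = s) :
    r + 1 ≤ s := by
  obtain ⟨h1, -, h2⟩ := D.quot_regular
  obtain ⟨r', hr', hle, h3⟩ := supportDim_prime_eq h2 p
  obtain ⟨s', hs', hle', h4⟩ := supportDim_prime_eq D.dimB
    (p.comap (Ideal.Quotient.mk (Ideal.span {D.G})))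
  rw [hr] at hr'
  rw [hs] at hs'
  have e1 : r = r' := by exact_mod_cast hr'
  have e2 : s = s' := by exact_mod_cast hs'
  rw [Module.supportDim_quotient_eq_ringKrullDim] at h3 h4
  have h5 : ringKrullDim (B ⧸ p.comap (Ideal.Quotient.mk (Ideal.span {D.G}))) =
      ringKrullDim ((B ⧸ Ideal.span {D.G}) ⧸ p) := by
    apply ringKrullDim_eq_of_ringEquiv
    have hs : Function.Surjective ((Ideal.Quotient.mk p).comp
        (Ideal.Quotient.mk (Ideal.span {D.G}))) :=
      Ideal.Quotient.mk_surjective.comp Ideal.Quotient.mk_surjective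
    refine (Ideal.quotEquivOfEq ?_).trans (RingHom.quotientKerEquivOfSurjective hs)
    ext y
    rw [RingHom.mem_ker, RingHom.comp_apply, Ideal.Quotient.eq_zero_iff_mem, Ideal.mem_comap]
  rw [h3, h4] at h5
  have h6 : d + 1 - s' = d - r' := by exact_mod_cast h5
  omega

section TD

variable {D} {T : Type u} [CommRing T] [IsRegularLocalRing T] (t : D.TD T)

theorem TD.f_a₂G : t.f (C (D.a₂ D.G)) = 0 := by
  rw [D.hG, map_sub, map_sub, t.hG, zero_sub, neg_eq_zero, map_sum, map_sum]
  have h1 : ∀ i, t.f (C ((D.a₂ (D.x i) - D.a₁ (D.x i)) * D.u i)) =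
      t.f (C (D.u i)) * ∑ l, (t.f (X (i, l)) - t.f (X (l, i))) * t.f (C (D.u l)) := by
    intro i
    rw [map_mul, map_mul, ← D.h_eq t.f t.hE i, mul_comm]
    rfl
  rw [Finset.sum_congr rfl fun i _ => h1 i]
  exact sum_alt_eq_zero (fun p => t.f (X p)) (fun i => t.f (C (D.u i)))

/-- The first map. -/
noncomputable def TD.i₁ : B ⧸ Ideal.span {D.G} →+* T :=
  Ideal.Quotient.lift _ ((t.f.comp C).comp D.a₁) (fun a ha => by
    have h1 : Ideal.span {D.G} ≤ RingHom.ker ((t.f.comp C).comp D.a₁) := by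
      rw [Ideal.span_singleton_le_iff_mem, RingHom.mem_ker]
      exact t.hG
    exact h1 ha)

/-- The second map. -/
noncomputable def TD.i₂ : B ⧸ Ideal.span {D.G} →+* T :=
  Ideal.Quotient.lift _ ((t.f.comp C).comp D.a₂) (fun a ha => by
    have h1 : Ideal.span {D.G} ≤ RingHom.ker ((t.f.comp C).comp D.a₂) := by
      rw [Ideal.span_singleton_le_iff_mem, RingHom.mem_ker]
      exact t.f_a₂G
    exact h1 ha)

theorem TD.i₁_mk (b : B) : t.i₁ (Ideal.Quotient.mk _ b) = t.f (C (D.a₁ b)) :=
  Ideal.Quotient.lift_mk _ _ _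

theorem TD.i₂_mk (b : B) : t.i₂ (Ideal.Quotient.mk _ b) = t.f (C (D.a₂ b)) :=
  Ideal.Quotient.lift_mk _ _ _

theorem TD.ν_i₁ (r : B ⧸ Ideal.span {D.G}) : t.ν (t.i₁ r) = r := by
  obtain ⟨b, rfl⟩ := Ideal.Quotient.mk_surjective r
  rw [t.i₁_mk, t.hν, D.μ₁]

theorem TD.ν_i₂ (r : B ⧸ Ideal.span {D.G}) : t.ν (t.i₂ r) = r := by
  obtain ⟨b, rfl⟩ := Ideal.Quotient.mk_surjective r
  rw [t.i₂_mk, t.hν, D.μ₂]

theorem TD.isLocalHom₁ : IsLocalHom t.i₁ := ⟨fun s hs => by
    have := hs.map t.ν
    rwa [t.ν_i₁] at this⟩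

theorem TD.isLocalHom₂ : IsLocalHom t.i₂ := ⟨fun s hs => by
    have := hs.map t.ν
    rwa [t.ν_i₂] at this⟩

/-- The list of the variables. -/
noncomputable def TD.z : List T :=
  (Finset.univ : Finset (Fin d × Fin d)).toList.map (fun p => t.f (X p))

theorem TD.length_z : t.z.length = d * d := by simp [TD.z]

theorem TD.ofList_z : Ideal.ofList t.z = Ideal.span (Set.range fun p => t.f (X p)) := by
  rw [Ideal.ofList]
  congr 1
  ext y
  simp [TD.z]

theorem TD.h_mem (i : Fin d) : t.f (C (D.h i)) ∈ Ideal.ofList t.z := by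
  rw [D.h_eq t.f t.hE i, t.ofList_z]
  exact Ideal.sum_mem _ fun l _ => Ideal.mul_mem_right _ _
    (Ideal.sub_mem _ (Ideal.subset_span ⟨_, rfl⟩) (Ideal.subset_span ⟨_, rfl⟩))

theorem TD.ofList_i₁ : Ideal.ofList (D.xs.map t.i₁) =
    Ideal.span (Set.range fun i => t.f (C (D.a₁ (D.x i)))) := by
  rw [Ideal.ofList]
  congr 1
  ext y
  simp only [xs, List.map_ofFn, List.mem_ofFn, Set.mem_ofPred_eq, Set.mem_range, Function.comp_apply,
    t.i₁_mk]

theorem TD.ofList_i₂ : Ideal.ofList (D.xs.map t.i₂) =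
    Ideal.span (Set.range fun i => t.f (C (D.a₂ (D.x i)))) := by
  rw [Ideal.ofList]
  congr 1
  ext y
  simp only [xs, List.map_ofFn, List.mem_ofFn, Set.mem_ofPred_eq, Set.mem_range, Function.comp_apply,
    t.i₂_mk]

theorem TD.max₁ : Ideal.ofList (D.xs.map t.i₁) ⊔ Ideal.ofList t.z = maximalIdeal T := by
  rw [t.maxT, t.ofList_z, t.ofList_i₁]

theorem TD.a₂_eq (i : Fin d) : t.f (C (D.a₂ (D.x i))) = t.f (C (D.a₁ (D.x i))) +
    t.f (C (D.h i)) := by
  rw [← map_add, ← map_add, QData.h, add_sub_cancel]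

theorem TD.max₂ : Ideal.ofList (D.xs.map t.i₂) ⊔ Ideal.ofList t.z = maximalIdeal T := by
  rw [← t.max₁, t.ofList_i₁, t.ofList_i₂]
  apply le_antisymm
  · refine sup_le (Ideal.span_le.2 ?_) le_sup_right
    rintro _ ⟨i, rfl⟩
    simp only [t.a₂_eq]
    exact Ideal.add_mem _ (Ideal.mem_sup_left (Ideal.subset_span ⟨i, rfl⟩))
      (Ideal.mem_sup_right (t.h_mem i))
  · refine sup_le (Ideal.span_le.2 ?_) le_sup_right
    rintro _ ⟨i, rfl⟩
    have h1 : t.f (C (D.a₁ (D.x i))) = t.f (C (D.a₂ (D.x i))) - t.f (C (D.h i)) := by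
      rw [t.a₂_eq, add_sub_cancel_right]
    simp only [h1]
    exact Ideal.sub_mem _ (Ideal.mem_sup_left (Ideal.subset_span ⟨i, rfl⟩))
      (Ideal.mem_sup_right (t.h_mem i))

theorem TD.isRegular_append (rs : List T) (hrs : Ideal.ofList rs ⊔ Ideal.ofList t.z =
    maximalIdeal T) (hlen : rs.length = d) :
    IsWeaklyRegular T (rs ++ t.z) ∧ IsWeaklyRegular T (t.z ++ rs) := by
  constructor
  · refine (isRegular_of_ofList_eq_maximalIdeal T (rs ++ t.z) ?_ ?_).toIsWeaklyRegular
    · rw [Ideal.ofList_append, hrs]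
    · rw [t.dimT, List.length_append, hlen, t.length_z]
  · refine (isRegular_of_ofList_eq_maximalIdeal T (t.z ++ rs) ?_ ?_).toIsWeaklyRegular
    · rw [Ideal.ofList_append, sup_comm, hrs]
    · rw [t.dimT, List.length_append, hlen, t.length_z, add_comm]

theorem TD.length_xs_map (i : B ⧸ Ideal.span {D.G} →+* T) : (D.xs.map i).length = d := by
  simp [xs]

theorem TD.z_regular : IsWeaklyRegular T t.z :=
  ((isWeaklyRegular_append_iff _ _ _).mp
    (t.isRegular_append _ t.max₁ (TD.length_xs_map _)).2).1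

theorem TD.flat₁ : t.i₁.Flat := by
  obtain ⟨h1, h2, h3⟩ := D.quot_regular
  let _ : Algebra (B ⧸ Ideal.span {D.G}) T := t.i₁.toAlgebra
  have hl : IsLocalHom (algebraMap (B ⧸ Ideal.span {D.G}) T) := t.isLocalHom₁
  refine flat_of_weaklyRegular D.xs h2 (isRegular_of_ofList_eq_maximalIdeal _ D.xs h2 ?_).toIsWeaklyRegular
    ((isWeaklyRegular_append_iff _ _ _).mp
      (t.isRegular_append _ t.max₁ (TD.length_xs_map _)).1).1
  rw [h3]
  simp [xs]

theorem TD.flat₂ : t.i₂.Flat := by
  obtain ⟨h1, h2, h3⟩ := D.quot_regular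
  let _ : Algebra (B ⧸ Ideal.span {D.G}) T := t.i₂.toAlgebra
  have hl : IsLocalHom (algebraMap (B ⧸ Ideal.span {D.G}) T) := t.isLocalHom₂
  refine flat_of_weaklyRegular D.xs h2 (isRegular_of_ofList_eq_maximalIdeal _ D.xs h2 ?_).toIsWeaklyRegular
    ((isWeaklyRegular_append_iff _ _ _).mp
      (t.isRegular_append _ t.max₂ (TD.length_xs_map _)).1).1
  rw [h3]
  simp [xs]

end TD

end QData

end Vale.Agent.P177
end

section

/-!
Height inequality and minimal primes for the ring `T` attached to a quadratic hypersurface.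
-/

namespace Vale.Agent.P177

open TensorProduct IsLocalRing MvPolynomial RingTheory.Sequence

universe u

/-- A surjection between local rings of the same dimension, the source being a domain, is
injective. -/
theorem injective_of_surjective_of_dim {S R : Type*} [CommRing S] [CommRing R] [IsDomain S]
    (g : S →+* R) (hg : Function.Surjective g) (n : ℕ) (hS : ringKrullDim S = n)
    (hR : ringKrullDim R = n) : Function.Injective g := by
  rw [injective_iff_map_eq_zero]
  intro a ha
  by_contra hne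
  have h1 := ringKrullDim_quotient_succ_le_of_nonZeroDivisor
    (mem_nonZeroDivisors_of_ne_zero hne)
  let g' : S ⧸ Ideal.span {a} →+* R := Ideal.Quotient.lift _ g (by
    intro b hb
    have h2 : Ideal.span {a} ≤ RingHom.ker g := by
      rw [Ideal.span_singleton_le_iff_mem, RingHom.mem_ker, ha]
    exact h2 hb)
  have hg' : Function.Surjective g' := Ideal.Quotient.lift_surjective_of_surjective _ _ hg
  have h2 := ringKrullDim_le_of_surjective g' hg'
  rw [hR] at h2
  rw [hS] at h1
  have h3 : ((n : ℕ) : WithBot ℕ∞) + 1 ≤ (n : ℕ) := le_trans (by gcongr) h1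
  have h4 : n + 1 ≤ n := by exact_mod_cast h3
  omega

namespace QData

variable {d : ℕ} {B Γ : Type u} [CommRing B] [IsRegularLocalRing B] [CommRing Γ]
  [IsRegularLocalRing Γ] {D : QData d B Γ}

section TD

variable {T : Type u} [CommRing T] [IsRegularLocalRing T] (t : D.TD T)

theorem TD.quot_z : ∃ (_ : IsRegularLocalRing (T ⧸ Ideal.ofList t.z)),
    ringKrullDim (T ⧸ Ideal.ofList t.z) = (d : WithBot ℕ∞) := by
  have hzm : Ideal.ofList t.z ≤ maximalIdeal T := by
    rw [← t.max₁]
    exact le_sup_right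
  have h0 : Nontrivial (T ⧸ Ideal.ofList t.z) := Ideal.Quotient.nontrivial_iff.2
    (fun h => (maximalIdeal.isMaximal T).ne_top (top_le_iff.1 (h ▸ hzm)))
  have h1 : IsLocalRing (T ⧸ Ideal.ofList t.z) :=
    .of_surjective' (Ideal.Quotient.mk _) Ideal.Quotient.mk_surjective
  have hm : (maximalIdeal T).map (Ideal.Quotient.mk (Ideal.ofList t.z)) =
      maximalIdeal (T ⧸ Ideal.ofList t.z) :=
    map_maximalIdeal_of_surjective _ Ideal.Quotient.mk_surjective
  have h2 : Ideal.ofList ((D.xs.map t.i₁).map (Ideal.Quotient.mk (Ideal.ofList t.z))) =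
      maximalIdeal (T ⧸ Ideal.ofList t.z) := by
    rw [← hm, ← t.max₁, Ideal.map_sup, Ideal.map_quotient_self, sup_bot_eq, Ideal.map_ofList]
  have h3 : ringKrullDim (T ⧸ Ideal.ofList t.z) = (d : WithBot ℕ∞) := by
    have hreg : IsRegular T t.z := by
      refine ⟨t.z_regular, ?_⟩
      intro h
      have h1 : (Ideal.ofList t.z • ⊤ : Ideal T) ≤ maximalIdeal T := by
        rw [smul_eq_mul, Ideal.mul_top]
        exact hzm
      rw [← h] at h1
      exact (maximalIdeal.isMaximal T).ne_top (top_le_iff.1 h1)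
    have h2 := ringKrullDim_add_length_eq_ringKrullDim_of_isRegular _ hreg
    rw [t.dimT, t.length_z] at h2
    obtain ⟨e, he⟩ := exists_nat_ringKrullDim (T ⧸ Ideal.ofList t.z)
    rw [he] at h2 ⊢
    have h3 : e + d * d = d + d * d := by exact_mod_cast h2
    have h4 : e = d := by omega
    rw [h4]
  obtain ⟨h5, h6⟩ := isRegularLocalRing_of_list _ h2 (by
    rw [h3, List.length_map, TD.length_xs_map])
  exact ⟨h5, h3⟩

theorem TD.ker_ν : RingHom.ker t.ν = Ideal.ofList t.z := by
  have hz : Ideal.ofList t.z ≤ RingHom.ker t.ν := by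
    rw [t.ofList_z, Ideal.span_le]
    rintro _ ⟨p, rfl⟩
    exact t.hνX p
  obtain ⟨h1, h2⟩ := t.quot_z
  have hdom : IsDomain (T ⧸ Ideal.ofList t.z) := regular_isDomain _
  obtain ⟨-, -, h3⟩ := D.quot_regular
  let g : T ⧸ Ideal.ofList t.z →+* B ⧸ Ideal.span {D.G} :=
    Ideal.Quotient.lift _ t.ν (fun a ha => hz ha)
  have hg : Function.Surjective g := Ideal.Quotient.lift_surjective_of_surjective _ _
    (fun r => ⟨t.i₁ r, t.ν_i₁ r⟩)
  have hinj := injective_of_surjective_of_dim g hg d h2 h3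
  refine le_antisymm ?_ hz
  intro a ha
  rw [← Ideal.Quotient.eq_zero_iff_mem]
  apply hinj
  rw [map_zero]
  exact ha

theorem TD.height_le (Q : Ideal T) [Q.IsPrime] (j : Fin d) (hj : t.f (C (D.u j)) ∉ Q)
    (r₁ r₂ q : ℕ) (h₁ : (Q.comap t.i₁).height = r₁) (h₂ : (Q.comap t.i₂).height = r₂)
    (hq : Q.height = q) : r₁ + r₂ ≤ q + 1 := by
  have hQp : (Q.comap t.f).IsPrime := Ideal.IsPrime.comap _
  have hrp : ((Q.comap t.f).comap C).IsPrime := Ideal.IsPrime.comap _
  have e1 := elim_main D.h D.u (Q.comap t.f) (fun i => by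
    rw [Ideal.mem_comap, t.hE]
    exact Q.zero_mem) j hj
  have e2 := t.ht Q inferInstance
  have hfin : ((Q.comap t.f).comap C).height ≠ ⊤ := Ideal.height_ne_top_of_isPrime
  have hfin2 : (Q.comap t.f).height ≠ ⊤ := Ideal.height_ne_top_of_isPrime
  have hf1 : (((Q.comap t.f).comap C).comap D.a₁).IsPrime := Ideal.IsPrime.comap _
  have hf2 : (((Q.comap t.f).comap C).comap D.a₂).IsPrime := Ideal.IsPrime.comap _
  obtain ⟨s, hs⟩ := ENat.ne_top_iff_exists.1 hfin
  obtain ⟨v, hv⟩ := ENat.ne_top_iff_exists.1 hfin2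
  obtain ⟨s₁, hs₁⟩ := ENat.ne_top_iff_exists.1
    (Ideal.height_ne_top_of_isPrime (I := ((Q.comap t.f).comap C).comap D.a₁))
  obtain ⟨s₂, hs₂⟩ := ENat.ne_top_iff_exists.1
    (Ideal.height_ne_top_of_isPrime (I := ((Q.comap t.f).comap C).comap D.a₂))
  rw [← hs, ← hv] at e1
  rw [← hv, hq] at e2
  have e1' : s + d ≤ v + 1 := by exact_mod_cast e1
  have e2' : v ≤ q + (d + 1) := by exact_mod_cast e2
  have hsup : (maximalIdeal B).map D.a₁ ⊔ (maximalIdeal B).map D.a₂ = maximalIdeal Γ := by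
    have hloc₁ : IsLocalHom D.a₁ := ⟨fun s hs => by
      have := hs.map D.μ
      rwa [D.μ₁] at this⟩
    have hloc₂ : IsLocalHom D.a₂ := ⟨fun s hs => by
      have := hs.map D.μ
      rwa [D.μ₂] at this⟩
    apply le_antisymm
    · exact sup_le (((IsLocalRing.local_hom_TFAE D.a₁).out 0 2).mp hloc₁)
        (((IsLocalRing.local_hom_TFAE D.a₂).out 0 2).mp hloc₂)
    · rw [D.maxΓ]
      have hx : ∀ i, D.x i ∈ maximalIdeal B := fun i => by
        rw [D.maxB]
        exact Ideal.mem_sup_right (Ideal.subset_span ⟨i, rfl⟩)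
      refine sup_le (sup_le ?_ ?_) ?_
      · rw [Ideal.span_singleton_le_iff_mem]
        exact Ideal.mem_sup_left (Ideal.mem_map_of_mem _ D.G_mem)
      · rw [Ideal.span_le]
        rintro _ ⟨i, rfl⟩
        exact Ideal.mem_sup_left (Ideal.mem_map_of_mem _ (hx i))
      · rw [Ideal.span_le]
        rintro _ ⟨i, rfl⟩
        exact Ideal.sub_mem _ (Ideal.mem_sup_right (Ideal.mem_map_of_mem _ (hx i)))
          (Ideal.mem_sup_left (Ideal.mem_map_of_mem _ (hx i)))
  have e3 := height_le_of_sup D.a₁ D.a₂ D.dimB D.dimΓ hsup (a := 1) (by omega)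
    ((Q.comap t.f).comap C) s₁ s₂ s hs₁.symm hs₂.symm hs.symm
  have k₁ : (Q.comap t.i₁).comap (Ideal.Quotient.mk (Ideal.span {D.G})) =
      ((Q.comap t.f).comap C).comap D.a₁ := by
    ext b
    change t.i₁ (Ideal.Quotient.mk _ b) ∈ Q ↔ t.f (C (D.a₁ b)) ∈ Q
    rw [t.i₁_mk]
  have k₂ : (Q.comap t.i₂).comap (Ideal.Quotient.mk (Ideal.span {D.G})) =
      ((Q.comap t.f).comap C).comap D.a₂ := by
    ext b
    change t.i₂ (Ideal.Quotient.mk _ b) ∈ Q ↔ t.f (C (D.a₂ b)) ∈ Q
    rw [t.i₂_mk]
  have hq1 : (Q.comap t.i₁).IsPrime := Ideal.IsPrime.comap _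
  have hq2 : (Q.comap t.i₂).IsPrime := Ideal.IsPrime.comap _
  have e4 := D.height_comap_mk (Q.comap t.i₁) r₁ s₁ h₁ (by rw [k₁, ← hs₁])
  have e5 := D.height_comap_mk (Q.comap t.i₂) r₂ s₂ h₂ (by rw [k₂, ← hs₂])
  omega

/-- If all `u_j` are in `Q` then the two maps agree modulo `Q`. -/
theorem TD.sub_mem_of_u_mem (Q : Ideal T)
    (hu : ∀ j, t.f (C (D.u j)) ∈ Q) (r : B ⧸ Ideal.span {D.G}) : t.i₂ r - t.i₁ r ∈ Q := by
  have hh : ∀ i, t.f (C (D.h i)) ∈ Q := by
    intro i
    rw [D.h_eq t.f t.hE i]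
    exact Ideal.sum_mem _ fun l _ => Ideal.mul_mem_left _ _ (hu l)
  obtain ⟨b, rfl⟩ := Ideal.Quotient.mk_surjective r
  rw [t.i₁_mk, t.i₂_mk, ← map_sub, ← map_sub]
  have h1 : Ideal.span (Set.range fun i => D.a₂ (D.x i) - D.a₁ (D.x i)) ≤
      Q.comap (t.f.comp C) := by
    rw [Ideal.span_le]
    rintro _ ⟨i, rfl⟩
    exact hh i
  exact h1 (D.diag b)

end TD

end QData

end Vale.Agent.P177
end

section

/-!
The ring `T` attached to a quadratic hypersurface, relative version with fixed parameters.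
-/

namespace Vale.Agent.P177

open TensorProduct IsLocalRing MvPolynomial RingTheory.Sequence

universe u

/-- The data attached to a hypersurface `G` in a regular local ring `B`, with fixed parameters
`y`. -/
structure RData (s d : ℕ) (B Γ : Type u) [CommRing B] [IsRegularLocalRing B] [CommRing Γ]
    [IsRegularLocalRing Γ] where
  a₁ : B →+* Γ
  a₂ : B →+* Γ
  μ : Γ →+* B
  μ₁ : ∀ b, μ (a₁ b) = b
  μ₂ : ∀ b, μ (a₂ b) = b
  y : Fin s → B
  hy : ∀ i, a₂ (y i) = a₁ (y i)
  x : Fin d → B
  G : B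
  u : Fin d → Γ
  β : Matrix (Fin d) (Fin d) Γ
  γ : Matrix (Fin d) (Fin d) Γ
  dimB : ringKrullDim B = ((s + d + 1 : ℕ) : WithBot ℕ∞)
  dimΓ : ringKrullDim Γ = ((s + 2 * d + 1 : ℕ) : WithBot ℕ∞)
  maxB : maximalIdeal B = Ideal.span {G} ⊔ (Ideal.span (Set.range y) ⊔
    Ideal.span (Set.range x))
  maxΓ : maximalIdeal Γ = Ideal.span {a₁ G} ⊔ (Ideal.span (Set.range fun i => a₁ (y i)) ⊔
    Ideal.span (Set.range fun i => a₁ (x i))) ⊔
    Ideal.span (Set.range fun i => a₂ (x i) - a₁ (x i))
  hG : a₂ G = a₁ G - ∑ i, (a₂ (x i) - a₁ (x i)) * u i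
  hu : ∀ i, u i = ∑ m, β i m * a₁ (x m) + ∑ m, γ i m * (a₂ (x m) - a₁ (x m))
  diag : ∀ b, a₂ b - a₁ b ∈ Ideal.span (Set.range fun i => a₂ (x i) - a₁ (x i))

namespace RData

variable {s d : ℕ} {B Γ : Type u} [CommRing B] [IsRegularLocalRing B] [CommRing Γ]
  [IsRegularLocalRing Γ] (D : RData s d B Γ)

/-- The elements generating the diagonal ideal. -/
def h (i : Fin d) : Γ := D.a₂ (D.x i) - D.a₁ (D.x i)

/-- The data of the ring `T`. -/
structure TD (T : Type u) [CommRing T] [IsRegularLocalRing T] where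
  f : MvPolynomial (Fin d × Fin d) Γ →+* T
  hE : ∀ i, f (altElt D.h D.u i) = 0
  hG : f (C (D.a₁ D.G)) = 0
  maxT : maximalIdeal T = (Ideal.span (Set.range fun i => f (C (D.a₁ (D.y i)))) ⊔
    Ideal.span (Set.range fun i => f (C (D.a₁ (D.x i))))) ⊔
    Ideal.span (Set.range fun p => f (X p))
  dimT : ringKrullDim T = ((s + d + d * d : ℕ) : WithBot ℕ∞)
  ht : ∀ Q : Ideal T, Q.IsPrime → (Q.comap f).height ≤ Q.height + ((d + 1 : ℕ) : ℕ∞)
  ν : T →+* B ⧸ Ideal.span {D.G}
  hν : ∀ y, ν (f (C y)) = Ideal.Quotient.mk _ (D.μ y)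
  hνX : ∀ p, ν (f (X p)) = 0

theorem h_eq {T : Type*} [CommRing T] (f : MvPolynomial (Fin d × Fin d) Γ →+* T)
    (hE : ∀ i, f (altElt D.h D.u i) = 0) (i : Fin d) :
    f (C (D.h i)) = ∑ l, (f (X (i, l)) - f (X (l, i))) * f (C (D.u l)) := by
  have h1 := hE i
  rw [altElt, map_sub, sub_eq_zero, map_sum] at h1
  rw [h1]
  refine Finset.sum_congr rfl fun l _ => ?_
  rw [map_mul, map_sub]

theorem ofList_ofFn {R : Type*} [CommRing R] {n : ℕ} (g : Fin n → R) :
    Ideal.ofList (List.ofFn g) = Ideal.span (Set.range g) := by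
  rw [Ideal.ofList]
  congr 1
  ext y
  simp [List.mem_ofFn]

theorem ofList_toList {R : Type*} [CommRing R] {ι : Type*} [Fintype ι] (g : ι → R) :
    Ideal.ofList ((Finset.univ : Finset ι).toList.map g) = Ideal.span (Set.range g) := by
  rw [Ideal.ofList]
  congr 1
  ext y
  simp

theorem exists_TD : ∃ (T : Type u) (_ : CommRing T) (_ : IsRegularLocalRing T),
    Nonempty (D.TD T) := by
  let E : Fin (d + 1) → MvPolynomial (Fin d × Fin d) Γ :=
    Fin.cons (C (D.a₁ D.G)) (altElt D.h D.u)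
  have hE0 : E 0 = C (D.a₁ D.G) := rfl
  have hEs : ∀ i : Fin d, E i.succ = altElt D.h D.u i := fun i => rfl
  have hh : ∀ i, D.h i ∈ maximalIdeal Γ := by
    intro i
    rw [D.maxΓ]
    exact Ideal.mem_sup_right (Ideal.subset_span ⟨i, rfl⟩)
  have hcE : ∀ i, constantCoeff (altElt D.h D.u i) = D.h i := by
    intro i
    simp [altElt]
  obtain ⟨T, _, _, _, f, h1, h2, h3, h4, h5⟩ := exists_local_quotient (Γ := Γ) (Fin d × Fin d)
    (s + 2 * d + 1) D.dimΓ (d + 1) E (by
      intro i
      refine Fin.cases ?_ (fun i => ?_) i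
      · rw [hE0, constantCoeff_C, D.maxΓ]
        exact Ideal.mem_sup_left (Ideal.mem_sup_left (Ideal.subset_span rfl))
      · rw [hEs, hcE]
        exact hh i)
  have fG : f (C (D.a₁ D.G)) = 0 := h1 0
  have fE : ∀ i, f (altElt D.h D.u i) = 0 := fun i => h1 i.succ
  have hmax : maximalIdeal T = (Ideal.span (Set.range fun i => f (C (D.a₁ (D.y i)))) ⊔
      Ideal.span (Set.range fun i => f (C (D.a₁ (D.x i))))) ⊔
      Ideal.span (Set.range fun p => f (X p)) := by
    rw [h2, D.maxΓ, Ideal.map_sup, Ideal.map_sup, Ideal.map_sup, Ideal.map_span, Ideal.map_span,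
      Ideal.map_span, Ideal.map_span,
      Set.image_singleton, RingHom.comp_apply, fG, Ideal.span_singleton_eq_bot.2 rfl, bot_sup_eq,
      ← Set.range_comp, ← Set.range_comp, ← Set.range_comp]
    refine le_antisymm ?_ ?_
    · refine sup_le (sup_le ?_ ?_) le_sup_right
      · exact le_sup_left
      · refine le_sup_of_le_right ?_
        rw [Ideal.span_le]
        rintro _ ⟨i, rfl⟩
        change f (C (D.h i)) ∈ _
        rw [D.h_eq f fE i]
        exact Ideal.sum_mem _ fun l _ => Ideal.mul_mem_right _ _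
          (Ideal.sub_mem _ (Ideal.subset_span ⟨_, rfl⟩) (Ideal.subset_span ⟨_, rfl⟩))
    · exact sup_le_sup_right le_sup_left _
  obtain ⟨t, ht⟩ := QData.exists_nat_ringKrullDim T
  have hcard : Fintype.card (Fin d × Fin d) = d * d := by simp
  rw [ht, hcard] at h3
  have h3' : s + 2 * d + 1 + d * d ≤ t + (d + 1) := by exact_mod_cast h3
  let rs : List T := (List.ofFn (fun i => f (C (D.a₁ (D.y i)))) ++
    List.ofFn (fun i => f (C (D.a₁ (D.x i))))) ++
    (Finset.univ : Finset (Fin d × Fin d)).toList.map (fun p => f (X p))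
  have hrs : Ideal.ofList rs = maximalIdeal T := by
    rw [Ideal.ofList_append, Ideal.ofList_append, hmax, ofList_ofFn, ofList_ofFn, ofList_toList]
  have hrl : rs.length = s + d + d * d := by
    simp [rs, add_assoc]
  obtain ⟨hreg, hdim⟩ := isRegularLocalRing_of_list rs hrs (by
    rw [ht, hrl]
    exact_mod_cast (by omega : s + d + d * d ≤ t))
  let φ : MvPolynomial (Fin d × Fin d) Γ →+* B ⧸ Ideal.span {D.G} :=
    eval₂Hom ((Ideal.Quotient.mk _).comp D.μ) (fun _ => 0)
  have hφ : ∀ p, φ p = Ideal.Quotient.mk _ (D.μ (constantCoeff p)) := by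
    intro p
    have h6 : φ = ((Ideal.Quotient.mk _).comp D.μ).comp constantCoeff := by
      apply MvPolynomial.ringHom_ext
      · intro a
        simp [φ]
      · intro p
        simp [φ]
    rw [h6]
    rfl
  obtain ⟨ν, hν⟩ := h5 (B ⧸ Ideal.span {D.G}) φ (by
    intro i
    rw [hφ]
    refine Fin.cases ?_ (fun i => ?_) i
    · rw [hE0, constantCoeff_C, D.μ₁]
      exact Ideal.Quotient.eq_zero_iff_mem.2 (Ideal.subset_span rfl)
    · rw [hEs, hcE, RData.h, map_sub, D.μ₁, D.μ₂, sub_self, map_zero]) (by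
    intro p hp
    rw [hφ]
    rw [mem_maximalIdeal, mem_nonunits_iff, not_not] at hp
    exact (hp.map D.μ).map _)
  refine ⟨T, inferInstance, hreg, ⟨{
    f := f
    hE := fE
    hG := fG
    maxT := hmax
    dimT := by rw [hdim, hrl]
    ht := h4
    ν := ν
    hν := fun y => ?_
    hνX := fun p => ?_ }⟩⟩
  · have := RingHom.congr_fun hν (C y)
    rw [RingHom.comp_apply, hφ, constantCoeff_C] at this
    exact this
  · have := RingHom.congr_fun hν (X p)
    rw [RingHom.comp_apply, hφ, constantCoeff_X, map_zero, map_zero] at this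
    exact this

theorem G_mem : D.G ∈ maximalIdeal B := by
  rw [D.maxB]
  exact Ideal.mem_sup_left (Ideal.subset_span rfl)

theorem x_memB (i : Fin d) : D.x i ∈ maximalIdeal B := by
  rw [D.maxB]
  exact Ideal.mem_sup_right (Ideal.mem_sup_right (Ideal.subset_span ⟨i, rfl⟩))

theorem y_memB (i : Fin s) : D.y i ∈ maximalIdeal B := by
  rw [D.maxB]
  exact Ideal.mem_sup_right (Ideal.mem_sup_left (Ideal.subset_span ⟨i, rfl⟩))

/-- The list of parameters of `B/G`. -/
noncomputable def xs : List (B ⧸ Ideal.span {D.G}) :=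
  List.ofFn (fun i => Ideal.Quotient.mk (Ideal.span {D.G}) (D.y i)) ++
  List.ofFn (fun i => Ideal.Quotient.mk (Ideal.span {D.G}) (D.x i))

theorem length_xs : D.xs.length = s + d := by simp [xs]

theorem nontrivial_quot : Nontrivial (B ⧸ Ideal.span {D.G}) := by
  apply Ideal.Quotient.nontrivial_iff.2
  rw [Ne, Ideal.span_singleton_eq_top]
  exact D.G_mem

theorem isLocal_quot : IsLocalRing (B ⧸ Ideal.span {D.G}) :=
  have := D.nontrivial_quot
  .of_surjective' (Ideal.Quotient.mk _) Ideal.Quotient.mk_surjective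

theorem ofList_xs : Ideal.ofList D.xs =
    Ideal.span (Set.range fun i => Ideal.Quotient.mk (Ideal.span {D.G}) (D.y i)) ⊔
    Ideal.span (Set.range fun i => Ideal.Quotient.mk (Ideal.span {D.G}) (D.x i)) := by
  rw [xs, Ideal.ofList_append, ofList_ofFn, ofList_ofFn]

theorem quot_regular : ∃ (_ : IsRegularLocalRing (B ⧸ Ideal.span {D.G})),
    Ideal.ofList D.xs = maximalIdeal (B ⧸ Ideal.span {D.G}) ∧
    ringKrullDim (B ⧸ Ideal.span {D.G}) = ((s + d : ℕ) : WithBot ℕ∞) := by
  have h0 := D.nontrivial_quot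
  have h1 := D.isLocal_quot
  have hm : (maximalIdeal B).map (Ideal.Quotient.mk (Ideal.span {D.G})) =
      maximalIdeal (B ⧸ Ideal.span {D.G}) :=
    map_maximalIdeal_of_surjective _ Ideal.Quotient.mk_surjective
  have h2 : Ideal.ofList D.xs = maximalIdeal (B ⧸ Ideal.span {D.G}) := by
    rw [← hm, D.maxB, Ideal.map_sup, Ideal.map_sup, Ideal.map_quotient_self, bot_sup_eq,
      Ideal.map_span, Ideal.map_span, ← Set.range_comp, ← Set.range_comp, D.ofList_xs]
    rfl
  obtain ⟨t, ht⟩ := QData.exists_nat_ringKrullDim (B ⧸ Ideal.span {D.G})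
  have h3 := ringKrullDim_le_ringKrullDim_quotient_add_card ({D.G} : Finset B) (by
    rw [IsLocalRing.ringJacobson_eq_maximalIdeal]
    simpa using D.G_mem)
  rw [Finset.coe_singleton, D.dimB, ht, Finset.card_singleton] at h3
  have h4 : s + d + 1 ≤ t + 1 := by exact_mod_cast h3
  have hlen : D.xs.length = s + d := D.length_xs
  obtain ⟨h5, h6⟩ := isRegularLocalRing_of_list D.xs h2 (by
    rw [ht, hlen]
    exact_mod_cast (by omega : s + d ≤ t))
  refine ⟨h5, h2, ?_⟩
  rw [h6, hlen]

theorem height_comap_mk (p : Ideal (B ⧸ Ideal.span {D.G})) [p.IsPrime] (r s' : ℕ)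
    (hr : p.height = r) (hs : (p.comap (Ideal.Quotient.mk (Ideal.span {D.G}))).height = s') :
    r + 1 ≤ s' := by
  obtain ⟨h1, -, h2⟩ := D.quot_regular
  obtain ⟨r', hr', hle, h3⟩ := supportDim_prime_eq h2 p
  obtain ⟨s'', hs', hle', h4⟩ := supportDim_prime_eq D.dimB
    (p.comap (Ideal.Quotient.mk (Ideal.span {D.G})))
  rw [hr] at hr'
  rw [hs] at hs'
  have e1 : r = r' := by exact_mod_cast hr'
  have e2 : s' = s'' := by exact_mod_cast hs'
  rw [Module.supportDim_quotient_eq_ringKrullDim] at h3 h4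
  have h5 : ringKrullDim (B ⧸ p.comap (Ideal.Quotient.mk (Ideal.span {D.G}))) =
      ringKrullDim ((B ⧸ Ideal.span {D.G}) ⧸ p) := by
    apply ringKrullDim_eq_of_ringEquiv
    have hs : Function.Surjective ((Ideal.Quotient.mk p).comp
        (Ideal.Quotient.mk (Ideal.span {D.G}))) :=
      Ideal.Quotient.mk_surjective.comp Ideal.Quotient.mk_surjective
    refine (Ideal.quotEquivOfEq ?_).trans (RingHom.quotientKerEquivOfSurjective hs)
    ext y
    rw [RingHom.mem_ker, RingHom.comp_apply, Ideal.Quotient.eq_zero_iff_mem, Ideal.mem_comap]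
  rw [h3, h4] at h5
  have h6 : s + d + 1 - s'' = s + d - r' := by exact_mod_cast h5
  omega

section TD

variable {D} {T : Type u} [CommRing T] [IsRegularLocalRing T] (t : D.TD T)

theorem TD.f_a₂G : t.f (C (D.a₂ D.G)) = 0 := by
  rw [D.hG, map_sub, map_sub, t.hG, zero_sub, neg_eq_zero, map_sum, map_sum]
  have h1 : ∀ i, t.f (C ((D.a₂ (D.x i) - D.a₁ (D.x i)) * D.u i)) =
      t.f (C (D.u i)) * ∑ l, (t.f (X (i, l)) - t.f (X (l, i))) * t.f (C (D.u l)) := by
    intro i
    rw [map_mul, map_mul, ← D.h_eq t.f t.hE i, mul_comm]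
    rfl
  rw [Finset.sum_congr rfl fun i _ => h1 i]
  exact sum_alt_eq_zero (fun p => t.f (X p)) (fun i => t.f (C (D.u i)))

/-- The first map. -/
noncomputable def TD.i₁ : B ⧸ Ideal.span {D.G} →+* T :=
  Ideal.Quotient.lift _ ((t.f.comp C).comp D.a₁) (fun a ha => by
    have h1 : Ideal.span {D.G} ≤ RingHom.ker ((t.f.comp C).comp D.a₁) := by
      rw [Ideal.span_singleton_le_iff_mem, RingHom.mem_ker]
      exact t.hG
    exact h1 ha)

/-- The second map. -/
noncomputable def TD.i₂ : B ⧸ Ideal.span {D.G} →+* T :=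
  Ideal.Quotient.lift _ ((t.f.comp C).comp D.a₂) (fun a ha => by
    have h1 : Ideal.span {D.G} ≤ RingHom.ker ((t.f.comp C).comp D.a₂) := by
      rw [Ideal.span_singleton_le_iff_mem, RingHom.mem_ker]
      exact t.f_a₂G
    exact h1 ha)

theorem TD.i₁_mk (b : B) : t.i₁ (Ideal.Quotient.mk _ b) = t.f (C (D.a₁ b)) :=
  Ideal.Quotient.lift_mk _ _ _

theorem TD.i₂_mk (b : B) : t.i₂ (Ideal.Quotient.mk _ b) = t.f (C (D.a₂ b)) :=
  Ideal.Quotient.lift_mk _ _ _

theorem TD.i₂_y (i : Fin s) : t.i₂ (Ideal.Quotient.mk _ (D.y i)) =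
    t.i₁ (Ideal.Quotient.mk _ (D.y i)) := by
  rw [t.i₁_mk, t.i₂_mk, D.hy]

theorem TD.ν_i₁ (r : B ⧸ Ideal.span {D.G}) : t.ν (t.i₁ r) = r := by
  obtain ⟨b, rfl⟩ := Ideal.Quotient.mk_surjective r
  rw [t.i₁_mk, t.hν, D.μ₁]

theorem TD.ν_i₂ (r : B ⧸ Ideal.span {D.G}) : t.ν (t.i₂ r) = r := by
  obtain ⟨b, rfl⟩ := Ideal.Quotient.mk_surjective r
  rw [t.i₂_mk, t.hν, D.μ₂]

theorem TD.isLocalHom₁ : IsLocalHom t.i₁ := ⟨fun s hs => by
    have := hs.map t.ν
    rwa [t.ν_i₁] at this⟩

theorem TD.isLocalHom₂ : IsLocalHom t.i₂ := ⟨fun s hs => by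
    have := hs.map t.ν
    rwa [t.ν_i₂] at this⟩

/-- The list of the variables. -/
noncomputable def TD.z : List T :=
  (Finset.univ : Finset (Fin d × Fin d)).toList.map (fun p => t.f (X p))

theorem TD.length_z : t.z.length = d * d := by simp [TD.z]

theorem TD.ofList_z : Ideal.ofList t.z = Ideal.span (Set.range fun p => t.f (X p)) :=
  ofList_toList _

theorem TD.h_mem (i : Fin d) : t.f (C (D.h i)) ∈ Ideal.ofList t.z := by
  rw [D.h_eq t.f t.hE i, t.ofList_z]
  exact Ideal.sum_mem _ fun l _ => Ideal.mul_mem_right _ _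
    (Ideal.sub_mem _ (Ideal.subset_span ⟨_, rfl⟩) (Ideal.subset_span ⟨_, rfl⟩))

theorem TD.ofList_i₁ : Ideal.ofList (D.xs.map t.i₁) =
    Ideal.span (Set.range fun i => t.f (C (D.a₁ (D.y i)))) ⊔
    Ideal.span (Set.range fun i => t.f (C (D.a₁ (D.x i)))) := by
  rw [xs, List.map_append, List.map_ofFn, List.map_ofFn, Ideal.ofList_append, ofList_ofFn,
    ofList_ofFn]
  rfl

theorem TD.ofList_i₂ : Ideal.ofList (D.xs.map t.i₂) =
    Ideal.span (Set.range fun i => t.f (C (D.a₁ (D.y i)))) ⊔
    Ideal.span (Set.range fun i => t.f (C (D.a₂ (D.x i)))) := by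
  rw [xs, List.map_append, List.map_ofFn, List.map_ofFn, Ideal.ofList_append, ofList_ofFn,
    ofList_ofFn]
  congr 3
  funext i
  rw [Function.comp_apply, t.i₂_y, t.i₁_mk]

theorem TD.max₁ : Ideal.ofList (D.xs.map t.i₁) ⊔ Ideal.ofList t.z = maximalIdeal T := by
  rw [t.maxT, t.ofList_z, t.ofList_i₁]

theorem TD.a₂_eq (i : Fin d) : t.f (C (D.a₂ (D.x i))) = t.f (C (D.a₁ (D.x i))) +
    t.f (C (D.h i)) := by
  rw [← map_add, ← map_add, RData.h, add_sub_cancel]

theorem TD.max₂ : Ideal.ofList (D.xs.map t.i₂) ⊔ Ideal.ofList t.z = maximalIdeal T := by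
  rw [← t.max₁, t.ofList_i₁, t.ofList_i₂]
  apply le_antisymm
  · refine sup_le (sup_le ?_ (Ideal.span_le.2 ?_)) le_sup_right
    · exact le_sup_left.trans le_sup_left
    rintro _ ⟨i, rfl⟩
    simp only [t.a₂_eq]
    exact Ideal.add_mem _ (Ideal.mem_sup_left (Ideal.mem_sup_right (Ideal.subset_span ⟨i, rfl⟩)))
      (Ideal.mem_sup_right (t.h_mem i))
  · refine sup_le (sup_le ?_ (Ideal.span_le.2 ?_)) le_sup_right
    · exact le_sup_left.trans le_sup_left
    rintro _ ⟨i, rfl⟩
    have h1 : t.f (C (D.a₁ (D.x i))) = t.f (C (D.a₂ (D.x i))) - t.f (C (D.h i)) := by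
      rw [t.a₂_eq, add_sub_cancel_right]
    simp only [h1]
    exact Ideal.sub_mem _ (Ideal.mem_sup_left (Ideal.mem_sup_right (Ideal.subset_span ⟨i, rfl⟩)))
      (Ideal.mem_sup_right (t.h_mem i))

theorem TD.isRegular_append (rs : List T) (hrs : Ideal.ofList rs ⊔ Ideal.ofList t.z =
    maximalIdeal T) (hlen : rs.length = s + d) :
    IsWeaklyRegular T (rs ++ t.z) ∧ IsWeaklyRegular T (t.z ++ rs) := by
  constructor
  · refine (isRegular_of_ofList_eq_maximalIdeal T (rs ++ t.z) ?_ ?_).toIsWeaklyRegular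
    · rw [Ideal.ofList_append, hrs]
    · rw [t.dimT, List.length_append, hlen, t.length_z]
  · refine (isRegular_of_ofList_eq_maximalIdeal T (t.z ++ rs) ?_ ?_).toIsWeaklyRegular
    · rw [Ideal.ofList_append, sup_comm, hrs]
    · rw [t.dimT, List.length_append, hlen, t.length_z, add_comm]

omit [IsRegularLocalRing T] in
theorem TD.length_xs_map (i : B ⧸ Ideal.span {D.G} →+* T) : (D.xs.map i).length = s + d := by
  rw [List.length_map, D.length_xs]

theorem TD.z_regular : IsWeaklyRegular T t.z :=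
  ((isWeaklyRegular_append_iff _ _ _).mp
    (t.isRegular_append _ t.max₁ (TD.length_xs_map _)).2).1

theorem TD.flat₁ : t.i₁.Flat := by
  obtain ⟨h1, h2, h3⟩ := D.quot_regular
  let _ : Algebra (B ⧸ Ideal.span {D.G}) T := t.i₁.toAlgebra
  have hl : IsLocalHom (algebraMap (B ⧸ Ideal.span {D.G}) T) := t.isLocalHom₁
  refine flat_of_weaklyRegular D.xs h2 (isRegular_of_ofList_eq_maximalIdeal _ D.xs h2 ?_).toIsWeaklyRegular
    ((isWeaklyRegular_append_iff _ _ _).mp
      (t.isRegular_append _ t.max₁ (TD.length_xs_map _)).1).1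
  rw [h3, D.length_xs]

theorem TD.flat₂ : t.i₂.Flat := by
  obtain ⟨h1, h2, h3⟩ := D.quot_regular
  let _ : Algebra (B ⧸ Ideal.span {D.G}) T := t.i₂.toAlgebra
  have hl : IsLocalHom (algebraMap (B ⧸ Ideal.span {D.G}) T) := t.isLocalHom₂
  refine flat_of_weaklyRegular D.xs h2 (isRegular_of_ofList_eq_maximalIdeal _ D.xs h2 ?_).toIsWeaklyRegular
    ((isWeaklyRegular_append_iff _ _ _).mp
      (t.isRegular_append _ t.max₂ (TD.length_xs_map _)).1).1
  rw [h3, D.length_xs]

end TD

end RData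

end Vale.Agent.P177
end

section

/-!
Relative version: height inequality and minimal primes for the ring `T`.
-/

namespace Vale.Agent.P177

open TensorProduct IsLocalRing MvPolynomial RingTheory.Sequence

universe u

namespace RData

variable {s d : ℕ} {B Γ : Type u} [CommRing B] [IsRegularLocalRing B] [CommRing Γ]
  [IsRegularLocalRing Γ] {D : RData s d B Γ}

section TD

variable {T : Type u} [CommRing T] [IsRegularLocalRing T] (t : D.TD T)

theorem TD.quot_z : ∃ (_ : IsRegularLocalRing (T ⧸ Ideal.ofList t.z)),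
    ringKrullDim (T ⧸ Ideal.ofList t.z) = ((s + d : ℕ) : WithBot ℕ∞) := by
  have hzm : Ideal.ofList t.z ≤ maximalIdeal T := by
    rw [← t.max₁]
    exact le_sup_right
  have h0 : Nontrivial (T ⧸ Ideal.ofList t.z) := Ideal.Quotient.nontrivial_iff.2
    (fun h => (maximalIdeal.isMaximal T).ne_top (top_le_iff.1 (h ▸ hzm)))
  have h1 : IsLocalRing (T ⧸ Ideal.ofList t.z) :=
    .of_surjective' (Ideal.Quotient.mk _) Ideal.Quotient.mk_surjective
  have hm : (maximalIdeal T).map (Ideal.Quotient.mk (Ideal.ofList t.z)) =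
      maximalIdeal (T ⧸ Ideal.ofList t.z) :=
    map_maximalIdeal_of_surjective _ Ideal.Quotient.mk_surjective
  have h2 : Ideal.ofList ((D.xs.map t.i₁).map (Ideal.Quotient.mk (Ideal.ofList t.z))) =
      maximalIdeal (T ⧸ Ideal.ofList t.z) := by
    rw [← hm, ← t.max₁, Ideal.map_sup, Ideal.map_quotient_self, sup_bot_eq, Ideal.map_ofList]
  have h3 : ringKrullDim (T ⧸ Ideal.ofList t.z) = ((s + d : ℕ) : WithBot ℕ∞) := by
    have hreg : IsRegular T t.z := by
      refine ⟨t.z_regular, ?_⟩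
      intro h
      have h1 : (Ideal.ofList t.z • ⊤ : Ideal T) ≤ maximalIdeal T := by
        rw [smul_eq_mul, Ideal.mul_top]
        exact hzm
      rw [← h] at h1
      exact (maximalIdeal.isMaximal T).ne_top (top_le_iff.1 h1)
    have h2 := ringKrullDim_add_length_eq_ringKrullDim_of_isRegular _ hreg
    rw [t.dimT, t.length_z] at h2
    obtain ⟨e, he⟩ := QData.exists_nat_ringKrullDim (T ⧸ Ideal.ofList t.z)
    rw [he] at h2 ⊢
    have h3 : e + d * d = s + d + d * d := by exact_mod_cast h2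
    have h4 : e = s + d := by omega
    rw [h4]
  obtain ⟨h5, h6⟩ := isRegularLocalRing_of_list _ h2 (by
    rw [h3, List.length_map, TD.length_xs_map])
  exact ⟨h5, h3⟩

theorem TD.ker_ν : RingHom.ker t.ν = Ideal.ofList t.z := by
  have hz : Ideal.ofList t.z ≤ RingHom.ker t.ν := by
    rw [t.ofList_z, Ideal.span_le]
    rintro _ ⟨p, rfl⟩
    exact t.hνX p
  obtain ⟨h1, h2⟩ := t.quot_z
  have hdom : IsDomain (T ⧸ Ideal.ofList t.z) := regular_isDomain _
  obtain ⟨-, -, h3⟩ := D.quot_regular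
  let g : T ⧸ Ideal.ofList t.z →+* B ⧸ Ideal.span {D.G} :=
    Ideal.Quotient.lift _ t.ν (fun a ha => hz ha)
  have hg : Function.Surjective g := Ideal.Quotient.lift_surjective_of_surjective _ _
    (fun r => ⟨t.i₁ r, t.ν_i₁ r⟩)
  have hinj := injective_of_surjective_of_dim g hg (s + d) h2 h3
  refine le_antisymm ?_ hz
  intro a ha
  rw [← Ideal.Quotient.eq_zero_iff_mem]
  apply hinj
  rw [map_zero]
  exact ha

theorem TD.height_le (Q : Ideal T) [Q.IsPrime] (j : Fin d) (hj : t.f (C (D.u j)) ∉ Q)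
    (r₁ r₂ q : ℕ) (h₁ : (Q.comap t.i₁).height = r₁) (h₂ : (Q.comap t.i₂).height = r₂)
    (hq : Q.height = q) : r₁ + r₂ ≤ q + (s + 1) := by
  have hQp : (Q.comap t.f).IsPrime := Ideal.IsPrime.comap _
  have hrp : ((Q.comap t.f).comap C).IsPrime := Ideal.IsPrime.comap _
  have e1 := elim_main D.h D.u (Q.comap t.f) (fun i => by
    rw [Ideal.mem_comap, t.hE]
    exact Q.zero_mem) j hj
  have e2 := t.ht Q inferInstance
  have hfin : ((Q.comap t.f).comap C).height ≠ ⊤ := Ideal.height_ne_top_of_isPrime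
  have hfin2 : (Q.comap t.f).height ≠ ⊤ := Ideal.height_ne_top_of_isPrime
  have hf1 : (((Q.comap t.f).comap C).comap D.a₁).IsPrime := Ideal.IsPrime.comap _
  have hf2 : (((Q.comap t.f).comap C).comap D.a₂).IsPrime := Ideal.IsPrime.comap _
  obtain ⟨s', hs⟩ := ENat.ne_top_iff_exists.1 hfin
  obtain ⟨v, hv⟩ := ENat.ne_top_iff_exists.1 hfin2
  obtain ⟨s₁, hs₁⟩ := ENat.ne_top_iff_exists.1
    (Ideal.height_ne_top_of_isPrime (I := ((Q.comap t.f).comap C).comap D.a₁))
  obtain ⟨s₂, hs₂⟩ := ENat.ne_top_iff_exists.1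
    (Ideal.height_ne_top_of_isPrime (I := ((Q.comap t.f).comap C).comap D.a₂))
  rw [← hs, ← hv] at e1
  rw [← hv, hq] at e2
  have e1' : s' + d ≤ v + 1 := by exact_mod_cast e1
  have e2' : v ≤ q + (d + 1) := by exact_mod_cast e2
  have hsup : (maximalIdeal B).map D.a₁ ⊔ (maximalIdeal B).map D.a₂ = maximalIdeal Γ := by
    have hloc₁ : IsLocalHom D.a₁ := ⟨fun s hs => by
      have := hs.map D.μ
      rwa [D.μ₁] at this⟩
    have hloc₂ : IsLocalHom D.a₂ := ⟨fun s hs => by
      have := hs.map D.μ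
      rwa [D.μ₂] at this⟩
    apply le_antisymm
    · exact sup_le (((IsLocalRing.local_hom_TFAE D.a₁).out 0 2).mp hloc₁)
        (((IsLocalRing.local_hom_TFAE D.a₂).out 0 2).mp hloc₂)
    · rw [D.maxΓ]
      refine sup_le (sup_le ?_ (sup_le ?_ ?_)) ?_
      · rw [Ideal.span_singleton_le_iff_mem]
        exact Ideal.mem_sup_left (Ideal.mem_map_of_mem _ D.G_mem)
      · rw [Ideal.span_le]
        rintro _ ⟨i, rfl⟩
        exact Ideal.mem_sup_left (Ideal.mem_map_of_mem _ (D.y_memB i))
      · rw [Ideal.span_le]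
        rintro _ ⟨i, rfl⟩
        exact Ideal.mem_sup_left (Ideal.mem_map_of_mem _ (D.x_memB i))
      · rw [Ideal.span_le]
        rintro _ ⟨i, rfl⟩
        exact Ideal.sub_mem _ (Ideal.mem_sup_right (Ideal.mem_map_of_mem _ (D.x_memB i)))
          (Ideal.mem_sup_left (Ideal.mem_map_of_mem _ (D.x_memB i)))
  have e3 := height_le_of_sup D.a₁ D.a₂ D.dimB D.dimΓ hsup (a := s + 1) (by omega)
    ((Q.comap t.f).comap C) s₁ s₂ s' hs₁.symm hs₂.symm hs.symm
  have k₁ : (Q.comap t.i₁).comap (Ideal.Quotient.mk (Ideal.span {D.G})) =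
      ((Q.comap t.f).comap C).comap D.a₁ := by
    ext b
    change t.i₁ (Ideal.Quotient.mk _ b) ∈ Q ↔ t.f (C (D.a₁ b)) ∈ Q
    rw [t.i₁_mk]
  have k₂ : (Q.comap t.i₂).comap (Ideal.Quotient.mk (Ideal.span {D.G})) =
      ((Q.comap t.f).comap C).comap D.a₂ := by
    ext b
    change t.i₂ (Ideal.Quotient.mk _ b) ∈ Q ↔ t.f (C (D.a₂ b)) ∈ Q
    rw [t.i₂_mk]
  have hq1 : (Q.comap t.i₁).IsPrime := Ideal.IsPrime.comap _
  have hq2 : (Q.comap t.i₂).IsPrime := Ideal.IsPrime.comap _
  have e4 := D.height_comap_mk (Q.comap t.i₁) r₁ s₁ h₁ (by rw [k₁, ← hs₁])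
  have e5 := D.height_comap_mk (Q.comap t.i₂) r₂ s₂ h₂ (by rw [k₂, ← hs₂])
  omega

/-- If all `u_j` are in `Q` then the two maps agree modulo `Q`. -/
theorem TD.sub_mem_of_u_mem (Q : Ideal T)
    (hu : ∀ j, t.f (C (D.u j)) ∈ Q) (r : B ⧸ Ideal.span {D.G}) : t.i₂ r - t.i₁ r ∈ Q := by
  have hh : ∀ i, t.f (C (D.h i)) ∈ Q := by
    intro i
    rw [D.h_eq t.f t.hE i]
    exact Ideal.sum_mem _ fun l _ => Ideal.mul_mem_left _ _ (hu l)
  obtain ⟨b, rfl⟩ := Ideal.Quotient.mk_surjective r
  rw [t.i₁_mk, t.i₂_mk, ← map_sub, ← map_sub]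
  have h1 : Ideal.span (Set.range fun i => D.a₂ (D.x i) - D.a₁ (D.x i)) ≤
      Q.comap (t.f.comp C) := by
    rw [Ideal.span_le]
    rintro _ ⟨i, rfl⟩
    exact hh i
  exact h1 (D.diag b)

/-- The prime ideal generated by the parameters. -/
noncomputable def TD.m : Ideal T := Ideal.ofList (D.xs.map t.i₁)

theorem TD.m_eq : t.m = Ideal.span (Set.range fun i => t.f (C (D.a₁ (D.y i)))) ⊔
    Ideal.span (Set.range fun i => t.f (C (D.a₁ (D.x i)))) := t.ofList_i₁

theorem TD.m_le : t.m ≤ maximalIdeal T := by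
  rw [← t.max₁]
  exact le_sup_left

theorem TD.m_prime : t.m.IsPrime := by
  have hzm : t.m ≤ maximalIdeal T := t.m_le
  have h0 : Nontrivial (T ⧸ t.m) := Ideal.Quotient.nontrivial_iff.2
    (fun h => (maximalIdeal.isMaximal T).ne_top (top_le_iff.1 (h ▸ hzm)))
  have h1 : IsLocalRing (T ⧸ t.m) :=
    .of_surjective' (Ideal.Quotient.mk _) Ideal.Quotient.mk_surjective
  have hm : (maximalIdeal T).map (Ideal.Quotient.mk t.m) = maximalIdeal (T ⧸ t.m) :=
    map_maximalIdeal_of_surjective _ Ideal.Quotient.mk_surjective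
  have h2 : Ideal.ofList (t.z.map (Ideal.Quotient.mk t.m)) = maximalIdeal (T ⧸ t.m) := by
    rw [← hm, ← t.max₁, Ideal.map_sup, show Ideal.ofList (D.xs.map t.i₁) = t.m from rfl,
      Ideal.map_quotient_self, bot_sup_eq, Ideal.map_ofList]
  have h3 : ringKrullDim (T ⧸ t.m) = ((d * d : ℕ) : WithBot ℕ∞) := by
    have hreg : IsRegular T (D.xs.map t.i₁) := by
      refine ⟨((isWeaklyRegular_append_iff _ _ _).mp
        (t.isRegular_append _ t.max₁ (TD.length_xs_map _)).1).1, ?_⟩
      intro h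
      have h1 : (Ideal.ofList (D.xs.map t.i₁) • ⊤ : Ideal T) ≤ maximalIdeal T := by
        rw [smul_eq_mul, Ideal.mul_top]
        exact hzm
      rw [← h] at h1
      exact (maximalIdeal.isMaximal T).ne_top (top_le_iff.1 h1)
    have h2 := ringKrullDim_add_length_eq_ringKrullDim_of_isRegular _ hreg
    rw [t.dimT, TD.length_xs_map] at h2
    change ringKrullDim (T ⧸ t.m) + _ = _ at h2
    obtain ⟨e, he⟩ := QData.exists_nat_ringKrullDim (T ⧸ t.m)
    rw [he] at h2 ⊢
    have h3 : e + (s + d) = s + d + d * d := by exact_mod_cast h2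
    have h4 : e = d * d := by omega
    rw [h4]
  obtain ⟨h5, h6⟩ := isRegularLocalRing_of_list _ h2 (by
    rw [h3, List.length_map, t.length_z])
  have h7 : IsDomain (T ⧸ t.m) := regular_isDomain _
  exact (Ideal.Quotient.isDomain_iff_prime _).1 h7

theorem TD.X_mem (p : Fin d × Fin d) : t.f (X p) ∈ maximalIdeal T := by
  rw [← t.max₁, t.ofList_z]
  exact Ideal.mem_sup_right (Ideal.subset_span ⟨p, rfl⟩)

theorem TD.exists_η : ∃ η : Matrix (Fin d) (Fin d) T,
    (∀ i, t.f (C (D.h i)) = ∑ m, η i m * t.f (C (D.a₁ (D.x m)))) ∧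
    (∀ i m, η i m = ∑ l, (t.f (X (i, l)) - t.f (X (l, i))) *
      (t.f (C (D.β l m)) + ∑ j, t.f (C (D.γ l j)) * η j m)) := by
  classical
  let Λ : Matrix (Fin d) (Fin d) T := fun i l => t.f (X (i, l)) - t.f (X (l, i))
  let βT : Matrix (Fin d) (Fin d) T := fun i l => t.f (C (D.β i l))
  let γT : Matrix (Fin d) (Fin d) T := fun i l => t.f (C (D.γ i l))
  let hv : Fin d → T := fun i => t.f (C (D.h i))
  let Xv : Fin d → T := fun i => t.f (C (D.a₁ (D.x i)))
  let uv : Fin d → T := fun i => t.f (C (D.u i))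
  have e1 : hv = Λ.mulVec uv := by
    funext i
    exact D.h_eq t.f t.hE i
  have e2 : uv = βT.mulVec Xv + γT.mulVec hv := by
    funext i
    change t.f (C (D.u i)) = ∑ m, t.f (C (D.β i m)) * t.f (C (D.a₁ (D.x m))) +
      ∑ m, t.f (C (D.γ i m)) * t.f (C (D.h m))
    rw [D.hu, map_add, map_add, map_sum, map_sum, map_sum, map_sum]
    simp only [map_mul]
    rfl
  let M₁ : Matrix (Fin d) (Fin d) T := 1 - Λ * γT
  have hdet : IsUnit M₁.det := by
    have h2 : ∀ p, residue T (t.f (X p)) = 0 := fun p => (residue_eq_zero_iff _).2 (t.X_mem p)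
    have hΛ : (residue T).mapMatrix Λ = 0 := by
      ext i l
      change residue T (t.f (X (i, l)) - t.f (X (l, i))) = 0
      rw [map_sub, h2, h2, sub_zero]
    have h1 : (residue T).mapMatrix M₁ = 1 := by
      rw [show M₁ = 1 - Λ * γT from rfl, map_sub, map_one, map_mul, hΛ, zero_mul, sub_zero]
    have h2 : residue T M₁.det = 1 := by
      rw [RingHom.map_det, h1, Matrix.det_one]
    by_contra hcon
    have h3 : residue T M₁.det = 0 := (residue_eq_zero_iff _).2 ((mem_maximalIdeal _).2 hcon)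
    rw [h2] at h3
    exact one_ne_zero h3
  let η : Matrix (Fin d) (Fin d) T := M₁⁻¹ * (Λ * βT)
  have e3 : M₁ * η = Λ * βT := by
    rw [← Matrix.mul_assoc, Matrix.mul_nonsing_inv _ hdet, Matrix.one_mul]
  have e4 : η = Λ * (βT + γT * η) := by
    have h1 : η - Λ * γT * η = Λ * βT := by
      rw [← e3]
      simp only [M₁, Matrix.sub_mul, Matrix.one_mul]
    rw [Matrix.mul_add, ← Matrix.mul_assoc, ← h1]
    abel
  have e5 : M₁.mulVec hv = (Λ * βT).mulVec Xv := by
    have h1 : hv = (Λ * βT).mulVec Xv + (Λ * γT).mulVec hv := by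
      conv_lhs => rw [e1, e2]
      rw [Matrix.mulVec_add, Matrix.mulVec_mulVec, Matrix.mulVec_mulVec]
    rw [show M₁ = 1 - Λ * γT from rfl, Matrix.sub_mulVec, Matrix.one_mulVec, sub_eq_iff_eq_add]
    exact h1
  have e6 : hv = η.mulVec Xv := by
    have h1 : M₁⁻¹.mulVec (M₁.mulVec hv) = M₁⁻¹.mulVec ((Λ * βT).mulVec Xv) := by rw [e5]
    rw [Matrix.mulVec_mulVec, Matrix.mulVec_mulVec, Matrix.nonsing_inv_mul _ hdet,
      Matrix.one_mulVec] at h1
    exact h1
  refine ⟨η, fun i => congrFun e6 i, fun i m => ?_⟩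
  have h1 := congrFun (congrFun e4 i) m
  rw [Matrix.mul_apply] at h1
  exact h1

theorem TD.x_mem (i : Fin d) : t.f (C (D.a₁ (D.x i))) ∈ t.m := by
  rw [t.m_eq]
  exact Ideal.mem_sup_right (Ideal.subset_span ⟨i, rfl⟩)

theorem TD.y_mem (i : Fin s) : t.f (C (D.a₁ (D.y i))) ∈ t.m := by
  rw [t.m_eq]
  exact Ideal.mem_sup_left (Ideal.subset_span ⟨i, rfl⟩)

theorem TD.h_mem_m (i : Fin d) : t.f (C (D.h i)) ∈ t.m := by
  obtain ⟨η, h1, -⟩ := t.exists_η
  rw [h1]
  exact Ideal.sum_mem _ fun m _ => Ideal.mul_mem_left _ _ (t.x_mem m)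

theorem TD.fC_mem (y : Γ) (hy : y ∈ maximalIdeal Γ) : t.f (C y) ∈ t.m := by
  have h1 : maximalIdeal Γ ≤ t.m.comap (t.f.comp C) := by
    rw [D.maxΓ]
    refine sup_le (sup_le ?_ (sup_le ?_ ?_)) ?_
    · rw [Ideal.span_singleton_le_iff_mem]
      change t.f (C (D.a₁ D.G)) ∈ t.m
      rw [t.hG]
      exact t.m.zero_mem
    · rw [Ideal.span_le]
      rintro _ ⟨i, rfl⟩
      exact t.y_mem i
    · rw [Ideal.span_le]
      rintro _ ⟨i, rfl⟩
      exact t.x_mem i
    · rw [Ideal.span_le]
      rintro _ ⟨i, rfl⟩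
      exact t.h_mem_m i
  exact h1 hy

theorem TD.fC_sub_mem (y : Γ) : t.f (C y) - t.i₁ (Ideal.Quotient.mk _ (D.μ y)) ∈ t.m := by
  rw [t.i₁_mk, ← map_sub, ← map_sub]
  apply t.fC_mem
  rw [mem_maximalIdeal, mem_nonunits_iff]
  intro hu
  have h1 := hu.map D.μ
  rw [map_sub, D.μ₁, sub_self] at h1
  exact not_isUnit_zero h1

theorem TD.height_m_le : t.m.height ≤ (s + d : ℕ) := by
  classical
  have hm := t.m_prime
  let S : Finset T := (Finset.univ : Finset (Fin s)).image (fun i => t.f (C (D.a₁ (D.y i)))) ∪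
    (Finset.univ : Finset (Fin d)).image (fun i => t.f (C (D.a₁ (D.x i))))
  have hs : t.m = Ideal.span (S : Set T) := by
    rw [t.m_eq, ← Ideal.span_union]
    congr 1
    simp [S]
  have h2 : t.m ∈ (Ideal.span (S : Set T)).minimalPrimes := by
    rw [← hs]
    exact ⟨⟨hm, le_rfl⟩, fun q hq _ => hq.2⟩
  refine (Ideal.height_le_card_of_mem_minimalPrimes_span_finset h2).trans ?_
  have h3 : S.card ≤ s + d := by
    refine (Finset.card_union_le _ _).trans (add_le_add ?_ ?_)
    · refine Finset.card_image_le.trans ?_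
      simp
    · refine Finset.card_image_le.trans ?_
      simp
  exact_mod_cast h3

include t in
theorem TD.height_C : ((s + 2 * d + 1 : ℕ) : ℕ∞) ≤ ((maximalIdeal Γ).map
    (C : Γ →+* MvPolynomial (Fin d × Fin d) Γ)).height ∧ ((maximalIdeal Γ).map
    (C : Γ →+* MvPolynomial (Fin d × Fin d) Γ)).IsPrime := by
  have hp : ((maximalIdeal Γ).map (C : Γ →+* MvPolynomial (Fin d × Fin d) Γ)).IsPrime := by
    have e := MvPolynomial.quotientEquivQuotientMvPolynomial (σ := Fin d × Fin d) (maximalIdeal Γ)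
    have hdom : IsDomain (MvPolynomial (Fin d × Fin d) Γ ⧸ (maximalIdeal Γ).map C) :=
      e.symm.toMulEquiv.isDomain _
    exact (Ideal.Quotient.isDomain_iff_prime _).1 hdom
  refine ⟨?_, hp⟩
  have h5 := height_comap_le_of_flat (R := Γ) (S := MvPolynomial (Fin d × Fin d) Γ)
    ((maximalIdeal Γ).map C)
  have h6 : ((maximalIdeal Γ).map C).comap (algebraMap Γ (MvPolynomial (Fin d × Fin d) Γ)) =
      maximalIdeal Γ := by
    apply le_antisymm
    · apply le_maximalIdeal
      exact Ideal.comap_ne_top _ hp.ne_top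
    · exact Ideal.le_comap_map
  rw [h6] at h5
  have h7 : ((maximalIdeal Γ).height : WithBot ℕ∞) = ((s + 2 * d + 1 : ℕ) : WithBot ℕ∞) := by
    rw [IsLocalRing.maximalIdeal_height_eq_ringKrullDim, D.dimΓ]
  have h8 : (maximalIdeal Γ).height = ((s + 2 * d + 1 : ℕ) : ℕ∞) := WithBot.coe_injective h7
  rwa [h8] at h5

theorem TD.comap_m : t.m.comap t.f = (maximalIdeal Γ).map C := by
  have hm := t.m_prime
  obtain ⟨h4, hp⟩ := t.height_C
  have hQ : (t.m.comap t.f).IsPrime := Ideal.IsPrime.comap _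
  have hle : (maximalIdeal Γ).map C ≤ t.m.comap t.f := by
    rw [Ideal.map_le_iff_le_comap]
    intro y hy
    exact t.fC_mem y hy
  have h1 := t.height_m_le
  have h2 := t.ht t.m hm
  by_contra hne
  have hlt : (maximalIdeal Γ).map C < t.m.comap t.f := lt_of_le_of_ne hle (Ne.symm hne)
  have h3 := Ideal.height_add_one_le_of_lt_of_isPrime hlt
  have h5 : ((s + 2 * d + 1 : ℕ) : ℕ∞) + 1 ≤ ((s + d : ℕ) : ℕ∞) + ((d + 1 : ℕ) : ℕ∞) :=
    (add_le_add_left h4 1).trans (h3.trans (h2.trans (add_le_add_left h1 _)))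
  have h6 : s + 2 * d + 1 + 1 ≤ s + d + (d + 1) := by exact_mod_cast h5
  omega

theorem TD.height_m : t.m.height = ((s + d : ℕ) : ℕ∞) := by
  have hm := t.m_prime
  refine le_antisymm t.height_m_le ?_
  have h2 := t.ht t.m hm
  rw [t.comap_m] at h2
  have h5 := t.height_C.1.trans h2
  have hfin : t.m.height ≠ ⊤ := Ideal.height_ne_top_of_isPrime
  obtain ⟨s', hs⟩ := ENat.ne_top_iff_exists.1 hfin
  rw [← hs] at h5 ⊢
  have h6 : s + 2 * d + 1 ≤ s' + (d + 1) := by exact_mod_cast h5
  exact_mod_cast (by omega : s + d ≤ s')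

theorem TD.sub_mem_m (r : B ⧸ Ideal.span {D.G}) : t.i₂ r - t.i₁ r ∈ t.m := by
  obtain ⟨b, rfl⟩ := Ideal.Quotient.mk_surjective r
  rw [t.i₁_mk, t.i₂_mk, ← map_sub, ← map_sub]
  have h1 : Ideal.span (Set.range fun i => D.a₂ (D.x i) - D.a₁ (D.x i)) ≤
      t.m.comap (t.f.comp C) := by
    rw [Ideal.span_le]
    rintro _ ⟨i, rfl⟩
    exact t.h_mem_m i
  exact h1 (D.diag b)

theorem TD.comap_m₁ [IsLocalRing (B ⧸ Ideal.span {D.G})]
    (h : Ideal.ofList D.xs = maximalIdeal (B ⧸ Ideal.span {D.G})) :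
    t.m.comap t.i₁ = maximalIdeal (B ⧸ Ideal.span {D.G}) := by
  have hm := t.m_prime
  have hp : (t.m.comap t.i₁).IsPrime := Ideal.IsPrime.comap _
  refine le_antisymm (le_maximalIdeal hp.ne_top) ?_
  rw [← Ideal.map_le_iff_le_comap, ← h, Ideal.map_ofList]
  rfl

theorem TD.comap_m₂ [IsLocalRing (B ⧸ Ideal.span {D.G})]
    (h : Ideal.ofList D.xs = maximalIdeal (B ⧸ Ideal.span {D.G})) :
    t.m.comap t.i₂ = maximalIdeal (B ⧸ Ideal.span {D.G}) := by
  rw [← t.comap_m₁ h]
  ext r
  rw [Ideal.mem_comap, Ideal.mem_comap]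
  have h1 := t.sub_mem_m r
  constructor
  · intro h2
    have := Ideal.sub_mem _ h2 h1
    rwa [sub_sub_cancel] at this
  · intro h2
    have := Ideal.add_mem _ h1 h2
    rwa [sub_add_cancel] at this

/-- A prime containing the polar forms and the extensions of two ideals whose sum is primary to
the maximal ideal contains `mT`. -/
theorem TD.m_le_of_u_mem [IsLocalRing (B ⧸ Ideal.span {D.G})]
    (h : Ideal.ofList D.xs = maximalIdeal (B ⧸ Ideal.span {D.G}))
    (I J : Ideal (B ⧸ Ideal.span {D.G}))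
    (hIJ : maximalIdeal (B ⧸ Ideal.span {D.G}) ≤ (I ⊔ J).radical)
    (Q : Ideal T) [hQ : Q.IsPrime] (h₁ : I.map t.i₁ ≤ Q) (h₂ : J.map t.i₂ ≤ Q)
    (hu : ∀ j, t.f (C (D.u j)) ∈ Q) : t.m ≤ Q := by
  have hJ : J ≤ Q.comap t.i₁ := by
    intro r hr
    have h1 : t.i₂ r ∈ Q := h₂ (Ideal.mem_map_of_mem _ hr)
    have h2 := t.sub_mem_of_u_mem Q hu r
    have := Ideal.sub_mem _ h1 h2
    rwa [sub_sub_cancel] at this
  have hI : I ≤ Q.comap t.i₁ := Ideal.map_le_iff_le_comap.1 h₁
  have hle : maximalIdeal (B ⧸ Ideal.span {D.G}) ≤ Q.comap t.i₁ := by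
    refine hIJ.trans ?_
    rw [← (hQ.comap t.i₁).radical]
    exact Ideal.radical_mono (sup_le hI hJ)
  rw [← h, ← Ideal.map_le_iff_le_comap, Ideal.map_ofList] at hle
  exact hle

theorem TD.m_eq_span₂ : t.m = Ideal.ofList (D.xs.map t.i₂) := by
  obtain ⟨η, hη1, hη2⟩ := t.exists_η
  have hη : ∀ i m, η i m ∈ maximalIdeal T := by
    intro i m
    rw [hη2]
    exact Ideal.sum_mem _ fun l _ => Ideal.mul_mem_right _ _
      (Ideal.sub_mem _ (t.X_mem _) (t.X_mem _))
  rw [t.ofList_i₂]
  refine le_antisymm ?_ ?_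
  · refine Submodule.le_of_le_smul_of_le_jacobson_bot (I := maximalIdeal T)
      (IsNoetherian.noetherian _) (IsLocalRing.maximalIdeal_le_jacobson _) ?_
    conv_lhs => rw [t.m_eq]
    refine sup_le ((le_sup_left.trans le_sup_left)) ?_
    rw [Ideal.span_le]
    rintro _ ⟨i, rfl⟩
    have h2 : t.f (C (D.a₁ (D.x i))) = t.f (C (D.a₂ (D.x i))) -
        ∑ m, η i m * t.f (C (D.a₁ (D.x m))) := by
      rw [← hη1, t.a₂_eq, add_sub_cancel_right]
    simp only [SetLike.mem_coe]
    rw [h2]
    refine Ideal.sub_mem _ (Ideal.mem_sup_left (Ideal.mem_sup_right (Ideal.subset_span ⟨i, rfl⟩)))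
      (Ideal.mem_sup_right ?_)
    exact Ideal.sum_mem _ fun m _ => Ideal.mul_mem_mul (hη i m) (t.x_mem m)
  · refine sup_le ?_ ?_
    · rw [t.m_eq]
      exact le_sup_left
    rw [Ideal.span_le]
    rintro _ ⟨i, rfl⟩
    simp only [SetLike.mem_coe, t.a₂_eq]
    exact Ideal.add_mem _ (t.x_mem i) (t.h_mem_m i)

end TD

end RData

end Vale.Agent.P177
end

section

/-!
Completions of regular local rings.
-/

namespace Vale.Agent.P177

open CategoryTheory TensorProduct Function IsLocalRing RingTheory.Sequence Pointwise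

universe u

theorem exists_powerSeries_surjective_gen {ι A R : Type*} [Finite ι] [CommRing A] [IsLocalRing A]
    [IsAdicComplete (maximalIdeal A) A] [CommRing R] (σ : R →+* A)
    (hσ : Function.Surjective (fun x => residue A (σ x))) (x : ι → A)
    (hx : Ideal.span (Set.range x) = maximalIdeal A) :
    ∃ φ : MvPowerSeries ι R →+* A, Function.Surjective φ := by
  obtain ⟨φ, hφ⟩ := exists_evalHom (maximalIdeal A) σ x
    (fun i => hx ▸ Ideal.subset_span ⟨i, rfl⟩)
  refine ⟨φ, ?_⟩
  have hX : ∀ i, φ (MvPowerSeries.X i) = x i := by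
    intro i
    rw [← MvPolynomial.coe_X, hφ]
    simp
  have hmap : (Ideal.span (Set.range MvPowerSeries.X) : Ideal (MvPowerSeries ι R)).map φ =
      maximalIdeal A := by
    rw [Ideal.map_span, ← Set.range_comp, ← hx]
    congr 2
    ext i
    exact hX i
  have hH : IsHausdorff ((Ideal.span (Set.range MvPowerSeries.X) :
      Ideal (MvPowerSeries ι R)).map φ) A := by
    rw [hmap]
    infer_instance
  apply surjective_of_mk_map_comp_surjective (I := Ideal.span (Set.range MvPowerSeries.X)) φ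
  intro y
  obtain ⟨a, rfl⟩ := Ideal.Quotient.mk_surjective y
  obtain ⟨c, hc⟩ := hσ (residue A a)
  refine ⟨MvPowerSeries.C c, ?_⟩
  rw [← MvPolynomial.coe_C, RingHom.comp_apply, hφ]
  simp only [MvPolynomial.coe_eval₂Hom, MvPolynomial.eval₂_C]
  rw [Ideal.Quotient.mk_eq_mk_iff_sub_mem, hmap]
  rw [← Ideal.Quotient.mk_eq_mk_iff_sub_mem]
  exact hc

theorem isNoetherianRing_adicCompletion (R : Type u) [CommRing R] [IsLocalRing R]
    [IsNoetherianRing R] : IsNoetherianRing (AdicCompletion (maximalIdeal R) R) := by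
  obtain ⟨s, hs⟩ := (maximalIdeal R).fg_of_isNoetherianRing
  obtain ⟨φ, hφ⟩ := exists_powerSeries_surjective_gen (ι := s)
    (A := AdicCompletion (maximalIdeal R) R) (algebraMap R (AdicCompletion (maximalIdeal R) R))
    (by
      intro y
      obtain ⟨z, hz⟩ := (AdicCompletion.residueField_map_bijective R).2 y
      obtain ⟨z, rfl⟩ := residue_surjective z
      exact ⟨z, hz⟩)
    (fun i => algebraMap R (AdicCompletion (maximalIdeal R) R) i.1)
    (by
      rw [AdicCompletion.maximalIdeal_eq_map]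
      refine Eq.trans ?_ (congrArg
        (Ideal.map (algebraMap R (AdicCompletion (maximalIdeal R) R))) hs)
      refine Eq.trans ?_ (Ideal.map_span _ _).symm
      congr 1
      ext y
      simp)
  exact isNoetherianRing_of_surjective _ _ φ hφ

theorem ringKrullDim_adicCompletion (R : Type u) [CommRing R] [IsRegularLocalRing R] {r : ℕ}
    (hr : ringKrullDim R = r) [IsNoetherianRing (AdicCompletion (maximalIdeal R) R)] :
    ringKrullDim (AdicCompletion (maximalIdeal R) R) = r := by
  have hspan : ((maximalIdeal (AdicCompletion (maximalIdeal R) R)).spanFinrank :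
      WithBot ℕ∞) = r := by
    rw [AdicCompletion.spanFinrank_maximalIdeal_eq, IsRegularLocalRing.spanFinrank_maximalIdeal,
      hr]
  refine le_antisymm ?_ ?_
  · rw [← hspan]
    exact ringKrullDim_le_spanFinrank_maximalIdeal _
  · obtain ⟨rs, hrs, hlen, hreg⟩ := exists_rsp R hr
    have h1 : IsWeaklyRegular (AdicCompletion (maximalIdeal R) R)
      (rs.map (algebraMap R (AdicCompletion (maximalIdeal R) R))) := hreg.of_flat
    have h2 := length_le_height (maximalIdeal _) _ (map_mem_maximalIdeal (fun z hz => by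
      rw [← hrs]; exact Ideal.subset_span hz)) h1
    rw [List.length_map, hlen] at h2
    refine le_trans ?_ (Ideal.height_le_ringKrullDim_of_isPrime
      (I := maximalIdeal (AdicCompletion (maximalIdeal R) R)))
    exact_mod_cast h2

/-- The completion of a regular local ring with its universal property. -/
theorem exists_regular_completion (R : Type u) [CommRing R] [IsRegularLocalRing R] {r : ℕ}
    (hr : ringKrullDim R = r) :
    ∃ (S : Type u) (_ : CommRing S) (_ : IsRegularLocalRing S) (_ : Algebra R S),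
      Module.Flat R S ∧ IsLocalHom (algebraMap R S) ∧
      (maximalIdeal R).map (algebraMap R S) = maximalIdeal S ∧ ringKrullDim S = r ∧
      IsAdicComplete (maximalIdeal S) S ∧
      ∀ (C : Type u) [CommRing C] (J : Ideal C) [IsAdicComplete J C] (f : R →+* C),
        maximalIdeal R ≤ J.comap f → ∃ g : S →+* C, g.comp (algebraMap R S) = f := by
  have hN := isNoetherianRing_adicCompletion R
  have hdim := ringKrullDim_adicCompletion R hr
  refine ⟨AdicCompletion (maximalIdeal R) R, inferInstance, ?_, inferInstance, inferInstance,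
    inferInstance, AdicCompletion.maximalIdeal_eq_map.symm, hdim, inferInstance, ?_⟩
  · apply IsRegularLocalRing.of_spanFinrank_maximalIdeal_le
    rw [AdicCompletion.spanFinrank_maximalIdeal_eq, IsRegularLocalRing.spanFinrank_maximalIdeal,
      hr, hdim]
  · intro C _ J _ f hf
    have hI : ∀ n, maximalIdeal R ^ n ≤ (J ^ n).comap f := by
      intro n
      rw [← Ideal.map_le_iff_le_comap, Ideal.map_pow]
      exact Ideal.pow_right_mono (Ideal.map_le_iff_le_comap.2 hf) n
    let F : (n : ℕ) → AdicCompletion (maximalIdeal R) R →+* C ⧸ J ^ n := fun n =>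
      (Ideal.quotientMap (J ^ n) f (hI n)).comp (AdicCompletion.evalₐ (maximalIdeal R) n).toRingHom
    have hF : ∀ {m n : ℕ} (hle : m ≤ n), (Ideal.Quotient.factorPow J hle).comp (F n) = F m := by
      intro m n hle
      ext z
      obtain ⟨z, rfl⟩ := AdicCompletion.mk_surjective (maximalIdeal R) R z
      change Ideal.Quotient.factorPow J hle (Ideal.quotientMap (J ^ n) f (hI n)
        (AdicCompletion.evalₐ (maximalIdeal R) n (AdicCompletion.mk (maximalIdeal R) R z))) =
        Ideal.quotientMap (J ^ m) f (hI m)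
        (AdicCompletion.evalₐ (maximalIdeal R) m (AdicCompletion.mk (maximalIdeal R) R z))
      rw [AdicCompletion.evalₐ_mk, AdicCompletion.evalₐ_mk, Ideal.quotientMap_mk,
        Ideal.quotientMap_mk]
      change Ideal.Quotient.mk (J ^ m) (f (z.1 n)) = Ideal.Quotient.mk (J ^ m) (f (z.1 m))
      rw [Ideal.Quotient.mk_eq_mk_iff_sub_mem, ← map_sub]
      apply hI m
      have h1 := z.2 hle
      rw [SModEq.comm, SModEq.sub_mem, smul_eq_mul, Ideal.mul_top] at h1
      exact h1
    refine ⟨IsAdicComplete.liftRingHom J F hF, ?_⟩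
    ext z
    rw [← sub_eq_zero]
    apply IsHausdorff.haus (I := J) inferInstance
    intro n
    rw [SModEq.zero, smul_eq_mul, Ideal.mul_top, ← Ideal.Quotient.eq_zero_iff_mem, map_sub,
      RingHom.comp_apply, IsAdicComplete.mk_liftRingHom, sub_eq_zero]
    change Ideal.quotientMap (J ^ n) f (hI n)
      (AdicCompletion.evalₐ (maximalIdeal R) n (AdicCompletion.of _ _ z)) = _
    rw [AdicCompletion.evalₐ_of, Ideal.quotientMap_mk]

end Vale.Agent.P177
end

section

/-!
The local contributions, with a local hypothesis at one prime only.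
-/

namespace Vale.Agent.P177

open CategoryTheory TensorProduct Function IsLocalRing RingTheory.Sequence Pointwise

universe u

section

variable {R₁ R₂ T : Type u} [CommRing R₁] [CommRing R₂] [CommRing T]
    [IsRegularLocalRing R₁] [IsRegularLocalRing R₂] [IsRegularLocalRing T]
    [Algebra R₁ T] [Algebra R₂ T] [Module.Flat R₁ T] [Module.Flat R₂ T]

variable (R₁ R₂) in
/-- Local positivity at the prime `Q`. -/
def LocPosAt (N M : Type u) [AddCommGroup N] [Module R₁ N] [AddCommGroup M] [Module R₂ M]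
    (Q : Ideal T) [Q.IsPrime] : Prop :=
  ∀ (L₁ L₂ : Type u) [CommRing L₁] [CommRing L₂] [Algebra R₁ L₁] [Algebra R₂ L₂]
    [Algebra L₁ (Localization.AtPrime Q)] [Algebra L₂ (Localization.AtPrime Q)],
    LocData R₁ T Q L₁ → LocData R₂ T Q L₂ →
    ∀ (r₁ r₂ q b : ℕ), ringKrullDim L₁ = r₁ → ringKrullDim L₂ = r₂ →
    ringKrullDim (Localization.AtPrime Q) = q → r₁ + r₂ = q + b →
    FP L₁ L₂ (Localization.AtPrime Q) (L₁ ⊗[R₁] N) (L₂ ⊗[R₂] M) →
    (∀ e g : ℕ, (e : WithBot ℕ∞) ≤ Module.supportDim L₁ (L₁ ⊗[R₁] N) →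
      (g : WithBot ℕ∞) ≤ Module.supportDim L₂ (L₂ ⊗[R₂] M) → e + g ≤ b) ∧
    0 ≤ eulerTor (Localization.AtPrime Q) (q + 1) (Localization.AtPrime Q ⊗[L₁] (L₁ ⊗[R₁] N))
      (Localization.AtPrime Q ⊗[L₂] (L₂ ⊗[R₂] M)) ∧
    (∀ e g : ℕ, (e : WithBot ℕ∞) ≤ Module.supportDim L₁ (L₁ ⊗[R₁] N) →
      (g : WithBot ℕ∞) ≤ Module.supportDim L₂ (L₂ ⊗[R₂] M) → b ≤ e + g →
      0 < eulerTor (Localization.AtPrime Q) (q + 1)
        (Localization.AtPrime Q ⊗[L₁] (L₁ ⊗[R₁] N)) (Localization.AtPrime Q ⊗[L₂] (L₂ ⊗[R₂] M)))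

theorem locPosAt_of_locPos (a : ℕ) (hLoc : LocPos.{u} a) (N M : Type u) [AddCommGroup N]
    [Module R₁ N] [Module.Finite R₁ N] [AddCommGroup M] [Module R₂ M] [Module.Finite R₂ M]
    (Q : Ideal T) [Q.IsPrime]
    (hb : ∀ (r₁ r₂ q : ℕ), (Q.comap (algebraMap R₁ T)).height = r₁ →
      (Q.comap (algebraMap R₂ T)).height = r₂ → Q.height = q → r₁ + r₂ ≤ q + a) :
    LocPosAt (T := T) R₁ R₂ N M Q := by
  intro L₁ L₂ _ _ _ _ _ _ D₁ D₂ r₁ r₂ q b h₁ h₂ hq hrb hFP
  have i0 : IsRegularLocalRing (Localization.AtPrime Q) :=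
    isRegularLocalRing_localization T Q (Localization.AtPrime Q)
  have i1 := D₁.reg
  have i2 := D₂.reg
  have i3 := D₁.flat
  have i4 := D₂.flat
  have i5 := D₁.loc
  have i6 := D₂.loc
  have k₁ : (Q.comap (algebraMap R₁ T)).height = r₁ := by
    have := D₁.dim
    rw [h₁] at this
    exact_mod_cast this.symm
  have k₂ : (Q.comap (algebraMap R₂ T)).height = r₂ := by
    have := D₂.dim
    rw [h₂] at this
    exact_mod_cast this.symm
  have kq : Q.height = q := by
    have := IsLocalization.AtPrime.ringKrullDim_eq_height Q (Localization.AtPrime Q)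
    rw [hq] at this
    exact_mod_cast this.symm
  have hb' := hb r₁ r₂ q k₁ k₂ kq
  exact hLoc L₁ L₂ (Localization.AtPrime Q) r₁ r₂ q b h₁ h₂ hq hrb (by omega)
    (L₁ ⊗[R₁] N) (L₂ ⊗[R₂] M) hFP

theorem local_value_of_loc (N M : Type u) [AddCommGroup N] [Module R₁ N]
    [Module.Finite R₁ N] [AddCommGroup M] [Module R₂ M] [Module.Finite R₂ M]
    (Q : Ideal T) [hQp : Q.IsPrime]
    (hQ : Q ∈ ((Module.annihilator R₁ N).map (algebraMap R₁ T) ⊔
      (Module.annihilator R₂ M).map (algebraMap R₂ T)).minimalPrimes)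
    (r₁ r₂ q : ℕ) (h₁ : (Q.comap (algebraMap R₁ T)).height = r₁)
    (h₂ : (Q.comap (algebraMap R₂ T)).height = r₂) (hq : Q.height = q)
    (H : LocPosAt (T := T) R₁ R₂ N M Q) (n : ℕ) (hn : q + 1 ≤ n) :
    ∃ b : ℕ, r₁ + r₂ = q + b ∧ 0 ≤ locEul Q n (T ⊗[R₁] N) (T ⊗[R₂] M) ∧
      ∀ (P₁ P₂ : ℕ) (p₁ : PrimeSpectrum R₁) (p₂ : PrimeSpectrum R₂), p₁ ∈ Module.support R₁ N →
        p₂ ∈ Module.support R₂ M → p₁.asIdeal ≤ Q.comap (algebraMap R₁ T) →
        p₂.asIdeal ≤ Q.comap (algebraMap R₂ T) → p₁.asIdeal.height = P₁ →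
        p₂.asIdeal.height = P₂ →
        (r₁ - P₁) + (r₂ - P₂) ≤ b ∧ (b ≤ (r₁ - P₁) + (r₂ - P₂) →
          0 < locEul Q n (T ⊗[R₁] N) (T ⊗[R₂] M)) := by
  have hUreg : IsRegularLocalRing (Localization.AtPrime Q) :=
    isRegularLocalRing_localization T Q (Localization.AtPrime Q)
  obtain ⟨L₁, _, _, _, D₁⟩ := exists_locData R₁ T Q
  obtain ⟨L₂, _, _, _, D₂⟩ := exists_locData R₂ T Q
  have i1 := D₁.reg
  have i2 := D₂.reg
  have i3 := D₁.flat
  have i4 := D₂.flat
  have i5 := D₁.loc
  have i6 := D₂.loc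
  have i7 := D₁.isloc
  have i8 := D₂.isloc
  have i9 := D₁.tower
  have i10 := D₂.tower
  have d₁ : ringKrullDim L₁ = r₁ := by rw [D₁.dim, h₁]; rfl
  have d₂ : ringKrullDim L₂ = r₂ := by rw [D₂.dim, h₂]; rfl
  have dU : ringKrullDim (Localization.AtPrime Q) = q := by
    rw [IsLocalization.AtPrime.ringKrullDim_eq_height Q, hq]; rfl
  -- the radical condition
  have hrad := maximalIdeal_le_radical_of_minimal _ Q hQ
  have hmap₁ : ∀ I : Ideal R₁, (I.map (algebraMap R₁ T)).map
      (algebraMap T (Localization.AtPrime Q)) =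
      (I.map (algebraMap R₁ L₁)).map (algebraMap L₁ (Localization.AtPrime Q)) := by
    intro I
    rw [Ideal.map_map, Ideal.map_map, ← IsScalarTower.algebraMap_eq,
      ← IsScalarTower.algebraMap_eq]
  have hmap₂ : ∀ I : Ideal R₂, (I.map (algebraMap R₂ T)).map
      (algebraMap T (Localization.AtPrime Q)) =
      (I.map (algebraMap R₂ L₂)).map (algebraMap L₂ (Localization.AtPrime Q)) := by
    intro I
    rw [Ideal.map_map, Ideal.map_map, ← IsScalarTower.algebraMap_eq,
      ← IsScalarTower.algebraMap_eq]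
  rw [Ideal.map_sup, hmap₁, hmap₂] at hrad
  have hFP : FP L₁ L₂ (Localization.AtPrime Q) (L₁ ⊗[R₁] N) (L₂ ⊗[R₂] M) := by
    unfold FP
    refine hrad.trans (Ideal.radical_mono (sup_le_sup ?_ ?_))
    · exact Ideal.map_mono (map_annihilator_le N)
    · exact Ideal.map_mono (map_annihilator_le M)
  -- dimension bound
  have hle₁ : (Module.annihilator R₁ N).map (algebraMap R₁ L₁) ≤ maximalIdeal L₁ := by
    rw [← IsLocalization.AtPrime.map_eq_maximalIdeal (Q.comap (algebraMap R₁ T)) L₁]
    apply Ideal.map_mono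
    rw [← Ideal.map_le_iff_le_comap]
    exact le_sup_left.trans hQ.1.2
  have hle₂ : (Module.annihilator R₂ M).map (algebraMap R₂ L₂) ≤ maximalIdeal L₂ := by
    rw [← IsLocalization.AtPrime.map_eq_maximalIdeal (Q.comap (algebraMap R₂ T)) L₂]
    apply Ideal.map_mono
    rw [← Ideal.map_le_iff_le_comap]
    exact le_sup_right.trans hQ.1.2
  have hdim := ringKrullDim_le_add_of_radical L₁ L₂ (Localization.AtPrime Q) r₁ r₂ d₁ d₂
    (hrad.trans (Ideal.radical_mono (sup_le_sup (Ideal.map_mono hle₁) (Ideal.map_mono hle₂))))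
  rw [dU] at hdim
  have hqle : q ≤ r₁ + r₂ := by exact_mod_cast hdim
  obtain ⟨b, hbq⟩ := Nat.exists_eq_add_of_le hqle
  obtain ⟨c1, c2, c3⟩ := H L₁ L₂ D₁ D₂ r₁ r₂ q b d₁ d₂ dU hbq hFP
  -- comparison
  obtain ⟨e₁⟩ := exists_cancel_loc (R := R₁) (T := T) Q L₁ N
  obtain ⟨e₂⟩ := exists_cancel_loc (R := R₂) (T := T) Q L₂ M
  have hval : locEul Q n (T ⊗[R₁] N) (T ⊗[R₂] M) =
      eulerTor (Localization.AtPrime Q) (q + 1) (Localization.AtPrime Q ⊗[L₁] (L₁ ⊗[R₁] N))
        (Localization.AtPrime Q ⊗[L₂] (L₂ ⊗[R₂] M)) := by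
    rw [locEul_eq, eulerTor_congr e₁ e₂]
    apply eulerTor_shrink _ _ _ _ hn
    intro j hj
    exact regular_tor_vanish _ q dU _ _ j hj
  rw [hval]
  refine ⟨b, hbq, c2, ?_⟩
  intro P₁ P₂ p₁ p₂ hp₁ hp₂ hp₁Q hp₂Q hP₁ hP₂
  have k₁ := le_supportDim_localization R₁ (Q.comap (algebraMap R₁ T)) p₁.asIdeal hp₁Q L₁ N hp₁
    r₁ P₁ h₁ hP₁
  have k₂ := le_supportDim_localization R₂ (Q.comap (algebraMap R₂ T)) p₂.asIdeal hp₂Q L₂ M hp₂
    r₂ P₂ h₂ hP₂
  exact ⟨c1 _ _ k₁ k₂, c3 _ _ k₁ k₂⟩

end

end Vale.Agent.P177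
end

section

/-!
Global positivity from local positivity at the relevant primes.
-/

namespace Vale.Agent.P177

open CategoryTheory TensorProduct Function IsLocalRing RingTheory.Sequence Pointwise

universe u

theorem exists_minimalPrime_of_le_supportDim {R : Type u} [CommRing R] [IsRegularLocalRing R]
    {d : ℕ} (hd : ringKrullDim R = d) (M : Type u) [AddCommGroup M] [Module R M]
    [Module.Finite R M] (m : ℕ) (hm : (m : WithBot ℕ∞) ≤ Module.supportDim R M) :
    ∃ (p : PrimeSpectrum R) (P : ℕ), p ∈ Module.support R M ∧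
      p.asIdeal ∈ (Module.annihilator R M).minimalPrimes ∧ p.asIdeal.height = P ∧
      P + m ≤ d := by
  obtain ⟨p, P, hp, hP, hPm⟩ := exists_prime_of_le_supportDim hd M m hm
  rw [Module.support_eq_zeroLocus] at hp
  have hp' : Module.annihilator R M ≤ p.asIdeal := hp
  obtain ⟨p', hp', hle⟩ := Ideal.exists_minimalPrimes_le hp'
  have hpp : p'.IsPrime := hp'.1.1
  obtain ⟨P', hP', -, -⟩ := supportDim_prime_eq hd p'
  have h1 := Ideal.height_mono hle
  rw [hP, hP'] at h1
  have h2 : P' ≤ P := by exact_mod_cast h1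
  refine ⟨⟨p', hpp⟩, P', ?_, hp', hP', by omega⟩
  rw [Module.support_eq_zeroLocus]
  exact hp'.1.2

theorem global_pos_of_loc {R₁ R₂ T : Type u} [CommRing R₁] [CommRing R₂] [CommRing T]
    [IsRegularLocalRing R₁] [IsRegularLocalRing R₂] [IsRegularLocalRing T]
    [Algebra R₁ T] [Algebra R₂ T] [Module.Flat R₁ T] [Module.Flat R₂ T]
    (μ : T →+* R₁) (hμ : ∀ s, μ (algebraMap R₁ T s) = s) (z : List T)
    (hkerμ : RingHom.ker μ = Ideal.ofList z) (hz : IsWeaklyRegular T z)
    (θ : R₂ ≃+* R₁) (hθ : ∀ s, μ (algebraMap R₂ T s) = θ s)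
    (d : ℕ) (hd : ringKrullDim R₁ = d)
    (M N : Type u) [AddCommGroup M] [Module R₂ M] [Module.Finite R₂ M]
    [AddCommGroup N] [Module R₁ N] [Module R₂ N] [Module.Finite R₁ N]
    (H : ∀ (Q : Ideal T) [Q.IsPrime], Q ∈ ((Module.annihilator R₁ N).map (algebraMap R₁ T) ⊔
      (Module.annihilator R₂ M).map (algebraMap R₂ T)).minimalPrimes → LocPosAt (T := T) R₁ R₂ N M Q)
    (H' : ∀ (p₁ : PrimeSpectrum R₁) (p₂ : PrimeSpectrum R₂),
      p₁.asIdeal ∈ (Module.annihilator R₁ N).minimalPrimes →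
      p₂.asIdeal ∈ (Module.annihilator R₂ M).minimalPrimes → ∀ (Q : Ideal T) [Q.IsPrime],
      Q ∈ (p₁.asIdeal.map (algebraMap R₁ T) ⊔ p₂.asIdeal.map (algebraMap R₂ T)).minimalPrimes →
      LocPosAt (T := T) R₁ R₂ (R₁ ⧸ p₁.asIdeal) (R₂ ⧸ p₂.asIdeal) Q)
    (hN : ∀ (s : R₂) (t : N), s • t = θ s • t)
    (hlen : Module.length R₂ (M ⊗[R₂] N) ≠ ⊤) :
    0 ≤ eulerTor R₂ (d + 1) M N ∧ ∀ m n : ℕ, (m : WithBot ℕ∞) ≤ Module.supportDim R₂ M →
      (n : WithBot ℕ∞) ≤ Module.supportDim R₁ N →
      (m + n ≤ d) ∧ (d ≤ m + n → 0 < eulerTor R₂ (d + 1) M N) := by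
  classical
  -- basic facts
  have hμs : Surjective μ := fun s => ⟨algebraMap R₁ T s, hμ s⟩
  have hμloc : IsLocalHom μ := IsLocalHom.of_surjective μ hμs
  have hl₁ : IsLocalHom (algebraMap R₁ T) := ⟨fun s hs => by
    have := hs.map μ
    rwa [hμ] at this⟩
  have hl₂ : IsLocalHom (algebraMap R₂ T) := ⟨fun s hs => by
    have h1 := (hs.map μ).map θ.symm
    rwa [hθ, RingEquiv.symm_apply_apply] at h1⟩
  have hzm : ∀ y ∈ z, y ∈ maximalIdeal T := by
    intro y hy
    have h1 : y ∈ RingHom.ker μ := by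
      rw [hkerμ]
      exact Ideal.subset_span hy
    rw [mem_maximalIdeal, mem_nonunits_iff]
    intro hu
    have h2 := hu.map μ
    rw [(RingHom.mem_ker).1 h1] at h2
    exact not_isUnit_zero h2
  have hd₂ : ringKrullDim R₂ = d := by rw [ringKrullDim_eq_of_ringEquiv θ, hd]
  have ht : ringKrullDim T = ((d + z.length : ℕ) : WithBot ℕ∞) := by
    have hreg : IsRegular T z := by
      refine ⟨hz, ?_⟩
      intro h
      have h1 : (Ideal.ofList z • ⊤ : Ideal T) ≤ maximalIdeal T := by
        rw [smul_eq_mul, Ideal.mul_top]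
        exact Ideal.span_le.2 hzm
      rw [← h] at h1
      exact (maximalIdeal.isMaximal T).ne_top (top_le_iff.1 h1)
    have h2 := ringKrullDim_add_length_eq_ringKrullDim_of_isRegular _ hreg
    rw [← h2]
    have e : (T ⧸ Ideal.ofList z) ≃+* R₁ :=
      (Ideal.quotEquivOfEq hkerμ.symm).trans (RingHom.quotientKerEquivOfSurjective hμs)
    rw [ringKrullDim_eq_of_ringEquiv e, hd]
    push_cast
    rfl
  -- the ideal
  let I : Ideal T := (Module.annihilator R₁ N).map (algebraMap R₁ T) ⊔
    (Module.annihilator R₂ M).map (algebraMap R₂ T)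
  -- Fact A
  have hann : ∀ v ∈ Module.annihilator R₂ N, θ v ∈ Module.annihilator R₁ N := by
    intro v hv
    rw [Module.mem_annihilator] at hv ⊢
    intro t
    rw [← hN, hv]
  have : Module.Finite R₂ N := by
    let _ : Algebra R₂ R₁ := (θ : R₂ →+* R₁).toAlgebra
    have : IsScalarTower R₂ R₁ N := IsScalarTower.of_algebraMap_smul fun s t => (hN s t).symm
    have : Module.Finite R₂ R₁ := Module.Finite.of_surjective (Algebra.linearMap R₂ R₁)
      θ.surjective
    exact Module.Finite.trans R₁ N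
  have hA : maximalIdeal T ≤ (I ⊔ Ideal.ofList z).radical := by
    obtain ⟨k, hk⟩ := exists_pow_le_sup_annihilator (R := R₂) M N hlen
    intro x hx
    refine ⟨k, ?_⟩
    have h1 : θ.symm (μ x) ∈ maximalIdeal R₂ := by
      rw [mem_maximalIdeal, mem_nonunits_iff] at hx ⊢
      intro hu
      apply hx
      have h2 := hu.map θ
      rw [RingEquiv.apply_symm_apply] at h2
      exact isUnit_of_map_unit μ x h2
    obtain ⟨u, hu, v, hv, huv⟩ := Submodule.mem_sup.1 (hk (Ideal.pow_mem_pow h1 k))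
    have h3 : x ^ k - algebraMap R₂ T u - algebraMap R₁ T (θ v) ∈ Ideal.ofList z := by
      rw [← hkerμ, RingHom.mem_ker, map_sub, map_sub, hθ, hμ, map_pow, sub_sub, ← map_add, huv,
        map_pow, RingEquiv.apply_symm_apply, sub_self]
    have h4 : x ^ k = (algebraMap R₁ T (θ v) + algebraMap R₂ T u) +
        (x ^ k - algebraMap R₂ T u - algebraMap R₁ T (θ v)) := by ring
    rw [h4]
    exact Submodule.add_mem_sup (Submodule.add_mem_sup (Ideal.mem_map_of_mem _ (hann v hv))
      (Ideal.mem_map_of_mem _ hu)) h3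
  -- Fact C
  have hC : ∀ Q : Ideal T, I ≤ Q → Module.supportDim T (T ⧸ Q) ≤ (z.length : WithBot ℕ∞) := by
    intro Q hQ
    apply supportDim_le_length z hzm
    unfold FL
    rw [Ideal.annihilator_quotient]
    exact hA.trans (Ideal.radical_mono (sup_le_sup_right hQ _))
  have hmin : ∀ Q : PrimeSpectrum T, I ≤ Q.asIdeal → (z.length : WithBot ℕ∞) ≤
      Module.supportDim T (T ⧸ Q.asIdeal) → Q.asIdeal ∈ I.minimalPrimes := by
    intro Q hQ hQd
    refine ⟨⟨Q.isPrime, hQ⟩, ?_⟩
    rintro Q' ⟨hQ'p, hQ'⟩ hle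
    by_contra hcon
    have hlt : Q' < Q.asIdeal := lt_of_le_not_ge hle hcon
    have h1 := (supportDim_quotient_strict hlt z.length hQd).trans (hC Q' hQ')
    have h2 : z.length + 1 ≤ z.length := by exact_mod_cast h1
    omega
  have hWfin : {Q : PrimeSpectrum T | I ≤ Q.asIdeal ∧ (z.length : WithBot ℕ∞) ≤
      Module.supportDim T (T ⧸ Q.asIdeal)}.Finite := by
    refine Set.Finite.of_finite_image (f := PrimeSpectrum.asIdeal) ?_ ?_
    · refine (Ideal.finite_minimalPrimes_of_isNoetherianRing T I).subset ?_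
      rintro _ ⟨Q, hQ, rfl⟩
      exact hmin Q hQ.1 hQ.2
    · intro Q _ Q' _ h
      exact PrimeSpectrum.ext h
  let W : Finset (PrimeSpectrum T) := hWfin.toFinset
  have hWmem : ∀ Q, Q ∈ W ↔ I ≤ Q.asIdeal ∧ (z.length : WithBot ℕ∞) ≤
      Module.supportDim T (T ⧸ Q.asIdeal) := fun Q => by
    rw [Set.Finite.mem_toFinset]; rfl
  have hWdim : ∀ Q ∈ W, Module.supportDim T (T ⧸ Q.asIdeal) = (z.length : WithBot ℕ∞) := by
    intro Q hQ
    rw [hWmem] at hQ
    exact le_antisymm (hC _ hQ.1) hQ.2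
  -- the main identity
  have hfin : ∀ j, Module.Finite T (TorM T j (T ⊗[R₁] N) (T ⊗[R₂] M)) := fun j =>
    tor_finite (R := T) j _ _
  have hIann : ∀ j, I ≤ Module.annihilator T (TorM T j (T ⊗[R₁] N) (T ⊗[R₂] M)) := by
    intro j
    refine sup_le ?_ ?_
    · refine (map_annihilator_le N).trans ?_
      intro x hx
      rw [Module.mem_annihilator]
      exact tor_smul_eq_zero_left x (fun m => Module.mem_annihilator.1 hx m) j _
    · refine (map_annihilator_le M).trans ?_
      intro x hx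
      rw [Module.mem_annihilator]
      exact tor_smul_eq_zero_right x (fun m => Module.mem_annihilator.1 hx m) j _
  have hv : ∀ j, d + z.length + 1 ≤ j →
      Subsingleton (TorM T j (T ⊗[R₁] N) (T ⊗[R₂] M)) := fun j hj =>
    regular_tor_vanish T _ ht _ _ j hj
  let n : ℕ := d + z.length + 1 + z.length
  obtain ⟨heq, hFL⟩ : eulerTor R₂ n M N = ∑ j ∈ Finset.range n,
        (-1 : ℤ) ^ j * eul z (TorM T j (T ⊗[R₁] N) (T ⊗[R₂] M)) ∧
      FL2 z (T ⊗[R₁] N) (T ⊗[R₂] M) := by
    let _ : Module T N := Module.compHom N μ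
    have hsN : ∀ (b : T) (t : N), b • t = μ b • t := fun b t => rfl
    have : IsScalarTower R₁ T N := ⟨fun s b t => by
      rw [hsN, hsN, Algebra.smul_def, map_mul, hμ, mul_smul]⟩
    have : IsScalarTower R₂ T N := ⟨fun s b t => by
      rw [hsN, hsN, Algebra.smul_def, map_mul, hθ, mul_smul, hN]⟩
    have hres : ∀ b : T, ∃ s : R₁, b - algebraMap R₁ T s ∈ Ideal.ofList z := by
      intro b
      refine ⟨μ b, ?_⟩
      rw [← hkerμ, RingHom.mem_ker, map_sub, hμ, sub_self]
    have hkill : ∀ y ∈ Ideal.ofList z, ∀ t : N, y • t = 0 := by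
      intro y hy t
      rw [← hkerμ, RingHom.mem_ker] at hy
      rw [hsN, hy, zero_smul]
    have hN2 : ∀ b : T, ∃ s : R₂, ∀ t : N, b • t = s • t := by
      intro b
      refine ⟨θ.symm (μ b), fun t => ?_⟩
      rw [hN, RingEquiv.apply_symm_apply, hsN]
    let _ : Module T R₁ := Module.compHom R₁ μ
    have hsm : ∀ (b : T) (t : R₁), b • t = μ b * t := fun b t => rfl
    have : IsScalarTower R₁ T R₁ := ⟨fun s b t => by
      rw [hsm, hsm, Algebra.smul_def, map_mul, hμ, smul_eq_mul, mul_assoc]⟩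
    let μl : T →ₗ[T] R₁ :=
      { toFun := μ
        map_add' := map_add μ
        map_smul' := fun b c => by
          rw [smul_eq_mul, map_mul, RingHom.id_apply, hsm] }
    have hker : LinearMap.ker μl = (Ideal.ofList z • ⊤ : Submodule T T) := by
      rw [smul_eq_mul, Ideal.mul_top, ← hkerμ]
      rfl
    have e : (T ⧸ (Ideal.ofList z • ⊤ : Submodule T T)) ≃ₗ[T] R₁ :=
      Submodule.quotEquivOfEq _ _ hker.symm ≪≫ₗ μl.quotKerEquivOfSurjective hμs
    exact eulerTor_eq_sum_eul z hzm hz hres R₁ e N hkill hN2 M (d + z.length + 1) hv hlen n le_rfl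
  have hassoc : ∀ j, eul z (TorM T j (T ⊗[R₁] N) (T ⊗[R₂] M)) =
      ∑ Q ∈ W, ((locLen Q.asIdeal (TorM T j (T ⊗[R₁] N) (T ⊗[R₂] M))).toNat : ℤ) *
        eul z (T ⧸ Q.asIdeal) := by
    intro j
    have := hfin j
    refine (assoc_formula z hzm W hWdim _ (hFL.tor j) ?_).2
    intro Q hQ hQd
    rw [hWmem]
    refine ⟨?_, hQd⟩
    rw [Module.support_eq_zeroLocus] at hQ
    exact (hIann j).trans hQ
  have hsum : eulerTor R₂ n M N = ∑ Q ∈ W,
      locEul Q.asIdeal n (T ⊗[R₁] N) (T ⊗[R₂] M) * eul z (T ⧸ Q.asIdeal) := by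
    rw [heq]
    simp only [hassoc, Finset.mul_sum]
    rw [Finset.sum_comm]
    refine Finset.sum_congr rfl fun Q _ => ?_
    unfold locEul
    rw [Finset.sum_mul]
    refine Finset.sum_congr rfl fun j _ => ?_
    ring
  have hshrink : eulerTor R₂ n M N = eulerTor R₂ (d + 1) M N := by
    have : Module.Finite R₂ N := ‹_›
    exact eulerTor_shrink M N (d + 1) n (by omega) fun j hj =>
      regular_tor_vanish R₂ d hd₂ M N j hj
  rw [← hshrink, hsum]
  -- positivity of the second factor
  have heul : ∀ Q : Ideal T, I ≤ Q → 0 ≤ eul z (T ⧸ Q) ∧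
      ((z.length : WithBot ℕ∞) ≤ Module.supportDim T (T ⧸ Q) → 0 < eul z (T ⧸ Q)) := by
    intro Q hQ
    apply eul_nonneg_pos z hzm
    unfold FL
    rw [Ideal.annihilator_quotient]
    exact hA.trans (Ideal.radical_mono (sup_le_sup_right hQ _))
  -- heights
  have hht : ∀ Q : Ideal T, Q.IsPrime → ∃ r₁ r₂ q : ℕ, (Q.comap (algebraMap R₁ T)).height = r₁ ∧
      (Q.comap (algebraMap R₂ T)).height = r₂ ∧ Q.height = q ∧
      q ≤ d + z.length ∧ Module.supportDim T (T ⧸ Q) = ((d + z.length - q : ℕ) : WithBot ℕ∞) := by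
    intro Q hQ
    have h1 : (Q.comap (algebraMap R₁ T)).IsPrime := Ideal.IsPrime.comap _
    have h2 : (Q.comap (algebraMap R₂ T)).IsPrime := Ideal.IsPrime.comap _
    obtain ⟨r₁, hr₁, -, -⟩ := supportDim_prime_eq hd (Q.comap (algebraMap R₁ T))
    obtain ⟨r₂, hr₂, -, -⟩ := supportDim_prime_eq hd₂ (Q.comap (algebraMap R₂ T))
    obtain ⟨q, hq, hq', hq''⟩ := supportDim_prime_eq ht Q
    exact ⟨r₁, r₂, q, hr₁, hr₂, hq, hq', hq''⟩
  have hterm : ∀ Q ∈ W, 0 ≤ locEul Q.asIdeal n (T ⊗[R₁] N) (T ⊗[R₂] M) *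
      eul z (T ⧸ Q.asIdeal) := by
    intro Q hQ
    have hQ' := (hWmem Q).1 hQ
    have hQp := Q.isPrime
    obtain ⟨r₁, r₂, q, hr₁, hr₂, hq, hqt, -⟩ := hht Q.asIdeal Q.isPrime
    obtain ⟨b, -, h1, -⟩ := local_value_of_loc N M Q.asIdeal (hmin Q hQ'.1 hQ'.2) r₁ r₂ q hr₁
      hr₂ hq (H Q.asIdeal (hmin Q hQ'.1 hQ'.2)) n (by omega)
    exact mul_nonneg h1 (heul _ hQ'.1).1
  refine ⟨Finset.sum_nonneg hterm, ?_⟩
  intro m k hm hk
  obtain ⟨p₂, P₂, hp₂, hp₂m, hP₂, hm'⟩ := exists_minimalPrime_of_le_supportDim hd₂ M m hm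
  obtain ⟨p₁, P₁, hp₁, hp₁m, hP₁, hk'⟩ := exists_minimalPrime_of_le_supportDim hd N k hk
  -- the minimal prime
  let J : Ideal T := p₁.asIdeal.map (algebraMap R₁ T) ⊔ p₂.asIdeal.map (algebraMap R₂ T)
  have hJ : J ≤ maximalIdeal T := by
    refine sup_le ?_ ?_
    · exact (Ideal.map_mono (le_maximalIdeal p₁.isPrime.ne_top)).trans
        (((IsLocalRing.local_hom_TFAE (algebraMap R₁ T)).out 0 2).mp hl₁)
    · exact (Ideal.map_mono (le_maximalIdeal p₂.isPrime.ne_top)).trans
        (((IsLocalRing.local_hom_TFAE (algebraMap R₂ T)).out 0 2).mp hl₂)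
  obtain ⟨Q, hQ, -⟩ := Ideal.exists_minimalPrimes_le hJ
  have hQp : Q.IsPrime := hQ.1.1
  have hIJ : I ≤ J := by
    rw [Module.support_eq_zeroLocus] at hp₁ hp₂
    exact sup_le_sup (Ideal.map_mono hp₁) (Ideal.map_mono hp₂)
  have hIQ : I ≤ Q := hIJ.trans hQ.1.2
  obtain ⟨r₁, r₂, q, hr₁, hr₂, hq, hqt, hQd⟩ := hht Q hQp
  have hle₁ : p₁.asIdeal ≤ Q.comap (algebraMap R₁ T) := by
    rw [← Ideal.map_le_iff_le_comap]
    exact le_sup_left.trans hQ.1.2
  have hle₂ : p₂.asIdeal ≤ Q.comap (algebraMap R₂ T) := by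
    rw [← Ideal.map_le_iff_le_comap]
    exact le_sup_right.trans hQ.1.2
  have hP₁r : P₁ ≤ r₁ := by
    have := Ideal.height_mono hle₁
    rw [hP₁, hr₁] at this
    exact_mod_cast this
  have hP₂r : P₂ ≤ r₂ := by
    have := Ideal.height_mono hle₂
    rw [hP₂, hr₂] at this
    exact_mod_cast this
  have hqP : q ≤ P₁ + P₂ := by
    have hQ2 : Q ∈ ((Module.annihilator R₁ (R₁ ⧸ p₁.asIdeal)).map (algebraMap R₁ T) ⊔
        (Module.annihilator R₂ (R₂ ⧸ p₂.asIdeal)).map (algebraMap R₂ T)).minimalPrimes := by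
      rw [Ideal.annihilator_quotient, Ideal.annihilator_quotient]
      exact hQ
    obtain ⟨b, hb1, -, hb2⟩ := local_value_of_loc (R₁ ⧸ p₁.asIdeal) (R₂ ⧸ p₂.asIdeal) Q hQ2
      r₁ r₂ q hr₁ hr₂ hq (H' p₁ p₂ hp₁m hp₂m Q hQ) n (by omega)
    have h5 := (hb2 P₁ P₂ p₁ p₂ ((support_quotient_prime _ _).2 le_rfl)
      ((support_quotient_prime _ _).2 le_rfl) hle₁ hle₂ hP₁ hP₂).1
    omega
  have hCQ := hC Q hIQ
  rw [hQd] at hCQ
  have hCQ' : d + z.length - q ≤ z.length := by exact_mod_cast hCQ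
  constructor
  · omega
  · intro hdm
    have hqd : q = d := by omega
    have hPP : P₁ + P₂ = d := by omega
    have hQz : (z.length : WithBot ℕ∞) ≤ Module.supportDim T (T ⧸ Q) := by
      rw [hQd]
      have : z.length ≤ d + z.length - q := by omega
      exact_mod_cast this
    have hQW : (⟨Q, hQp⟩ : PrimeSpectrum T) ∈ W := (hWmem _).2 ⟨hIQ, hQz⟩
    obtain ⟨b, hb1, -, hb2⟩ := local_value_of_loc N M Q (hmin ⟨Q, hQp⟩ hIQ hQz)
      r₁ r₂ q hr₁ hr₂ hq (H Q (hmin ⟨Q, hQp⟩ hIQ hQz)) n (by omega)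
    have h6 := (hb2 P₁ P₂ p₁ p₂ hp₁ hp₂ hle₁ hle₂ hP₁ hP₂).2 (by omega)
    exact Finset.sum_pos' hterm ⟨_, hQW, mul_pos h6 ((heul Q hIQ).2 hQz)⟩

end Vale.Agent.P177
end

section

/-!
Local positivity at a prime lying over the maximal ideals.
-/

namespace Vale.Agent.P177

open CategoryTheory TensorProduct Function IsLocalRing RingTheory.Sequence Pointwise

universe u

section

theorem supportDim_atUnits {R L : Type u} [CommRing R] [CommRing L] [Algebra R L]
    (e : R ≃ₐ[R] L) (N : Type u) [AddCommGroup N] [Module R N] [Module.Finite R N] :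
    Module.supportDim L (L ⊗[R] N) = Module.supportDim R N := by
  have hs : Surjective (algebraMap R L) := fun y => ⟨e.symm y, by
    have := e.commutes (e.symm y)
    rw [← this]
    simp⟩
  let f : N ≃ₗ[R] L ⊗[R] N := (TensorProduct.lid R N).symm ≪≫ₗ
    TensorProduct.congr e.toLinearEquiv (LinearEquiv.refl R N)
  have hfin : Module.Finite R (L ⊗[R] N) := Module.Finite.equiv f
  rw [← supportDim_eq_of_surjective hs, ← Module.supportDim_eq_of_equiv f]

variable {R₁ R₂ T : Type u} [CommRing R₁] [CommRing R₂] [CommRing T]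
    [IsRegularLocalRing R₁] [IsRegularLocalRing R₂] [IsRegularLocalRing T]
    [Algebra R₁ T] [Algebra R₂ T] [Module.Flat R₁ T] [Module.Flat R₂ T]

theorem locPosAt_top (N M : Type u) [AddCommGroup N] [Module R₁ N] [Module.Finite R₁ N]
    [AddCommGroup M] [Module R₂ M] [Module.Finite R₂ M] (Q : Ideal T) [Q.IsPrime]
    (h₁ : Q.comap (algebraMap R₁ T) = maximalIdeal R₁)
    (h₂ : Q.comap (algebraMap R₂ T) = maximalIdeal R₂) (d : ℕ)
    (hd₁ : ringKrullDim R₁ = d) (hd₂ : ringKrullDim R₂ = d)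
    (hdW : ringKrullDim (Localization.AtPrime Q) = d)
    (hW : (∀ e g : ℕ, (e : WithBot ℕ∞) ≤ Module.supportDim R₁ N →
        (g : WithBot ℕ∞) ≤ Module.supportDim R₂ M → e + g ≤ d) ∧
      0 ≤ eulerTor (Localization.AtPrime Q) (d + 1) (Localization.AtPrime Q ⊗[R₁] N)
        (Localization.AtPrime Q ⊗[R₂] M) ∧
      (∀ e g : ℕ, (e : WithBot ℕ∞) ≤ Module.supportDim R₁ N →
        (g : WithBot ℕ∞) ≤ Module.supportDim R₂ M → d ≤ e + g →
        0 < eulerTor (Localization.AtPrime Q) (d + 1) (Localization.AtPrime Q ⊗[R₁] N)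
          (Localization.AtPrime Q ⊗[R₂] M))) :
    LocPosAt (T := T) R₁ R₂ N M Q := by
  intro L₁ L₂ _ _ _ _ _ _ D₁ D₂ r₁ r₂ q b k₁ k₂ kq hrb _
  have i1 := D₁.isloc
  have i2 := D₂.isloc
  have i3 := D₁.tower
  have i4 := D₂.tower
  have u₁ : (Q.comap (algebraMap R₁ T)).primeCompl ≤ IsUnit.submonoid R₁ := by
    intro x hx
    by_contra hcon
    apply hx
    change x ∈ Q.comap (algebraMap R₁ T)
    rw [h₁]
    exact (mem_maximalIdeal _).2 hcon
  have u₂ : (Q.comap (algebraMap R₂ T)).primeCompl ≤ IsUnit.submonoid R₂ := by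
    intro x hx
    by_contra hcon
    apply hx
    change x ∈ Q.comap (algebraMap R₂ T)
    rw [h₂]
    exact (mem_maximalIdeal _).2 hcon
  let e₁ : R₁ ≃ₐ[R₁] L₁ := IsLocalization.atUnits R₁ _ u₁
  let e₂ : R₂ ≃ₐ[R₂] L₂ := IsLocalization.atUnits R₂ _ u₂
  have s₁ : Module.supportDim L₁ (L₁ ⊗[R₁] N) = Module.supportDim R₁ N := supportDim_atUnits e₁ N
  have s₂ : Module.supportDim L₂ (L₂ ⊗[R₂] M) = Module.supportDim R₂ M := supportDim_atUnits e₂ M
  have g₁ : r₁ = d := by
    rw [← ringKrullDim_eq_of_ringEquiv e₁.toRingEquiv, hd₁] at k₁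
    exact_mod_cast k₁.symm
  have g₂ : r₂ = d := by
    rw [← ringKrullDim_eq_of_ringEquiv e₂.toRingEquiv, hd₂] at k₂
    exact_mod_cast k₂.symm
  have g₃ : q = d := by
    rw [hdW] at kq
    exact_mod_cast kq.symm
  have g₄ : b = d := by omega
  subst g₃ g₄
  let c₁ : (Localization.AtPrime Q ⊗[L₁] (L₁ ⊗[R₁] N)) ≃ₗ[Localization.AtPrime Q]
      (Localization.AtPrime Q ⊗[R₁] N) :=
    AlgebraTensorModule.cancelBaseChange R₁ L₁ (Localization.AtPrime Q) (Localization.AtPrime Q) N
  let c₂ : (Localization.AtPrime Q ⊗[L₂] (L₂ ⊗[R₂] M)) ≃ₗ[Localization.AtPrime Q]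
      (Localization.AtPrime Q ⊗[R₂] M) :=
    AlgebraTensorModule.cancelBaseChange R₂ L₂ (Localization.AtPrime Q) (Localization.AtPrime Q) M
  rw [s₁, s₂, eulerTor_congr c₁ c₂]
  exact hW

end

end Vale.Agent.P177
end

section

/-!
Base change of extended Rees algebras.
-/

namespace Vale.Agent.P177

open IsLocalRing Function TensorProduct

universe u

section gen

/-- A flatness criterion: a pushout of a flat map. -/
theorem flat_of_pushout {R A E' E : Type u} [CommRing R] [CommRing A] [CommRing E']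
    [CommRing E] [Algebra R A] [Algebra R E'] [Module.Flat R A] (m : E' →+* E) (a : A →+* E)
    (h : ∀ r, m (algebraMap R E' r) = a (algebraMap R A r))
    (hpush : ∀ (B : Type u) [CommRing B] (f : E' →+* B) (g : A →+* B),
      (∀ r, f (algebraMap R E' r) = g (algebraMap R A r)) →
      ∃ G : E →+* B, (∀ z, G (m z) = f z) ∧ ∀ z, G (a z) = g z)
    (hgen : ∀ f g : E →+* E, (∀ z, f (m z) = g (m z)) → (∀ z, f (a z) = g (a z)) → f = g) :
    m.Flat := by
  let iL : E' →+* E' ⊗[R] A := Algebra.TensorProduct.includeLeftRingHom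
  let iR : A →+* E' ⊗[R] A := (Algebra.TensorProduct.includeRight : A →ₐ[R] E' ⊗[R] A).toRingHom
  obtain ⟨G, hGm, hGa⟩ := hpush (E' ⊗[R] A) iL iR (fun r => by
    change (algebraMap R E' r) ⊗ₜ[R] (1 : A) = 1 ⊗ₜ[R] (algebraMap R A r)
    rw [Algebra.algebraMap_eq_smul_one, Algebra.algebraMap_eq_smul_one, TensorProduct.smul_tmul])
  let _ : Algebra R E := (m.comp (algebraMap R E')).toAlgebra
  let f : E' →ₐ[R] E := { m with commutes' := fun _ => rfl }
  let g : A →ₐ[R] E := { a with commutes' := fun r => (h r).symm }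
  let F : E' ⊗[R] A →+* E := (Algebra.TensorProduct.productMap f g : E' ⊗[R] A →ₐ[R] E)
  have hF : ∀ z w, F (z ⊗ₜ w) = m z * a w := fun z w =>
    Algebra.TensorProduct.productMap_apply_tmul f g z w
  have hF1 : ∀ z, F (iL z) = m z := fun z => (hF z 1).trans (by rw [map_one, mul_one])
  have hF2 : ∀ z, F (iR z) = a z := fun z => (hF 1 z).trans (by rw [map_one, one_mul])
  have hFG : F.comp G = RingHom.id _ := by
    refine hgen _ _ (fun z => ?_) (fun z => ?_)
    · rw [RingHom.comp_apply, hGm, hF1, RingHom.id_apply]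
    · rw [RingHom.comp_apply, hGa, hF2, RingHom.id_apply]
  have hGF : G.comp F = RingHom.id _ := by
    refine RingHom.ext fun z => ?_
    rw [RingHom.comp_apply, RingHom.id_apply]
    induction z with
    | zero => rw [map_zero, map_zero]
    | add z w hz hw => rw [map_add, map_add, hz, hw]
    | tmul z w =>
      rw [hF, map_mul, hGm, hGa]
      change (z ⊗ₜ[R] (1 : A)) * ((1 : E') ⊗ₜ[R] w) = _
      rw [Algebra.TensorProduct.tmul_mul_tmul, mul_one, one_mul]
  let e : E' ⊗[R] A ≃+* E := RingEquiv.ofRingHom F G hFG hGF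
  have he : (e : E' ⊗[R] A →+* E).comp (algebraMap E' (E' ⊗[R] A)) = m := by
    ext z
    exact hF1 z
  rw [← he]
  exact RingHom.Flat.comp (RingHom.flat_algebraMap_iff.2 inferInstance)
    (RingHom.Flat.of_bijective e.bijective)

end gen

section bc

variable {R A : Type u} [CommRing R] [CommRing A] [Algebra R A] {d : ℕ} {x' : Fin d → R}
  {x : Fin d → A} (θ : Fin d → Fin d → A)
  (hθ : ∀ i, algebraMap R A (x' i) = ∑ l, θ i l * x l)

/-- The map of extended Rees algebras given by a change of parameters. -/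
noncomputable def eMap : ERees x' →+* ERees x :=
  eLift x' ((algebraMap A (ERees x)).comp (algebraMap R A)) (eT x)
    (fun i => ∑ l, algebraMap A (ERees x) (θ i l) * eY x l) (by
    intro i
    rw [RingHom.comp_apply, hθ, map_sum, Finset.mul_sum]
    refine Finset.sum_congr rfl fun l _ => ?_
    rw [map_mul, algebraMap_rees]
    ring)

@[simp]
theorem eMap_algebraMap (r : R) : eMap θ hθ (algebraMap R _ r) =
    algebraMap A (ERees x) (algebraMap R A r) := eLift_algebraMap _ _ _ _ _

@[simp]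
theorem eMap_eT : eMap θ hθ (eT x') = eT x := eLift_eT _ _ _ _

@[simp]
theorem eMap_eY (i : Fin d) : eMap θ hθ (eY x' i) = ∑ l, algebraMap A (ERees x) (θ i l) * eY x l :=
  eLift_eY _ _ _ _ _

theorem sum_ite_mul {B : Type*} [CommRing B] (l : Fin d) (v : Fin d → B) :
    ∑ m, (if l = m then (1 : B) else 0) * v m = v l := by
  simp

theorem eMap_flat [Module.Flat R A] (θ' : Fin d → Fin d → A)
    (hθ' : ∀ l, x l = ∑ i, θ' l i * algebraMap R A (x' i))
    (h1 : ∀ i l, ∑ m, θ i m * θ' m l = if i = l then 1 else 0)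
    (h2 : ∀ i l, ∑ m, θ' i m * θ m l = if i = l then 1 else 0) :
    (eMap θ hθ).Flat := by
  have hY : ∀ l, eY x l = ∑ i, algebraMap A (ERees x) (θ' l i) * eMap θ hθ (eY x' i) := by
    intro l
    have h3 : ∀ i, algebraMap A (ERees x) (θ' l i) * eMap θ hθ (eY x' i) =
        ∑ m, algebraMap A (ERees x) (θ' l i * θ i m) * eY x m := by
      intro i
      rw [eMap_eY, Finset.mul_sum]
      refine Finset.sum_congr rfl fun m _ => ?_
      rw [map_mul]
      ring
    rw [Finset.sum_congr rfl fun i _ => h3 i, Finset.sum_comm]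
    have h4 : ∀ m, ∑ i, algebraMap A (ERees x) (θ' l i * θ i m) * eY x m =
        (if l = m then 1 else 0) * eY x m := by
      intro m
      rw [← Finset.sum_mul, ← map_sum, h2]
      split_ifs
      · rw [map_one]
      · rw [map_zero]
    rw [Finset.sum_congr rfl fun m _ => h4 m, sum_ite_mul]
  refine flat_of_pushout (eMap θ hθ) (algebraMap A (ERees x)) (fun r => eMap_algebraMap θ hθ r)
    ?_ ?_
  · intro B _ iL iR hLR
    let G : ERees x →+* B :=
      eLift x iR (iL (eT x')) (fun l => ∑ i, iR (θ' l i) * iL (eY x' i)) (by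
        intro l
        rw [hθ', map_sum, Finset.mul_sum]
        refine Finset.sum_congr rfl fun i _ => ?_
        rw [map_mul, ← hLR, algebraMap_rees, map_mul]
        ring)
    have hG1 : ∀ a, G (algebraMap A _ a) = iR a := fun a => eLift_algebraMap _ _ _ _ a
    have hG2 : G (eT x) = iL (eT x') := eLift_eT _ _ _ _
    have hG3 : ∀ l, G (eY x l) = ∑ i, iR (θ' l i) * iL (eY x' i) := fun l =>
      eLift_eY _ _ _ _ l
    refine ⟨G, ?_, hG1⟩
    have h3 : G.comp (eMap θ hθ) = iL := by
      refine eRees_hom_ext (fun a => ?_) ?_ (fun l => ?_)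
      · rw [RingHom.comp_apply, eMap_algebraMap, hG1, hLR]
      · rw [RingHom.comp_apply, eMap_eT, hG2]
      · rw [RingHom.comp_apply, eMap_eY, map_sum]
        have h4 : ∀ m, G (algebraMap A (ERees x) (θ l m) * eY x m) =
            ∑ i, iR (θ l m * θ' m i) * iL (eY x' i) := by
          intro m
          rw [map_mul, hG1, hG3, Finset.mul_sum]
          refine Finset.sum_congr rfl fun i _ => ?_
          rw [map_mul]
          ring
        rw [Finset.sum_congr rfl fun m _ => h4 m, Finset.sum_comm]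
        have h5 : ∀ i, ∑ m, iR (θ l m * θ' m i) * iL (eY x' i) =
            (if l = i then 1 else 0) * iL (eY x' i) := by
          intro i
          rw [← Finset.sum_mul, ← map_sum, h1]
          split_ifs
          · rw [map_one]
          · rw [map_zero]
        rw [Finset.sum_congr rfl fun i _ => h5 i, sum_ite_mul]
    exact fun z => RingHom.congr_fun h3 z
  · intro f g hf hg
    refine eRees_hom_ext hg ?_ (fun l => ?_)
    · have := hf (eT x')
      rwa [eMap_eT] at this
    · rw [hY, map_sum, map_sum]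
      refine Finset.sum_congr rfl fun i _ => ?_
      rw [map_mul, map_mul, hf, hg]

end bc

section res

variable {R A : Type u} [CommRing R] [CommRing A] [Algebra R A] [IsLocalRing R] [IsLocalRing A]
  [IsLocalHom (algebraMap R A)] {d : ℕ} {x' : Fin d → R}
  {x : Fin d → A} (θ : Fin d → Fin d → A)
  (hθ : ∀ i, algebraMap R A (x' i) = ∑ l, θ i l * x l)

variable (R) in
/-- The change of coordinates on the associated graded rings. -/
noncomputable def jMap : MvPolynomial (Fin d) (ResidueField R) →+*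
    MvPolynomial (Fin d) (ResidueField A) :=
  MvPolynomial.eval₂Hom (MvPolynomial.C.comp (ResidueField.map (algebraMap R A)))
    (fun i => ∑ l, MvPolynomial.C (residue A (θ i l)) * MvPolynomial.X l)

@[simp]
theorem jMap_C (r : ResidueField R) : jMap R θ (MvPolynomial.C r) =
    MvPolynomial.C (ResidueField.map (algebraMap R A) r) := by
  unfold jMap
  simp

@[simp]
theorem jMap_X (i : Fin d) : jMap R θ (MvPolynomial.X i) =
    ∑ l, MvPolynomial.C (residue A (θ i l)) * MvPolynomial.X l := by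
  unfold jMap
  simp

theorem eRes_eMap (hx' : Ideal.span (Set.range x') = maximalIdeal R)
    (hx : Ideal.span (Set.range x) = maximalIdeal A) :
    (eRes hx).comp (eMap θ hθ) = (jMap R θ).comp (eRes hx') := by
  refine eRees_hom_ext (fun a => ?_) ?_ (fun l => ?_)
  · rw [RingHom.comp_apply, RingHom.comp_apply, eMap_algebraMap, eRes_algebraMap, eRes_algebraMap,
      jMap_C, ResidueField.map_residue]
  · rw [RingHom.comp_apply, RingHom.comp_apply, eMap_eT, eRes_eT, eRes_eT, map_zero]
  · rw [RingHom.comp_apply, RingHom.comp_apply, eMap_eY, eRes_eY, jMap_X, map_sum]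
    refine Finset.sum_congr rfl fun i _ => ?_
    rw [map_mul, eRes_algebraMap, eRes_eY]

end res

end Vale.Agent.P177
end

section

/-!
The height inequality for a generic orthogonal transformation.
-/

namespace Vale.Agent.P177

open MvPolynomial TensorProduct

universe u

theorem flat_map_mvPolynomial {P K : Type u} [CommRing P] [CommRing K] [Algebra P K]
    [Module.Flat P K] (σ : Type) :
    (MvPolynomial.map (algebraMap P K) : MvPolynomial σ P →+* MvPolynomial σ K).Flat := by
  have h1 := flat_includeRight P K (MvPolynomial σ P)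
  let e : K ⊗[P] MvPolynomial σ P ≃ₐ[K] MvPolynomial σ K := MvPolynomial.algebraTensorAlgEquiv P K
  have h2 : (e : K ⊗[P] MvPolynomial σ P →+* MvPolynomial σ K).Flat :=
    RingHom.Flat.of_bijective e.bijective
  have h3 := h1.comp h2
  convert h3 using 1
  ext x
  · simp [e]
  · simp [e]

theorem flat_of_injective_field {P K : Type u} [CommRing P] [IsDomain P] [Field K] [Algebra P K]
    (h : Function.Injective (algebraMap P K)) : Module.Flat P K := by
  have : FaithfulSMul P K := (faithfulSMul_iff_algebraMap_injective P K).2 h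
  let _ : Algebra (FractionRing P) K := FractionRing.liftAlgebra P K
  have : IsScalarTower P (FractionRing P) K := FractionRing.isScalarTower_liftAlgebra P K
  have : Module.Flat P (FractionRing P) := IsLocalization.flat (FractionRing P) (nonZeroDivisors P)
  exact Module.Flat.trans P (FractionRing P) K

theorem height_orthogonal {k K : Type u} [Field k] [Field K] [Algebra k K] {d : ℕ}
    (α : Fin d × Fin d → K)
    (hα : Function.Injective (aeval α : MvPolynomial (Fin d × Fin d) k →ₐ[k] K))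
    (b c : Fin d → Fin d → k)
    (θ : Fin d → Fin d → K)
    (hθ : ∀ i m, θ i m - (if i = m then 1 else 0) = ∑ l, (α (i, l) - α (l, i)) *
      (algebraMap k K (b l m) + ∑ j, algebraMap k K (c l j) *
        (θ j m - (if j = m then 1 else 0))))
    (z : Ideal (MvPolynomial (Fin d) K)) [z.IsPrime] (hz : ∃ l,
      ∑ m, C (algebraMap k K (b l m)) * (X m : MvPolynomial (Fin d) K) ∉ z) :
    (z.comap (aeval X : MvPolynomial (Fin d) k →ₐ[k] MvPolynomial (Fin d) K)).height +
      (z.comap (aeval (fun i => ∑ l, C (θ i l) * X l) :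
        MvPolynomial (Fin d) k →ₐ[k] MvPolynomial (Fin d) K)).height ≤ z.height + 1 := by
  classical
  let h : Fin d → MvPolynomial (Fin d ⊕ Fin d) k := fun i => X (Sum.inl i) - X (Sum.inr i)
  let u : Fin d → MvPolynomial (Fin d ⊕ Fin d) k := fun l =>
    ∑ m, C (b l m) * X (Sum.inr m) + ∑ m, C (c l m) * h m
  let ψ₀ : MvPolynomial (Fin d ⊕ Fin d) k →ₐ[k] MvPolynomial (Fin d) K :=
    aeval (Sum.elim (fun i => ∑ l, C (θ i l) * X l) X)
  let ψ : MvPolynomial (Fin d × Fin d) (MvPolynomial (Fin d ⊕ Fin d) k) →+*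
      MvPolynomial (Fin d) K :=
    eval₂Hom (ψ₀ : MvPolynomial (Fin d ⊕ Fin d) k →+* MvPolynomial (Fin d) K) (fun p => C (α p))
  let Φ : MvPolynomial (Fin d ⊕ Fin d) K →ₐ[K] MvPolynomial (Fin d) K :=
    aeval (Sum.elim (fun i => ∑ l, C (θ i l) * X l) X)
  have hψl : ∀ i, ψ₀ (X (Sum.inl i)) = ∑ l, C (θ i l) * X l := fun i => aeval_X _ _
  have hψr : ∀ i, ψ₀ (X (Sum.inr i)) = X i := fun i => aeval_X _ _
  have hψC : ∀ a : k, ψ₀ (C a) = C (algebraMap k K a) := by
    intro a
    exact aeval_C _ _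
  have hdelta : ∀ i : Fin d, (X i : MvPolynomial (Fin d) K) =
      ∑ m, C (if i = m then (1 : K) else 0) * X m := by
    intro i
    rw [Finset.sum_eq_single i]
    · simp
    · intro m _ hm
      simp [Ne.symm hm]
    · simp
  have hψh : ∀ i, ψ₀ (h i) = ∑ m, C (θ i m - if i = m then 1 else 0) * X m := by
    intro i
    simp only [h, map_sub, hψl, hψr]
    conv_lhs => rw [hdelta i]
    rw [← Finset.sum_sub_distrib]
    refine Finset.sum_congr rfl fun m _ => ?_
    ring
  have hψu' : ∀ l, ψ₀ (u l) = ∑ m, C (algebraMap k K (b l m)) * X m +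
        ∑ j, C (algebraMap k K (c l j)) * ψ₀ (h j) := by
    intro l
    simp only [u, map_add, map_sum, map_mul, hψC, hψr]
  have hψu : ∀ l, ψ₀ (u l) = ∑ m, C (algebraMap k K (b l m) + ∑ j, algebraMap k K (c l j) *
      (θ j m - if j = m then 1 else 0)) * X m := by
    intro l
    rw [hψu']
    simp only [hψh, map_add, map_sum, add_mul, Finset.sum_add_distrib, Finset.mul_sum,
      Finset.sum_mul, map_mul]
    congr 1
    rw [Finset.sum_comm]
    refine Finset.sum_congr rfl fun m _ => Finset.sum_congr rfl fun j _ => ?_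
    ring
  have hψE : ∀ i, ψ (altElt h u i) = ψ₀ (h i) - ∑ l, C (α (i, l) - α (l, i)) * ψ₀ (u l) := by
    intro i
    simp [ψ, altElt]
  have hE : ∀ i, ψ (altElt h u i) = 0 := by
    intro i
    rw [hψE, hψh, sub_eq_zero]
    simp only [hψu, Finset.mul_sum]
    rw [Finset.sum_comm]
    refine Finset.sum_congr rfl fun m _ => ?_
    rw [hθ, map_sum, Finset.sum_mul]
    refine Finset.sum_congr rfl fun l _ => ?_
    rw [map_mul, mul_assoc]
  -- some `u_j` is not in `z`
  obtain ⟨j, hj⟩ : ∃ j, ψ₀ (u j) ∉ z := by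
    by_contra hcon
    push Not at hcon
    obtain ⟨l, hl⟩ := hz
    apply hl
    have h1 : ∀ i, ψ₀ (h i) ∈ z := by
      intro i
      have h2 := hE i
      rw [hψE, sub_eq_zero] at h2
      rw [h2]
      exact Ideal.sum_mem _ fun l _ => Ideal.mul_mem_left _ _ (hcon l)
    have h3 := hψu' l
    rw [← sub_eq_iff_eq_add] at h3
    rw [← h3]
    exact Ideal.sub_mem _ (hcon l) (Ideal.sum_mem _ fun l _ => Ideal.mul_mem_left _ _ (h1 l))
  -- elimination
  have hZp : (z.comap ψ).IsPrime := Ideal.IsPrime.comap _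
  have hψCC : ∀ x, ψ (C x) = ψ₀ x := fun x => by simp [ψ]
  have e1 := elim_main h u (z.comap ψ) (fun i => by
    rw [Ideal.mem_comap, hE]
    exact z.zero_mem) j (by
    rw [Ideal.mem_comap, hψCC]
    exact hj)
  have hc0 : (z.comap ψ).comap C = z.comap ψ₀ := by
    ext x
    change ψ (C x) ∈ z ↔ ψ₀ x ∈ z
    rw [hψCC]
  rw [hc0] at e1
  have hz0 : (z.comap ψ₀).IsPrime := Ideal.IsPrime.comap _
  have e2 := height_add_le_sum (z.comap ψ₀)
  have hl : (z.comap ψ₀).comap (rename (R := k) (Sum.inl : Fin d → Fin d ⊕ Fin d)) =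
      z.comap (aeval (fun i => ∑ l, C (θ i l) * X l) :
        MvPolynomial (Fin d) k →ₐ[k] MvPolynomial (Fin d) K) := by
    ext x
    change ψ₀ (rename Sum.inl x) ∈ z ↔ aeval (fun i => ∑ l, C (θ i l) * X l) x ∈ z
    rw [show ψ₀ (rename Sum.inl x) = aeval (fun i => ∑ l, C (θ i l) * X l) x by
      simp only [ψ₀, aeval_rename]
      rfl]
  have hr : (z.comap ψ₀).comap (rename (R := k) (Sum.inr : Fin d → Fin d ⊕ Fin d)) =
      z.comap (aeval X : MvPolynomial (Fin d) k →ₐ[k] MvPolynomial (Fin d) K) := by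
    ext x
    change ψ₀ (rename Sum.inr x) ∈ z ↔ aeval X x ∈ z
    rw [show ψ₀ (rename Sum.inr x) = aeval X x by
      simp only [ψ₀, aeval_rename]
      rfl]
  rw [hl, hr] at e2
  -- the upper bound
  have hz' : (z.comap Φ).IsPrime := Ideal.IsPrime.comap _
  have e3 : (z.comap ψ).height ≤ (z.comap Φ).height := by
    let _ : Algebra (MvPolynomial (Fin d × Fin d) k) K :=
      (aeval α : MvPolynomial (Fin d × Fin d) k →ₐ[k] K).toRingHom.toAlgebra
    have hf : Module.Flat (MvPolynomial (Fin d × Fin d) k) K := flat_of_injective_field hα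
    have f1 := flat_map_mvPolynomial (P := MvPolynomial (Fin d × Fin d) k) (K := K)
      (Fin d ⊕ Fin d)
    have f2 : (commAlgEquiv k (Fin d × Fin d) (Fin d ⊕ Fin d) :
        MvPolynomial (Fin d × Fin d) (MvPolynomial (Fin d ⊕ Fin d) k) →+*
          MvPolynomial (Fin d ⊕ Fin d) (MvPolynomial (Fin d × Fin d) k)).Flat :=
      RingHom.Flat.of_bijective (commAlgEquiv k (Fin d × Fin d) (Fin d ⊕ Fin d)).bijective
    have f3 := f2.comp f1
    let g := (MvPolynomial.map (algebraMap (MvPolynomial (Fin d × Fin d) k) K)).comp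
      (commAlgEquiv k (Fin d × Fin d) (Fin d ⊕ Fin d) :
        MvPolynomial (Fin d × Fin d) (MvPolynomial (Fin d ⊕ Fin d) k) →+*
          MvPolynomial (Fin d ⊕ Fin d) (MvPolynomial (Fin d × Fin d) k))
    let _ : Algebra (MvPolynomial (Fin d × Fin d) (MvPolynomial (Fin d ⊕ Fin d) k))
      (MvPolynomial (Fin d ⊕ Fin d) K) := g.toAlgebra
    have hfl : Module.Flat (MvPolynomial (Fin d × Fin d) (MvPolynomial (Fin d ⊕ Fin d) k))
      (MvPolynomial (Fin d ⊕ Fin d) K) := f3
    have h1 := height_comap_le_of_flat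
      (R := MvPolynomial (Fin d × Fin d) (MvPolynomial (Fin d ⊕ Fin d) k))
      (S := MvPolynomial (Fin d ⊕ Fin d) K) (z.comap Φ)
    have hg : (Φ : MvPolynomial (Fin d ⊕ Fin d) K →+* MvPolynomial (Fin d) K).comp g = ψ := by
      apply MvPolynomial.ringHom_ext
      · intro r
        have h2 : ((Φ : MvPolynomial (Fin d ⊕ Fin d) K →+* MvPolynomial (Fin d) K).comp g).comp C =
            (ψ₀ : MvPolynomial (Fin d ⊕ Fin d) k →+* MvPolynomial (Fin d) K) := by
          apply MvPolynomial.ringHom_ext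
          · intro a
            change Φ (MvPolynomial.map _ (commAlgEquiv k _ _ (C (C a)))) = ψ₀ (C a)
            rw [hψC, commAlgEquiv_C, map_C, map_C]
            rw [show algebraMap (MvPolynomial (Fin d × Fin d) k) K (C a) =
              algebraMap k K a from aeval_C _ _]
            exact aeval_C _ _
          · intro i
            change Φ (MvPolynomial.map _ (commAlgEquiv k _ _ (C (X i)))) = ψ₀ (X i)
            rw [commAlgEquiv_C, map_X, map_X]
            rcases i with i | i
            · rw [hψl]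
              exact aeval_X _ _
            · rw [hψr]
              exact aeval_X _ _
        have h3 := RingHom.congr_fun h2 r
        rw [hψCC]
        exact h3
      · intro p
        change Φ (MvPolynomial.map _ (commAlgEquiv k _ _ (X p))) = ψ (X p)
        rw [commAlgEquiv_X, map_C]
        rw [show algebraMap (MvPolynomial (Fin d × Fin d) k) K (X p) = α p from aeval_X _ _]
        rw [show ψ (X p) = C (α p) by simp [ψ]]
        exact aeval_C _ _
    have h2 : (z.comap Φ).comap (algebraMap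
        (MvPolynomial (Fin d × Fin d) (MvPolynomial (Fin d ⊕ Fin d) k))
        (MvPolynomial (Fin d ⊕ Fin d) K)) = z.comap ψ := by
      ext x
      rw [← hg]
      rfl
    rwa [h2] at h1
  have e4 : (z.comap Φ).height ≤ z.height + d := by
    let e := sumRingEquiv K (Fin d) (Fin d)
    let e' : MvPolynomial (Fin d) (MvPolynomial (Fin d) K) →+* MvPolynomial (Fin d ⊕ Fin d) K :=
      e.symm
    have hP' : ((z.comap Φ).comap e').IsPrime := Ideal.IsPrime.comap _
    have h1 := height_le_comap_C_add ((z.comap Φ).comap e')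
    have h2 : ((z.comap Φ).comap e').height = (z.comap Φ).height :=
      RingEquiv.height_comap e.symm _
    have h3 : (Φ : MvPolynomial (Fin d ⊕ Fin d) K →+* MvPolynomial (Fin d) K).comp
        (e'.comp C) = RingHom.id _ := by
      apply MvPolynomial.ringHom_ext
      · intro a
        change Φ (e.symm (C (C a))) = C a
        rw [show e.symm (C (C a)) = C a from sumRingEquiv_symm_C_C ..]
        exact aeval_C _ _
      · intro i
        change Φ (e.symm (C (X i))) = X i
        rw [show e.symm (C (X i)) = X (Sum.inr i) from sumRingEquiv_symm_C_X ..]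
        exact aeval_X _ _
    have h4 : ((z.comap Φ).comap e').comap C = z := by
      ext x
      have := RingHom.congr_fun h3 x
      change Φ (e.symm (C x)) ∈ z ↔ x ∈ z
      change Φ (e.symm (C x)) = x at this
      rw [this]
    rwa [h2, h4, Fintype.card_fin] at h1
  have hd : (d : ℕ∞) ≠ ⊤ := ENat.natCast_ne_top d
  have e5 : (z.comap (aeval X : MvPolynomial (Fin d) k →ₐ[k] MvPolynomial (Fin d) K)).height +
      (z.comap (aeval (fun i => ∑ l, C (θ i l) * X l) :
        MvPolynomial (Fin d) k →ₐ[k] MvPolynomial (Fin d) K)).height + d ≤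
      z.height + 1 + d := by
    calc _ ≤ (z.comap ψ₀).height + d := by
          rw [add_comm (Ideal.height _) (Ideal.height _)]
          exact add_le_add_left e2 _
      _ ≤ (z.comap ψ).height + 1 := e1
      _ ≤ (z.height + d) + 1 := add_le_add_left (e3.trans e4) 1
      _ = _ := by ring
  exact (ENat.add_le_add_iff_right hd).1 e5

end Vale.Agent.P177
end

section

/-!
Homogeneous primes and a generic linear form.
-/

namespace Vale.Agent.P177

open IsLocalRing Function

universe u

section graded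

variable {K : Type u} [Field K] {d : ℕ}

attribute [local instance] MvPolynomial.gradedAlgebra

/-- Stability under taking homogeneous components. -/
def HomId (z : Ideal (MvPolynomial (Fin d) K)) : Prop :=
  ∀ f ∈ z, ∀ n, MvPolynomial.homogeneousComponent n f ∈ z

theorem homId_of_isHomogeneous {z : Ideal (MvPolynomial (Fin d) K)}
    (h : z.IsHomogeneous (MvPolynomial.homogeneousSubmodule (Fin d) K)) : HomId z := by
  intro f hf n
  have h1 := h n hf
  have h2 := MvPolynomial.decomposition.decompose'_apply f n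
  rw [← h2]
  exact h1

theorem minimal_homId {𝔞 z : Ideal (MvPolynomial (Fin d) K)} (s : Set (MvPolynomial (Fin d) K))
    (hs : ∀ f ∈ s, ∃ n : ℕ, f.IsHomogeneous n) (h𝔞 : 𝔞 = Ideal.span s)
    (hz : z ∈ 𝔞.minimalPrimes) : HomId z := by
  have h1 : 𝔞.IsHomogeneous (MvPolynomial.homogeneousSubmodule (Fin d) K) := by
    rw [h𝔞]
    refine Ideal.homogeneous_span _ _ fun f hf => ?_
    obtain ⟨n, hn⟩ := hs f hf
    exact ⟨n, hn⟩
  have hzp : z.IsPrime := hz.1.1
  have h2 := hzp.homogeneousCore (𝒜 := MvPolynomial.homogeneousSubmodule (Fin d) K)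
  have h3 : 𝔞 ≤ (z.homogeneousCore (MvPolynomial.homogeneousSubmodule (Fin d) K)).toIdeal := by
    have h4 := Ideal.homogeneousCore_mono (MvPolynomial.homogeneousSubmodule (Fin d) K) hz.1.2
    have h5 := h1.toIdeal_homogeneousCore_eq_self
    rw [← h5]
    exact h4
  have h4 := hz.2 ⟨h2, h3⟩ (Ideal.toIdeal_homogeneousCore_le _ _)
  apply homId_of_isHomogeneous
  rw [Ideal.IsHomogeneous.iff_eq]
  exact le_antisymm (Ideal.toIdeal_homogeneousCore_le _ _) h4

/-- A generic linear form avoids finitely many relevant primes. -/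
theorem exists_generic [Infinite K] (𝔞 : Ideal (MvPolynomial (Fin d) K)) :
    ∃ c : Fin d → K, ∀ z ∈ 𝔞.minimalPrimes, (∃ i, MvPolynomial.X i ∉ z) →
      ∑ i, MvPolynomial.C (c i) * MvPolynomial.X i ∉ z := by
  classical
  let L : (Fin d → K) →ₗ[K] MvPolynomial (Fin d) K :=
    ∑ i, (LinearMap.toSpanSingleton K _ (MvPolynomial.X i)).comp (LinearMap.proj i)
  have hL : ∀ c, L c = ∑ i, MvPolynomial.C (c i) * MvPolynomial.X i := by
    intro c
    change (∑ i, (LinearMap.toSpanSingleton K _ (MvPolynomial.X i)).comp (LinearMap.proj i)) c = _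
    rw [LinearMap.sum_apply]
    refine Finset.sum_congr rfl fun i _ => ?_
    rw [LinearMap.comp_apply, LinearMap.toSpanSingleton_apply, LinearMap.proj_apply,
      MvPolynomial.smul_eq_C_mul]
  let ι := {z : Ideal (MvPolynomial (Fin d) K) // z ∈ 𝔞.minimalPrimes ∧ ∃ i, MvPolynomial.X i ∉ z}
  have hfin : Finite ι := by
    have h1 := 𝔞.finite_minimalPrimes_of_isNoetherianRing
    exact (h1.subset (fun z hz => hz.1 :
      {z | z ∈ 𝔞.minimalPrimes ∧ ∃ i, MvPolynomial.X i ∉ z} ⊆ 𝔞.minimalPrimes)).to_subtype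
  let p : ι → Subspace K (Fin d → K) := fun z => (z.1.restrictScalars K).comap L
  by_contra hcon
  push Not at hcon
  have hcov : ⋃ i, (p i : Set (Fin d → K)) = Set.univ := by
    rw [Set.eq_univ_iff_forall]
    intro c
    obtain ⟨z, hz, hi, hc⟩ := hcon c
    rw [Set.mem_iUnion]
    refine ⟨⟨z, hz, hi⟩, ?_⟩
    change L c ∈ z
    rw [hL]
    exact hc
  obtain ⟨⟨z, hz, i, hi⟩, htop⟩ := Subspace.exists_eq_top_of_iUnion_eq_univ hcov
  apply hi
  have h1 : (Pi.single i 1 : Fin d → K) ∈ p ⟨z, hz, i, hi⟩ := by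
    rw [htop]
    trivial
  have h2 : L (Pi.single i 1) ∈ z := h1
  rw [hL, Finset.sum_eq_single i] at h2
  · simpa using h2
  · intro j _ hj
    rw [Pi.single_eq_of_ne hj, map_zero, zero_mul]
  · intro h
    exact absurd (Finset.mem_univ i) h

end graded

section tmap

variable {R A : Type u} [CommRing R] [CommRing A] [Algebra R A] {d : ℕ} {x' : Fin d → R}
  {x : Fin d → A} (θ : Fin d → Fin d → A)

variable (R) in
/-- The change of coordinates on polynomial rings. -/
noncomputable def tMap : MvPolynomial (Fin d) R →+* MvPolynomial (Fin d) A :=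
  MvPolynomial.eval₂Hom (MvPolynomial.C.comp (algebraMap R A))
    (fun i => ∑ l, MvPolynomial.C (θ i l) * MvPolynomial.X l)

theorem tMap_isHomogeneous {F : MvPolynomial (Fin d) R} {n : ℕ} (hF : F.IsHomogeneous n) :
    (tMap R θ F).IsHomogeneous n := by
  have h1 := hF.eval₂ (MvPolynomial.C.comp (algebraMap R A))
    (fun i => ∑ l, MvPolynomial.C (θ i l) * MvPolynomial.X l)
    (fun r => MvPolynomial.isHomogeneous_C _ _) (n := 1) (fun i => by
      refine MvPolynomial.IsHomogeneous.sum _ _ _ fun l _ => ?_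
      exact MvPolynomial.IsHomogeneous.C_mul (MvPolynomial.isHomogeneous_X _ _) _)
  rw [one_mul] at h1
  exact h1

theorem eval_tMap (hθ : ∀ i, algebraMap R A (x' i) = ∑ l, θ i l * x l)
    (F : MvPolynomial (Fin d) R) :
    MvPolynomial.eval x (tMap R θ F) = algebraMap R A (MvPolynomial.eval x' F) := by
  have h1 : (MvPolynomial.eval x).comp (tMap R θ) =
      (algebraMap R A).comp (MvPolynomial.eval x') := by
    refine MvPolynomial.ringHom_ext (fun a => ?_) (fun i => ?_)
    · rw [RingHom.comp_apply, RingHom.comp_apply]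
      unfold tMap
      simp
    · rw [RingHom.comp_apply, RingHom.comp_apply, MvPolynomial.eval_X, hθ]
      unfold tMap
      simp
  exact RingHom.congr_fun h1 F

theorem map_tMap [IsLocalRing R] [IsLocalRing A] [IsLocalHom (algebraMap R A)]
    (F : MvPolynomial (Fin d) R) :
    (tMap R θ F).map (residue A) = jMap R θ (F.map (residue R)) := by
  have h1 : (MvPolynomial.map (residue A)).comp (tMap R θ) =
      (jMap R θ).comp (MvPolynomial.map (residue R)) := by
    refine MvPolynomial.ringHom_ext (fun a => ?_) (fun i => ?_)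
    · rw [RingHom.comp_apply, RingHom.comp_apply, MvPolynomial.map_C, jMap_C]
      unfold tMap
      simp
    · rw [RingHom.comp_apply, RingHom.comp_apply, MvPolynomial.map_X, jMap_X]
      unfold tMap
      simp
  exact RingHom.congr_fun h1 F

end tmap

end Vale.Agent.P177
end

section

/-!
Lifting initial forms and the generation condition for powers of the maximal ideal.
-/

namespace Vale.Agent.P177

open IsLocalRing Function

universe u

section lift

variable {A : Type u} [CommRing A] [IsLocalRing A] {d : ℕ}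

/-- Homogeneous polynomials over the residue field lift to homogeneous polynomials. -/
theorem exists_homogeneous_lift {g : MvPolynomial (Fin d) (ResidueField A)} {n : ℕ}
    (hg : g.IsHomogeneous n) :
    ∃ G : MvPolynomial (Fin d) A, G.IsHomogeneous n ∧ G.map (residue A) = g := by
  obtain ⟨G, rfl⟩ := MvPolynomial.map_surjective (residue A) residue_surjective g
  refine ⟨MvPolynomial.homogeneousComponent n G,
    MvPolynomial.homogeneousComponent_isHomogeneous n G, ?_⟩
  ext m
  rw [MvPolynomial.coeff_map, MvPolynomial.coeff_homogeneousComponent, MvPolynomial.coeff_map]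
  split_ifs with h
  · rfl
  · rw [map_zero]
    by_contra hcon
    have h1 : MvPolynomial.coeff m (MvPolynomial.map (residue A) G) ≠ 0 := by
      rw [MvPolynomial.coeff_map]
      exact fun h2 => hcon h2.symm
    apply h
    have h2 := hg h1
    rw [← h2, Finsupp.degree_eq_weight_one]
    rfl

theorem eval_mem_pow {x : Fin d → A} (hx : Ideal.span (Set.range x) = maximalIdeal A)
    {G : MvPolynomial (Fin d) A} {n : ℕ} (hG : G.IsHomogeneous n) :
    MvPolynomial.eval x G ∈ maximalIdeal A ^ n := by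
  rw [← hx, Ideal.mem_span_pow_iff_exists_isHomogeneous]
  exact ⟨G, hG, rfl⟩

theorem eval_mem_mul {x : Fin d → A} (hx : Ideal.span (Set.range x) = maximalIdeal A)
    {G : MvPolynomial (Fin d) A} {n : ℕ} (hG : G.IsHomogeneous n) (h0 : G.map (residue A) = 0) :
    MvPolynomial.eval x G ∈ maximalIdeal A * maximalIdeal A ^ n := by
  rw [MvPolynomial.as_sum G, map_sum]
  refine Ideal.sum_mem _ fun m hm => ?_
  have h1 : MvPolynomial.monomial m (MvPolynomial.coeff m G) =
      MvPolynomial.C (MvPolynomial.coeff m G) * MvPolynomial.monomial m 1 := by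
    rw [MvPolynomial.C_mul_monomial, mul_one]
  rw [h1, map_mul, MvPolynomial.eval_C]
  refine Ideal.mul_mem_mul ?_ ?_
  · rw [← residue_eq_zero_iff, ← MvPolynomial.coeff_map, h0, MvPolynomial.coeff_zero]
  · refine eval_mem_pow hx (MvPolynomial.isHomogeneous_monomial 1 ?_)
    have h2 := hG (MvPolynomial.mem_support_iff.1 hm)
    rw [← h2, Finsupp.degree_eq_weight_one]
    rfl

/-- The property of having good lifts in each degree. -/
def Liftable (x : Fin d → A) (W : ℕ → Ideal A) (f : MvPolynomial (Fin d) (ResidueField A)) :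
    Prop :=
  ∀ n, ∃ G : MvPolynomial (Fin d) A, G.IsHomogeneous n ∧
    G.map (residue A) = MvPolynomial.homogeneousComponent n f ∧ MvPolynomial.eval x G ∈ W n

theorem Liftable.add {x : Fin d → A} {W : ℕ → Ideal A}
    {f g : MvPolynomial (Fin d) (ResidueField A)} (hf : Liftable x W f) (hg : Liftable x W g) :
    Liftable x W (f + g) := by
  intro n
  obtain ⟨F, h1, h2, h3⟩ := hf n
  obtain ⟨G, h4, h5, h6⟩ := hg n
  exact ⟨F + G, h1.add h4, by rw [map_add, map_add, h2, h5], by
    rw [map_add]; exact add_mem h3 h6⟩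

theorem Liftable.zero (x : Fin d → A) (W : ℕ → Ideal A) :
    Liftable x W (0 : MvPolynomial (Fin d) (ResidueField A)) := by
  intro n
  exact ⟨0, MvPolynomial.isHomogeneous_zero _ _ _, by rw [map_zero, map_zero], by
    rw [map_zero]; exact zero_mem _⟩

theorem Liftable.sum {x : Fin d → A} {W : ℕ → Ideal A} {ι : Type*} (s : Finset ι)
    (f : ι → MvPolynomial (Fin d) (ResidueField A)) (hf : ∀ i ∈ s, Liftable x W (f i)) :
    Liftable x W (∑ i ∈ s, f i) := by
  classical
  induction s using Finset.induction_on with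
  | empty =>
    rw [Finset.sum_empty]
    exact Liftable.zero x W
  | insert i s hi ih =>
    rw [Finset.sum_insert hi]
    exact (hf i (Finset.mem_insert_self i s)).add
      (ih fun j hj => hf j (Finset.mem_insert_of_mem hj))

theorem Liftable.of_homogeneous {x : Fin d → A} {W : ℕ → Ideal A} {n : ℕ}
    (G : MvPolynomial (Fin d) A) (hG : G.IsHomogeneous n) (hW : MvPolynomial.eval x G ∈ W n) :
    Liftable x W (G.map (residue A)) := by
  intro m
  have h1 := MvPolynomial.homogeneousComponent_of_mem (m := m) (hG.map (residue A))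
  by_cases h : m = n
  · subst h
    exact ⟨G, hG, by rw [h1, if_pos rfl], hW⟩
  · exact ⟨0, MvPolynomial.isHomogeneous_zero _ _ _, by rw [h1, if_neg h, map_zero], by
      rw [map_zero]; exact zero_mem _⟩

theorem Liftable.mul {x : Fin d → A} (hx : Ideal.span (Set.range x) = maximalIdeal A)
    {W : ℕ → Ideal A} {n : ℕ} (F : MvPolynomial (Fin d) A) (hF : F.IsHomogeneous n)
    (hW : ∀ j, ∀ b ∈ maximalIdeal A ^ j, b * MvPolynomial.eval x F ∈ W (j + n))
    (g : MvPolynomial (Fin d) (ResidueField A)) :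
    Liftable x W (g * F.map (residue A)) := by
  rw [← MvPolynomial.sum_homogeneousComponent g, Finset.sum_mul]
  refine Liftable.sum _ _ fun j _ => ?_
  obtain ⟨G, hG, hGg⟩ := exists_homogeneous_lift
    (MvPolynomial.homogeneousComponent_isHomogeneous j g)
  rw [← hGg, ← map_mul]
  refine Liftable.of_homogeneous (n := j + n) _ (hG.mul hF) ?_
  rw [map_mul]
  exact hW j _ (eval_mem_pow hx hG)

theorem Liftable.of_span {x : Fin d → A} (hx : Ideal.span (Set.range x) = maximalIdeal A)
    {W : ℕ → Ideal A} {s : Set (MvPolynomial (Fin d) (ResidueField A))}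
    (hs : ∀ f ∈ s, ∃ (n : ℕ) (F : MvPolynomial (Fin d) A), F.IsHomogeneous n ∧
      F.map (residue A) = f ∧
      ∀ j, ∀ b ∈ maximalIdeal A ^ j, b * MvPolynomial.eval x F ∈ W (j + n))
    (f : MvPolynomial (Fin d) (ResidueField A)) (hf : f ∈ Ideal.span s) : Liftable x W f := by
  refine Submodule.span_induction (p := fun f _ => ∀ g, Liftable x W (g * f)) ?_ ?_ ?_ ?_ hf 1
    |> fun h => by rwa [one_mul] at h
  · intro f hf g
    obtain ⟨n, F, hF, rfl, hW⟩ := hs f hf
    exact Liftable.mul hx F hF hW g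
  · intro g
    rw [mul_zero]
    exact Liftable.zero x W
  · intro f f' _ _ h h' g
    rw [mul_add]
    exact (h g).add (h' g)
  · intro a f _ h g
    rw [smul_eq_mul, ← mul_assoc]
    exact h _

/-- If the irrelevant ideal to the power `n` has good lifts then so has the power of the maximal
ideal. -/
theorem pow_le_of_liftable [IsNoetherianRing A] {x : Fin d → A}
    (hx : Ideal.span (Set.range x) = maximalIdeal A)
    {W : ℕ → Ideal A} {s : Set (MvPolynomial (Fin d) (ResidueField A))}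
    (hs : ∀ f ∈ s, ∃ (n : ℕ) (F : MvPolynomial (Fin d) A), F.IsHomogeneous n ∧
      F.map (residue A) = f ∧
      ∀ j, ∀ b ∈ maximalIdeal A ^ j, b * MvPolynomial.eval x F ∈ W (j + n)) (n : ℕ)
    (hn : (Ideal.span (Set.range MvPolynomial.X)) ^ n ≤ Ideal.span s) :
    maximalIdeal A ^ n ≤ W n := by
  refine Submodule.le_of_le_smul_of_le_jacobson_bot (I := maximalIdeal A)
    (IsNoetherian.noetherian _) (maximalIdeal_le_jacobson _) ?_
  intro a ha
  rw [← hx, Ideal.mem_span_pow_iff_exists_isHomogeneous] at ha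
  obtain ⟨F, hF, rfl⟩ := ha
  have hF' := hF.map (residue A)
  have h1 : F.map (residue A) ∈ Ideal.span s := by
    apply hn
    rw [Ideal.mem_span_pow_iff_exists_isHomogeneous]
    refine ⟨(F.map (residue A)).map MvPolynomial.C, hF'.map _, ?_⟩
    rw [MvPolynomial.eval_map, MvPolynomial.eval₂_eta]
  obtain ⟨G, hG, hGF, hGW⟩ := Liftable.of_span hx hs _ h1 n
  rw [MvPolynomial.homogeneousComponent_eq_self hF'] at hGF
  have h2 : MvPolynomial.eval x (F - G) ∈ maximalIdeal A * maximalIdeal A ^ n := by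
    refine eval_mem_mul hx (hF.sub hG) ?_
    rw [map_sub, hGF, sub_self]
  have h3 : MvPolynomial.eval x F = MvPolynomial.eval x G + MvPolynomial.eval x (F - G) := by
    rw [map_sub]
    ring
  rw [h3]
  exact add_mem (Submodule.mem_sup_left hGW) (Submodule.mem_sup_right h2)

end lift

end Vale.Agent.P177
end

section

/-!
Change of systems of parameters, and heights from dimensions.
-/

namespace Vale.Agent.P177

open IsLocalRing Function TensorProduct

universe u

section inv

variable {A : Type u} [CommRing A] [IsRegularLocalRing A] {d : ℕ} (hd : ringKrullDim A = d)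
  {x : Fin d → A} (hx : Ideal.span (Set.range x) = maximalIdeal A)

include hd hx in
theorem coeff_mem_of_sum_eq_zero (a : Fin d → A) (h : ∑ i, a i * x i = 0) (i : Fin d) :
    residue A (a i) = 0 := by
  have h1 := map_residue_eq_zero hd hx (∑ i, MvPolynomial.C (a i) * MvPolynomial.X i) 1 (by
    refine MvPolynomial.IsHomogeneous.sum _ _ _ fun l _ => ?_
    exact MvPolynomial.IsHomogeneous.C_mul (MvPolynomial.isHomogeneous_X _ _) _) (by
    rw [map_sum]
    have h2 : ∀ i, MvPolynomial.eval x (MvPolynomial.C (a i) * MvPolynomial.X i) = a i * x i := by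
      intro i
      rw [map_mul, MvPolynomial.eval_C, MvPolynomial.eval_X]
    rw [Finset.sum_congr rfl fun i _ => h2 i, h]
    exact zero_mem _)
  have h2 := congrArg (MvPolynomial.eval (Pi.single i 1 : Fin d → ResidueField A)) h1
  rw [map_sum, map_sum, map_zero, Finset.sum_eq_single i] at h2
  · simpa using h2
  · intro j _ hj
    rw [map_mul, map_mul, MvPolynomial.map_X, MvPolynomial.eval_X, Pi.single_eq_of_ne hj, mul_zero]
  · intro h
    exact absurd (Finset.mem_univ i) h

include hd hx in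
/-- Two systems of parameters differ by an invertible matrix. -/
theorem exists_inverse {y : Fin d → A} (hy : Ideal.span (Set.range y) = maximalIdeal A)
    (θ : Fin d → Fin d → A) (hθ : ∀ i, y i = ∑ l, θ i l * x l) :
    ∃ θ' : Fin d → Fin d → A, (∀ l, x l = ∑ i, θ' l i * y i) ∧
      (∀ i l, ∑ m, θ i m * θ' m l = if i = l then 1 else 0) ∧
      (∀ i l, ∑ m, θ' i m * θ m l = if i = l then 1 else 0) := by
  have h0 : ∀ l, ∃ φ : Fin d → A, ∑ i, φ i * y i = x l := by
    intro l
    rw [← Ideal.mem_span_range_iff_exists_fun, hy, ← hx]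
    exact Ideal.subset_span ⟨l, rfl⟩
  choose φ hφ using h0
  let Θ : Matrix (Fin d) (Fin d) A := Matrix.of θ
  let Φ : Matrix (Fin d) (Fin d) A := Matrix.of φ
  have hres : (residue A).mapMatrix (Φ * Θ) = 1 := by
    ext l m
    have h1 : ∑ m, ((Φ * Θ) l m - (1 : Matrix (Fin d) (Fin d) A) l m) * x m = 0 := by
      simp only [sub_mul, Finset.sum_sub_distrib, Matrix.one_apply, sum_ite_mul]
      rw [sub_eq_zero]
      simp only [Matrix.mul_apply, Finset.sum_mul]
      rw [Finset.sum_comm, ← hφ l]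
      refine Finset.sum_congr rfl fun i _ => ?_
      rw [hθ i, Finset.mul_sum]
      refine Finset.sum_congr rfl fun m _ => ?_
      change φ l i * θ i m * x m = φ l i * (θ i m * x m)
      ring
    have h2 := coeff_mem_of_sum_eq_zero hd hx _ h1 m
    rw [map_sub, sub_eq_zero] at h2
    rw [RingHom.mapMatrix_apply, Matrix.map_apply, h2, Matrix.one_apply, Matrix.one_apply]
    split_ifs
    · rw [map_one]
    · rw [map_zero]
  have hdet : IsUnit (Φ * Θ).det := by
    rw [← residue_ne_zero_iff_isUnit, RingHom.map_det, hres, Matrix.det_one]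
    exact one_ne_zero
  have hdetΘ : IsUnit Θ.det := by
    rw [Matrix.det_mul] at hdet
    exact isUnit_of_mul_isUnit_right hdet
  refine ⟨fun i m => Θ⁻¹ i m, ?_, ?_, ?_⟩
  · intro l
    have h1 : Matrix.mulVec Θ⁻¹ y = x := by
      have h2 : y = Matrix.mulVec Θ x := by
        funext i
        rw [hθ i]
        rfl
      rw [h2, Matrix.mulVec_mulVec, Matrix.nonsing_inv_mul _ hdetΘ, Matrix.one_mulVec]
    conv_lhs => rw [← h1]
    rfl
  · intro i l
    have h1 := congrFun (congrFun (Matrix.mul_nonsing_inv Θ hdetΘ) i) l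
    rw [Matrix.mul_apply, Matrix.one_apply] at h1
    exact h1
  · intro i l
    have h1 := congrFun (congrFun (Matrix.nonsing_inv_mul Θ hdetΘ) i) l
    rw [Matrix.mul_apply, Matrix.one_apply] at h1
    exact h1

end inv

section idm

variable {R A : Type u} [CommRing R] [CommRing A] [IsLocalRing R] [IsLocalRing A]
    [Algebra R A] [IsLocalHom (algebraMap R A)] {d : ℕ}

/-- The change of coordinates given by the identity matrix. -/
theorem jMap_one : jMap R (fun i l : Fin d => if i = l then (1 : A) else 0) =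
    MvPolynomial.map (ResidueField.map (algebraMap R A)) := by
  refine MvPolynomial.ringHom_ext (fun a => ?_) (fun i => ?_)
  · rw [jMap_C, MvPolynomial.map_C]
  · rw [jMap_X, MvPolynomial.map_X, Finset.sum_eq_single i]
    · simp
    · intro j _ hj
      rw [if_neg (Ne.symm hj), map_zero, map_zero, zero_mul]
    · intro h
      exact absurd (Finset.mem_univ i) h

end idm

section hts

theorem supportDim_quotient_le {R : Type u} [CommRing R] (M : Type u) [AddCommGroup M]
    [Module R M] [Module.Finite R M] (P : Ideal R) (hP : Module.annihilator R M ≤ P) :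
    Module.supportDim R (R ⧸ P) ≤ Module.supportDim R M := by
  rw [Module.supportDim_quotient_eq_ringKrullDim,
    Module.supportDim_eq_ringKrullDim_quotient_annihilator]
  exact ringKrullDim_le_of_surjective (Ideal.Quotient.factor hP)
    (Ideal.Quotient.factor_surjective hP)

/-- Heights of primes in the supports, from the dimension hypothesis. -/
theorem height_ge_of_supportDim {R₁ R₂ : Type u} [CommRing R₁] [CommRing R₂]
    [IsRegularLocalRing R₁] [IsRegularLocalRing R₂] {d : ℕ} (hd₁ : ringKrullDim R₁ = d)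
    (hd₂ : ringKrullDim R₂ = d) (M N : Type u) [AddCommGroup M] [Module R₁ M]
    [Module.Finite R₁ M] [AddCommGroup N] [Module R₂ N] [Module.Finite R₂ N]
    (hdim : ∀ e g : ℕ, (e : WithBot ℕ∞) ≤ Module.supportDim R₁ M →
      (g : WithBot ℕ∞) ≤ Module.supportDim R₂ N → e + g ≤ d)
    (P₁ : Ideal R₁) (hP₁ : P₁.IsPrime) (hI : Module.annihilator R₁ M ≤ P₁)
    (P₂ : Ideal R₂) (hP₂ : P₂.IsPrime) (hJ : Module.annihilator R₂ N ≤ P₂) :
    (d : ℕ∞) ≤ P₁.height + P₂.height := by
  obtain ⟨h₁, e₁, l₁, s₁⟩ := supportDim_prime_eq hd₁ P₁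
  obtain ⟨h₂, e₂, l₂, s₂⟩ := supportDim_prime_eq hd₂ P₂
  have h := hdim (d - h₁) (d - h₂) (s₁ ▸ supportDim_quotient_le M P₁ hI)
    (s₂ ▸ supportDim_quotient_le N P₂ hJ)
  rw [e₁, e₂]
  have h3 : d ≤ h₁ + h₂ := by omega
  exact_mod_cast h3

end hts

end Vale.Agent.P177
end
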