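import Mathlib
import Vale.Agent.P177.Bd3.B1
import Vale.Agent.P177.Bd3.B2

set_option linter.all false

section

/-!
The two sided situation `R₁ → T ← R₂`: additivity, symmetry, and the case where one of the
modules has dimension zero.
-/

namespace Vale.Agent.P177

open CategoryTheory TensorProduct Function IsLocalRing RingTheory.Sequence Pointwise

universe u

/-- Euler characteristic of a pair of modules over two rings mapping to `T`. -/
noncomputable def chi (R₁ R₂ T : Type u) [CommRing R₁] [CommRing R₂] [CommRing T]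
    [Algebra R₁ T] [Algebra R₂ T] (t : ℕ) (E G : Type u) [AddCommGroup E] [Module R₁ E]
    [AddCommGroup G] [Module R₂ G] : ℤ :=
  eulerTor T (t + 1) (T ⊗[R₁] E) (T ⊗[R₂] G)

/-- Serre's statements for a pair of modules. -/
structure Pos (R₁ R₂ T : Type u) [CommRing R₁] [CommRing R₂] [CommRing T]
    [Algebra R₁ T] [Algebra R₂ T] (t b : ℕ) (E G : Type u) [AddCommGroup E] [Module R₁ E]
    [AddCommGroup G] [Module R₂ G] : Prop where
  dim_le : ∀ e g : ℕ, (e : WithBot ℕ∞) ≤ Module.supportDim R₁ E →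
    (g : WithBot ℕ∞) ≤ Module.supportDim R₂ G → e + g ≤ b
  nonneg : 0 ≤ chi R₁ R₂ T t E G
  pos : ∀ e g : ℕ, (e : WithBot ℕ∞) ≤ Module.supportDim R₁ E →
    (g : WithBot ℕ∞) ≤ Module.supportDim R₂ G → b ≤ e + g → 0 < chi R₁ R₂ T t E G
  zero : (∀ e g : ℕ, (e : WithBot ℕ∞) ≤ Module.supportDim R₁ E →
    (g : WithBot ℕ∞) ≤ Module.supportDim R₂ G → e + g < b) → chi R₁ R₂ T t E G = 0

section algebraic

variable {R₁ R₂ T : Type u} [CommRing R₁] [CommRing R₂] [CommRing T] [IsLocalRing T]
  [Algebra R₁ T] [Algebra R₂ T] {t b : ℕ}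

theorem FP.mono {E G E' G' : Type u} [AddCommGroup E] [Module R₁ E]
    [AddCommGroup G] [Module R₂ G] [AddCommGroup E'] [Module R₁ E']
    [AddCommGroup G'] [Module R₂ G'] (h : FP R₁ R₂ T E G)
    (h1 : Module.annihilator R₁ E ≤ Module.annihilator R₁ E')
    (h2 : Module.annihilator R₂ G ≤ Module.annihilator R₂ G') : FP R₁ R₂ T E' G' :=
  h.trans (Ideal.radical_mono (sup_le_sup (Ideal.map_mono h1) (Ideal.map_mono h2)))

theorem FP.symm {E G : Type u} [AddCommGroup E] [Module R₁ E]
    [AddCommGroup G] [Module R₂ G] (h : FP R₁ R₂ T E G) : FP R₂ R₁ T G E := by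
  unfold FP at h ⊢
  rwa [sup_comm]

omit [IsLocalRing T] in
theorem map_ann_le_tensor (E : Type u) [AddCommGroup E] [Module R₁ E] :
    (Module.annihilator R₁ E).map (algebraMap R₁ T) ≤ Module.annihilator T (T ⊗[R₁] E) := by
  rw [Ideal.map_le_iff_le_comap]
  intro a ha
  rw [Ideal.mem_comap, Module.mem_annihilator]
  intro x
  induction x using TensorProduct.induction_on with
  | zero => exact smul_zero _
  | tmul s m =>
    rw [algebraMap_smul, TensorProduct.smul_tmul', TensorProduct.smul_tmul,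
      Module.mem_annihilator.1 ha, TensorProduct.tmul_zero]
  | add x y hx hy => rw [smul_add, hx, hy, add_zero]

theorem FP.fl2 {E G : Type u} [AddCommGroup E] [Module R₁ E]
    [AddCommGroup G] [Module R₂ G] (h : FP R₁ R₂ T E G) :
    FL2 ([] : List T) (T ⊗[R₁] E) (T ⊗[R₂] G) := by
  refine h.trans (Ideal.radical_mono ?_)
  exact (sup_le_sup (map_ann_le_tensor E) (map_ann_le_tensor G)).trans le_sup_left

omit [IsLocalRing T] in
theorem chi_symm (E G : Type u) [AddCommGroup E] [Module R₁ E]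
    [AddCommGroup G] [Module R₂ G] : chi R₁ R₂ T t E G = chi R₂ R₁ T t G E :=
  eulerTor_symm _ _ _

omit [IsLocalRing T] in
theorem chi_congr {E G E' G' : Type u} [AddCommGroup E] [Module R₁ E]
    [AddCommGroup G] [Module R₂ G] [AddCommGroup E'] [Module R₁ E']
    [AddCommGroup G'] [Module R₂ G'] (e : E ≃ₗ[R₁] E') (e' : G ≃ₗ[R₂] G') :
    chi R₁ R₂ T t E G = chi R₁ R₂ T t E' G' :=
  eulerTor_congr (AlgebraTensorModule.congr (LinearEquiv.refl T T) e)
    (AlgebraTensorModule.congr (LinearEquiv.refl T T) e') _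

omit [IsLocalRing T] in
theorem Pos.congr {E G E' G' : Type u} [AddCommGroup E] [Module R₁ E]
    [AddCommGroup G] [Module R₂ G] [AddCommGroup E'] [Module R₁ E']
    [AddCommGroup G'] [Module R₂ G'] (e : E ≃ₗ[R₁] E') (e' : G ≃ₗ[R₂] G')
    (h : Pos R₁ R₂ T t b E G) : Pos R₁ R₂ T t b E' G' := by
  have h1 := Module.supportDim_eq_of_equiv e
  have h2 := Module.supportDim_eq_of_equiv e'
  have h3 := chi_congr (T := T) (t := t) e e'
  refine ⟨?_, ?_, ?_, ?_⟩
  · rw [← h1, ← h2]; exact h.dim_le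
  · rw [← h3]; exact h.nonneg
  · rw [← h1, ← h2, ← h3]; exact h.pos
  · rw [← h1, ← h2, ← h3]; exact h.zero

omit [IsLocalRing T] in
theorem Pos.symm {E G : Type u} [AddCommGroup E] [Module R₁ E]
    [AddCommGroup G] [Module R₂ G] (h : Pos R₁ R₂ T t b E G) : Pos R₂ R₁ T t b G E := by
  refine ⟨?_, ?_, ?_, ?_⟩
  · intro e g he hg
    rw [add_comm]
    exact h.dim_le g e hg he
  · rw [chi_symm]; exact h.nonneg
  · intro e g he hg hb
    rw [chi_symm]
    exact h.pos g e hg he (by omega)
  · intro hh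
    rw [chi_symm]
    exact h.zero fun e g he hg => by
      rw [add_comm]
      exact hh g e hg he

end algebraic

section additive

variable {R₁ R₂ T : Type u} [CommRing R₁] [CommRing R₂] [CommRing T]
  [IsNoetherianRing R₁] [IsNoetherianRing R₂] [IsRegularLocalRing T]
  [Algebra R₁ T] [Algebra R₂ T] [Module.Flat R₁ T] [Module.Flat R₂ T] {t b : ℕ}

omit [IsNoetherianRing R₁] [IsNoetherianRing R₂] [Module.Flat R₁ T] [Module.Flat R₂ T] in
theorem FP.length_ne_top {E G : Type u} [AddCommGroup E] [Module R₁ E] [Module.Finite R₁ E]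
    [AddCommGroup G] [Module R₂ G] [Module.Finite R₂ G] (h : FP R₁ R₂ T E G) (j : ℕ) :
    Module.length T (TorM T j (T ⊗[R₁] E) (T ⊗[R₂] G)) ≠ ⊤ := by
  have := tor_finite (R := T) j (T ⊗[R₁] E) (T ⊗[R₂] G)
  exact (h.fl2.tor j).length_ne_top

omit [IsNoetherianRing R₁] [IsNoetherianRing R₂] [Module.Flat R₂ T] in
theorem chi_add (ht : ringKrullDim T = t) {E' E E'' : Type u} [AddCommGroup E'] [Module R₁ E']
    [AddCommGroup E] [Module R₁ E] [AddCommGroup E''] [Module R₁ E''] [Module.Finite R₁ E']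
    [Module.Finite R₁ E] [Module.Finite R₁ E'']
    (f : E' →ₗ[R₁] E) (g : E →ₗ[R₁] E'') (hf : Injective f) (hg : Surjective g)
    (hex : Exact f g) (G : Type u) [AddCommGroup G] [Module R₂ G] [Module.Finite R₂ G]
    (h : FP R₁ R₂ T E G) :
    chi R₁ R₂ T t E G = chi R₁ R₂ T t E' G + chi R₁ R₂ T t E'' G := by
  have h' : FP R₁ R₂ T E' G := h.mono (LinearMap.annihilator_le_of_injective f hf) le_rfl
  have h'' : FP R₁ R₂ T E'' G := h.mono (LinearMap.annihilator_le_of_surjective g hg) le_rfl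
  obtain ⟨k1, k2, k3⟩ := baseChange_ses (B := T) f g hf hg hex
  exact eulerTor_add _ _ k1 k2 k3 _ t (fun j => h'.length_ne_top j) (fun j => h.length_ne_top j)
    (fun j => h''.length_ne_top j) (regular_tor_vanish T t ht _ _ (t + 1) le_rfl)

omit [IsNoetherianRing R₁] [IsNoetherianRing R₂] [Module.Flat R₂ T] in
theorem Pos.ext (ht : ringKrullDim T = t) {E' E E'' : Type u} [AddCommGroup E'] [Module R₁ E']
    [AddCommGroup E] [Module R₁ E] [AddCommGroup E''] [Module R₁ E''] [Module.Finite R₁ E']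
    [Module.Finite R₁ E] [Module.Finite R₁ E'']
    (f : E' →ₗ[R₁] E) (g : E →ₗ[R₁] E'') (hf : Injective f) (hg : Surjective g)
    (hex : Exact f g) (G : Type u) [AddCommGroup G] [Module R₂ G] [Module.Finite R₂ G]
    (h : FP R₁ R₂ T E G) (h1 : Pos R₁ R₂ T t b E' G) (h2 : Pos R₁ R₂ T t b E'' G) :
    Pos R₁ R₂ T t b E G := by
  have hadd := chi_add ht f g hf hg hex G h
  refine ⟨?_, ?_, ?_, ?_⟩
  · intro e g' he hg'
    rcases le_supportDim_of_exact f g hf hg hex e he with h3 | h3
    · exact h1.dim_le e g' h3 hg'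
    · exact h2.dim_le e g' h3 hg'
  · rw [hadd]; exact add_nonneg h1.nonneg h2.nonneg
  · intro e g' he hg' hb
    rw [hadd]
    rcases le_supportDim_of_exact f g hf hg hex e he with h3 | h3
    · exact add_pos_of_pos_of_nonneg (h1.pos e g' h3 hg' hb) h2.nonneg
    · exact add_pos_of_nonneg_of_pos h1.nonneg (h2.pos e g' h3 hg' hb)
  · intro hh
    rw [hadd, h1.zero, h2.zero, add_zero]
    · intro e g' he hg'
      exact hh e g' (he.trans (Module.supportDim_le_of_surjective g hg)) hg'
    · intro e g' he hg'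
      exact hh e g' (he.trans (Module.supportDim_le_of_injective f hf)) hg'

omit [IsNoetherianRing R₁] [IsNoetherianRing R₂] [IsRegularLocalRing T]
  [Module.Flat R₁ T] [Module.Flat R₂ T] in
theorem Pos.of_subsingleton_left (E : Type u) [AddCommGroup E] [Module R₁ E]
    [Subsingleton E] (G : Type u) [AddCommGroup G] [Module R₂ G] :
    Pos R₁ R₂ T t b E G := by
  have hdim : ∀ e : ℕ, ¬ ((e : WithBot ℕ∞) ≤ Module.supportDim R₁ E) := by
    intro e he
    rw [Module.supportDim_eq_bot_of_subsingleton] at he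
    simp at he
  have h0 : chi R₁ R₂ T t E G = 0 := by
    have : Subsingleton (T ⊗[R₁] E) := inferInstance
    unfold chi eulerTor
    refine Finset.sum_eq_zero fun j _ => ?_
    have h1 : Module.length T (TorM T j (T ⊗[R₁] E) (T ⊗[R₂] G)) = 0 := by
      rw [Module.length_eq_zero_iff]
      refine subsingleton_of_forall_eq 0 fun x => ?_
      have h2 := tor_smul_eq_zero_left (R := T) (1 : T)
        (fun m : T ⊗[R₁] E => Subsingleton.elim _ _) j (T ⊗[R₂] G) x
      rwa [one_smul] at h2
    rw [h1]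
    simp
  exact ⟨fun e _ he _ => absurd he (hdim e), h0.ge, fun e _ he _ => absurd he (hdim e),
    fun _ => h0⟩

omit [IsNoetherianRing R₂] [Module.Flat R₂ T] in
/-- Reduction to quotients by primes in the first variable. The class of modules considered is
given by a bound on the dimension. -/
theorem pos_of_primes (ht : ringKrullDim T = t) (n : WithBot ℕ∞) (G : Type u) [AddCommGroup G]
    [Module R₂ G] [Module.Finite R₂ G]
    (hP : ∀ P : Ideal R₁, P.IsPrime → Module.supportDim R₁ (R₁ ⧸ P) ≤ n →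
      FP R₁ R₂ T (R₁ ⧸ P) G → Pos R₁ R₂ T t b (R₁ ⧸ P) G)
    (E : Type u) [AddCommGroup E] [Module R₁ E] [hE : Module.Finite R₁ E]
    (hn : Module.supportDim R₁ E ≤ n) (h : FP R₁ R₂ T E G) : Pos R₁ R₂ T t b E G := by
  induction hE using IsNoetherianRing.induction_on_isQuotientEquivQuotientPrime R₁ with
  | subsingleton N => exact Pos.of_subsingleton_left N G
  | quotient N P e =>
    have h1 : FP R₁ R₂ T (R₁ ⧸ P.1) G := h.mono (LinearEquiv.annihilator_eq e).le le_rfl
    exact (hP P.1 P.2 (by rwa [← Module.supportDim_eq_of_equiv e]) h1).congr e.symm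
      (LinearEquiv.refl _ _)
  | exact N₁ N₂ N₃ f g hf hg hex ih1 ih3 =>
    exact Pos.ext ht f g hf hg hex G h
      (ih1 ((Module.supportDim_le_of_injective f hf).trans hn)
        (h.mono (LinearMap.annihilator_le_of_injective f hf) le_rfl))
      (ih3 ((Module.supportDim_le_of_surjective g hg).trans hn)
        (h.mono (LinearMap.annihilator_le_of_surjective g hg) le_rfl))

end additive

end Vale.Agent.P177
end

section

/-!
Complete intersections, the Cohen-Macaulay case, and cutting by an element.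
-/

namespace Vale.Agent.P177

open CategoryTheory TensorProduct Function IsLocalRing RingTheory.Sequence Pointwise

universe u

variable {R₁ R₂ T : Type u} [CommRing R₁] [CommRing R₂] [CommRing T]
  [IsRegularLocalRing R₁] [IsRegularLocalRing R₂] [IsRegularLocalRing T]
  [Algebra R₁ T] [Algebra R₂ T] [Module.Flat R₁ T] [Module.Flat R₂ T]
  [IsLocalHom (algebraMap R₁ T)] [IsLocalHom (algebraMap R₂ T)] {r₁ r₂ t b : ℕ}

theorem nontrivial_tensor_local {T : Type u} [CommRing T] [IsLocalRing T] (X Y : Type u)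
    [AddCommGroup X] [Module T X] [Module.Finite T X] [AddCommGroup Y] [Module T Y]
    [Module.Finite T Y] [Nontrivial X] [Nontrivial Y] : Nontrivial (X ⊗[T] Y) := by
  obtain ⟨f, hf⟩ := exists_surjective_residue (S := T) X
  obtain ⟨g, hg⟩ := exists_surjective_residue (S := T) Y
  obtain ⟨x, hx⟩ := hf 1
  obtain ⟨y, hy⟩ := hg 1
  refine ⟨x ⊗ₜ y, 0, fun h0 => ?_⟩
  have h1 : LinearMap.mul' T (T ⧸ maximalIdeal T) (TensorProduct.map f g (x ⊗ₜ y)) = 0 := by
    rw [h0, map_zero, map_zero]
  rw [TensorProduct.map_tmul, hx, hy, LinearMap.mul'_apply, mul_one] at h1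
  exact one_ne_zero h1

theorem annihilator_quot_list {R : Type u} [CommRing R] (zs : List R) :
    Module.annihilator R (R ⧸ (Ideal.ofList zs • ⊤ : Submodule R R)) = Ideal.ofList zs := by
  rw [smul_eq_mul, Ideal.mul_top, Ideal.annihilator_quotient]

omit [IsRegularLocalRing R₂] [Module.Flat R₂ T] [IsLocalHom (algebraMap R₂ T)] in
/-- Euler characteristic with a complete intersection. -/
theorem chi_ci_eq (ht : ringKrullDim T = t) (zs : List R₁) (hzs : ∀ z ∈ zs, z ∈ maximalIdeal R₁)
    (hreg : IsWeaklyRegular R₁ zs) (G : Type u) [AddCommGroup G] [Module R₂ G]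
    [Module.Finite R₂ G] (h : FP R₁ R₂ T (R₁ ⧸ (Ideal.ofList zs • ⊤ : Submodule R₁ R₁)) G) :
    chi R₁ R₂ T t (R₁ ⧸ (Ideal.ofList zs • ⊤ : Submodule R₁ R₁)) G =
      eul (zs.map (algebraMap R₁ T)) (T ⊗[R₂] G) := by
  have hregT : IsWeaklyRegular T (zs.map (algebraMap R₁ T)) := hreg.of_flat
  have hFL : FL2 (zs.map (algebraMap R₁ T)) T (T ⊗[R₂] G) := by
    refine h.trans (Ideal.radical_mono ?_)
    rw [annihilator_quot_list, Ideal.map_ofList]
    exact sup_le le_sup_right ((map_ann_le_tensor G).trans (le_sup_of_le_left le_sup_right))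
  have hv : ∀ j, 1 ≤ j → Subsingleton (TorM T j T (T ⊗[R₂] G)) := by
    intro j hj
    obtain ⟨j, rfl⟩ : ∃ k, j = k + 1 := ⟨j - 1, by omega⟩
    exact tor_subsingleton_of_flat j
  have hlen := length_le_dim ht _ (map_mem_maximalIdeal (T := T) hzs) hregT
  have hsum := sum_length_tor_quot (zs.map (algebraMap R₁ T)) (T ⊗[R₂] G) (t + 1) T hregT hFL 1
    hv (by omega)
  obtain ⟨e⟩ := exists_baseChange_quot (T := T) zs R₁
  have e2 : (T ⊗[R₁] R₁) ≃ₗ[T] T := AlgebraTensorModule.rid R₁ T T
  have e3 : ((T ⊗[R₁] R₁) ⧸ (Ideal.ofList (zs.map (algebraMap R₁ T)) • ⊤ :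
      Submodule T (T ⊗[R₁] R₁))) ≃ₗ[T]
      (T ⧸ (Ideal.ofList (zs.map (algebraMap R₁ T)) • ⊤ : Submodule T T)) :=
    Submodule.Quotient.equiv _ _ e2 (by
      rw [Submodule.map_smul'', Submodule.map_top, LinearEquiv.range])
  unfold chi
  rw [eulerTor_congr (e ≪≫ₗ e3) (LinearEquiv.refl T (T ⊗[R₂] G)) (t + 1)]
  unfold eulerTor
  rw [hsum, Finset.sum_range_succ', Finset.sum_eq_zero, zero_add, pow_zero, one_mul]
  · exact eul_congr _ (torZero _ _ ≪≫ₗ TensorProduct.lid T _)
  · intro j _
    have := hv (j + 1) (by omega)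
    rw [eul_subsingleton, mul_zero]

omit [IsRegularLocalRing R₁] [IsRegularLocalRing R₂] [IsRegularLocalRing T] [Module.Flat R₁ T]
  [Module.Flat R₂ T] [IsLocalHom (algebraMap R₁ T)] [IsLocalHom (algebraMap R₂ T)] in
theorem fl_of_fp_ci [IsLocalRing T] (zs : List R₁) (G : Type u) [AddCommGroup G] [Module R₂ G]
    (h : FP R₁ R₂ T (R₁ ⧸ (Ideal.ofList zs • ⊤ : Submodule R₁ R₁)) G) :
    FL (zs.map (algebraMap R₁ T)) (T ⊗[R₂] G) := by
  refine h.trans (Ideal.radical_mono ?_)
  rw [annihilator_quot_list, Ideal.map_ofList]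
  exact sup_le le_sup_right ((map_ann_le_tensor G).trans le_sup_left)

/-- All of Serre's statements for complete intersections. -/
theorem pos_ci (h1 : ringKrullDim R₁ = r₁) (h2 : ringKrullDim R₂ = r₂)
    (ht : ringKrullDim T = t) (hb : r₁ + r₂ = t + b) (zs : List R₁)
    (hzs : ∀ z ∈ zs, z ∈ maximalIdeal R₁)
    (hreg : IsWeaklyRegular R₁ zs) (G : Type u) [AddCommGroup G] [Module R₂ G]
    [Module.Finite R₂ G] (h : FP R₁ R₂ T (R₁ ⧸ (Ideal.ofList zs • ⊤ : Submodule R₁ R₁)) G) :
    Pos R₁ R₂ T t b (R₁ ⧸ (Ideal.ofList zs • ⊤ : Submodule R₁ R₁)) G := by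
  have hr1 := dim_le_dim (R := R₁) (T := T) h1 ht
  have hr2 := dim_le_dim (R := R₂) (T := T) h2 ht
  have hlen : zs.length ≤ r₁ := length_le_dim h1 zs hzs hreg
  have hdim := supportDim_quot_of_weaklyRegular h1 zs hzs hreg
  have hchi := chi_ci_eq ht zs hzs hreg G h
  have hFL := fl_of_fp_ci (T := T) zs G h
  have hmap := map_mem_maximalIdeal (T := T) hzs
  have hle := supportDim_le_length _ hmap _ hFL
  rw [List.length_map] at hle
  obtain ⟨hnn, hpos⟩ := eul_nonneg_pos _ hmap _ hFL
  rw [List.length_map] at hpos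
  refine ⟨?_, ?_, ?_, ?_⟩
  · intro e g he hg
    rw [hdim] at he
    have he' : e ≤ r₁ - zs.length := by exact_mod_cast he
    have h3 := (le_supportDim_baseChange (T := T) h2 ht G g hg).trans hle
    have h4 : g + (t - r₂) ≤ zs.length := by exact_mod_cast h3
    omega
  · rw [hchi]; exact hnn
  · intro e g he hg hbe
    rw [hdim] at he
    have he' : e ≤ r₁ - zs.length := by exact_mod_cast he
    rw [hchi]
    apply hpos
    refine le_trans ?_ (le_supportDim_baseChange (T := T) h2 ht G g hg)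
    have : zs.length ≤ g + (t - r₂) := by omega
    exact_mod_cast this
  · intro hh
    rw [hchi]
    apply eul_eq_zero_of_dim _ hmap _ hFL
    rw [List.length_map]
    intro hcon
    obtain ⟨g, hg, hgl⟩ := supportDim_baseChange_le (T := T) h2 ht G _ hcon
    have := hh (r₁ - zs.length) g hdim.ge hg
    omega

theorem pos_residue (h1 : ringKrullDim R₁ = r₁) (h2 : ringKrullDim R₂ = r₂)
    (ht : ringKrullDim T = t) (hb : r₁ + r₂ = t + b) (G : Type u) [AddCommGroup G] [Module R₂ G]
    [Module.Finite R₂ G] (h : FP R₁ R₂ T (R₁ ⧸ maximalIdeal R₁) G) :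
    Pos R₁ R₂ T t b (R₁ ⧸ maximalIdeal R₁) G := by
  obtain ⟨rs, hrs, hlen, hreg⟩ := exists_rsp R₁ h1
  have e1 : (R₁ ⧸ (Ideal.ofList rs • ⊤ : Submodule R₁ R₁)) ≃ₗ[R₁] (R₁ ⧸ maximalIdeal R₁) :=
    Submodule.quotEquivOfEq _ _ (by rw [hrs]; simp)
  have h' : FP R₁ R₂ T (R₁ ⧸ (Ideal.ofList rs • ⊤ : Submodule R₁ R₁)) G :=
    h.mono e1.symm.annihilator_eq.le le_rfl
  exact (pos_ci h1 h2 ht hb rs (fun z hz => by rw [← hrs]; exact Ideal.subset_span hz) hreg G
    h').congr e1 (LinearEquiv.refl _ _)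

/-- The Cohen-Macaulay case, in terms of depth. -/
theorem chi_pos_of_depth (h1 : ringKrullDim R₁ = r₁) (h2 : ringKrullDim R₂ = r₂)
    (ht : ringKrullDim T = t) (hb : r₁ + r₂ = t + b) (E G : Type u) [AddCommGroup E]
    [Module R₁ E] [Module.Finite R₁ E] [AddCommGroup G] [Module R₂ G]
    [Module.Finite R₂ G] (h : FP R₁ R₂ T E G) (zs : List R₁) (ws : List R₂)
    (hzs : ∀ z ∈ zs, z ∈ maximalIdeal R₁) (hws : ∀ z ∈ ws, z ∈ maximalIdeal R₂)
    (hz : IsWeaklyRegular E zs) (hw : IsWeaklyRegular G ws) (hzl : zs.length ≤ r₁)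
    (hwl : ws.length ≤ r₂) (hlen : b ≤ zs.length + ws.length) :
    0 ≤ chi R₁ R₂ T t E G ∧ (Nontrivial E → Nontrivial G → 0 < chi R₁ R₂ T t E G) := by
  have hr1 := dim_le_dim (R := R₁) (T := T) h1 ht
  have hr2 := dim_le_dim (R := R₂) (T := T) h2 ht
  obtain ⟨us, hul, hus, hureg⟩ := exists_regular_baseChange (T := T) h1 ht E zs hzs hz hzl
  obtain ⟨vs, hvl, hvs, hvreg⟩ := exists_regular_baseChange (T := T) h2 ht G ws hws hw hwl
  have hv : ∀ j, 1 ≤ j → Subsingleton (TorM T j (T ⊗[R₁] E) (T ⊗[R₂] G)) := fun j hj =>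
    tor_subsingleton_of_depth ht _ _ h.fl2 us vs hus hvs hureg hvreg j (by omega)
  have hchi : chi R₁ R₂ T t E G =
      ((Module.length T (TorM T 0 (T ⊗[R₁] E) (T ⊗[R₂] G))).toNat : ℤ) := by
    unfold chi
    rw [eulerTor_of_vanish _ _ 1 (t + 1) (by omega) hv]
    unfold eulerTor
    simp
  rw [hchi]
  refine ⟨Nat.cast_nonneg _, fun hE hG => ?_⟩
  have hnt : Nontrivial (TorM T 0 (T ⊗[R₁] E) (T ⊗[R₂] G)) := by
    have a1 : Nontrivial (T ⊗[R₁] E) := by
      rw [← Module.supportDim_ne_bot_iff_nontrivial T]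
      intro hbot
      have h0 : ((0 : ℕ) : WithBot ℕ∞) ≤ Module.supportDim R₁ E := by
        unfold Module.supportDim
        have := (Module.nonempty_support_of_nontrivial (R := R₁) (M := E)).to_subtype
        exact Order.krullDim_nonneg
      have h3 := le_supportDim_baseChange (T := T) h1 ht E 0 h0
      rw [hbot] at h3
      simp at h3
    have a2 : Nontrivial (T ⊗[R₂] G) := by
      rw [← Module.supportDim_ne_bot_iff_nontrivial T]
      intro hbot
      have h0 : ((0 : ℕ) : WithBot ℕ∞) ≤ Module.supportDim R₂ G := by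
        unfold Module.supportDim
        have := (Module.nonempty_support_of_nontrivial (R := R₂) (M := G)).to_subtype
        exact Order.krullDim_nonneg
      have h3 := le_supportDim_baseChange (T := T) h2 ht G 0 h0
      rw [hbot] at h3
      simp at h3
    have a3 : Nontrivial ((T ⊗[R₁] E) ⊗[T] (T ⊗[R₂] G)) := nontrivial_tensor_local _ _
    exact (torZero _ _).toEquiv.nontrivial
  have h3 := h.length_ne_top 0
  have h4 : Module.length T (TorM T 0 (T ⊗[R₁] E) (T ⊗[R₂] G)) ≠ 0 := by
    rw [Ne, Module.length_eq_zero_iff]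
    exact not_subsingleton _
  have h5 : (Module.length T (TorM T 0 (T ⊗[R₁] E) (T ⊗[R₂] G))).toNat ≠ 0 := by
    rw [Ne, ENat.toNat_eq_zero]
    exact not_or.2 ⟨h4, h3⟩
  exact_mod_cast Nat.pos_of_ne_zero h5

omit [IsRegularLocalRing R₁] [IsRegularLocalRing R₂] [Module.Flat R₂ T]
  [IsLocalHom (algebraMap R₁ T)] [IsLocalHom (algebraMap R₂ T)] in
theorem chi_quotSMulTop [IsNoetherianRing R₁] (ht : ringKrullDim T = t) (E : Type u)
    [AddCommGroup E] [Module R₁ E] [Module.Finite R₁ E]
    (G : Type u) [AddCommGroup G] [Module R₂ G] [Module.Finite R₂ G] (h : FP R₁ R₂ T E G)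
    (x : R₁) (hx : IsSMulRegular E x) : chi R₁ R₂ T t (QuotSMulTop x E) G = 0 := by
  obtain ⟨f, g, -, hf, hg, hex⟩ := quot_ses E x hx
  have := chi_add ht f g hf hg hex G h
  omega

omit [IsRegularLocalRing R₂] [Module.Flat R₂ T] [IsLocalHom (algebraMap R₁ T)]
  [IsLocalHom (algebraMap R₂ T)] in
/-- Cutting by an element. -/
theorem cut (ht : ringKrullDim T = t) (P : Ideal R₁) [hP : P.IsPrime] (x : R₁)
    (hx : x ∈ maximalIdeal R₁) (hxP : x ∉ P) (G : Type u) [AddCommGroup G] [Module R₂ G]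
    [Module.Finite R₂ G] (h : FP R₁ R₂ T (R₁ ⧸ P) G)
    (hpos : Pos R₁ R₂ T t b (QuotSMulTop x (R₁ ⧸ P)) G) (e g : ℕ)
    (he : ((e + 1 : ℕ) : WithBot ℕ∞) ≤ Module.supportDim R₁ (R₁ ⧸ P))
    (hg : (g : WithBot ℕ∞) ≤ Module.supportDim R₂ G) : e + g < b := by
  have hreg : IsSMulRegular (R₁ ⧸ P) x := by
    rw [isSMulRegular_iff_right_eq_zero_of_smul]
    intro y hy
    obtain ⟨y, rfl⟩ := Ideal.Quotient.mk_surjective y
    have h1 : Ideal.Quotient.mk P (x * y) = 0 := hy
    rw [Ideal.Quotient.eq_zero_iff_mem] at h1 ⊢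
    exact (hP.mem_or_mem h1).resolve_left hxP
  have h0 := chi_quotSMulTop ht (R₁ ⧸ P) G h x hreg
  have h1 := Module.supportDim_quotSMulTop_succ_eq_supportDim hreg hx
  by_contra hcon
  have h2 : (e : WithBot ℕ∞) ≤ Module.supportDim R₁ (QuotSMulTop x (R₁ ⧸ P)) := by
    rw [← h1] at he
    generalize Module.supportDim R₁ (QuotSMulTop x (R₁ ⧸ P)) = a at he ⊢
    induction a using WithBot.recBotCoe with
    | bot => simp at he
    | coe a =>
      have h3 : ((e + 1 : ℕ) : ℕ∞) ≤ a + 1 := by exact_mod_cast he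
      have h4 : (e : ℕ∞) ≤ a := by
        push_cast at h3
        exact (ENat.add_le_add_iff_right ENat.one_ne_top).1 h3
      exact_mod_cast h4
  have h3 := hpos.pos e g h2 hg (by omega)
  omega

end Vale.Agent.P177
end

section

/-!
Saturation with respect to the maximal ideal and modules of depth two.
-/

namespace Vale.Agent.P177

open CategoryTheory TensorProduct Function IsLocalRing RingTheory.Sequence Pointwise

universe u

section onering

variable {R : Type u} [CommRing R] [IsRegularLocalRing R] {r : ℕ}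

omit [IsRegularLocalRing R] in
theorem supportDim_le_zero_of_pow [IsLocalRing R] [IsNoetherianRing R] (V : Type u)
    [AddCommGroup V] [Module R V] [Module.Finite R V] (n : ℕ)
    (h : ∀ a ∈ maximalIdeal R ^ n, ∀ v : V, a • v = 0) : Module.supportDim R V ≤ 0 := by
  have h1 : FL ([] : List R) V := by
    unfold FL
    refine fun a ha => ⟨n, ?_⟩
    refine le_sup_left (α := Ideal R) ?_
    rw [Module.mem_annihilator]
    exact h _ (Ideal.pow_mem_pow ha n)
  exact supportDim_le_length [] (by simp) V h1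

theorem exists_sat (hr : ringKrullDim R = r) (h2 : 2 ≤ r) (C : Type u) [AddCommGroup C]
    [Module R C] [Module.Finite R C]
    (hC : ∀ j, r ≤ j + 1 → Subsingleton (TorM R j C (R ⧸ maximalIdeal R)))
    (N : Submodule R C) : ∃ S : Submodule R C, N ≤ S ∧
      (∃ n, ∀ a ∈ maximalIdeal R ^ n, ∀ s ∈ S, a • s ∈ N) ∧
      ∃ ws : List R, ws.length = 2 ∧ (∀ z ∈ ws, z ∈ maximalIdeal R) ∧ IsWeaklyRegular S ws := by
  let f : ℕ →o Submodule R C :=
    { toFun := fun n =>
        { carrier := {c | ∀ a ∈ maximalIdeal R ^ n, a • c ∈ N}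
          add_mem' := fun {x y} hx hy a ha => by
            rw [smul_add]
            exact N.add_mem (hx a ha) (hy a ha)
          zero_mem' := fun a _ => by rw [smul_zero]; exact N.zero_mem
          smul_mem' := fun c x hx a ha => by
            rw [smul_comm]
            exact N.smul_mem _ (hx a ha) }
      monotone' := fun m n hmn x hx a ha => hx a (Ideal.pow_le_pow_right hmn ha) }
  have hf : ∀ n c, c ∈ f n ↔ ∀ a ∈ maximalIdeal R ^ n, a • c ∈ N := fun n c => Iff.rfl
  obtain ⟨n, hn⟩ := monotone_stabilizes_iff_noetherian.2 (inferInstance : IsNoetherian R C) f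
  refine ⟨f n, ?_, ⟨n, fun a ha s hs => hs a ha⟩, ?_⟩
  · intro x hx
    rw [hf]
    exact fun a _ => N.smul_mem a hx
  · have hsoc : ∀ x : C ⧸ f n, (∀ a ∈ maximalIdeal R, a • x = 0) → x = 0 := by
      intro x hx
      obtain ⟨c, rfl⟩ := Submodule.mkQ_surjective _ x
      rw [Submodule.mkQ_apply, Submodule.Quotient.mk_eq_zero, hn (n + 1) (by omega), hf]
      have h3 : ∀ a ∈ maximalIdeal R, a • c ∈ f n := by
        intro a ha
        have := hx a ha
        rwa [← map_smul, Submodule.mkQ_apply, Submodule.Quotient.mk_eq_zero] at this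
      intro a ha
      rw [pow_succ] at ha
      induction ha using Submodule.mul_induction_on' with
      | mem_mul_mem a ha b hb =>
        rw [mul_smul]
        exact h3 b hb a ha
      | add x _ y _ hx hy =>
        rw [add_smul]
        exact N.add_mem hx hy
    have h4 : ∀ j, r ≤ j → Subsingleton (TorM R j (C ⧸ f n) (R ⧸ maximalIdeal R)) := by
      intro j hj
      rcases hj.eq_or_lt with h5 | h5
      · rw [← h5]
        exact tor_residue_of_no_socle hr _ hsoc
      · exact regular_tor_vanish R r hr _ _ j h5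
    have hex : Exact (f n).subtype (f n).mkQ := by
      intro x
      rw [Submodule.mkQ_apply, Submodule.Quotient.mk_eq_zero]
      simp
    obtain ⟨δ, -, h6, -⟩ := exists_torDelta (f n).subtype (f n).mkQ
      (Submodule.injective_subtype _) (Submodule.mkQ_surjective _) hex (R ⧸ maximalIdeal R)
    obtain ⟨ws, hw1, hw2, hw3⟩ := exists_regular_ext_list hr (f n) [] (IsWeaklyRegular.nil _ _)
      (r - 2) (fun j hj => by
        have h7 := hC j (by omega)
        have h8 := h4 (j + 1) (by omega)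
        refine subsingleton_of_forall_eq 0 fun x => ?_
        obtain ⟨y, rfl⟩ := (h6 j x).1 (Subsingleton.elim _ _)
        rw [Subsingleton.elim y 0, map_zero]) 2 (by rw [List.length_nil]; omega)
    exact ⟨ws, hw1, hw2, by simpa using hw3⟩

omit [IsRegularLocalRing R] in
theorem tor_ci_residue [IsLocalRing R] (zs : List R) (hreg : IsWeaklyRegular R zs)
    (hl : zs.length + 2 ≤ r) (j : ℕ) (hj : r ≤ j + 1) :
    Subsingleton (TorM R j (R ⧸ (Ideal.ofList zs • ⊤ : Submodule R R)) (R ⧸ maximalIdeal R)) := by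
  refine tor_subsingleton_list zs R hreg (R ⧸ maximalIdeal R) 1 (fun j hj => ?_) j (by omega)
  obtain ⟨j, rfl⟩ : ∃ k, j = k + 1 := ⟨j - 1, by omega⟩
  exact tor_subsingleton_of_flat j

theorem eq_zero_of_pow_of_no_socle {R : Type u} [CommRing R] [IsLocalRing R] (C : Type u)
    [AddCommGroup C] [Module R C] (h : ∀ x : C, (∀ a ∈ maximalIdeal R, a • x = 0) → x = 0) (n : ℕ)
    (x : C) (hx : ∀ a ∈ maximalIdeal R ^ n, a • x = 0) : x = 0 := by
  induction n generalizing x with
  | zero => simpa using hx 1 (by simp)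
  | succ n ih =>
    apply h
    intro a ha
    apply ih
    intro c hc
    rw [← mul_smul]
    exact hx _ (by rw [pow_succ]; exact Ideal.mul_mem_mul hc ha)

/-- For a prime of coheight at least two, the domain embeds in a module of depth two supported on
it with cokernel of finite length. -/
theorem exists_depth_two (hr : ringKrullDim R = r) (P : Ideal R) [P.IsPrime]
    (hd : ((2 : ℕ) : WithBot ℕ∞) ≤ Module.supportDim R (R ⧸ P)) :
    ∃ (S : Type u) (_ : AddCommGroup S) (_ : Module R S) (_ : Module.Finite R S)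
      (f : (R ⧸ P) →ₗ[R] S), Injective f ∧ P ≤ Module.annihilator R S ∧
      Module.supportDim R (S ⧸ LinearMap.range f) ≤ 0 ∧
      ∃ ws : List R, ws.length = 2 ∧ (∀ z ∈ ws, z ∈ maximalIdeal R) ∧ IsWeaklyRegular S ws := by
  obtain ⟨zs, hmem, hreg, hlt, hh, hdim, hass⟩ := exists_ci hr P
  rw [hdim] at hd
  have hd' : 2 ≤ r - zs.length := by exact_mod_cast hd
  obtain ⟨f, hf⟩ := ((isAssociatedPrime_iff_exists_injective_linearMap _ _).1 hass).2
  obtain ⟨S, hNS, ⟨n, hn⟩, ws, hw1, hw2, hw3⟩ := exists_sat hr (by omega)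
    (R ⧸ (Ideal.ofList zs • ⊤ : Submodule R R))
    (fun j hj => tor_ci_residue zs hreg (by omega) j hj) (LinearMap.range f)
  have hsoc := no_socle_of_tor_residue hr (R ⧸ (Ideal.ofList zs • ⊤ : Submodule R R))
    (tor_ci_residue (r := r) zs hreg (by omega) r (by omega))
  refine ⟨S, inferInstance, inferInstance, inferInstance,
    f.codRestrict S (fun x => hNS ⟨x, rfl⟩), ?_, ?_, ?_, ws, hw1, hw2, hw3⟩
  · intro x y hxy
    exact hf (congrArg Subtype.val hxy)
  · intro p hp
    rw [Module.mem_annihilator]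
    rintro ⟨s, hs⟩
    apply Subtype.ext
    change p • s = 0
    apply eq_zero_of_pow_of_no_socle _ hsoc n
    intro a ha
    obtain ⟨y, hy⟩ := hn a ha s hs
    rw [smul_comm, ← hy, ← map_smul]
    have : p • y = 0 := by
      obtain ⟨y, rfl⟩ := Ideal.Quotient.mk_surjective y
      change Ideal.Quotient.mk P (p * y) = 0
      rw [Ideal.Quotient.eq_zero_iff_mem]
      exact Ideal.mul_mem_right _ _ hp
    rw [this, map_zero]
  · apply supportDim_le_zero_of_pow _ n
    intro a ha v
    obtain ⟨⟨s, hs⟩, rfl⟩ := Submodule.mkQ_surjective _ v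
    rw [← map_smul, Submodule.mkQ_apply, Submodule.Quotient.mk_eq_zero]
    obtain ⟨y, hy⟩ := hn a ha s hs
    exact ⟨y, Subtype.ext hy⟩

end onering

section twosided

variable {R₁ R₂ T : Type u} [CommRing R₁] [CommRing R₂] [CommRing T]
  [IsRegularLocalRing R₁] [IsRegularLocalRing R₂] [IsRegularLocalRing T]
  [Algebra R₁ T] [Algebra R₂ T] [Module.Flat R₁ T] [Module.Flat R₂ T]
  [IsLocalHom (algebraMap R₁ T)] [IsLocalHom (algebraMap R₂ T)] {r₁ r₂ t b : ℕ}

theorem eq_maximalIdeal_of_supportDim {R : Type u} [CommRing R] [IsLocalRing R]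
    (P : Ideal R) [hP : P.IsPrime] (h : Module.supportDim R (R ⧸ P) ≤ 0) :
    P = maximalIdeal R := by
  by_contra hne
  have hlt : P < maximalIdeal R := lt_of_le_of_ne (le_maximalIdeal hP.ne_top) hne
  have h1 : ((0 : ℕ) : WithBot ℕ∞) ≤ Module.supportDim R (R ⧸ maximalIdeal R) := by
    unfold Module.supportDim
    have := (Module.nonempty_support_of_nontrivial (R := R)
      (M := R ⧸ maximalIdeal R)).to_subtype
    exact Order.krullDim_nonneg
  have h2 := (supportDim_quotient_strict hlt 0 h1).trans h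
  have h3 : (1 : ℕ) ≤ 0 := by exact_mod_cast h2
  omega

/-- The case where the first module has dimension at most zero. -/
theorem pos_dim_zero (h1 : ringKrullDim R₁ = r₁) (h2 : ringKrullDim R₂ = r₂)
    (ht : ringKrullDim T = t) (hb : r₁ + r₂ = t + b) (G : Type u) [AddCommGroup G] [Module R₂ G]
    [Module.Finite R₂ G] (E : Type u) [AddCommGroup E] [Module R₁ E] [Module.Finite R₁ E]
    (hE : Module.supportDim R₁ E ≤ 0) (h : FP R₁ R₂ T E G) : Pos R₁ R₂ T t b E G := by
  refine pos_of_primes ht 0 G (fun P hP hdim hFP => ?_) E hE h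
  have hPm := eq_maximalIdeal_of_supportDim P hdim
  subst hPm
  exact pos_residue h1 h2 ht hb G hFP

/-- Replacing a domain by a module of depth two does not change the Euler characteristic. -/
theorem exists_replace (h1 : ringKrullDim R₁ = r₁) (h2 : ringKrullDim R₂ = r₂)
    (ht : ringKrullDim T = t) (hb : r₁ + r₂ = t + b) (P : Ideal R₁) [hP : P.IsPrime]
    (hd : ((2 : ℕ) : WithBot ℕ∞) ≤ Module.supportDim R₁ (R₁ ⧸ P)) :
    ∃ (S : Type u) (_ : AddCommGroup S) (_ : Module R₁ S) (_ : Module.Finite R₁ S),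
      Nontrivial S ∧ P ≤ Module.annihilator R₁ S ∧
      (∃ ws : List R₁, ws.length = 2 ∧ (∀ z ∈ ws, z ∈ maximalIdeal R₁) ∧ IsWeaklyRegular S ws) ∧
      ∀ (G : Type u) [AddCommGroup G] [Module R₂ G] [Module.Finite R₂ G],
        (∀ g : ℕ, (g : WithBot ℕ∞) ≤ Module.supportDim R₂ G → g < b) →
        FP R₁ R₂ T (R₁ ⧸ P) G → FP R₁ R₂ T S G ∧
          chi R₁ R₂ T t (R₁ ⧸ P) G = chi R₁ R₂ T t S G := by
  obtain ⟨S, _, _, _, f, hf, hPS, hdim, ws, hw1, hw2, hw3⟩ := exists_depth_two h1 P hd
  have hnt : Nontrivial (R₁ ⧸ P) := Ideal.Quotient.nontrivial_iff.2 hP.ne_top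
  refine ⟨S, inferInstance, inferInstance, inferInstance, hf.nontrivial, hPS,
    ⟨ws, hw1, hw2, hw3⟩, ?_⟩
  intro G _ _ _ hG hFP
  have hFPS : FP R₁ R₂ T S G := hFP.mono (by rwa [Ideal.annihilator_quotient]) le_rfl
  refine ⟨hFPS, ?_⟩
  have hex : Exact f (LinearMap.range f).mkQ := by
    intro x
    rw [Submodule.mkQ_apply, Submodule.Quotient.mk_eq_zero]
    rfl
  have hadd := chi_add ht f (LinearMap.range f).mkQ hf (Submodule.mkQ_surjective _) hex G hFPS
  have hq := pos_dim_zero h1 h2 ht hb G (S ⧸ LinearMap.range f) hdim (hFPS.mono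
    (LinearMap.annihilator_le_of_surjective _ (Submodule.mkQ_surjective _)) le_rfl)
  rw [hadd, hq.zero, add_zero]
  intro e g he hg
  have h3 : (e : WithBot ℕ∞) ≤ 0 := he.trans hdim
  have h4 : e ≤ 0 := by exact_mod_cast h3
  have := hG g hg
  omega

end twosided

end Vale.Agent.P177
end

section

/-!
Primes of given coheight, and prime avoidance for systems of parameters.
-/

namespace Vale.Agent.P177

open CategoryTheory TensorProduct Function IsLocalRing RingTheory.Sequence Pointwise

universe u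

section series

variable {T : Type u} [CommRing T]

theorem le_supportDim_of_series {I : Ideal T} (l : LTSeries (Module.support T (T ⧸ I)))
    (k m : ℕ) (hk : k + m = l.length) :
    (m : WithBot ℕ∞) ≤ Module.supportDim T (T ⧸ (l ⟨k, by omega⟩).1.asIdeal) := by
  unfold Module.supportDim
  rw [Order.le_krullDim_iff]
  let l' : LTSeries (Module.support T (T ⧸ (l ⟨k, by omega⟩).1.asIdeal)) :=
    { length := m
      toFun := fun i => ⟨(l ⟨k + i, by omega⟩).1,
        (support_quotient_prime _ _).2 (l.strictMono.monotone (by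
          rw [Fin.le_def]
          change k ≤ k + i
          omega))⟩
      step := fun i => l.strictMono (by
        rw [Fin.lt_def]
        change k + (i.castSucc : ℕ) < k + (i.succ : ℕ)
        simp) }
  exact ⟨l', rfl⟩

theorem exists_gt_prime (I : Ideal T) (n : ℕ)
    (h : ((n + 1 : ℕ) : WithBot ℕ∞) ≤ Module.supportDim T (T ⧸ I)) :
    ∃ q : Ideal T, q.IsPrime ∧ I < q ∧ (n : WithBot ℕ∞) ≤ Module.supportDim T (T ⧸ q) := by
  unfold Module.supportDim at h
  obtain ⟨l, hl⟩ := Order.le_krullDim_iff.1 h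
  refine ⟨(l ⟨1, by omega⟩).1.asIdeal, (l _).1.2, ?_,
    le_supportDim_of_series l 1 n (by omega)⟩
  have h1 : I ≤ (l ⟨0, by omega⟩).1.asIdeal := (support_quotient_prime _ _).1 (l _).2
  have h2 : l ⟨0, by omega⟩ < l ⟨1, by omega⟩ := l.strictMono (by rw [Fin.lt_def]; simp)
  exact lt_of_le_of_lt h1 h2

/-- A prime above `P` with prescribed coheight. -/
theorem exists_prime_exact [IsNoetherianRing T] (P : Ideal T) [hP : P.IsPrime] (n : ℕ)
    (h : (n : WithBot ℕ∞) ≤ Module.supportDim T (T ⧸ P)) :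
    ∃ q : Ideal T, q.IsPrime ∧ P ≤ q ∧ Module.supportDim T (T ⧸ q) = n := by
  obtain ⟨q, ⟨hq1, hq2, hq3⟩, hmax⟩ := set_has_maximal_iff_noetherian.2
    (inferInstance : IsNoetherian T T) {q : Ideal T | q.IsPrime ∧ P ≤ q ∧
      (n : WithBot ℕ∞) ≤ Module.supportDim T (T ⧸ q)} ⟨P, hP, le_rfl, h⟩
  refine ⟨q, hq1, hq2, le_antisymm ?_ hq3⟩
  by_contra hcon
  rw [not_le] at hcon
  obtain ⟨q', h1, h2, h3⟩ := exists_gt_prime q n (succ_le_of_lt_withBot hcon)
  exact hmax q' ⟨h1, hq2.trans h2.le, h3⟩ h2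

variable [IsLocalRing T]

end series

section avoid

variable {R T : Type u} [CommRing R] [CommRing T] [IsNoetherianRing T] [IsLocalRing T] [Algebra R T]

end avoid

end Vale.Agent.P177
end

section

/-!
The kernel of a surjection from a regular local ring onto a discrete valuation ring is generated
by a regular sequence.
-/

namespace Vale.Agent.P177

open CategoryTheory TensorProduct Function IsLocalRing RingTheory.Sequence Pointwise

universe u v

theorem exists_regular_ker (V : Type v) [CommRing V] [IsDomain V] [IsDiscreteValuationRing V]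
    (r : ℕ) : ∀ (R : Type u) [CommRing R] [IsRegularLocalRing R] (φ : R →+* V),
    Surjective φ → ringKrullDim R = r →
    ∃ zs : List R, (∀ z ∈ zs, z ∈ maximalIdeal R) ∧ IsWeaklyRegular R zs ∧
      Ideal.ofList zs = RingHom.ker φ := by
  induction r with
  | zero =>
    intro R _ _ φ hφ hr
    have hD : IsDomain R := regular_isDomain R
    have hker : RingHom.ker φ ≤ maximalIdeal R := le_maximalIdeal (RingHom.ker_ne_top φ)
    have h0 : (maximalIdeal R).spanFinrank = 0 := by
      have := exists_nat_ringKrullDim R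
      rw [hr] at this
      exact_mod_cast this.symm
    have h1 : maximalIdeal R = ⊥ := by
      rwa [Submodule.spanFinrank_eq_zero_iff_eq_bot ((maximalIdeal R).fg_of_isNoetherianRing)]
        at h0
    refine ⟨[], by simp, IsWeaklyRegular.nil _ _, ?_⟩
    rw [Ideal.ofList_nil]
    exact (le_bot_iff.1 (h1 ▸ hker)).symm
  | succ r ih =>
    intro R _ _ φ hφ hr
    have hD : IsDomain R := regular_isDomain R
    have hker : RingHom.ker φ ≤ maximalIdeal R := le_maximalIdeal (RingHom.ker_ne_top φ)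
    have hkp : (RingHom.ker φ).IsPrime := RingHom.ker_isPrime φ
    by_cases hle : RingHom.ker φ ≤ maximalIdeal R ^ 2
    · -- the maximal ideal is principal and the kernel vanishes
      obtain ⟨ϖ, hϖ⟩ := IsDiscreteValuationRing.exists_irreducible V
      obtain ⟨π, rfl⟩ := hφ ϖ
      have hmV : maximalIdeal V = Ideal.span {φ π} := hϖ.maximalIdeal_eq
      have hmap : (maximalIdeal R).map φ = maximalIdeal V := map_maximalIdeal_of_surjective _ hφ
      have hle2 : maximalIdeal R ≤ Ideal.span {π} ⊔ maximalIdeal R • maximalIdeal R := by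
        intro x hx
        have h1 : φ x ∈ maximalIdeal V := hmap ▸ Ideal.mem_map_of_mem φ hx
        rw [hmV, Ideal.mem_span_singleton'] at h1
        obtain ⟨c, hc⟩ := h1
        obtain ⟨c, rfl⟩ := hφ c
        have h2 : x - c * π ∈ RingHom.ker φ := by
          rw [RingHom.mem_ker, map_sub, map_mul, hc, sub_self]
        have h3 : x = c * π + (x - c * π) := by ring
        rw [h3]
        refine Submodule.add_mem_sup (Ideal.mul_mem_left _ _ (Ideal.mem_span_singleton_self π)) ?_
        rw [smul_eq_mul, ← pow_two]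
        exact hle h2
      have hπm : π ∈ maximalIdeal R := by
        by_contra hcon
        rw [mem_maximalIdeal, mem_nonunits_iff, not_not] at hcon
        exact hϖ.not_isUnit (hcon.map φ)
      have h4 : maximalIdeal R ≤ Ideal.span {π} := by
        apply Submodule.le_of_le_smul_of_le_jacobson_bot (I := maximalIdeal R)
          ((maximalIdeal R).fg_of_isNoetherianRing)
        · rw [IsLocalRing.jacobson_eq_maximalIdeal _ bot_ne_top]
        · exact hle2
      have hπk : π ∉ RingHom.ker φ := by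
        rw [RingHom.mem_ker]
        exact hϖ.ne_zero
      have h5 : RingHom.ker φ = ⊥ := by
        apply Submodule.eq_bot_of_le_smul_of_le_jacobson_bot (maximalIdeal R) _
          ((RingHom.ker φ).fg_of_isNoetherianRing)
        · intro x hx
          have h6 := h4 (hker hx)
          rw [Ideal.mem_span_singleton'] at h6
          obtain ⟨c, rfl⟩ := h6
          have h7 : c ∈ RingHom.ker φ := (hkp.mem_or_mem hx).resolve_right hπk
          rw [mul_comm]
          exact Submodule.smul_mem_smul hπm h7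
        · rw [IsLocalRing.jacobson_eq_maximalIdeal _ bot_ne_top]
      refine ⟨[], by simp, IsWeaklyRegular.nil _ _, ?_⟩
      rw [Ideal.ofList_nil, h5]
    · rw [SetLike.not_le_iff_exists] at hle
      obtain ⟨f, hf, hf2⟩ := hle
      have hfm : f ∈ maximalIdeal R := hker hf
      have hf0 : f ≠ 0 := fun h0 => hf2 (h0 ▸ zero_mem _)
      obtain ⟨hreg, hdim⟩ := regular_quotient R f hfm hf2
      let φ' : R ⧸ Ideal.span {f} →+* V := Ideal.Quotient.lift _ φ (by
        intro x hx
        rw [Ideal.mem_span_singleton'] at hx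
        obtain ⟨c, rfl⟩ := hx
        rw [map_mul, (RingHom.mem_ker).1 hf, mul_zero])
      have hφ' : Surjective φ' := by
        intro x
        obtain ⟨y, rfl⟩ := hφ x
        exact ⟨Ideal.Quotient.mk _ y, Ideal.Quotient.lift_mk _ _ _⟩
      have hd : ringKrullDim (R ⧸ Ideal.span {f}) = r := by
        obtain ⟨k, hk⟩ := exists_nat_eq_ringKrullDim (R ⧸ Ideal.span {f})
        rw [hk, hr] at hdim
        rw [hk]
        norm_cast at hdim ⊢
        omega
      obtain ⟨zs, hzs, hzreg, hzk⟩ := ih (R ⧸ Ideal.span {f}) φ' hφ' hd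
      obtain ⟨ws, rfl⟩ : ∃ ws : List R, ws.map (Ideal.Quotient.mk (Ideal.span {f})) = zs := by
        clear hzs hzreg hzk
        induction zs with
        | nil => exact ⟨[], rfl⟩
        | cons z zs ih =>
          obtain ⟨ws, rfl⟩ := ih
          obtain ⟨w, rfl⟩ := Ideal.Quotient.mk_surjective z
          exact ⟨w :: ws, rfl⟩
      have hker' : Ideal.ofList (f :: ws) = RingHom.ker φ := by
        have h1 : (Ideal.ofList ws).map (Ideal.Quotient.mk (Ideal.span {f})) =
            RingHom.ker φ' := by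
          rw [Ideal.map_ofList]
          exact hzk
        apply le_antisymm
        · rw [Ideal.ofList_cons]
          apply sup_le
          · rw [Ideal.span_singleton_le_iff_mem]
            exact hf
          · intro x hx
            have h2 : Ideal.Quotient.mk (Ideal.span {f}) x ∈ RingHom.ker φ' :=
              h1 ▸ Ideal.mem_map_of_mem _ hx
            rw [RingHom.mem_ker] at h2 ⊢
            rw [← h2]
            exact (Ideal.Quotient.lift_mk _ _ _).symm
        · intro x hx
          have h2 : Ideal.Quotient.mk (Ideal.span {f}) x ∈ RingHom.ker φ' := by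
            rw [RingHom.mem_ker]
            exact (Ideal.Quotient.lift_mk _ _ _).trans hx
          rw [← h1, Ideal.mem_map_iff_of_surjective _ Ideal.Quotient.mk_surjective] at h2
          obtain ⟨y, hy, hxy⟩ := h2
          rw [Ideal.Quotient.eq] at hxy
          have h3 : x = -(y - x) + y := by ring
          rw [h3, Ideal.ofList_cons]
          exact Submodule.add_mem_sup (neg_mem hxy) hy
      refine ⟨f :: ws, ?_, ?_, hker'⟩
      · intro z hz
        apply hker
        rw [← hker']
        exact Ideal.subset_span hz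
      · rw [isWeaklyRegular_cons_iff']
        refine ⟨(IsRegular.of_ne_zero hf0).left.isSMulRegular, ?_⟩
        have heq : (Ideal.span {f} : Submodule R R) = f • ⊤ := by
          rw [← Submodule.ideal_span_singleton_smul, smul_eq_mul, Ideal.mul_top]
        refine (AddEquiv.isWeaklyRegular_congr
          (e := (Submodule.quotEquivOfEq _ _ heq).toAddEquiv) ?_).mp hzreg
        refine List.forall₂_same.mpr fun t _ x => ?_
        obtain ⟨a, rfl⟩ := Ideal.Quotient.mk_surjective t
        change Submodule.quotEquivOfEq _ _ heq (algebraMap R (R ⧸ Ideal.span {f}) a • x) =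
          algebraMap R (R ⧸ Ideal.span {f}) a • Submodule.quotEquivOfEq _ _ heq x
        rw [algebraMap_smul, algebraMap_smul, map_smul]

end Vale.Agent.P177
end

section

/-!
Preparations for the inductive step: finite maps to discrete valuation rings and polynomial rings
over local rings.
-/

namespace Vale.Agent.P177

open CategoryTheory TensorProduct Function IsLocalRing RingTheory.Sequence Pointwise

universe u

section dvr

variable (R V : Type u) [CommRing R] [IsLocalRing R] [CommRing V] [IsDomain V]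
  [IsDiscreteValuationRing V] [Algebra R V] [Module.Finite R V]

theorem comap_maximalIdeal_of_finite :
    (maximalIdeal V).comap (algebraMap R V) = maximalIdeal R :=
  IsLocalRing.eq_maximalIdeal (Ideal.isMaximal_comap_of_isIntegral_of_isMaximal _)

theorem ker_lt_maximalIdeal : RingHom.ker (algebraMap R V) < maximalIdeal R := by
  refine lt_of_le_of_ne (le_maximalIdeal (RingHom.ker_ne_top _)) ?_
  intro h
  have h1 : (maximalIdeal V).comap (algebraMap R V) = (⊥ : Ideal V).comap (algebraMap R V) := by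
    rw [comap_maximalIdeal_of_finite, ← h]
    rfl
  have h2 : (⊥ : Ideal V) < maximalIdeal V := bot_lt_iff_ne_bot.2
    (IsDiscreteValuationRing.not_a_field V)
  have h3 := Ideal.IsIntegral.comap_lt_comap (R := R) h2
  rw [h1] at h3
  exact lt_irrefl _ h3

/-- Primes above the kernel. -/
theorem eq_ker_or_eq_maximalIdeal (q : Ideal R) [q.IsPrime]
    (h : RingHom.ker (algebraMap R V) ≤ q) :
    q = RingHom.ker (algebraMap R V) ∨ q = maximalIdeal R := by
  obtain ⟨Q, hQ, hQq⟩ := Ideal.exists_ideal_over_prime_of_isIntegral_of_isDomain (S := V) q h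
  by_cases h0 : Q = ⊥
  · left
    rw [← hQq, h0]
    rfl
  · right
    have hQm : Q = maximalIdeal V := IsLocalRing.eq_maximalIdeal (hQ.isMaximal h0)
    rw [← hQq, hQm, comap_maximalIdeal_of_finite]

omit [IsLocalRing R] [IsDomain V] [IsDiscreteValuationRing V] [Module.Finite R V] in
theorem annihilator_eq_ker : Module.annihilator R V = RingHom.ker (algebraMap R V) := by
  ext x
  rw [Module.mem_annihilator, RingHom.mem_ker]
  constructor
  · intro h
    rw [Algebra.algebraMap_eq_smul_one]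
    exact h 1
  · intro h v
    rw [Algebra.smul_def, h, zero_mul]

theorem supportDim_dvr [IsNoetherianRing R] : Module.supportDim R V = (1 : ℕ) := by
  have hkp : (RingHom.ker (algebraMap R V)).IsPrime := RingHom.ker_isPrime _
  have h4 : Module.supportDim R (R ⧸ RingHom.ker (algebraMap R V)) = Module.supportDim R V := by
    rw [← annihilator_eq_ker]
    unfold Module.supportDim
    rw [Module.support_eq_zeroLocus, Module.support_eq_zeroLocus, Ideal.annihilator_quotient]
  rw [← h4]
  have h0 : ((0 : ℕ) : WithBot ℕ∞) ≤ Module.supportDim R (R ⧸ maximalIdeal R) := by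
    unfold Module.supportDim
    have := (Module.nonempty_support_of_nontrivial (R := R)
      (M := R ⧸ maximalIdeal R)).to_subtype
    exact Order.krullDim_nonneg
  apply le_antisymm
  · by_contra hcon
    rw [not_le] at hcon
    obtain ⟨q, hq1, hq2, hq3⟩ := exists_gt_prime _ 1 (succ_le_of_lt_withBot hcon)
    rcases eq_ker_or_eq_maximalIdeal R V q hq2.le with h | h
    · exact absurd h hq2.ne'
    · obtain ⟨q', hq1', hq2', hq3'⟩ := exists_gt_prime q 0 hq3
      rw [h] at hq2'
      exact absurd (le_maximalIdeal hq1'.ne_top) (not_le_of_gt hq2')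
  · exact supportDim_quotient_strict (ker_lt_maximalIdeal R V) 0 h0

end dvr

section poly

open Polynomial

variable {T : Type u} [CommRing T] [IsLocalRing T]

/-- Primes containing the maximal ideal and a monic polynomial are maximal. -/
theorem isMaximal_of_monic_mem (q : Ideal T[X]) [hq : q.IsPrime] (g : T[X]) (hg : g.Monic)
    (hgq : g ∈ q) (hm : maximalIdeal T ≤ q.comap C) : q.IsMaximal := by
  have hcomap : q.comap C = maximalIdeal T :=
    le_antisymm (le_maximalIdeal (Ideal.comap_ne_top _ hq.ne_top)) hm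
  have hint := hg.quotient_isIntegral (I := q) hgq
  have hdom : IsDomain (T[X] ⧸ q) := Ideal.Quotient.isDomain q
  have h1 : (⊥ : Ideal (T[X] ⧸ q)).IsMaximal := by
    refine Ideal.isMaximal_of_isIntegral_of_isMaximal_comap' _ hint _ ?_
    have h2 : (⊥ : Ideal (T[X] ⧸ q)).comap
        ((Ideal.Quotient.mkₐ T q).comp (Algebra.ofId T T[X])).toRingHom = maximalIdeal T := by
      rw [← hcomap]
      ext x
      rw [Ideal.mem_comap, Ideal.mem_bot, Ideal.mem_comap]
      change Ideal.Quotient.mk q (C x) = 0 ↔ _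
      rw [Ideal.Quotient.eq_zero_iff_mem]
    rw [h2]
    infer_instance
  exact (Ideal.bot_quotient_isMaximal_iff q).1 h1

theorem comap_C_eq_maximalIdeal (q : Ideal T[X]) [hq : q.IsPrime]
    (hm : maximalIdeal T ≤ q.comap C) : q.comap C = maximalIdeal T :=
  le_antisymm (le_maximalIdeal (Ideal.comap_ne_top _ hq.ne_top)) hm

theorem ringKrullDim_localization_polynomial [IsNoetherianRing T] {t : ℕ}
    (ht : ringKrullDim T = t) (m : Ideal T[X]) [m.IsMaximal] (hm : m.comap C = maximalIdeal T) :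
    ringKrullDim (Localization.AtPrime m) = ((t + 1 : ℕ) : WithBot ℕ∞) := by
  rw [IsLocalization.AtPrime.ringKrullDim_eq_height m (Localization.AtPrime m)]
  have : m.LiesOver (maximalIdeal T) := ⟨hm.symm⟩
  rw [Polynomial.height_eq_height_add_one (maximalIdeal T) m]
  have h1 := IsLocalRing.maximalIdeal_height_eq_ringKrullDim (R := T)
  rw [ht] at h1
  push_cast
  rw [← h1]

/-- The residue ring has finite length. -/
theorem length_quot_ne_top [IsNoetherianRing T] (m : Ideal T[X]) (g : T[X])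
    (hg : g.Monic) (hgm : g ∈ m) (hm : maximalIdeal T ≤ m.comap C) :
    Module.length T (T[X] ⧸ m) ≠ ⊤ := by
  have h1 : Module.Finite T (T[X] ⧸ Ideal.span {g}) := hg.finite_quotient
  have hle : Ideal.span {g} ≤ m := by
    rw [Ideal.span_singleton_le_iff_mem]
    exact hgm
  have h2 : Module.Finite T (T[X] ⧸ m) := Module.Finite.of_surjective
    (Ideal.Quotient.factorₐ T hle).toLinearMap (Ideal.Quotient.factor_surjective hle)
  have h3 : FL ([] : List T) (T[X] ⧸ m) := by
    unfold FL
    refine le_trans ?_ Ideal.le_radical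
    refine le_trans ?_ le_sup_left
    intro a ha
    rw [Module.mem_annihilator]
    intro x
    obtain ⟨x, rfl⟩ := Ideal.Quotient.mk_surjective x
    have h4 : a • x ∈ m := by
      rw [Polynomial.smul_eq_C_mul]
      exact Ideal.mul_mem_right _ _ (hm ha)
    exact Ideal.Quotient.eq_zero_iff_mem.2 h4
  exact h3.length_ne_top

end poly

end Vale.Agent.P177
end

section

/-!
The inductive step: adjoining an element of the discrete valuation ring to the regular ring.
Data at one maximal ideal of `T[X]`.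
-/

namespace Vale.Agent.P177

open CategoryTheory TensorProduct Function IsLocalRing RingTheory.Sequence Pointwise Polynomial

universe u

attribute [local instance] Polynomial.algebra

/-- The statement proved by induction. -/
def StepHyp (R₂ V G : Type u) [CommRing R₂] [CommRing V] [AddCommGroup G] [Module R₂ G]
    (r₂ b n : ℕ) : Prop :=
  ∀ (R₁ T : Type u) [CommRing R₁] [IsRegularLocalRing R₁] [CommRing T]
    [IsRegularLocalRing T] [Algebra R₁ T] [Module.Flat R₁ T] [IsLocalHom (algebraMap R₁ T)]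
    [Algebra R₂ T] [Module.Flat R₂ T] [IsLocalHom (algebraMap R₂ T)]
    [Algebra R₁ V] [Module.Finite R₁ V] (r₁ t : ℕ), ringKrullDim R₁ = r₁ →
    ringKrullDim T = t → r₁ + r₂ = t + b →
    Module.length R₁ (V ⧸ LinearMap.range (Algebra.linearMap R₁ V)) ≤ n →
    FP R₁ R₂ T V G → Pos R₁ R₂ T t b V G

section

variable {R₁ R₂ T V : Type u} [CommRing R₁] [CommRing R₂] [CommRing T] [CommRing V]
  [IsRegularLocalRing R₁] [IsRegularLocalRing R₂] [IsRegularLocalRing T]
  [Algebra R₁ T] [Algebra R₂ T] [Module.Flat R₁ T] [Module.Flat R₂ T]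
  [IsLocalHom (algebraMap R₁ T)] [IsLocalHom (algebraMap R₂ T)] {r₁ r₂ t b : ℕ}
  [IsDomain V] [IsDiscreteValuationRing V] [Algebra R₁ V] [Module.Finite R₁ V]
  [Algebra R₁[X] V] [IsScalarTower R₁ R₁[X] V]

omit [IsRegularLocalRing R₁] [IsDomain V] [IsDiscreteValuationRing V] in
theorem isIntegral_poly : Algebra.IsIntegral R₁[X] V :=
  Algebra.IsIntegral.tower_top R₁

omit [IsRegularLocalRing R₁] in
theorem comap_poly_isMaximal :
    ((maximalIdeal V).comap (algebraMap R₁[X] V)).IsMaximal := by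
  have := isIntegral_poly (R₁ := R₁) (V := V)
  exact Ideal.isMaximal_comap_of_isIntegral_of_isMaximal _

omit [IsRegularLocalRing R₁] in
theorem comap_C_comap_poly [IsLocalRing R₁] :
    ((maximalIdeal V).comap (algebraMap R₁[X] V)).comap C = maximalIdeal R₁ := by
  rw [Ideal.comap_comap, ← comap_maximalIdeal_of_finite R₁ V]
  congr 1
  exact (IsScalarTower.algebraMap_eq R₁ R₁[X] V).symm

omit [IsRegularLocalRing R₁] [IsDomain V] [IsDiscreteValuationRing V] in
theorem exists_monic_ker : ∃ g : R₁[X], g.Monic ∧ algebraMap R₁[X] V g = 0 := by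
  obtain ⟨g, hg, hg0⟩ := Algebra.IsIntegral.isIntegral (R := R₁) (algebraMap R₁[X] V X)
  refine ⟨g, hg, ?_⟩
  have h1 : algebraMap R₁[X] V g = aeval (algebraMap R₁[X] V X) g := by
    have h2 : (IsScalarTower.toAlgHom R₁ R₁[X] V) = aeval (algebraMap R₁[X] V X) := by
      ext
      simp
    have h3 := DFunLike.congr_fun h2 g
    exact h3
  rw [h1]
  exact hg0

omit [IsRegularLocalRing T] [Module.Flat R₁ T] in
/-- The contraction of a maximal ideal of `T[X]` containing the kernel. -/
theorem comap_eq_of_ker_le [IsLocalRing T] (m : Ideal T[X]) [hmp : m.IsPrime]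
    (hmT : m.comap C = maximalIdeal T)
    (hker : (RingHom.ker (algebraMap R₁[X] V)).map (algebraMap R₁[X] T[X]) ≤ m) :
    (maximalIdeal V).comap (algebraMap R₁[X] V) = m.comap (algebraMap R₁[X] T[X]) := by
  have := isIntegral_poly (R₁ := R₁) (V := V)
  have hC : (m.comap (algebraMap R₁[X] T[X])).comap C = maximalIdeal R₁ := by
    have h1 : (m.comap (algebraMap R₁[X] T[X])).comap C =
        (m.comap C).comap (algebraMap R₁ T) := by
      rw [Ideal.comap_comap, Ideal.comap_comap]
      congr 1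
      ext x
      simp
    rw [h1, hmT]
    exact ((IsLocalRing.local_hom_TFAE (algebraMap R₁ T)).out 0 4).mp ‹_›
  obtain ⟨Q, hQ, hQm⟩ := Ideal.exists_ideal_over_prime_of_isIntegral_of_isDomain (S := V)
    (m.comap (algebraMap R₁[X] T[X])) (Ideal.map_le_iff_le_comap.1 hker)
  have hQ0 : Q ≠ ⊥ := by
    rintro rfl
    have h2 : RingHom.ker (algebraMap R₁ V) = maximalIdeal R₁ := by
      rw [← hC, ← hQm]
      rw [Ideal.comap_comap, IsScalarTower.algebraMap_eq R₁ R₁[X] V]
      rfl
    exact absurd h2 (ker_lt_maximalIdeal R₁ V).ne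
  have hQm' : Q = maximalIdeal V := IsLocalRing.eq_maximalIdeal (hQ.isMaximal hQ0)
  rw [← hQm, hQm']

omit [IsRegularLocalRing T] in
theorem isLocalHom_localization [IsLocalRing T] (m : Ideal T[X]) [hmp : m.IsPrime]
    (hmT : m.comap C = maximalIdeal T) :
    IsLocalHom (algebraMap T (Localization.AtPrime m)) := by
  constructor
  intro a ha
  by_contra hcon
  have h1 : a ∈ maximalIdeal T := hcon
  rw [← hmT, Ideal.mem_comap] at h1
  rw [IsScalarTower.algebraMap_apply T T[X] (Localization.AtPrime m)] at ha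
  have h2 := (IsLocalization.AtPrime.isUnit_to_map_iff (Localization.AtPrime m) m
    (algebraMap T T[X] a)).1 ha
  exact h2 h1

/-- All data at one maximal ideal of `T[X]`. -/
theorem per_max (h1 : ringKrullDim R₁ = r₁) (h2 : ringKrullDim R₂ = r₂)
    (ht : ringKrullDim T = t) (hb : r₁ + r₂ = t + b) (G : Type u) [AddCommGroup G] [Module R₂ G]
    [Module.Finite R₂ G] (n : ℕ) (IH : StepHyp R₂ V G r₂ b n)
    (hlen : Module.length R₁ (V ⧸ LinearMap.range (Algebra.linearMap R₁ V)) ≤ ((n + 1 : ℕ) : ℕ∞))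
    (hw : algebraMap R₁[X] V X ∉ LinearMap.range (Algebra.linearMap R₁ V))
    (hFP : FP R₁ R₂ T V G) (m : Ideal T[X]) [hmm : m.IsMaximal]
    (hmT : m.comap C = maximalIdeal T)
    (hker : (RingHom.ker (algebraMap R₁[X] V)).map (algebraMap R₁[X] T[X]) ≤ m) :
    (∀ g : ℕ, (g : WithBot ℕ∞) ≤ Module.supportDim R₂ G → 1 + g ≤ b) ∧
    0 ≤ eulerTor (Localization.AtPrime m) (t + 1 + 1)
      (Localization.AtPrime m ⊗[T[X]] (T[X] ⊗[T] (T ⊗[R₂] G)))
      (Localization.AtPrime m ⊗[T[X]] (T[X] ⊗[R₁[X]] V)) ∧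
    (∀ g : ℕ, (g : WithBot ℕ∞) ≤ Module.supportDim R₂ G → b ≤ 1 + g →
      0 < eulerTor (Localization.AtPrime m) (t + 1 + 1)
      (Localization.AtPrime m ⊗[T[X]] (T[X] ⊗[T] (T ⊗[R₂] G)))
      (Localization.AtPrime m ⊗[T[X]] (T[X] ⊗[R₁[X]] V))) ∧
    ((∀ g : ℕ, (g : WithBot ℕ∞) ≤ Module.supportDim R₂ G → 1 + g < b) →
      eulerTor (Localization.AtPrime m) (t + 1 + 1)
      (Localization.AtPrime m ⊗[T[X]] (T[X] ⊗[T] (T ⊗[R₂] G)))
      (Localization.AtPrime m ⊗[T[X]] (T[X] ⊗[R₁[X]] V)) = 0) := by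
  have hint := isIntegral_poly (R₁ := R₁) (V := V)
  have hMmax := comap_poly_isMaximal (R₁ := R₁) (V := V)
  have hMC := comap_C_comap_poly (R₁ := R₁) (V := V)
  have hcm := comap_eq_of_ker_le (R₁ := R₁) (V := V) m hmT hker
  set M : Ideal R₁[X] := (maximalIdeal V).comap (algebraMap R₁[X] V) with hM
  -- the ring `R''`
  have iR : IsRegularLocalRing (Localization.AtPrime M) :=
    Polynomial.isRegularLocalRing_localization_atPrime_of_comap_eq_maximalIdeal R₁ M hMC
  have dR := ringKrullDim_localization_polynomial h1 M hMC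
  have hunit : ∀ y : M.primeCompl, IsUnit (algebraMap R₁[X] V y) := by
    rintro ⟨y, hy⟩
    by_contra hcon
    exact hy hcon
  let aV : Algebra (Localization.AtPrime M) V :=
    (IsLocalization.lift (M := M.primeCompl) (g := algebraMap R₁[X] V) hunit).toAlgebra
  have sV : IsScalarTower R₁[X] (Localization.AtPrime M) V :=
    IsScalarTower.of_algebraMap_eq fun x => (IsLocalization.lift_eq hunit x).symm
  have sV' : IsScalarTower R₁ (Localization.AtPrime M) V :=
    IsScalarTower.of_algebraMap_eq fun x => by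
      rw [IsScalarTower.algebraMap_apply R₁ R₁[X] (Localization.AtPrime M),
        ← IsScalarTower.algebraMap_apply R₁[X] (Localization.AtPrime M) V,
        ← IsScalarTower.algebraMap_apply R₁ R₁[X] V]
  have fV : Module.Finite (Localization.AtPrime M) V :=
    Module.Finite.of_restrictScalars_finite R₁ (Localization.AtPrime M) V
  -- the ring `L`
  have iL : IsRegularLocalRing (Localization.AtPrime m) :=
    Polynomial.isRegularLocalRing_localization_atPrime_of_comap_eq_maximalIdeal T m hmT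
  have dL := ringKrullDim_localization_polynomial ht m hmT
  let aL : Algebra (Localization.AtPrime M) (Localization.AtPrime m) :=
    (Localization.localRingHom M m (algebraMap R₁[X] T[X]) hcm).toAlgebra
  have sL : IsScalarTower R₁[X] (Localization.AtPrime M) (Localization.AtPrime m) :=
    IsScalarTower.of_algebraMap_eq fun x => by
      rw [IsScalarTower.algebraMap_apply R₁[X] T[X] (Localization.AtPrime m)]
      exact (Localization.localRingHom_to_map M m (algebraMap R₁[X] T[X]) hcm x).symm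
  have hlocL : IsLocalHom (algebraMap (Localization.AtPrime M) (Localization.AtPrime m)) :=
    Localization.isLocalHom_localRingHom M m (algebraMap R₁[X] T[X]) hcm
  have fl1 : Module.Flat R₁[X] T[X] :=
    Module.Flat.isBaseChange R₁ R₁[X] T T[X] (Algebra.IsPushout.out (R := R₁) (S := R₁[X])
      (R' := T) (S' := T[X]))
  have fl2 : Module.Flat T[X] (Localization.AtPrime m) := IsLocalization.flat _ m.primeCompl
  have fl3 : Module.Flat R₁[X] (Localization.AtPrime m) := Module.Flat.trans R₁[X] T[X] _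
  have fl4 : Module.Flat (Localization.AtPrime M) (Localization.AtPrime m) :=
    (Module.flat_iff_of_isLocalization (Localization.AtPrime M) M.primeCompl _).2 fl3
  have hlocT := isLocalHom_localization m hmT
  have flT : Module.Flat T (Localization.AtPrime m) := Module.Flat.trans T T[X] _
  have sT2 : IsScalarTower R₂ T (Localization.AtPrime m) :=
    IsScalarTower.of_algebraMap_eq fun x => by
      rw [IsScalarTower.algebraMap_apply R₂ T[X] (Localization.AtPrime m),
        IsScalarTower.algebraMap_apply T T[X] (Localization.AtPrime m),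
        IsScalarTower.algebraMap_apply R₂ T T[X]]
  have fl5 : Module.Flat R₂ (Localization.AtPrime m) := Module.Flat.trans R₂ T _
  have hloc2 : IsLocalHom (algebraMap R₂ (Localization.AtPrime m)) := by
    rw [IsScalarTower.algebraMap_eq R₂ T (Localization.AtPrime m)]
    infer_instance
  -- compatibility of the maps
  have hc1 : ∀ a : R₁[X], algebraMap (Localization.AtPrime M) (Localization.AtPrime m)
      (algebraMap R₁[X] (Localization.AtPrime M) a) =
      algebraMap T[X] (Localization.AtPrime m) (algebraMap R₁[X] T[X] a) := by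
    intro a
    rw [← IsScalarTower.algebraMap_apply R₁[X] (Localization.AtPrime M) (Localization.AtPrime m),
      IsScalarTower.algebraMap_apply R₁[X] T[X] (Localization.AtPrime m)]
  have hc2 : ∀ a : R₁, algebraMap (Localization.AtPrime M) (Localization.AtPrime m)
      (algebraMap R₁ (Localization.AtPrime M) a) =
      algebraMap T[X] (Localization.AtPrime m) (C (algebraMap R₁ T a)) := by
    intro a
    rw [IsScalarTower.algebraMap_apply R₁ R₁[X] (Localization.AtPrime M), hc1]
    congr 1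
    simp
  -- the finiteness condition
  have hFP' : FP (Localization.AtPrime M) R₂ (Localization.AtPrime m) V G := by
    unfold FP
    rw [Ideal.radical_eq_sInf]
    refine le_sInf ?_
    rintro q ⟨hJq, hq⟩
    have hq' : (q.comap (algebraMap T[X] (Localization.AtPrime m))).IsPrime :=
      Ideal.comap_isPrime _ _
    have hq'm : q.comap (algebraMap T[X] (Localization.AtPrime m)) ≤ m := by
      have h3 : (maximalIdeal (Localization.AtPrime m)).comap
          (algebraMap T[X] (Localization.AtPrime m)) = m := Localization.AtPrime.under_maximalIdeal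
      exact (Ideal.comap_mono (le_maximalIdeal hq.ne_top)).trans h3.le
    have hq'C : maximalIdeal T ≤ (q.comap (algebraMap T[X] (Localization.AtPrime m))).comap C := by
      refine hFP.trans ?_
      rw [(Ideal.comap_isPrime C
        (q.comap (algebraMap T[X] (Localization.AtPrime m)))).radical_le_iff]
      apply sup_le
      · rw [Ideal.map_le_iff_le_comap]
        intro a ha
        change algebraMap T[X] (Localization.AtPrime m) (C (algebraMap R₁ T a)) ∈ q
        rw [← hc2]
        apply hJq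
        apply Ideal.mem_sup_left
        apply Ideal.mem_map_of_mem
        rw [Module.mem_annihilator] at ha ⊢
        intro v
        rw [algebraMap_smul]
        exact ha v
      · rw [Ideal.map_le_iff_le_comap]
        intro a ha
        change algebraMap T[X] (Localization.AtPrime m) (algebraMap T T[X] (algebraMap R₂ T a)) ∈ q
        rw [← IsScalarTower.algebraMap_apply T T[X] (Localization.AtPrime m),
          ← IsScalarTower.algebraMap_apply R₂ T (Localization.AtPrime m)]
        apply hJq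
        apply Ideal.mem_sup_right
        exact Ideal.mem_map_of_mem _ ha
    obtain ⟨g, hg, hg0⟩ := exists_monic_ker (R₁ := R₁) (V := V)
    have hgq : g.map (algebraMap R₁ T) ∈ q.comap (algebraMap T[X] (Localization.AtPrime m)) := by
      change algebraMap T[X] (Localization.AtPrime m) (algebraMap R₁[X] T[X] g) ∈ q
      rw [← hc1]
      apply hJq
      apply Ideal.mem_sup_left
      apply Ideal.mem_map_of_mem
      rw [Module.mem_annihilator]
      intro v
      rw [algebraMap_smul, Algebra.smul_def, hg0, zero_mul]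
    have hqmax := isMaximal_of_monic_mem _ _ (hg.map _) hgq hq'C
    have hqm := hqmax.eq_of_le hmm.ne_top hq'm
    rw [← Localization.AtPrime.map_eq_maximalIdeal, Ideal.map_le_iff_le_comap, hqm]
  -- the length
  have hlen' : Module.length (Localization.AtPrime M)
      (V ⧸ LinearMap.range (Algebra.linearMap (Localization.AtPrime M) V)) ≤ (n : ℕ∞) := by
    set W := LinearMap.range (Algebra.linearMap (Localization.AtPrime M) V) with hW
    set W₁ := LinearMap.range (Algebra.linearMap R₁ V) with hW₁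
    have hle : Module.length (Localization.AtPrime M) (V ⧸ W) ≤ Module.length R₁ (V ⧸ W) := by
      have h3 := Submodule.length_le_length_restrictScalars R₁
        (⊤ : Submodule (Localization.AtPrime M) (V ⧸ W))
      rw [Submodule.restrictScalars_top, Module.length_top, Module.length_top] at h3
      exact h3
    let f : (V ⧸ W₁) →ₗ[R₁] (V ⧸ W) := Submodule.liftQ W₁ (W.mkQ.restrictScalars R₁) (by
      rintro _ ⟨a, rfl⟩
      change W.mkQ (Algebra.linearMap R₁ V a) = 0
      rw [Submodule.mkQ_apply, Submodule.Quotient.mk_eq_zero]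
      refine ⟨algebraMap R₁ (Localization.AtPrime M) a, ?_⟩
      change algebraMap (Localization.AtPrime M) V (algebraMap R₁ (Localization.AtPrime M) a) = _
      rw [← IsScalarTower.algebraMap_apply R₁ (Localization.AtPrime M) V]
      rfl)
    have hf : Surjective f := by
      intro x
      obtain ⟨v, rfl⟩ := Submodule.mkQ_surjective _ x
      exact ⟨Submodule.Quotient.mk v, rfl⟩
    have hkerf : LinearMap.ker f ≠ ⊥ := by
      intro hbot
      apply hw
      have h3 : (Submodule.Quotient.mk (algebraMap R₁[X] V X) : V ⧸ W₁) ∈ LinearMap.ker f := by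
        change W.mkQ (algebraMap R₁[X] V X) = 0
        rw [Submodule.mkQ_apply, Submodule.Quotient.mk_eq_zero]
        refine ⟨algebraMap R₁[X] (Localization.AtPrime M) X, ?_⟩
        change algebraMap (Localization.AtPrime M) V
          (algebraMap R₁[X] (Localization.AtPrime M) X) = _
        rw [← IsScalarTower.algebraMap_apply R₁[X] (Localization.AtPrime M) V]
      rw [hbot, Submodule.mem_bot, Submodule.Quotient.mk_eq_zero] at h3
      exact h3
    have hne : Module.length R₁ (V ⧸ W₁) ≠ ⊤ := fun h3 => by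
      rw [h3] at hlen
      exact absurd hlen (not_le_of_gt (ENat.natCast_lt_top _))
    have h4 := Module.length_ne_top_iff.1 hne
    rw [isFiniteLength_iff_isNoetherian_isArtinian] at h4
    obtain ⟨h5, h6⟩ := h4
    have h7 := Submodule.length_quotient_lt (LinearMap.ker f) hkerf
    rw [(f.quotKerEquivOfSurjective hf).length_eq] at h7
    have h8 := (hle.trans_lt h7).trans_le hlen
    have h9 : ((n + 1 : ℕ) : ℕ∞) = (n : ℕ∞) + 1 := by push_cast; rfl
    rw [h9] at h8
    exact (ENat.lt_add_one_iff (ENat.natCast_ne_top n)).1 h8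
  have hpos := IH (Localization.AtPrime M) (Localization.AtPrime m) (r₁ + 1) (t + 1) dR dL
    (by omega) hlen' hFP'
  have hdimV := supportDim_dvr (Localization.AtPrime M) V
  -- identification of the modules
  have eG : (Localization.AtPrime m ⊗[T[X]] (T[X] ⊗[T] (T ⊗[R₂] G))) ≃ₗ[Localization.AtPrime m]
      (Localization.AtPrime m ⊗[R₂] G) :=
    AlgebraTensorModule.cancelBaseChange T T[X] (Localization.AtPrime m)
      (Localization.AtPrime m) (T ⊗[R₂] G) ≪≫ₗ
    AlgebraTensorModule.cancelBaseChange R₂ T (Localization.AtPrime m) (Localization.AtPrime m) G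
  have eV1 : V ≃ₗ[Localization.AtPrime M] (Localization.AtPrime M ⊗[R₁[X]] V) := by
    have h3 : IsLocalizedModule M.primeCompl (LinearMap.id : V →ₗ[R₁[X]] V) :=
      isLocalizedModule_id M.primeCompl (M := V) (Localization.AtPrime M)
    have h4 : IsBaseChange (Localization.AtPrime M) (LinearMap.id : V →ₗ[R₁[X]] V) :=
      (isLocalizedModule_iff_isBaseChange M.primeCompl (Localization.AtPrime M) _).1 h3
    exact h4.equiv.symm
  have eV : (Localization.AtPrime m ⊗[T[X]] (T[X] ⊗[R₁[X]] V)) ≃ₗ[Localization.AtPrime m]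
      (Localization.AtPrime m ⊗[Localization.AtPrime M] V) :=
    AlgebraTensorModule.cancelBaseChange R₁[X] T[X] (Localization.AtPrime m)
      (Localization.AtPrime m) V ≪≫ₗ
    (AlgebraTensorModule.cancelBaseChange R₁[X] (Localization.AtPrime M) (Localization.AtPrime m)
      (Localization.AtPrime m) V).symm ≪≫ₗ
    (AlgebraTensorModule.congr (LinearEquiv.refl _ _) eV1).symm
  have hchi : eulerTor (Localization.AtPrime m) (t + 1 + 1)
      (Localization.AtPrime m ⊗[T[X]] (T[X] ⊗[T] (T ⊗[R₂] G)))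
      (Localization.AtPrime m ⊗[T[X]] (T[X] ⊗[R₁[X]] V)) =
      chi (Localization.AtPrime M) R₂ (Localization.AtPrime m) (t + 1) V G := by
    refine (eulerTor_congr (T := Localization.AtPrime m)
      (X := Localization.AtPrime m ⊗[T[X]] (T[X] ⊗[T] (T ⊗[R₂] G)))
      (X' := Localization.AtPrime m ⊗[R₂] G)
      (Y := Localization.AtPrime m ⊗[T[X]] (T[X] ⊗[R₁[X]] V))
      (Y' := Localization.AtPrime m ⊗[Localization.AtPrime M] V) eG eV (t + 1 + 1)).trans ?_
    exact eulerTor_symm _ _ _
  rw [hchi]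
  have hone : ((1 : ℕ) : WithBot ℕ∞) ≤ Module.supportDim (Localization.AtPrime M) V := hdimV.ge
  refine ⟨fun g hg => hpos.dim_le 1 g hone hg, hpos.nonneg, fun g hg hbg =>
    hpos.pos 1 g hone hg hbg, fun hh => hpos.zero fun e g he hg => ?_⟩
  rw [hdimV] at he
  have he' : e ≤ 1 := by exact_mod_cast he
  have := hh g hg
  omega

end

end Vale.Agent.P177
end

section

/-!
Serre's statements for finite modules which are discrete valuation rings.
-/

namespace Vale.Agent.P177

open CategoryTheory TensorProduct Function IsLocalRing RingTheory.Sequence Pointwise Polynomial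

universe u

attribute [local instance] Polynomial.algebra

theorem subsingleton_localization_of_smul {B : Type u} [CommRing B] (m : Ideal B) [m.IsPrime]
    (M : Type u) [AddCommGroup M] [Module B M] (b : B) (hb : b ∉ m) (h : ∀ x : M, b • x = 0) :
    Subsingleton (Localization.AtPrime m ⊗[B] M) := by
  refine subsingleton_of_forall_eq 0 fun x => ?_
  induction x using TensorProduct.induction_on with
  | zero => rfl
  | tmul l x =>
    have hu := IsLocalization.map_units (Localization.AtPrime m) (⟨b, hb⟩ : m.primeCompl)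
    obtain ⟨c, hc⟩ := hu.exists_left_inv
    have h1 : l = b • (c * l) := by
      rw [Algebra.smul_def, ← mul_assoc, mul_comm (algebraMap B _ b), hc, one_mul]
    rw [h1, TensorProduct.smul_tmul, h, TensorProduct.tmul_zero]
  | add x y hx hy => rw [hx, hy, add_zero]

section

variable {R₁ R₂ T V : Type u} [CommRing R₁] [CommRing R₂] [CommRing T] [CommRing V]
  [IsRegularLocalRing R₁] [IsRegularLocalRing R₂] [IsRegularLocalRing T]
  [Algebra R₁ T] [Algebra R₂ T] [Module.Flat R₁ T] [Module.Flat R₂ T]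
  [IsLocalHom (algebraMap R₁ T)] [IsLocalHom (algebraMap R₂ T)] {r₁ r₂ t b : ℕ}
  [IsDomain V] [IsDiscreteValuationRing V] [Algebra R₁ V] [Module.Finite R₁ V]

theorem pos_of_surjective (h1 : ringKrullDim R₁ = r₁) (h2 : ringKrullDim R₂ = r₂)
    (ht : ringKrullDim T = t) (hb : r₁ + r₂ = t + b) (G : Type u) [AddCommGroup G] [Module R₂ G]
    [Module.Finite R₂ G] (hs : Surjective (algebraMap R₁ V)) (hFP : FP R₁ R₂ T V G) :
    Pos R₁ R₂ T t b V G := by
  obtain ⟨zs, hzs, hreg, hker⟩ := exists_regular_ker V r₁ R₁ (algebraMap R₁ V) hs h1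
  have e : (R₁ ⧸ (Ideal.ofList zs • ⊤ : Submodule R₁ R₁)) ≃ₗ[R₁] V :=
    Submodule.quotEquivOfEq _ _ (by
      rw [smul_eq_mul, Ideal.mul_top, hker]
      rfl) ≪≫ₗ
    (Algebra.linearMap R₁ V).quotKerEquivOfSurjective hs
  exact (pos_ci h1 h2 ht hb zs hzs hreg G (hFP.mono e.symm.annihilator_eq.le le_rfl)).congr e
    (LinearEquiv.refl _ _)

/-- The set of maximal ideals of `T[X]` which occur. -/
theorem finite_maximal [Algebra R₁[X] V] [IsScalarTower R₁ R₁[X] V] :
    {m : MaximalSpectrum T[X] | (maximalIdeal T).map C ⊔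
      (RingHom.ker (algebraMap R₁[X] V)).map (algebraMap R₁[X] T[X]) ≤ m.asIdeal}.Finite := by
  obtain ⟨g, hg, hg0⟩ := exists_monic_ker (R₁ := R₁) (V := V)
  set I : Ideal T[X] := (maximalIdeal T).map C ⊔
      (RingHom.ker (algebraMap R₁[X] V)).map (algebraMap R₁[X] T[X]) with hI
  have hfin := Ideal.finite_minimalPrimes_of_isNoetherianRing T[X] I
  refine (hfin.preimage (f := fun m : MaximalSpectrum T[X] => m.asIdeal)
    (fun a _ b _ hab => MaximalSpectrum.ext hab)).subset ?_
  intro m hm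
  refine ⟨⟨m.isMaximal.isPrime, hm⟩, ?_⟩
  rintro q ⟨hq, hIq⟩ hqm
  have hmax : q.IsMaximal := isMaximal_of_monic_mem q (g.map (algebraMap R₁ T)) (hg.map _)
    (hIq (Ideal.mem_sup_right (Ideal.mem_map_of_mem (algebraMap R₁[X] T[X]) hg0)))
    (Ideal.map_le_iff_le_comap.1 (le_sup_left.trans hIq))
  exact (hmax.eq_of_le m.isMaximal.ne_top hqm).ge

omit [IsRegularLocalRing R₁] [IsRegularLocalRing T] [Module.Flat R₁ T] in
theorem exists_maximal_mem [IsLocalRing T] [IsLocalRing R₁] [Module.Flat R₁ T]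
    [Algebra R₁[X] V] [IsScalarTower R₁ R₁[X] V] :
    ∃ m : MaximalSpectrum T[X], (maximalIdeal T).map C ⊔
      (RingHom.ker (algebraMap R₁[X] V)).map (algebraMap R₁[X] T[X]) ≤ m.asIdeal := by
  have hff : Module.FaithfullyFlat R₁ T := Module.FaithfullyFlat.of_flat_of_isLocalHom
  have hnt : Nontrivial (T ⊗[R₁] V) := by
    rw [Module.FaithfullyFlat.nontrivial_tensorProduct_iff_right]
    infer_instance
  obtain ⟨n, hn⟩ := Ideal.exists_maximal (T ⊗[R₁] V)
  let φ : T[X] →ₐ[T] (T ⊗[R₁] V) := aeval ((1 : T) ⊗ₜ[R₁] (algebraMap R₁[X] V X))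
  have hφC : φ.toRingHom.comp C = algebraMap T (T ⊗[R₁] V) := by
    ext x
    exact φ.commutes x
  have hint : φ.toRingHom.IsIntegral := by
    refine RingHom.IsIntegral.tower_top C φ.toRingHom ?_
    rw [hφC]
    exact Algebra.IsIntegral.isIntegral
  have hmax : (n.comap φ.toRingHom).IsMaximal :=
    Ideal.isMaximal_comap_of_isIntegral_of_isMaximal' _ hint n
  refine ⟨⟨n.comap φ.toRingHom, hmax⟩, sup_le ?_ ?_⟩
  · rw [Ideal.map_le_iff_le_comap]
    change maximalIdeal T ≤ (n.comap φ.toRingHom).comap C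
    rw [Ideal.comap_comap, hφC]
    have h3 : (n.comap (algebraMap T (T ⊗[R₁] V))).IsMaximal :=
      Ideal.isMaximal_comap_of_isIntegral_of_isMaximal n
    rw [IsLocalRing.eq_maximalIdeal h3]
  · rw [Ideal.map_le_iff_le_comap]
    intro h hh
    change φ (h.map (algebraMap R₁ T)) ∈ n
    have h4 : φ (h.map (algebraMap R₁ T)) = 0 := by
      rw [aeval_map_algebraMap]
      have h5 : ((1 : T) ⊗ₜ[R₁] (algebraMap R₁[X] V X)) =
          (Algebra.TensorProduct.includeRight : V →ₐ[R₁] T ⊗[R₁] V) (algebraMap R₁[X] V X) := rfl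
      rw [h5, aeval_algHom_apply]
      have h6 : aeval (algebraMap R₁[X] V X) h = algebraMap R₁[X] V h := by
        have h2 : (IsScalarTower.toAlgHom R₁ R₁[X] V) = aeval (algebraMap R₁[X] V X) := by
          ext
          simp
        exact (DFunLike.congr_fun h2 h).symm
      rw [h6, (RingHom.mem_ker).1 hh, map_zero]
    rw [h4]
    exact n.zero_mem

/-- The inductive step. -/
theorem pos_step (h1 : ringKrullDim R₁ = r₁) (h2 : ringKrullDim R₂ = r₂)
    (ht : ringKrullDim T = t) (hb : r₁ + r₂ = t + b) (G : Type u) [AddCommGroup G] [Module R₂ G]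
    [Module.Finite R₂ G] (n : ℕ) (IH : StepHyp R₂ V G r₂ b n)
    (hlen : Module.length R₁ (V ⧸ LinearMap.range (Algebra.linearMap R₁ V)) ≤ ((n + 1 : ℕ) : ℕ∞))
    (w : V) (hw : w ∉ LinearMap.range (Algebra.linearMap R₁ V)) (hFP : FP R₁ R₂ T V G) :
    Pos R₁ R₂ T t b V G := by
  let aV : Algebra R₁[X] V := (aeval (R := R₁) w).toRingHom.toAlgebra
  have sV : IsScalarTower R₁ R₁[X] V := IsScalarTower.of_algebraMap_eq fun x =>
    ((aeval (R := R₁) w).commutes x).symm
  have hwX : algebraMap R₁[X] V X = w := aeval_X w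
  have hfin := finite_maximal (R₁ := R₁) (T := T) (V := V)
  set S : Finset (MaximalSpectrum T[X]) := hfin.toFinset with hS
  have hmemS : ∀ m, m ∈ S ↔ (maximalIdeal T).map C ⊔
      (RingHom.ker (algebraMap R₁[X] V)).map (algebraMap R₁[X] T[X]) ≤ m.asIdeal := by
    intro m
    rw [hS, Set.Finite.mem_toFinset]
    rfl
  have hSvan : ∀ m : MaximalSpectrum T[X], m ∉ S → ∀ j,
      Subsingleton (Localization.AtPrime m.asIdeal ⊗[T[X]]
        TorM T[X] j (T[X] ⊗[T] (T ⊗[R₂] G)) (T[X] ⊗[R₁[X]] V)) := by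
    intro m hm j
    have hmm := m.isMaximal
    rw [hmemS, sup_le_iff, not_and_or] at hm
    rcases hm with hm | hm
    · rw [Ideal.map_le_iff_le_comap, SetLike.not_le_iff_exists] at hm
      obtain ⟨a, ha, ham⟩ := hm
      obtain ⟨M', _, _, _, _, ⟨e1⟩, ⟨e2⟩, -⟩ := exists_tor_transfer (R₁ := R₁) (T := T)
        (B₁ := R₁[X]) (B := T[X]) V (T ⊗[R₂] G) j
      have hFL := hFP.symm.fl2.tor j
      unfold FL at hFL
      rw [Ideal.ofList_nil, sup_bot_eq] at hFL
      obtain ⟨N, hN⟩ := hFL ha
      rw [Module.mem_annihilator] at hN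
      have h3 : Subsingleton (Localization.AtPrime m.asIdeal ⊗[T[X]] M') := by
        refine subsingleton_localization_of_smul m.asIdeal M' ((C a) ^ N)
          (fun hcon => ham (hmm.isPrime.mem_of_pow_mem N hcon)) (fun x => ?_)
        have h4 : (C a ^ N : T[X]) = algebraMap T T[X] (a ^ N) := by
          rw [map_pow]
          rfl
        rw [h4, algebraMap_smul]
        obtain ⟨y, rfl⟩ := e1.surjective x
        rw [← map_smul, hN y, map_zero]
      exact (e2.baseChange T[X] (Localization.AtPrime m.asIdeal) _ _).toEquiv.subsingleton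
    · rw [Ideal.map_le_iff_le_comap, SetLike.not_le_iff_exists] at hm
      obtain ⟨h, hh, hhm⟩ := hm
      refine subsingleton_localization_of_smul m.asIdeal _ (algebraMap R₁[X] T[X] h) hhm
        (fun x => ?_)
      refine tor_smul_eq_zero_right (R := T[X]) (algebraMap R₁[X] T[X] h) (fun y => ?_) j _ x
      induction y using TensorProduct.induction_on with
      | zero => exact smul_zero _
      | tmul p v =>
        rw [algebraMap_smul, TensorProduct.smul_tmul', TensorProduct.smul_tmul, Algebra.smul_def,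
          (RingHom.mem_ker).1 hh, zero_mul, TensorProduct.tmul_zero]
      | add x y hx hy => rw [smul_add, hx, hy, add_zero]
  have hsum := eulerTor_eq_sum (R₁ := R₁) (T := T) (B₁ := R₁[X]) (B := T[X]) V (T ⊗[R₂] G)
    (fun j => hFP.symm.length_ne_top j) S hSvan (t + 1 + 1)
  have hchi : chi R₁ R₂ T t V G = eulerTor T (t + 1 + 1) (T ⊗[R₂] G) (T ⊗[R₁] V) := by
    rw [eulerTor_of_vanish _ _ (t + 1) (t + 1 + 1) (by omega) (fun j hj =>
      regular_tor_vanish T t ht _ _ j hj)]
    exact eulerTor_symm _ _ _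
  rw [hsum] at hchi
  have hper : ∀ m : MaximalSpectrum T[X], m ∈ S →
      (∀ g : ℕ, (g : WithBot ℕ∞) ≤ Module.supportDim R₂ G → 1 + g ≤ b) ∧
      0 ≤ eulerTor (Localization.AtPrime m.asIdeal) (t + 1 + 1)
        (Localization.AtPrime m.asIdeal ⊗[T[X]] (T[X] ⊗[T] (T ⊗[R₂] G)))
        (Localization.AtPrime m.asIdeal ⊗[T[X]] (T[X] ⊗[R₁[X]] V)) ∧
      (∀ g : ℕ, (g : WithBot ℕ∞) ≤ Module.supportDim R₂ G → b ≤ 1 + g →
        0 < eulerTor (Localization.AtPrime m.asIdeal) (t + 1 + 1)
        (Localization.AtPrime m.asIdeal ⊗[T[X]] (T[X] ⊗[T] (T ⊗[R₂] G)))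
        (Localization.AtPrime m.asIdeal ⊗[T[X]] (T[X] ⊗[R₁[X]] V))) ∧
      ((∀ g : ℕ, (g : WithBot ℕ∞) ≤ Module.supportDim R₂ G → 1 + g < b) →
        eulerTor (Localization.AtPrime m.asIdeal) (t + 1 + 1)
        (Localization.AtPrime m.asIdeal ⊗[T[X]] (T[X] ⊗[T] (T ⊗[R₂] G)))
        (Localization.AtPrime m.asIdeal ⊗[T[X]] (T[X] ⊗[R₁[X]] V)) = 0) := fun m hm =>
    have hmm := m.isMaximal
    per_max h1 h2 ht hb G n IH hlen (by rwa [hwX]) hFP m.asIdeal
      (comap_C_eq_maximalIdeal m.asIdeal (Ideal.map_le_iff_le_comap.1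
        (le_sup_left.trans ((hmemS m).1 hm)))) (le_sup_right.trans ((hmemS m).1 hm))
  obtain ⟨m₀, hm₀⟩ := exists_maximal_mem (R₁ := R₁) (T := T) (V := V)
  rw [← hmemS] at hm₀
  have hdimV := supportDim_dvr R₁ V
  obtain ⟨g, hg, hg0⟩ := exists_monic_ker (R₁ := R₁) (V := V)
  have hc : ∀ m ∈ S, (0 : ℤ) < ((Module.length T (T[X] ⧸ m.asIdeal)).toNat : ℤ) := by
    intro m hm
    have hmm := m.isMaximal
    have h3 := length_quot_ne_top m.asIdeal (g.map (algebraMap R₁ T)) (hg.map _)
      ((hmemS m).1 hm (Ideal.mem_sup_right (Ideal.mem_map_of_mem (algebraMap R₁[X] T[X]) hg0)))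
      (Ideal.map_le_iff_le_comap.1 (le_sup_left.trans ((hmemS m).1 hm)))
    have h4 : Module.length T (T[X] ⧸ m.asIdeal) ≠ 0 := by
      rw [Ne, Module.length_eq_zero_iff]
      exact not_subsingleton _
    have h5 : (Module.length T (T[X] ⧸ m.asIdeal)).toNat ≠ 0 := by
      rw [Ne, ENat.toNat_eq_zero]
      exact not_or.2 ⟨h4, h3⟩
    exact_mod_cast Nat.pos_of_ne_zero h5
  refine ⟨?_, ?_, ?_, ?_⟩
  · intro e g' he hg'
    rw [hdimV] at he
    have he' : e ≤ 1 := by exact_mod_cast he
    have := (hper m₀ hm₀).1 g' hg'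
    omega
  · rw [hchi]
    exact Finset.sum_nonneg fun m hm => mul_nonneg (hc m hm).le (hper m hm).2.1
  · intro e g' he hg' hb'
    rw [hdimV] at he
    have he' : e ≤ 1 := by exact_mod_cast he
    rw [hchi]
    exact Finset.sum_pos (fun m hm => mul_pos (hc m hm)
      ((hper m hm).2.2.1 g' hg' (by omega))) ⟨m₀, hm₀⟩
  · intro hh
    rw [hchi]
    refine Finset.sum_eq_zero fun m hm => ?_
    rw [(hper m hm).2.2.2 (fun g' hg' => hh 1 g' hdimV.ge hg'), mul_zero]

end

/-- Serre's statements for discrete valuation rings finite over the first ring, such that the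
cokernel has finite length. -/
theorem stepHyp_all {R₂ V : Type u} [CommRing R₂] [IsRegularLocalRing R₂] [CommRing V]
    [IsDomain V] [IsDiscreteValuationRing V] {r₂ b : ℕ} (h2 : ringKrullDim R₂ = r₂)
    (G : Type u) [AddCommGroup G] [Module R₂ G] [Module.Finite R₂ G] (n : ℕ) :
    StepHyp R₂ V G r₂ b n := by
  induction n with
  | zero =>
    intro R₁ T _ _ _ _ _ _ _ _ _ _ _ _ r₁ t h1 ht hb hlen hFP
    refine pos_of_surjective h1 h2 ht hb G ?_ hFP
    rw [Nat.cast_zero, nonpos_iff_eq_zero, Module.length_eq_zero_iff] at hlen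
    intro v
    have h3 : (Submodule.Quotient.mk v : V ⧸ LinearMap.range (Algebra.linearMap R₁ V)) = 0 :=
      Subsingleton.elim _ _
    rw [Submodule.Quotient.mk_eq_zero] at h3
    exact h3
  | succ n ih =>
    intro R₁ T _ _ _ _ _ _ _ _ _ _ _ _ r₁ t h1 ht hb hlen hFP
    by_cases hs : Surjective (algebraMap R₁ V)
    · exact pos_of_surjective h1 h2 ht hb G hs hFP
    · have hex : ∃ w : V, w ∉ LinearMap.range (Algebra.linearMap R₁ V) := by
        by_contra hcon
        push Not at hcon
        exact hs hcon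
      obtain ⟨w, hw⟩ := hex
      exact pos_step h1 h2 ht hb G n ih hlen w hw hFP

end Vale.Agent.P177
end

section

/-!
Vanishing of the Euler characteristic for one dimensional modules against Cohen-Macaulay modules
of codimension two.
-/

namespace Vale.Agent.P177

open CategoryTheory TensorProduct Function IsLocalRing RingTheory.Sequence Pointwise

universe u

section onering

variable {R : Type u} [CommRing R] [IsRegularLocalRing R] {r : ℕ}

end onering

section avoid

variable {R T : Type u} [CommRing R] [IsRegularLocalRing R] [CommRing T] [IsNoetherianRing T]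
  [IsLocalRing T] [Algebra R T] {r : ℕ}

end avoid

section vanish

variable {R₁ R₂ T : Type u} [CommRing R₁] [CommRing R₂] [CommRing T]
  [IsRegularLocalRing R₁] [IsRegularLocalRing R₂] [IsRegularLocalRing T]
  [Algebra R₁ T] [Algebra R₂ T] [Module.Flat R₁ T] [Module.Flat R₂ T]
  [IsLocalHom (algebraMap R₁ T)] [IsLocalHom (algebraMap R₂ T)] {r₁ r₂ t b : ℕ}

end vanish

end Vale.Agent.P177
end

section

/-!
The local positivity statement for `dim R₁ + dim R₂ - dim T ≤ 3`.
-/

namespace Vale.Agent.P177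

open CategoryTheory TensorProduct Function IsLocalRing RingTheory.Sequence Pointwise

universe u

section prelim

variable {R : Type u} [CommRing R] [IsLocalRing R]

theorem exists_mem_notMem_of_supportDim (P : Ideal R) [hP : P.IsPrime]
    (h : ((1 : ℕ) : WithBot ℕ∞) ≤ Module.supportDim R (R ⧸ P)) : ∃ x ∈ maximalIdeal R, x ∉ P := by
  by_contra hcon
  push Not at hcon
  have hPm : P = maximalIdeal R := le_antisymm (le_maximalIdeal hP.ne_top) hcon
  obtain ⟨q, hq1, hq2, -⟩ := exists_gt_prime P 0 h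
  rw [hPm] at hq2
  exact absurd (le_maximalIdeal hq1.ne_top) (not_le_of_gt hq2)

omit [IsLocalRing R] in
theorem isSMulRegular_quot_prime (P : Ideal R) [hP : P.IsPrime] (x : R) (hx : x ∉ P) :
    IsSMulRegular (R ⧸ P) x := by
  rw [isSMulRegular_iff_right_eq_zero_of_smul]
  intro y hy
  obtain ⟨y, rfl⟩ := Ideal.Quotient.mk_surjective y
  have h1 : Ideal.Quotient.mk P (x * y) = 0 := hy
  rw [Ideal.Quotient.eq_zero_iff_mem] at h1 ⊢
  exact (hP.mem_or_mem h1).resolve_left hx

theorem supportDim_quotSMulTop_prime_le [IsNoetherianRing R] (P : Ideal R) [hP : P.IsPrime]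
    (x : R) (hx : x ∈ maximalIdeal R) (hxP : x ∉ P) (n : ℕ)
    (h : Module.supportDim R (R ⧸ P) ≤ ((n + 1 : ℕ) : WithBot ℕ∞)) :
    Module.supportDim R (QuotSMulTop x (R ⧸ P)) ≤ (n : WithBot ℕ∞) := by
  by_contra hcon
  rw [not_le] at hcon
  have h3 := succ_le_of_lt_withBot hcon
  have h4 := Module.supportDim_quotSMulTop_succ_eq_supportDim (isSMulRegular_quot_prime P x hxP) hx
  have h5 : ((n + 1 : ℕ) : WithBot ℕ∞) + 1 ≤ ((n + 1 : ℕ) : WithBot ℕ∞) := by
    refine le_trans ?_ h
    rw [← h4]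
    gcongr
  have h6 : n + 1 + 1 ≤ n + 1 := by exact_mod_cast h5
  omega

omit [IsLocalRing R] in
theorem supportDim_le_of_le_annihilator [IsNoetherianRing R] (P : Ideal R) (S : Type u)
    [AddCommGroup S] [Module R S] [Module.Finite R S] (h : P ≤ Module.annihilator R S) :
    Module.supportDim R S ≤ Module.supportDim R (R ⧸ P) := by
  have h4 : Module.supportDim R (R ⧸ Module.annihilator R S) = Module.supportDim R S := by
    unfold Module.supportDim
    rw [Module.support_eq_zeroLocus, Module.support_eq_zeroLocus, Ideal.annihilator_quotient]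
  rw [← h4]
  exact supportDim_quotient_mono h

end prelim

variable {R₁ R₂ T : Type u} [CommRing R₁] [CommRing R₂] [CommRing T]
  [IsRegularLocalRing R₁] [IsRegularLocalRing R₂] [IsRegularLocalRing T]
  [Algebra R₁ T] [Algebra R₂ T] [Module.Flat R₁ T] [Module.Flat R₂ T]
  [IsLocalHom (algebraMap R₁ T)] [IsLocalHom (algebraMap R₂ T)] {r₁ r₂ t b : ℕ}

/-- Serre's statements for primes of coheight one in the first ring. -/
def HOne (R₁ R₂ T : Type u) [CommRing R₁] [CommRing R₂] [CommRing T] [IsLocalRing T]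
    [Algebra R₁ T] [Algebra R₂ T] (t b : ℕ) : Prop :=
  ∀ P : Ideal R₁, P.IsPrime → Module.supportDim R₁ (R₁ ⧸ P) = (1 : ℕ) →
    ∀ (G : Type u) [AddCommGroup G] [Module R₂ G] [Module.Finite R₂ G],
      FP R₁ R₂ T (R₁ ⧸ P) G → Pos R₁ R₂ T t b (R₁ ⧸ P) G

theorem pos_dim_one (h1 : ringKrullDim R₁ = r₁) (h2 : ringKrullDim R₂ = r₂)
    (ht : ringKrullDim T = t) (hb : r₁ + r₂ = t + b) (H : HOne R₁ R₂ T t b) (G : Type u)
    [AddCommGroup G] [Module R₂ G]
    [Module.Finite R₂ G] (E : Type u) [AddCommGroup E] [Module R₁ E] [Module.Finite R₁ E]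
    (hE : Module.supportDim R₁ E ≤ ((1 : ℕ) : WithBot ℕ∞)) (h : FP R₁ R₂ T E G) :
    Pos R₁ R₂ T t b E G := by
  refine pos_of_primes ht ((1 : ℕ) : WithBot ℕ∞) G (fun P hP hdim hFP => ?_) E hE h
  by_cases h0 : Module.supportDim R₁ (R₁ ⧸ P) ≤ 0
  · exact pos_dim_zero h1 h2 ht hb G _ h0 hFP
  · rw [not_le] at h0
    exact H P hP (le_antisymm hdim (succ_le_of_lt_withBot (n := 0) h0)) G hFP

/-- The case of two primes of coheight two. -/
theorem pos_two_two (h1 : ringKrullDim R₁ = r₁) (h2 : ringKrullDim R₂ = r₂)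
    (ht : ringKrullDim T = t) (hb : r₁ + r₂ = t + b) (hb4 : b ≤ 4) (H : HOne R₁ R₂ T t b)
    (P : Ideal R₁) [hP : P.IsPrime] (Q : Ideal R₂) [hQ : Q.IsPrime]
    (hPd : Module.supportDim R₁ (R₁ ⧸ P) = (2 : ℕ)) (hQd : Module.supportDim R₂ (R₂ ⧸ Q) = (2 : ℕ))
    (hFP : FP R₁ R₂ T (R₁ ⧸ P) (R₂ ⧸ Q)) : Pos R₁ R₂ T t b (R₁ ⧸ P) (R₂ ⧸ Q) := by
  obtain ⟨x, hx, hxP⟩ := exists_mem_notMem_of_supportDim P (by rw [hPd]; exact_mod_cast one_le_two)
  have hd := supportDim_quotSMulTop_prime_le P x hx hxP 1 hPd.le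
  have hpos := pos_dim_one h1 h2 ht hb H (R₂ ⧸ Q) (QuotSMulTop x (R₁ ⧸ P)) hd
    (hFP.mono (LinearMap.annihilator_le_of_surjective _ (Submodule.mkQ_surjective _)) le_rfl)
  have hcut := cut ht P x hx hxP (R₂ ⧸ Q) hFP hpos 1 2 hPd.ge hQd.ge
  have hb' : b = 4 := by omega
  subst hb'
  have hr1 : 2 ≤ r₁ := by
    have := dim_le_dim (R := R₂) (T := T) h2 ht
    omega
  have hr2 : 2 ≤ r₂ := by
    have := dim_le_dim (R := R₁) (T := T) h1 ht
    omega
  obtain ⟨S, _, _, _, hS, hPS, ⟨zs, hz1, hz2, hz3⟩, hSG⟩ :=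
    exists_replace (R₂ := R₂) (T := T) h1 h2 ht hb P hPd.ge
  obtain ⟨hFPS, hchiS⟩ := hSG (R₂ ⧸ Q) (by
    intro g hg
    rw [hQd] at hg
    have : g ≤ 2 := by exact_mod_cast hg
    omega) hFP
  obtain ⟨S', _, _, _, hS', hQS', ⟨ws, hw1, hw2, hw3⟩, hSG'⟩ :=
    exists_replace (R₁ := R₂) (R₂ := R₁) (T := T) h2 h1 ht (by omega : r₂ + r₁ = t + 4) Q hQd.ge
  obtain ⟨hFPS', hchiS'⟩ := hSG' S (by
    intro g hg
    have h3 := hg.trans (supportDim_le_of_le_annihilator P S hPS)
    rw [hPd] at h3
    have : g ≤ 2 := by exact_mod_cast h3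
    omega) hFPS.symm
  have hpos := (chi_pos_of_depth h2 h1 ht (by omega : r₂ + r₁ = t + 4) S' S hFPS' ws zs hw2 hz2 hw3
    hz3 (by omega) (by omega) (by omega)).2 hS' hS
  rw [← hchiS', ← chi_symm, ← hchiS] at hpos
  refine ⟨?_, hpos.le, fun _ _ _ _ _ => hpos, ?_⟩
  · intro e g he hg
    rw [hPd] at he
    rw [hQd] at hg
    have h3 : e ≤ 2 := by exact_mod_cast he
    have h4 : g ≤ 2 := by exact_mod_cast hg
    omega
  · intro hh
    have := hh 2 2 hPd.ge hQd.ge
    omega

theorem pos_two_two' (h1 : ringKrullDim R₁ = r₁) (h2 : ringKrullDim R₂ = r₂)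
    (ht : ringKrullDim T = t) (hb : r₁ + r₂ = t + b) (hb4 : b ≤ 4) (H : HOne R₁ R₂ T t b)
    (Q : Ideal R₂) [hQ : Q.IsPrime] (hQd : Module.supportDim R₂ (R₂ ⧸ Q) = (2 : ℕ))
    (E : Type u) [AddCommGroup E] [Module R₁ E] [Module.Finite R₁ E]
    (hE : Module.supportDim R₁ E ≤ ((2 : ℕ) : WithBot ℕ∞))
    (hFP : FP R₁ R₂ T E (R₂ ⧸ Q)) : Pos R₁ R₂ T t b E (R₂ ⧸ Q) := by
  refine pos_of_primes ht ((2 : ℕ) : WithBot ℕ∞) _ (fun P hP hdim hFP => ?_) E hE hFP
  by_cases h0 : Module.supportDim R₁ (R₁ ⧸ P) ≤ ((1 : ℕ) : WithBot ℕ∞)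
  · exact pos_dim_one h1 h2 ht hb H _ _ h0 hFP
  · rw [not_le] at h0
    exact pos_two_two h1 h2 ht hb hb4 H P Q (le_antisymm hdim (succ_le_of_lt_withBot h0)) hQd hFP

/-- No finiteness is possible for coheights at least three and at least two. -/
theorem not_fp_three_two (h1 : ringKrullDim R₁ = r₁) (h2 : ringKrullDim R₂ = r₂)
    (ht : ringKrullDim T = t) (hb : r₁ + r₂ = t + b) (hb4 : b ≤ 4) (H : HOne R₁ R₂ T t b)
    (P : Ideal R₁) [hP : P.IsPrime] (Q : Ideal R₂) [hQ : Q.IsPrime]
    (hPd : ((3 : ℕ) : WithBot ℕ∞) ≤ Module.supportDim R₁ (R₁ ⧸ P))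
    (hQd : ((2 : ℕ) : WithBot ℕ∞) ≤ Module.supportDim R₂ (R₂ ⧸ Q))
    (hFP : FP R₁ R₂ T (R₁ ⧸ P) (R₂ ⧸ Q)) : False := by
  obtain ⟨P', hP', hPP', hPd'⟩ := exists_prime_exact P 3 hPd
  obtain ⟨Q', hQ', hQQ', hQd'⟩ := exists_prime_exact Q 2 hQd
  have hFP' : FP R₁ R₂ T (R₁ ⧸ P') (R₂ ⧸ Q') := hFP.mono
    (by rwa [Ideal.annihilator_quotient, Ideal.annihilator_quotient])
    (by rwa [Ideal.annihilator_quotient, Ideal.annihilator_quotient])
  obtain ⟨x, hx, hxP⟩ := exists_mem_notMem_of_supportDim P' (by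
    rw [hPd']
    exact_mod_cast (by omega : 1 ≤ 3))
  have hd := supportDim_quotSMulTop_prime_le P' x hx hxP 2 hPd'.le
  have hpos := pos_two_two' h1 h2 ht hb hb4 H Q' hQd' (QuotSMulTop x (R₁ ⧸ P')) hd
    (hFP'.mono (LinearMap.annihilator_le_of_surjective _ (Submodule.mkQ_surjective _)) le_rfl)
  have hcut := cut ht P' x hx hxP (R₂ ⧸ Q') hFP' hpos 2 2 hPd'.ge hQd'.ge
  omega

/-- Assembly: Serre's statements for `b ≤ 4` follow from the case of coheight one. -/
theorem pos_of_hOne (h1 : ringKrullDim R₁ = r₁) (h2 : ringKrullDim R₂ = r₂)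
    (ht : ringKrullDim T = t) (hb : r₁ + r₂ = t + b) (hb4 : b ≤ 4) (H : HOne R₁ R₂ T t b)
    (H' : HOne R₂ R₁ T t b) (E G : Type u) [AddCommGroup E] [Module R₁ E] [Module.Finite R₁ E]
    [AddCommGroup G] [Module R₂ G] [Module.Finite R₂ G] (hFP : FP R₁ R₂ T E G) :
    Pos R₁ R₂ T t b E G := by
  refine pos_of_primes ht ⊤ G (fun P hP _ hFP => ?_) E le_top hFP
  refine (pos_of_primes ht ⊤ (R₁ ⧸ P) (fun Q hQ _ hFP => ?_) G le_top hFP.symm).symm
  refine Pos.symm ?_
  have hFP := hFP.symm
  by_cases hP1 : Module.supportDim R₁ (R₁ ⧸ P) ≤ ((1 : ℕ) : WithBot ℕ∞)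
  · exact pos_dim_one h1 h2 ht hb H _ _ hP1 hFP
  by_cases hQ1 : Module.supportDim R₂ (R₂ ⧸ Q) ≤ ((1 : ℕ) : WithBot ℕ∞)
  · exact (pos_dim_one h2 h1 ht (by omega : r₂ + r₁ = t + b) H' _ _ hQ1 hFP.symm).symm
  rw [not_le] at hP1 hQ1
  have hP2 := succ_le_of_lt_withBot hP1
  have hQ2 := succ_le_of_lt_withBot hQ1
  by_cases hP3 : Module.supportDim R₁ (R₁ ⧸ P) ≤ ((2 : ℕ) : WithBot ℕ∞)
  · by_cases hQ3 : Module.supportDim R₂ (R₂ ⧸ Q) ≤ ((2 : ℕ) : WithBot ℕ∞)
    · exact pos_two_two h1 h2 ht hb hb4 H P Q (le_antisymm hP3 hP2) (le_antisymm hQ3 hQ2) hFP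
    · rw [not_le] at hQ3
      exact (not_fp_three_two h2 h1 ht (by omega : r₂ + r₁ = t + b) hb4 H' Q P
        (succ_le_of_lt_withBot hQ3) hP2 hFP.symm).elim
  · rw [not_le] at hP3
    exact (not_fp_three_two h1 h2 ht hb hb4 H P Q (succ_le_of_lt_withBot hP3) hQ2 hFP).elim

end Vale.Agent.P177
end

section

/-!
A chart of the blow-up and the extended Rees algebra.
-/

namespace Vale.Agent.P177

open IsLocalRing Function

universe u

section chart

variable {A : Type u} [CommRing A] {d : ℕ} (x c : Fin d → A)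

/-- The linear form with coefficients `c`. -/
noncomputable def eXi : ERees x := ∑ i, algebraMap A _ (c i) * eY x i

/-- The ideal defining the chart. -/
noncomputable def chartIdeal : Ideal (ERees x) := Ideal.span {eXi x c - 1}

/-- The chart of the blow-up given by the linear form with coefficients `c`. -/
def Chart := ERees x ⧸ chartIdeal x c

noncomputable instance chartCommRing : CommRing (Chart x c) :=
  inferInstanceAs (CommRing (ERees x ⧸ chartIdeal x c))

noncomputable instance chartAlgebra : Algebra A (Chart x c) :=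
  inferInstanceAs (Algebra A (ERees x ⧸ chartIdeal x c))

/-- The projection to the chart. -/
noncomputable def cMk : ERees x →+* Chart x c := Ideal.Quotient.mk (chartIdeal x c)

theorem cMk_surjective : Surjective (cMk x c) := Ideal.Quotient.mk_surjective

theorem cMk_algebraMap (a : A) : cMk x c (algebraMap A _ a) = algebraMap A (Chart x c) a := rfl

/-- The coordinates on the chart. -/
noncomputable def cY (i : Fin d) : Chart x c := cMk x c (eY x i)

/-- The equation of the exceptional divisor. -/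
def x0 : A := ∑ i, c i * x i

theorem algebraMap_x0 : algebraMap A (ERees x) (x0 x c) = eT x * eXi x c := by
  unfold x0 eXi
  rw [map_sum, Finset.mul_sum]
  refine Finset.sum_congr rfl fun i _ => ?_
  rw [map_mul, algebraMap_rees]
  ring

theorem mk_eXi : cMk x c (eXi x c) = 1 := by
  rw [← sub_eq_zero, ← map_one (cMk x c), ← map_sub]
  exact Ideal.Quotient.eq_zero_iff_mem.2 (Ideal.mem_span_singleton_self _)

theorem sum_cY : ∑ i, algebraMap A (Chart x c) (c i) * cY x c i = 1 := by
  rw [← mk_eXi]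
  unfold eXi
  rw [map_sum]
  refine Finset.sum_congr rfl fun i _ => ?_
  rw [map_mul]
  rfl

theorem mk_eT : cMk x c (eT x) = algebraMap A (Chart x c) (x0 x c) := by
  rw [← cMk_algebraMap, algebraMap_x0, map_mul, mk_eXi, mul_one]

theorem algebraMap_chart (i : Fin d) : algebraMap A (Chart x c) (x i) =
    algebraMap A (Chart x c) (x0 x c) * cY x c i := by
  rw [← cMk_algebraMap, algebraMap_rees, map_mul, mk_eT]
  rfl

/-- A ring homomorphism out of the chart. -/
noncomputable def cLift {B : Type*} [CommRing B] (f : A →+* B) (t : B) (y : Fin d → B)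
    (h : ∀ i, f (x i) = t * y i) (h1 : ∑ i, f (c i) * y i = 1) : Chart x c →+* B :=
  Ideal.Quotient.lift (chartIdeal x c) (eLift x f t y h) (by
    intro a ha
    have h2 : chartIdeal x c ≤ RingHom.ker (eLift x f t y h) := by
      unfold chartIdeal
      rw [Ideal.span_le]
      rintro _ rfl
      change eLift x f t y h (eXi x c - 1) = 0
      unfold eXi
      rw [map_sub, map_sum, map_one]
      simp [h1]
    exact h2 ha)

variable {x c}

@[simp]
theorem cLift_algebraMap {B : Type*} [CommRing B] (f : A →+* B) (t : B) (y : Fin d → B)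
    (h : ∀ i, f (x i) = t * y i) (h1 : ∑ i, f (c i) * y i = 1) (a : A) :
    cLift x c f t y h h1 (algebraMap A _ a) = f a := eLift_algebraMap f t y h a

@[simp]
theorem cLift_cY {B : Type*} [CommRing B] (f : A →+* B) (t : B) (y : Fin d → B)
    (h : ∀ i, f (x i) = t * y i) (h1 : ∑ i, f (c i) * y i = 1) (i : Fin d) :
    cLift x c f t y h h1 (cY x c i) = y i := eLift_eY f t y h i

/-- Every element of the chart is a polynomial in the coordinates. -/
theorem chart_induction {p : Chart x c → Prop} (hA : ∀ a, p (algebraMap A _ a))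
    (hY : ∀ i, p (cY x c i)) (hadd : ∀ a b, p a → p b → p (a + b))
    (hmul : ∀ a b, p a → p b → p (a * b)) (z : Chart x c) : p z := by
  obtain ⟨z, rfl⟩ := cMk_surjective x c z
  obtain ⟨z, rfl⟩ := Ideal.Quotient.mk_surjective z
  induction z using MvPolynomial.induction_on with
  | C a => exact hA a
  | add a b ha hb =>
    rw [map_add, map_add]
    exact hadd _ _ ha hb
  | mul_X a i ha =>
    rw [map_mul, map_mul]
    refine hmul _ _ ha ?_
    rcases i with _ | i
    · have := hA (x0 x c)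
      rw [← mk_eT] at this
      exact this
    · exact hY i

variable (x c)

open LaurentPolynomial in
/-- The map from the extended Rees algebra to Laurent polynomials over the chart. -/
noncomputable def chartPhi : ERees x →+* LaurentPolynomial (Chart x c) :=
  eLift x ((C : Chart x c →+* _).comp (algebraMap A (Chart x c)))
    (C (algebraMap A (Chart x c) (x0 x c)) * T (-1)) (fun i => C (cY x c i) * T 1) (by
    intro i
    have h : (T (-1) * T 1 : LaurentPolynomial (Chart x c)) = 1 := by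
      rw [← T_add]
      simp
    rw [RingHom.comp_apply, algebraMap_chart, map_mul]
    calc C (algebraMap A (Chart x c) (x0 x c)) * C (cY x c i)
        = C (algebraMap A (Chart x c) (x0 x c)) * C (cY x c i) * (T (-1) * T 1) := by
          rw [h, mul_one]
      _ = _ := by ring)

open LaurentPolynomial in
@[simp]
theorem chartPhi_algebraMap (a : A) : chartPhi x c (algebraMap A _ a) =
    C (algebraMap A (Chart x c) a) := eLift_algebraMap _ _ _ _ _

open LaurentPolynomial in
@[simp]
theorem chartPhi_eT : chartPhi x c (eT x) = C (algebraMap A (Chart x c) (x0 x c)) * T (-1) :=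
  eLift_eT _ _ _ _

open LaurentPolynomial in
@[simp]
theorem chartPhi_eY (i : Fin d) : chartPhi x c (eY x i) = C (cY x c i) * T 1 :=
  eLift_eY _ _ _ _ _

open LaurentPolynomial in
theorem chartPhi_eXi : chartPhi x c (eXi x c) = T 1 := by
  unfold eXi
  rw [map_sum]
  have h : ∀ i, chartPhi x c (algebraMap A _ (c i) * eY x i) =
      C (algebraMap A (Chart x c) (c i) * cY x c i) * T 1 := by
    intro i
    rw [map_mul, chartPhi_algebraMap, chartPhi_eY, map_mul, mul_assoc]
  rw [Finset.sum_congr rfl fun i _ => h i, ← Finset.sum_mul, ← map_sum, sum_cY, map_one, one_mul]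

open LaurentPolynomial in
/-- A left inverse of `chartPhi` up to localization. -/
theorem exists_chartPsi {L : Type*} [CommRing L] (g : ERees x →+* L) (hg : IsUnit (g (eXi x c))) :
    ∃ ψ : LaurentPolynomial (Chart x c) →+* L, ψ.comp (chartPhi x c) = g := by
  obtain ⟨u, hu⟩ := hg
  have hu1 : g (eXi x c) * (u⁻¹ : Lˣ) = 1 := by rw [← hu, Units.mul_inv]
  let ψ₀ : Chart x c →+* L := cLift x c (g.comp (algebraMap A _)) (g (algebraMap A _ (x0 x c)))
    (fun i => g (eY x i) * (u⁻¹ : Lˣ)) (by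
      intro i
      rw [RingHom.comp_apply, algebraMap_rees, algebraMap_x0, map_mul, map_mul]
      calc g (eT x) * g (eY x i) = g (eT x) * g (eY x i) * (g (eXi x c) * (u⁻¹ : Lˣ)) := by
            rw [hu1, mul_one]
        _ = _ := by ring) (by
      rw [← hu1]
      unfold eXi
      rw [map_sum, Finset.sum_mul]
      refine Finset.sum_congr rfl fun i _ => ?_
      rw [RingHom.comp_apply, map_mul]
      ring)
  have hA : ∀ a, ψ₀ (algebraMap A _ a) = g (algebraMap A _ a) := fun a =>
    cLift_algebraMap _ _ _ _ _ a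
  have hY : ∀ i, ψ₀ (cY x c i) = g (eY x i) * (u⁻¹ : Lˣ) := fun i => cLift_cY _ _ _ _ _ i
  refine ⟨eval₂ ψ₀ u, eRees_hom_ext (fun a => ?_) ?_ (fun i => ?_)⟩
  · rw [RingHom.comp_apply, chartPhi_algebraMap, eval₂_C, hA]
  · rw [RingHom.comp_apply, chartPhi_eT, eval₂_C_mul_T, hA, algebraMap_x0, map_mul, mul_assoc]
    simp [hu1]
  · rw [RingHom.comp_apply, chartPhi_eY, eval₂_C_mul_T, hY, mul_assoc]
    simp

open LaurentPolynomial in
/-- Laurent polynomials over the chart are the localization of the extended Rees algebra. -/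
theorem chart_isLocalization :
    letI := (chartPhi x c).toAlgebra
    IsLocalization.Away (eXi x c) (LaurentPolynomial (Chart x c)) := by
  let _ := (chartPhi x c).toAlgebra
  have hT : ∀ n : ℕ, chartPhi x c (eXi x c ^ n) = T n := by
    intro n
    rw [map_pow, chartPhi_eXi, T_pow]
    simp
  refine ⟨⟨?_, ?_, ?_⟩⟩
  · rintro ⟨_, n, rfl⟩
    change IsUnit (chartPhi x c (eXi x c ^ n))
    rw [hT]
    exact isUnit_T _
  · have key : ∀ z : LaurentPolynomial (Chart x c), ∃ (n : ℕ) (F : ERees x),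
        z * T n = chartPhi x c F := by
      have hadd : ∀ z w : LaurentPolynomial (Chart x c),
          (∃ (n : ℕ) (F : ERees x), z * T n = chartPhi x c F) →
          (∃ (n : ℕ) (F : ERees x), w * T n = chartPhi x c F) →
          ∃ (n : ℕ) (F : ERees x), (z + w) * T n = chartPhi x c F := by
        rintro z w ⟨n, F, hF⟩ ⟨m, G, hG⟩
        refine ⟨n + m, F * eXi x c ^ m + G * eXi x c ^ n, ?_⟩
        rw [map_add, map_mul, map_mul, hT, hT, ← hF, ← hG]
        push_cast
        rw [T_add]
        ring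
      have hmul : ∀ z w : LaurentPolynomial (Chart x c),
          (∃ (n : ℕ) (F : ERees x), z * T n = chartPhi x c F) →
          (∃ (n : ℕ) (F : ERees x), w * T n = chartPhi x c F) →
          ∃ (n : ℕ) (F : ERees x), (z * w) * T n = chartPhi x c F := by
        rintro z w ⟨n, F, hF⟩ ⟨m, G, hG⟩
        refine ⟨n + m, F * G, ?_⟩
        rw [map_mul, ← hF, ← hG]
        push_cast
        rw [T_add]
        ring
      have hC : ∀ s : Chart x c, ∃ (n : ℕ) (F : ERees x), (C s) * T n = chartPhi x c F := by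
        intro s
        refine chart_induction (p := fun s => ∃ (n : ℕ) (F : ERees x), (C s) * T n =
          chartPhi x c F) ?_ ?_ ?_ ?_ s
        · intro a
          exact ⟨0, algebraMap A _ a, by simp⟩
        · intro i
          exact ⟨1, eY x i, by simp⟩
        · intro a b ha hb
          rw [map_add]
          exact hadd _ _ ha hb
        · intro a b ha hb
          rw [map_mul]
          exact hmul _ _ ha hb
      intro z
      induction z using LaurentPolynomial.induction_on' with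
      | add p q hp hq => exact hadd _ _ hp hq
      | C_mul_T n a =>
        refine hmul _ _ (hC a) ?_
        rcases n with n | n
        · exact ⟨0, eXi x c ^ n, by rw [hT]; simp⟩
        · refine ⟨n + 1, 1, ?_⟩
          rw [← T_add, map_one]
          have : Int.negSucc n + ((n + 1 : ℕ) : ℤ) = 0 := by omega
          rw [this, T_zero]
    intro z
    obtain ⟨n, F, hF⟩ := key z
    refine ⟨(F, ⟨eXi x c ^ n, n, rfl⟩), ?_⟩
    change z * chartPhi x c (eXi x c ^ n) = chartPhi x c F
    rw [hT, hF]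
  · intro F G h
    change chartPhi x c F = chartPhi x c G at h
    obtain ⟨ψ, hψ⟩ := exists_chartPsi x c
      (algebraMap (ERees x) (Localization.Away (eXi x c)))
      (IsLocalization.Away.algebraMap_isUnit (eXi x c))
    have h1 := congrArg ψ h
    rw [← RingHom.comp_apply, ← RingHom.comp_apply, hψ] at h1
    exact IsLocalization.exists_of_eq h1

end chart

end Vale.Agent.P177
end

section

/-!
Tor via free resolutions given by maps between finite free modules.
-/

namespace Vale.Agent.P177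

open CategoryTheory TensorProduct Function

universe u

section act

variable {A : Type*} [CommRing A] {p q r : ℕ} (N : Type*) [AddCommGroup N] [Module A N]

/-- The action of a linear map of finite free modules on powers of a module. -/
def act (δ : (Fin p → A) →ₗ[A] (Fin q → A)) : (Fin p → N) →ₗ[A] (Fin q → N) where
  toFun v := fun k => ∑ j, δ (Pi.single j 1) k • v j
  map_add' v w := by
    funext k
    simp [smul_add, Finset.sum_add_distrib]
  map_smul' c v := by
    funext k
    simp only [Pi.smul_apply, RingHom.id_apply, Finset.smul_sum]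
    exact Finset.sum_congr rfl fun j _ => smul_comm _ _ _

variable {N}

theorem act_apply (δ : (Fin p → A) →ₗ[A] (Fin q → A)) (v : Fin p → N) (k : Fin q) :
    act N δ v k = ∑ j, δ (Pi.single j 1) k • v j := rfl

theorem apply_eq_sum (δ : (Fin p → A) →ₗ[A] (Fin q → A)) (f : Fin p → A) (k : Fin q) :
    δ f k = ∑ j, f j * δ (Pi.single j 1) k := by
  rw [LinearMap.pi_apply_eq_sum_univ δ f, Finset.sum_apply]
  refine Finset.sum_congr rfl fun j _ => ?_
  have h : (fun i => if j = i then (1 : A) else 0) = Pi.single j 1 := by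
    funext i
    rw [Pi.single_apply]
    simp only [eq_comm]
  rw [Pi.smul_apply, smul_eq_mul, h]

theorem act_comp (δ : (Fin q → A) →ₗ[A] (Fin r → A)) (δ' : (Fin p → A) →ₗ[A] (Fin q → A))
    (v : Fin p → N) : act N (δ.comp δ') v = act N δ (act N δ' v) := by
  funext k
  rw [act_apply, act_apply]
  simp only [act_apply, LinearMap.comp_apply, Finset.smul_sum, smul_smul]
  rw [Finset.sum_comm]
  refine Finset.sum_congr rfl fun j _ => ?_
  rw [← Finset.sum_smul]
  congr 1
  rw [apply_eq_sum δ]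
  exact Finset.sum_congr rfl fun i _ => mul_comm _ _

theorem act_zero : act N (0 : (Fin p → A) →ₗ[A] (Fin q → A)) = 0 := by
  ext v k
  simp [act]

end act

/-- Kernels of compositions with surjective maps. -/
theorem exists_equiv_ker_comp {R V W U U' : Type*} [CommRing R] [AddCommGroup V] [Module R V]
    [AddCommGroup W] [Module R W] [AddCommGroup U] [Module R U] [AddCommGroup U'] [Module R U']
    (π : V →ₗ[R] W) (hπ : Surjective π) (θ : W →ₗ[R] U) (ζ : V →ₗ[R] U')
    (key : ∀ v, ζ v = 0 ↔ θ (π v) = 0) (P : Submodule R V) (hP : LinearMap.ker π = P) :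
    Nonempty ((LinearMap.ker ζ ⧸ P.submoduleOf (LinearMap.ker ζ)) ≃ₗ[R] LinearMap.ker θ) := by
  let π' : LinearMap.ker ζ →ₗ[R] LinearMap.ker θ :=
    (π ∘ₗ (LinearMap.ker ζ).subtype).codRestrict _ (fun v => (key v.1).1 v.2)
  have hπ' : Surjective π' := by
    rintro ⟨t, ht⟩
    obtain ⟨v, rfl⟩ := hπ t
    exact ⟨⟨v, (key v).2 ht⟩, Subtype.ext rfl⟩
  have hk' : P.submoduleOf (LinearMap.ker ζ) = LinearMap.ker π' := by
    ext v
    have h1 : v ∈ LinearMap.ker π' ↔ v.1 ∈ LinearMap.ker π :=
      ⟨fun h => congrArg Subtype.val h, fun h => Subtype.ext h⟩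
    rw [h1, hP]
    rfl
  exact ⟨(Submodule.quotEquivOfEq _ _ hk').trans (LinearMap.quotKerEquivOfSurjective π' hπ')⟩

section tensor

variable {R : Type u} [CommRing R] {p q : ℕ} (N : Type u) [AddCommGroup N] [Module R N]

/-- `R^p ⊗ N ≃ N^p`. -/
noncomputable def powEquiv (p : ℕ) : (Fin p → R) ⊗[R] N ≃ₗ[R] (Fin p → N) :=
  TensorProduct.comm R _ _ ≪≫ₗ TensorProduct.piScalarRight R R N (Fin p)

theorem powEquiv_tmul (f : Fin p → R) (n : N) (j : Fin p) : powEquiv N p (f ⊗ₜ n) j = f j • n := by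
  simp [powEquiv]

theorem powEquiv_rTensor (δ : (Fin p → R) →ₗ[R] (Fin q → R)) (t : (Fin p → R) ⊗[R] N) :
    powEquiv N q (δ.rTensor N t) = act N δ (powEquiv N p t) := by
  induction t using TensorProduct.induction_on with
  | zero => simp
  | add x y hx hy => simp only [map_add, hx, hy]
  | tmul f n =>
    funext k
    rw [LinearMap.rTensor_tmul, powEquiv_tmul, act_apply]
    simp only [powEquiv_tmul, smul_smul]
    rw [← Finset.sum_smul, apply_eq_sum δ]
    congr 1
    exact Finset.sum_congr rfl fun i _ => mul_comm _ _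

/-- A free presentation of `M` computes the tensor product. -/
theorem exists_tensor_presentation {M : Type u} [AddCommGroup M] [Module R M]
    (δ : (Fin p → R) →ₗ[R] (Fin q → R)) (ε : (Fin q → R) →ₗ[R] M) (hε : Surjective ε)
    (h : Exact δ ε) : ∃ π : (Fin q → N) →ₗ[R] M ⊗[R] N, Surjective π ∧
      LinearMap.ker π = LinearMap.range (act N δ) ∧
      ∀ t : (Fin q → R) ⊗[R] N, π (powEquiv N q t) = ε.rTensor N t := by
  refine ⟨ε.rTensor N ∘ₗ (powEquiv N q).symm.toLinearMap, ?_, ?_, ?_⟩
  · exact (LinearMap.rTensor_surjective N hε).comp (powEquiv N q).symm.surjective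
  · ext v
    rw [LinearMap.mem_ker, LinearMap.mem_range]
    have hex := rTensor_exact N h hε
    constructor
    · intro hv
      obtain ⟨t, ht⟩ := (hex _).1 hv
      refine ⟨powEquiv N p t, ?_⟩
      rw [← powEquiv_rTensor, ht]
      exact (powEquiv N q).apply_symm_apply v
    · rintro ⟨w, rfl⟩
      apply (hex _).2
      refine ⟨(powEquiv N p).symm w, ?_⟩
      apply (powEquiv N q).injective
      rw [powEquiv_rTensor, LinearEquiv.apply_symm_apply]
      exact ((powEquiv N q).apply_symm_apply _).symm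
  · intro t
    exact congrArg (ε.rTensor N) ((powEquiv N q).symm_apply_apply t)

/-- A free presentation of length two computes the first Tor module. -/
theorem tor_one_presentation {r : ℕ} {M : Type u} [AddCommGroup M] [Module R M]
    (δ1 : (Fin p → R) →ₗ[R] (Fin q → R)) (δ0 : (Fin q → R) →ₗ[R] (Fin r → R))
    (ε : (Fin r → R) →ₗ[R] M) (hε : Surjective ε) (h0 : Exact δ0 ε) (h1 : Exact δ1 δ0) :
    Nonempty (TorM R 1 M N ≃ₗ[R] (LinearMap.ker (act N δ0) ⧸
      (LinearMap.range (act N δ1)).submoduleOf (LinearMap.ker (act N δ0)))) := by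
  obtain ⟨e1⟩ := tor_one (LinearMap.ker ε).subtype ε (Submodule.injective_subtype _) hε
    (LinearMap.exact_subtype_ker_map _) N
  let ε' : (Fin q → R) →ₗ[R] LinearMap.ker ε :=
    δ0.codRestrict (LinearMap.ker ε) fun v => (h0 _).2 ⟨v, rfl⟩
  have hε' : Surjective ε' := by
    rintro ⟨v, hv⟩
    obtain ⟨w, hw⟩ := (h0 v).1 hv
    exact ⟨w, Subtype.ext hw⟩
  have h1' : Exact δ1 ε' := by
    intro v
    rw [← h1 v]
    exact ⟨fun h => congrArg Subtype.val h, fun h => Subtype.ext h⟩
  obtain ⟨π, hπ, hk, hπt⟩ := exists_tensor_presentation N δ1 ε' hε' h1'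
  have key : ∀ v : Fin q → N, powEquiv N r
      ((LinearMap.ker ε).subtype.rTensor N (π v)) = act N δ0 v := by
    intro v
    obtain ⟨t, rfl⟩ := (powEquiv (R := R) N q).surjective v
    have h2 : (LinearMap.ker ε).subtype.rTensor N (ε'.rTensor N t) = δ0.rTensor N t := by
      rw [← LinearMap.comp_apply, ← LinearMap.rTensor_comp]
      rfl
    rw [hπt, h2, powEquiv_rTensor]
  have key' : ∀ v : Fin q → N, act N δ0 v = 0 ↔
      (LinearMap.ker ε).subtype.rTensor N (π v) = 0 := by
    intro v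
    rw [← key]
    exact (powEquiv (R := R) N r).map_eq_zero_iff
  obtain ⟨e2⟩ := exists_equiv_ker_comp (W := (LinearMap.ker ε) ⊗[R] N)
    (U := (Fin r → R) ⊗[R] N) π hπ ((LinearMap.ker ε).subtype.rTensor N) (act N δ0) key' _ hk
  exact ⟨e1.trans e2.symm⟩

end tensor

/-- A resolution by finite free modules. -/
structure FR (R : Type*) [CommRing R] (M : Type*) [AddCommGroup M] [Module R M] where
  /-- ranks -/
  b : ℕ → ℕ
  /-- augmentation -/
  ε : (Fin (b 0) → R) →ₗ[R] M
  /-- differentials -/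
  δ : ∀ i, (Fin (b (i + 1)) → R) →ₗ[R] (Fin (b i) → R)
  surj : Surjective ε
  exact_zero : Exact (δ 0) ε
  exact_succ : ∀ i, Exact (δ (i + 1)) (δ i)

namespace FR

variable {R : Type u} [CommRing R] {M : Type u} [AddCommGroup M] [Module R M] (X : FR R M)
  (N : Type u) [AddCommGroup N] [Module R N]

/-- The cycles. -/
def Z : ∀ i, Submodule R (Fin (X.b i) → N)
  | 0 => ⊤
  | i + 1 => LinearMap.ker (act N (X.δ i))

/-- The boundaries. -/
def B (i : ℕ) : Submodule R (Fin (X.b i) → N) := LinearMap.range (act N (X.δ i))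

theorem B_le_Z (i : ℕ) : X.B N i ≤ X.Z N i := by
  cases i with
  | zero => exact le_top
  | succ i =>
    rintro _ ⟨v, rfl⟩
    change act N (X.δ i) (act N (X.δ (i + 1)) v) = 0
    have h : (X.δ i).comp (X.δ (i + 1)) = 0 := by
      ext1 j
      exact LinearMap.ext fun c => (X.exact_succ i _).2 ⟨_, rfl⟩
    rw [← act_comp, h, act_zero, LinearMap.zero_apply]

/-- The truncated resolution of the first syzygy module. -/
def tail : FR R (LinearMap.ker X.ε) where
  b i := X.b (i + 1)
  ε := (X.δ 0).codRestrict (LinearMap.ker X.ε) fun v => (X.exact_zero _).2 ⟨v, rfl⟩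
  δ i := X.δ (i + 1)
  surj := by
    rintro ⟨v, hv⟩
    obtain ⟨w, hw⟩ := (X.exact_zero v).1 hv
    exact ⟨w, Subtype.ext hw⟩
  exact_zero := by
    intro v
    rw [← X.exact_succ 0 v]
    exact ⟨fun h => congrArg Subtype.val h, fun h => Subtype.ext h⟩
  exact_succ i := X.exact_succ (i + 1)

theorem tor_zero : Nonempty (TorM R 0 M N ≃ₗ[R] (X.Z N 0 ⧸ (X.B N 0).submoduleOf (X.Z N 0))) := by
  obtain ⟨π, hπ, hk, -⟩ := exists_tensor_presentation N (X.δ 0) X.ε X.surj X.exact_zero
  let π' : X.Z N 0 →ₗ[R] M ⊗[R] N := π ∘ₗ (X.Z N 0).subtype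
  have hπ' : Surjective π' := by
    intro t
    obtain ⟨v, rfl⟩ := hπ t
    exact ⟨⟨v, trivial⟩, rfl⟩
  have hk' : LinearMap.ker π' = (X.B N 0).submoduleOf (X.Z N 0) := by
    ext v
    change π v.1 = 0 ↔ v.1 ∈ X.B N 0
    rw [← LinearMap.mem_ker, hk]
    rfl
  exact ⟨torZero M N ≪≫ₗ (LinearMap.quotKerEquivOfSurjective π' hπ').symm ≪≫ₗ
    Submodule.quotEquivOfEq _ _ hk'⟩

theorem tor_one_eq : Nonempty (TorM R 1 M N ≃ₗ[R]
    (X.Z N 1 ⧸ (X.B N 1).submoduleOf (X.Z N 1))) :=
  tor_one_presentation N (X.δ 1) (X.δ 0) X.ε X.surj X.exact_zero (X.exact_succ 0)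

theorem tor_succ_eq (i : ℕ) : ∀ {M : Type u} [AddCommGroup M] [Module R M] (X : FR R M),
    Nonempty (TorM R (i + 1) M N ≃ₗ[R]
      (X.Z N (i + 1) ⧸ (X.B N (i + 1)).submoduleOf (X.Z N (i + 1)))) := by
  induction i with
  | zero => intro M _ _ X; exact X.tor_one_eq N
  | succ i ih =>
    intro M _ _ X
    obtain ⟨e⟩ := tor_shift (LinearMap.ker X.ε).subtype X.ε (Submodule.injective_subtype _) X.surj
      (LinearMap.exact_subtype_ker_map _) N i
    obtain ⟨e'⟩ := ih X.tail
    exact ⟨e ≪≫ₗ e'⟩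

/-- Tor is the homology of the complex obtained from a free resolution. -/
theorem tor_eq (i : ℕ) :
    Nonempty (TorM R i M N ≃ₗ[R] (X.Z N i ⧸ (X.B N i).submoduleOf (X.Z N i))) := by
  cases i with
  | zero => exact X.tor_zero N
  | succ i => exact tor_succ_eq N i X

end FR

end Vale.Agent.P177
end

section

/-!
Finite strict free resolutions of filtered modules over regular local rings.
-/

namespace Vale.Agent.P177

open IsLocalRing Function Pointwise

universe u

/-- The filtered module `(M, F)` has a strict free resolution of length at most `r`. -/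
def FPD {A : Type u} [CommRing A] (I : Ideal A) : ℕ → ∀ (M : Type u) [AddCommGroup M] [Module A M]
    (_ : ℕ → Submodule A M), Prop
  | 0, M, _, _, F => ∃ (b : ℕ) (a : Fin b → ℕ) (φ : (Fin b → A) →ₗ[A] M),
      (∀ n, (wfil (fun k => (I ^ k : Ideal A)) a n).map φ = F n) ∧ LinearMap.ker φ = ⊥
  | r + 1, M, _, _, F => ∃ (b : ℕ) (a : Fin b → ℕ) (φ : (Fin b → A) →ₗ[A] M),
      (∀ n, (wfil (fun k => (I ^ k : Ideal A)) a n).map φ = F n) ∧
      FPD I r (LinearMap.ker φ)
        (fun n => (wfil (fun k => (I ^ k : Ideal A)) a n).comap (LinearMap.ker φ).subtype)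

section lift

variable {A A' : Type u} [CommRing A] [IsLocalRing A] [IsNoetherianRing A] [CommRing A']
  [Algebra A A'] (hq : Surjective (algebraMap A A')) (x : A)
  (hker : RingHom.ker (algebraMap A A') = Ideal.span {x}) (hxm : x ∈ maximalIdeal A)
  (I : Ideal A) (hxI : x ∈ I) (hxreg : ∀ c, x * c = 0 → c = 0)
  (hxs : ∀ m c, x * c ∈ I ^ (m + 1) → c ∈ I ^ m)

variable {K K' : Type u} [AddCommGroup K] [Module A K] [Module.Finite A K] [AddCommGroup K']
  [Module A K'] [Module A' K'] [IsScalarTower A A' K'] (p : K →ₗ[A] K')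
  (hp : Surjective p) (hpk : ∀ v, p v = 0 → ∃ w, v = x • w)
  (F : ℕ → Submodule A K) (F' : ℕ → Submodule A' K') (hF : GoodFil I F)
  (hK0 : ∀ v : K, x • v = 0 → v = 0) (hKs : ∀ n (v : K), x • v ∈ F (n + 1) → v ∈ F n)
  (hF' : ∀ n y, y ∈ F' n ↔ ∃ v ∈ F n, p v = y)

omit [IsLocalRing A] [IsNoetherianRing A] in
include hker in
theorem exists_mul_of_map_eq_zero {b : ℕ} (f : Fin b → A) (h : ∀ j, algebraMap A A' (f j) = 0) :
    ∃ g : Fin b → A, f = x • g := by
  have h1 : ∀ j, ∃ c, f j = x * c := by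
    intro j
    have : f j ∈ RingHom.ker (algebraMap A A') := h j
    rw [hker, Ideal.mem_span_singleton'] at this
    obtain ⟨c, hc⟩ := this
    exact ⟨c, by rw [← hc, mul_comm]⟩
  choose g hg using h1
  exact ⟨g, funext fun j => hg j⟩

omit [IsLocalRing A] [IsNoetherianRing A] in
include hq in
theorem exists_lift_wfil {b : ℕ} (a : Fin b → ℕ) (n : ℕ) (f' : Fin b → A')
    (hf' : f' ∈ wfil (fun k => ((I.map (algebraMap A A')) ^ k : Ideal A')) a n) :
    ∃ f ∈ wfil (fun k => (I ^ k : Ideal A)) a n, ∀ j, algebraMap A A' (f j) = f' j := by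
  rw [mem_wfil] at hf'
  have h1 : ∀ j, ∃ c ∈ I ^ (n - a j), algebraMap A A' c = f' j := by
    intro j
    have := hf' j
    rw [← Ideal.map_pow, Ideal.mem_map_iff_of_surjective _ hq] at this
    exact this
  choose f hf hff using h1
  exact ⟨f, mem_wfil.2 hf, hff⟩

include hq hker hxm hxI hp hpk hF hKs hF' in
/-- Lifting a strict cover modulo `x`. -/
theorem lift_cover {b : ℕ} (a : Fin b → ℕ) (φ' : (Fin b → A') →ₗ[A'] K')
    (hφ' : ∀ n, (wfil (fun k => ((I.map (algebraMap A A')) ^ k : Ideal A')) a n).map φ' = F' n) :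
    ∃ φ : (Fin b → A) →ₗ[A] K, (∀ n, (wfil (fun k => (I ^ k : Ideal A)) a n).map φ = F n) ∧
      (∀ f, p (φ f) = φ' (fun j => algebraMap A A' (f j))) := by
  have h1 : ∀ j, ∃ k ∈ F (a j), p k = φ' (Pi.single j 1) := by
    intro j
    rw [← hF', ← hφ']
    refine ⟨Pi.single j 1, ?_, rfl⟩
    rw [SetLike.mem_coe, mem_wfil]
    intro i
    by_cases hij : i = j
    · subst hij
      simp
    · simp [Pi.single_eq_of_ne hij]
  choose k hk hpkj using h1
  have hcomp : ∀ f, p (lc k f) = φ' (fun j => algebraMap A A' (f j)) := by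
    intro f
    rw [lc_apply, map_sum, LinearMap.pi_apply_eq_sum_univ φ']
    refine Finset.sum_congr rfl fun j _ => ?_
    rw [map_smul, hpkj, algebraMap_smul]
    congr 2
    funext i
    rw [Pi.single_apply]
    simp only [eq_comm]
  refine ⟨lc k, ?_, hcomp⟩
  have hstep : ∀ n, ∀ v ∈ F n, ∃ f ∈ wfil (fun k => (I ^ k : Ideal A)) a n, ∃ w,
      v - lc k f = x • w := by
    intro n v hv
    have h2 : p v ∈ F' n := (hF' n _).2 ⟨v, hv, rfl⟩
    rw [← hφ'] at h2
    obtain ⟨f', hf', hf'v⟩ := h2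
    obtain ⟨f, hf, hff⟩ := exists_lift_wfil hq I a n f' hf'
    refine ⟨f, hf, hpk _ ?_⟩
    rw [map_sub, hcomp]
    have : (fun j => algebraMap A A' (f j)) = f' := funext hff
    rw [this, hf'v, sub_self]
  have hle : ∀ n, (wfil (fun k => (I ^ k : Ideal A)) a n).map (lc k) ≤ F n := by
    rintro n _ ⟨f, hf, rfl⟩
    exact lc_mem hF hk hf
  intro n
  refine le_antisymm (hle n) ?_
  induction n with
  | zero =>
    have h2 : F 0 ≤ (wfil (fun k => (I ^ k : Ideal A)) a 0).map (lc k) ⊔
        Ideal.span {x} • F 0 := by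
      intro v hv
      obtain ⟨f, hf, w, hw⟩ := hstep 0 v hv
      rw [← sub_add_cancel v (lc k f), add_comm]
      refine Submodule.add_mem_sup ⟨f, hf, rfl⟩ ?_
      rw [hw]
      exact Submodule.smul_mem_smul (Ideal.mem_span_singleton_self x) (by rw [hF.top]; trivial)
    refine Submodule.le_of_le_smul_of_le_jacobson_bot ?_ ?_ h2
    · exact IsNoetherian.noetherian _
    · rw [IsLocalRing.jacobson_eq_maximalIdeal ⊥ bot_ne_top, Ideal.span_singleton_le_iff_mem]
      exact hxm
  | succ n ih =>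
    intro v hv
    obtain ⟨f, hf, w, hw⟩ := hstep (n + 1) v hv
    have hw' : w ∈ F n := by
      apply hKs
      rw [← hw]
      exact sub_mem hv (hle _ ⟨f, hf, rfl⟩)
    obtain ⟨g, hg, rfl⟩ := ih hw'
    refine ⟨f + x • g, add_mem hf ?_, ?_⟩
    · exact ((goodFil_self I).weighted a).smul n (Submodule.smul_mem_smul hxI hg)
    · rw [map_add, map_smul, ← hw]
      abel

end lift

/-- Finite strict resolutions lift from `A/x` to `A`. -/
theorem FPD.lift {A A' : Type u} [CommRing A] [IsLocalRing A] [IsNoetherianRing A] [CommRing A']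
    [Algebra A A'] (hq : Surjective (algebraMap A A')) (x : A)
    (hker : RingHom.ker (algebraMap A A') = Ideal.span {x}) (hxm : x ∈ maximalIdeal A)
    (I : Ideal A) (hxI : x ∈ I) (hxreg : ∀ c, x * c = 0 → c = 0)
    (hxs : ∀ m c, x * c ∈ I ^ (m + 1) → c ∈ I ^ m) (r : ℕ) :
    ∀ {K K' : Type u} [AddCommGroup K] [Module A K] [Module.Finite A K] [AddCommGroup K']
      [Module A K'] [Module A' K'] [IsScalarTower A A' K'] (p : K →ₗ[A] K')
      (_ : Surjective p) (_ : ∀ v, p v = 0 → ∃ w, v = x • w)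
      (F : ℕ → Submodule A K) (F' : ℕ → Submodule A' K') (_ : GoodFil I F)
      (_ : ∀ v : K, x • v = 0 → v = 0) (_ : ∀ n (v : K), x • v ∈ F (n + 1) → v ∈ F n)
      (_ : ∀ n y, y ∈ F' n ↔ ∃ v ∈ F n, p v = y),
      FPD (I.map (algebraMap A A')) r K' F' → FPD I r K F := by
  have hq0 : algebraMap A A' x = 0 := by
    have : x ∈ RingHom.ker (algebraMap A A') := hker ▸ Ideal.mem_span_singleton_self x
    exact this
  induction r with
  | zero =>
    intro K K' _ _ _ _ _ _ _ p hp hpk F F' hF hK0 hKs hF' h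
    obtain ⟨b, a, φ', hφ', hinj⟩ := h
    obtain ⟨φ, hφ, hφφ'⟩ := lift_cover hq x hker hxm I hxI p hp hpk F F' hF hKs hF' a φ' hφ'
    refine ⟨b, a, φ, hφ, ?_⟩
    have h1 : LinearMap.ker φ ≤ Ideal.span {x} • LinearMap.ker φ := by
      intro f hf
      have h2 : φ' (fun j => algebraMap A A' (f j)) = 0 := by
        rw [← hφφ', (LinearMap.mem_ker).1 hf, map_zero]
      have h3 : (fun j => algebraMap A A' (f j)) = 0 := by
        have : (fun j => algebraMap A A' (f j)) ∈ LinearMap.ker φ' := h2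
        rw [hinj] at this
        exact this
      obtain ⟨g, rfl⟩ := exists_mul_of_map_eq_zero x hker f (fun j => congrFun h3 j)
      refine Submodule.smul_mem_smul (Ideal.mem_span_singleton_self x) ?_
      rw [LinearMap.mem_ker, map_smul] at hf
      exact hK0 _ hf
    refine Submodule.eq_bot_of_le_smul_of_le_jacobson_bot (Ideal.span {x}) _ ?_ h1 ?_
    · exact IsNoetherian.noetherian _
    · rw [IsLocalRing.jacobson_eq_maximalIdeal ⊥ bot_ne_top, Ideal.span_singleton_le_iff_mem]
      exact hxm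
  | succ r ih =>
    intro K K' _ _ _ _ _ _ _ p hp hpk F F' hF hK0 hKs hF' h
    obtain ⟨b, a, φ', hφ', hrec⟩ := h
    obtain ⟨φ, hφ, hφφ'⟩ := lift_cover hq x hker hxm I hxI p hp hpk F F' hF hKs hF' a φ' hφ'
    refine ⟨b, a, φ, hφ, ?_⟩
    -- the induced map on kernels
    let ψ : (Fin b → A) →ₗ[A] (Fin b → A') :=
      LinearMap.pi fun j => (Algebra.linearMap A A').comp (LinearMap.proj j)
    have hψ : ∀ f, ψ f = fun j => algebraMap A A' (f j) := fun f => rfl
    let p₁ : LinearMap.ker φ →ₗ[A] LinearMap.ker φ' :=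
      LinearMap.codRestrict ((LinearMap.ker φ').restrictScalars A)
        (ψ.comp (LinearMap.ker φ).subtype) (fun f => by
          change φ' (ψ f.1) = 0
          rw [hψ, ← hφφ', (LinearMap.mem_ker).1 f.2, map_zero])
    have hp₁ : ∀ f : LinearMap.ker φ, (p₁ f : Fin b → A') = fun j => algebraMap A A' (f.1 j) :=
      fun f => rfl
    have hlift : ∀ n, ∀ f' ∈ LinearMap.ker φ',
        f' ∈ wfil (fun k => ((I.map (algebraMap A A')) ^ k : Ideal A')) a n →
        ∃ f ∈ LinearMap.ker φ, f ∈ wfil (fun k => (I ^ k : Ideal A)) a n ∧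
          ∀ j, algebraMap A A' (f j) = f' j := by
      intro n f' hf' hf'n
      obtain ⟨f, hf, hff⟩ := exists_lift_wfil hq I a n f' hf'n
      have h1 : p (φ f) = 0 := by
        rw [hφφ']
        have : (fun j => algebraMap A A' (f j)) = f' := funext hff
        rw [this]
        exact hf'
      obtain ⟨w, hw⟩ := hpk _ h1
      have hfn : φ f ∈ F n := by rw [← hφ]; exact ⟨f, hf, rfl⟩
      -- `w` comes from the appropriate step of the filtration
      have h2 : ∃ g, φ g = w ∧ x • g ∈ wfil (fun k => (I ^ k : Ideal A)) a n := by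
        cases n with
        | zero =>
          have hw0 : w ∈ F 0 := by rw [hF.top]; trivial
          rw [← hφ] at hw0
          obtain ⟨g, -, hg⟩ := hw0
          refine ⟨g, hg, ?_⟩
          rw [((goodFil_self I).weighted a).top]
          trivial
        | succ n =>
          rw [hw] at hfn
          have hw0 := hKs n w hfn
          rw [← hφ] at hw0
          obtain ⟨g, hg, hgw⟩ := hw0
          exact ⟨g, hgw, ((goodFil_self I).weighted a).smul n (Submodule.smul_mem_smul hxI hg)⟩
      obtain ⟨g, hgw, hxg⟩ := h2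
      refine ⟨f - x • g, ?_, sub_mem hf hxg, fun j => ?_⟩
      · rw [LinearMap.mem_ker, map_sub, map_smul, hgw, ← hw, sub_self]
      · rw [← hff j]
        simp [hq0]
    refine ih p₁ ?_ ?_ _ _ ?_ ?_ ?_ ?_ hrec
    · rintro ⟨f', hf'⟩
      obtain ⟨f, hf, -, hff⟩ := hlift 0 f' hf' (by
        rw [((goodFil_self (I.map (algebraMap A A'))).weighted a).top]; trivial)
      exact ⟨⟨f, hf⟩, Subtype.ext (funext hff)⟩
    · rintro ⟨f, hf⟩ h0
      have h1 : ∀ j, algebraMap A A' (f j) = 0 := fun j =>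
        congrFun (congrArg Subtype.val h0) j
      obtain ⟨g, rfl⟩ := exists_mul_of_map_eq_zero x hker f h1
      rw [LinearMap.mem_ker, map_smul] at hf
      exact ⟨⟨g, hK0 _ hf⟩, rfl⟩
    · exact ((goodFil_self I).weighted a).comap_subtype _
    · rintro ⟨f, hf⟩ h0
      have h1 : x • f = 0 := congrArg Subtype.val h0
      apply Subtype.ext
      funext j
      exact hxreg _ (congrFun h1 j)
    · rintro n ⟨f, hf⟩ h0
      have h1 : x • f ∈ wfil (fun k => (I ^ k : Ideal A)) a (n + 1) := h0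
      change f ∈ wfil (fun k => (I ^ k : Ideal A)) a n
      rw [mem_wfil] at h1 ⊢
      intro j
      have h2 := h1 j
      by_cases hj : a j ≤ n
      · have h3 : n + 1 - a j = (n - a j) + 1 := by omega
        rw [h3] at h2
        exact hxs _ _ h2
      · have h3 : n - a j = 0 := by omega
        rw [h3]
        simp
    · rintro n ⟨f', hf'⟩
      constructor
      · intro h
        obtain ⟨f, hf, hfn, hff⟩ := hlift n f' hf' h
        exact ⟨⟨f, hf⟩, hfn, Subtype.ext (funext hff)⟩
      · rintro ⟨⟨f, hf⟩, hfn, hff⟩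
        have h1 : f ∈ wfil (fun k => (I ^ k : Ideal A)) a n := hfn
        change f' ∈ wfil (fun k => ((I.map (algebraMap A A')) ^ k : Ideal A')) a n
        rw [mem_wfil] at h1 ⊢
        intro j
        have h2 : f' j = algebraMap A A' (f j) := (congrFun (congrArg Subtype.val hff) j).symm
        rw [h2, ← Ideal.map_pow]
        exact Ideal.mem_map_of_mem _ (h1 j)

end Vale.Agent.P177
end

section

/-!
Every stably filtered module over a regular local ring has a finite strict free resolution.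
-/

namespace Vale.Agent.P177

open IsLocalRing Function Pointwise

universe u

/-- Adapted bases of filtered vector spaces. -/
theorem exists_adapted_basis {K : Type u} [Field K] (N : ℕ) : ∀ (M : Type u) [AddCommGroup M]
    [Module K M] [Module.Finite K M] (F : ℕ → Submodule K M), F 0 = ⊤ → (∀ n, F (n + 1) ≤ F n) →
    F N = ⊥ → ∃ (ι : Type u) (_ : Fintype ι) (b : Module.Basis ι K M) (a : ι → ℕ),
      ∀ n, F n = Submodule.span K (b '' {j | n ≤ a j}) := by
  induction N with
  | zero =>
    intro M _ _ _ F h0 hanti hN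
    have hM : Subsingleton M := by
      rw [← Submodule.subsingleton_iff K, ← subsingleton_iff_bot_eq_top]
      rw [← hN, h0]
    refine ⟨PEmpty, inferInstance, Module.Basis.empty M, PEmpty.elim, fun n => ?_⟩
    exact Subsingleton.elim _ _
  | succ N ih =>
    intro M _ _ _ F h0 hanti hN
    obtain ⟨ι₁, _, b₁, a₁, h₁⟩ := ih (F 1) (fun n => (F (n + 1)).comap (F 1).subtype)
      (by simp) (fun n => Submodule.comap_mono (hanti _)) (by
        rw [hN]
        exact Submodule.ker_subtype _)
    obtain ⟨C, hC⟩ := Submodule.exists_isCompl (F 1)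
    let bC := Module.finBasis K C
    let b := (b₁.prod bC).map (Submodule.prodEquivOfIsCompl (F 1) C hC)
    let e : (ι₁ ⊕ Fin (Module.finrank K C)) → ι₁ ⊕ ULift.{u} (Fin (Module.finrank K C)) :=
      Sum.map id ULift.up
    let eq : (ι₁ ⊕ Fin (Module.finrank K C)) ≃ ι₁ ⊕ ULift.{u} (Fin (Module.finrank K C)) :=
      Equiv.sumCongr (Equiv.refl _) Equiv.ulift.symm
    refine ⟨ι₁ ⊕ ULift.{u} (Fin (Module.finrank K C)), inferInstance, b.reindex eq,
      Sum.elim (fun j => a₁ j + 1) (fun _ => 0), fun n => ?_⟩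
    cases n with
    | zero =>
      have : {j : ι₁ ⊕ ULift.{u} (Fin (Module.finrank K C)) |
          0 ≤ (Sum.elim (fun j => a₁ j + 1) (fun _ => 0) : _ → ℕ) j} = Set.univ := by
        ext j; simp
      rw [this, Set.image_univ, Module.Basis.span_eq, h0]
    | succ n =>
      have h2 : F (n + 1) = ((F (n + 1)).comap (F 1).subtype).map (F 1).subtype := by
        rw [Submodule.map_comap_subtype]
        refine (inf_eq_right.2 ?_).symm
        exact (antitone_nat_of_succ_le hanti) (by omega)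
      rw [h2, h₁ n, Submodule.map_span]
      congr 1
      ext v
      constructor
      · rintro ⟨_, ⟨j, hj, rfl⟩, rfl⟩
        refine ⟨Sum.inl j, ?_, ?_⟩
        · change n + 1 ≤ a₁ j + 1
          exact Nat.succ_le_succ hj
        · simp [b, eq]
      · rintro ⟨j | j, hj, rfl⟩
        · refine ⟨b₁ j, ⟨j, Nat.le_of_succ_le_succ hj, rfl⟩, ?_⟩
          simp [b, eq]
        · exact absurd hj (by simp)

theorem fpd_field {K : Type u} [Field K] (M : Type u) [AddCommGroup M]
    [Module K M] [Module.Finite K M] (F : ℕ → Submodule K M) (hF : GoodFil (⊥ : Ideal K) F) :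
    FPD (⊥ : Ideal K) 0 M F := by
  obtain ⟨n₀, hn₀⟩ := hF.stable
  have hN : F (n₀ + 1) = ⊥ := by rw [← hn₀ n₀ le_rfl, Submodule.bot_smul]
  obtain ⟨ι, _, b, a, hb⟩ := exists_adapted_basis (n₀ + 1) M F hF.top hF.anti hN
  let e := Fintype.equivFin ι
  let b' := b.reindex e
  refine ⟨Fintype.card ι, a ∘ e.symm, b'.equivFun.symm.toLinearMap, fun n => ?_, ?_⟩
  · rw [hb]
    refine le_antisymm ?_ ?_
    · rintro _ ⟨f, hf, rfl⟩
      rw [SetLike.mem_coe, mem_wfil] at hf
      change b'.equivFun.symm f ∈ _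
      rw [Module.Basis.equivFun_symm_apply]
      refine Submodule.sum_mem _ fun j _ => ?_
      by_cases hj : n ≤ a (e.symm j)
      · refine Submodule.smul_mem _ _ (Submodule.subset_span ⟨e.symm j, hj, ?_⟩)
        simp [b']
      · have h1 := hf j
        have h2 : ∃ k, n - (a ∘ e.symm) j = k + 1 := ⟨n - a (e.symm j) - 1, by
          simp only [Function.comp_apply]
          omega⟩
        obtain ⟨k, hk⟩ := h2
        rw [hk, pow_succ, Ideal.mul_bot] at h1
        rw [(Submodule.mem_bot K).1 h1, zero_smul]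
        exact zero_mem _
    · rw [Submodule.span_le]
      rintro _ ⟨j, hj, rfl⟩
      refine ⟨Pi.single (e j) 1, ?_, ?_⟩
      · rw [SetLike.mem_coe, mem_wfil]
        intro i
        by_cases hi : i = e j
        · subst hi
          have : n - (a ∘ e.symm) (e j) = 0 := by
            simp only [Function.comp_apply, Equiv.symm_apply_apply]
            have : n ≤ a j := hj
            omega
          rw [this]
          simp
        · simp [Pi.single_eq_of_ne hi]
      · change b'.equivFun.symm _ = _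
        rw [Module.Basis.equivFun_symm_apply, Finset.sum_eq_single (e j)]
        · simp [b']
        · intro i _ hi
          simp [Pi.single_eq_of_ne hi]
        · simp
  · exact LinearMap.ker_eq_bot.2 b'.equivFun.symm.injective

theorem fpd_of_maximalIdeal_eq_bot {A : Type u} [CommRing A] [IsLocalRing A]
    (h : maximalIdeal A = ⊥) (M : Type u) [AddCommGroup M] [Module A M] [Module.Finite A M]
    (F : ℕ → Submodule A M) (hF : GoodFil (maximalIdeal A) F) :
    FPD (maximalIdeal A) 0 M F := by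
  rw [h] at hF ⊢
  have hf : IsField A := (IsLocalRing.isField_iff_maximalIdeal_eq).2 h
  let _ : Field A := hf.toField
  exact fpd_field M F hF

theorem exists_notMem_sq {A : Type u} [CommRing A] [IsRegularLocalRing A] {d : ℕ}
    (hd : ringKrullDim A = ((d + 1 : ℕ) : WithBot ℕ∞)) :
    ∃ x ∈ maximalIdeal A, x ∉ maximalIdeal A ^ 2 := by
  by_contra hcon
  push Not at hcon
  have h1 : maximalIdeal A ≤ maximalIdeal A • maximalIdeal A := by
    rw [smul_eq_mul, ← pow_two]
    exact hcon
  have h2 : maximalIdeal A = ⊥ := by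
    refine Submodule.eq_bot_of_le_smul_of_le_jacobson_bot (maximalIdeal A) _
      (IsNoetherian.noetherian _) h1 ?_
    rw [IsLocalRing.jacobson_eq_maximalIdeal ⊥ bot_ne_top]
  have h3 : IsField A := (IsLocalRing.isField_iff_maximalIdeal_eq).2 h2
  rw [ringKrullDim_eq_zero_of_isField h3] at hd
  have : 0 = d + 1 := by exact_mod_cast hd
  omega

/-- Existence of finite strict free resolutions over regular local rings. -/
theorem fpd_of_regular (d : ℕ) : ∀ (A : Type u) [CommRing A] [IsRegularLocalRing A],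
    ringKrullDim A = d → ∀ (M : Type u) [AddCommGroup M] [Module A M] [Module.Finite A M]
    (F : ℕ → Submodule A M), GoodFil (maximalIdeal A) F → FPD (maximalIdeal A) d M F := by
  induction d with
  | zero =>
    intro A _ _ hd M _ _ _ F hF
    refine fpd_of_maximalIdeal_eq_bot ?_ M F hF
    obtain ⟨rs, hrs, hlen⟩ := exists_list_maximalIdeal A
    rw [hd] at hlen
    have : rs.length = 0 := by exact_mod_cast hlen
    rw [List.length_eq_zero_iff] at this
    rw [← hrs, this]
    simp [Ideal.ofList]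
  | succ d ih =>
    intro A _ _ hd M _ _ _ F hF
    have hdom : IsDomain A := regular_isDomain A
    obtain ⟨x, hx, hx2⟩ := exists_notMem_sq hd
    obtain ⟨hreg, hdim⟩ := regular_quotient A x hx hx2
    have hx0 : x ≠ 0 := by
      rintro rfl
      exact hx2 (zero_mem _)
    have hdim' : ringKrullDim (A ⧸ Ideal.span {x}) = d := by
      obtain ⟨e, he⟩ := exists_nat_eq_ringKrullDim (A ⧸ Ideal.span {x})
      rw [hd, he] at hdim
      have h1 : e + 1 = d + 1 := by exact_mod_cast hdim
      rw [he]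
      have h2 : e = d := by omega
      rw [h2]
    obtain ⟨b, a, φ, hφ⟩ := exists_strict_cover hF
    refine ⟨b, a, φ, hφ, ?_⟩
    have hmap : (maximalIdeal A).map (algebraMap A (A ⧸ Ideal.span {x})) =
        maximalIdeal (A ⧸ Ideal.span {x}) :=
      map_maximalIdeal_of_surjective _ Ideal.Quotient.mk_surjective
    -- the module modulo `x`
    let K := LinearMap.ker φ
    let FK : ℕ → Submodule A K :=
      fun n => (wfil (fun k => ((maximalIdeal A) ^ k : Ideal A)) a n).comap K.subtype
    have hFK : GoodFil (maximalIdeal A) FK := ((goodFil_self _).weighted a).comap_subtype K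
    let K' := K ⧸ (Ideal.span {x} • ⊤ : Submodule A K)
    let p : K →ₗ[A] K' := Submodule.mkQ _
    have hp : Surjective p := Submodule.mkQ_surjective _
    let F' : ℕ → Submodule (A ⧸ Ideal.span {x}) K' := fun n =>
      { carrier := p '' (FK n)
        add_mem' := by
          rintro _ _ ⟨v, hv, rfl⟩ ⟨w, hw, rfl⟩
          exact ⟨v + w, add_mem hv hw, map_add _ _ _⟩
        zero_mem' := ⟨0, zero_mem _, map_zero _⟩
        smul_mem' := by
          rintro c _ ⟨v, hv, rfl⟩
          obtain ⟨c, rfl⟩ := Ideal.Quotient.mk_surjective c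
          exact ⟨c • v, Submodule.smul_mem _ _ hv, rfl⟩ }
    have hF' : ∀ n y, y ∈ F' n ↔ ∃ v ∈ FK n, p v = y := fun n y => Iff.rfl
    have hgood : GoodFil (maximalIdeal (A ⧸ Ideal.span {x})) F' := by
      have hsm : ∀ n, maximalIdeal (A ⧸ Ideal.span {x}) • F' n ≤ F' (n + 1) := by
        intro n
        rw [Submodule.smul_le]
        rintro c hc _ ⟨v, hv, rfl⟩
        rw [← hmap] at hc
        obtain ⟨c', hc', rfl⟩ := (Ideal.mem_map_iff_of_surjective (algebraMap A _)
          Ideal.Quotient.mk_surjective).1 hc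
        exact ⟨c' • v, hFK.smul n (Submodule.smul_mem_smul hc' hv), rfl⟩
      refine ⟨?_, ?_, hsm, ?_⟩
      · rw [eq_top_iff]
        intro y _
        obtain ⟨v, rfl⟩ := hp y
        exact ⟨v, by rw [hFK.top]; trivial, rfl⟩
      · rintro n _ ⟨v, hv, rfl⟩
        exact ⟨v, hFK.anti n hv, rfl⟩
      · obtain ⟨n₀, hn₀⟩ := hFK.stable
        refine ⟨n₀, fun n hn => le_antisymm (hsm n) ?_⟩
        rintro _ ⟨v, hv, rfl⟩
        rw [← hn₀ n hn] at hv
        refine Submodule.smul_induction_on hv ?_ ?_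
        · intro c hc v hv
          have h1 : p (c • v) = (Ideal.Quotient.mk (Ideal.span {x}) c) • p v := rfl
          rw [h1]
          refine Submodule.smul_mem_smul ?_ ⟨v, hv, rfl⟩
          rw [← hmap]
          exact Ideal.mem_map_of_mem _ hc
        · intro v w hv hw
          rw [map_add]
          exact add_mem hv hw
    have hfin : Module.Finite (A ⧸ Ideal.span {x}) K' := by
      have : Module.Finite A K' := Module.Finite.of_surjective p hp
      exact Module.Finite.of_restrictScalars_finite A _ _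
    have hrec := ih (A ⧸ Ideal.span {x}) hdim' K' F' hgood
    refine FPD.lift (A' := A ⧸ Ideal.span {x}) Ideal.Quotient.mk_surjective x Ideal.mk_ker hx
      (maximalIdeal A) hx (fun c hc => (mul_eq_zero.1 hc).resolve_left hx0)
      (fun m c hc => mem_pow_of_mul_mem hx hx2 hc) d p hp ?_ FK F' hFK ?_ ?_ hF' ?_
    · intro v hv
      have h1 : v ∈ (Ideal.span {x} • ⊤ : Submodule A K) := by
        rwa [← Submodule.Quotient.mk_eq_zero]
      rw [Submodule.ideal_span_singleton_smul] at h1
      obtain ⟨w, -, hw⟩ := h1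
      exact ⟨w, hw.symm⟩
    · rintro ⟨f, hf⟩ h0
      have h1 : x • f = 0 := congrArg Subtype.val h0
      apply Subtype.ext
      funext j
      exact (mul_eq_zero.1 (congrFun h1 j)).resolve_left hx0
    · rintro n ⟨f, hf⟩ h0
      have h1 : x • f ∈ wfil (fun k => ((maximalIdeal A) ^ k : Ideal A)) a (n + 1) := h0
      change f ∈ wfil (fun k => ((maximalIdeal A) ^ k : Ideal A)) a n
      rw [mem_wfil] at h1 ⊢
      intro j
      have h2 := h1 j
      by_cases hj : a j ≤ n
      · have h3 : n + 1 - a j = (n - a j) + 1 := by omega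
        rw [h3] at h2
        exact mem_pow_of_mul_mem hx hx2 h2
      · have h3 : n - a j = 0 := by omega
        rw [h3]
        simp
    · rw [hmap]
      exact hrec

end Vale.Agent.P177
end

section

/-!
Strict free resolutions of filtered modules, indexed by the natural numbers.
-/

namespace Vale.Agent.P177

open Function IsLocalRing

universe u

/-- A strict resolution of a filtered module by finite free filtered modules, of length `r`. -/
structure FRes {A : Type u} [CommRing A] (I : Ideal A) {M : Type u} [AddCommGroup M] [Module A M]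
    (F : ℕ → Submodule A M) (r : ℕ) extends FR A M where
  /-- weights -/
  a : ∀ i, Fin (b i) → ℕ
  strict_ε : ∀ n, (wfil (fun k => (I ^ k : Ideal A)) (a 0) n).map ε = F n
  strict_zero : ∀ n, (wfil (fun k => (I ^ k : Ideal A)) (a 1) n).map (δ 0) =
    LinearMap.ker ε ⊓ wfil (fun k => (I ^ k : Ideal A)) (a 0) n
  strict_succ : ∀ i n, (wfil (fun k => (I ^ k : Ideal A)) (a (i + 2)) n).map (δ (i + 1)) =
    LinearMap.ker (δ i) ⊓ wfil (fun k => (I ^ k : Ideal A)) (a (i + 1)) n
  bound : ∀ i, r < i → b i = 0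

variable {A : Type u} [CommRing A] {I : Ideal A}

theorem eq_zero_of_fin_zero {N : Type*} [AddCommGroup N] {n : ℕ} (h : n = 0) (v : Fin n → N) :
    v = 0 := by
  subst h
  exact Subsingleton.elim _ _

theorem exists_fres_zero {M : Type u} [AddCommGroup M] [Module A M] {F : ℕ → Submodule A M}
    (hF : F 0 = ⊤) (b : ℕ) (a : Fin b → ℕ) (φ : (Fin b → A) →ₗ[A] M)
    (hφ : ∀ n, (wfil (fun k => (I ^ k : Ideal A)) a n).map φ = F n) (hker : LinearMap.ker φ = ⊥) :
    Nonempty (FRes I F 0) := by
  have hsurj : Surjective φ := by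
    rw [← LinearMap.range_eq_top, eq_top_iff, ← hF, ← hφ]
    exact LinearMap.map_le_range
  refine ⟨{
    b := fun
      | 0 => b
      | _ + 1 => 0
    ε := φ
    δ := fun _ => 0
    surj := hsurj
    exact_zero := ?_
    exact_succ := ?_
    a := fun
      | 0 => a
      | _ + 1 => fun _ => 0
    strict_ε := hφ
    strict_zero := ?_
    strict_succ := ?_
    bound := ?_ }⟩
  · intro v
    constructor
    · intro hv
      have : v ∈ LinearMap.ker φ := hv
      rw [hker] at this
      exact ⟨0, by rw [LinearMap.zero_apply]; exact ((Submodule.mem_bot A).1 this).symm⟩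
    · rintro ⟨w, rfl⟩
      rw [LinearMap.zero_apply, map_zero]
  · intro i v
    constructor
    · intro _
      exact ⟨0, (eq_zero_of_fin_zero rfl v).symm ▸ rfl⟩
    · intro _
      rw [LinearMap.zero_apply]
  · intro n
    rw [hker, bot_inf_eq, Submodule.map_zero]
  · intro i n
    rw [Submodule.map_zero]
    refine (eq_bot_iff.2 ?_).symm
    rintro v -
    exact (Submodule.mem_bot A).2 (eq_zero_of_fin_zero rfl v)
  · intro i hi
    obtain ⟨j, rfl⟩ : ∃ j, i = j + 1 := ⟨i - 1, by omega⟩
    rfl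

theorem exists_fres_succ {M : Type u} [AddCommGroup M] [Module A M] {F : ℕ → Submodule A M}
    (hF : F 0 = ⊤) (b : ℕ) (a : Fin b → ℕ) (φ : (Fin b → A) →ₗ[A] M)
    (hφ : ∀ n, (wfil (fun k => (I ^ k : Ideal A)) a n).map φ = F n) (r : ℕ)
    (Y : FRes I (fun n => (wfil (fun k => (I ^ k : Ideal A)) a n).comap
      (LinearMap.ker φ).subtype) r) :
    Nonempty (FRes I F (r + 1)) := by
  have hsurj : Surjective φ := by
    rw [← LinearMap.range_eq_top, eq_top_iff, ← hF, ← hφ]
    exact LinearMap.map_le_range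
  refine ⟨{
    b := fun
      | 0 => b
      | i + 1 => Y.b i
    ε := φ
    δ := fun
      | 0 => (LinearMap.ker φ).subtype ∘ₗ Y.ε
      | i + 1 => Y.δ i
    surj := hsurj
    exact_zero := ?_
    exact_succ := ?_
    a := fun
      | 0 => a
      | i + 1 => Y.a i
    strict_ε := hφ
    strict_zero := ?_
    strict_succ := ?_
    bound := ?_ }⟩
  · intro v
    constructor
    · intro hv
      obtain ⟨w, hw⟩ := Y.surj ⟨v, hv⟩
      exact ⟨w, congrArg Subtype.val hw⟩
    · rintro ⟨w, rfl⟩
      exact (Y.ε w).2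
  · intro i
    cases i with
    | zero =>
      intro v
      rw [← Y.exact_zero v]
      exact ⟨fun h => Subtype.ext h, fun h => congrArg Subtype.val h⟩
    | succ i => exact Y.exact_succ i
  · intro n
    change (wfil (fun k => (I ^ k : Ideal A)) (Y.a 0) n).map ((LinearMap.ker φ).subtype ∘ₗ Y.ε) = _
    rw [Submodule.map_comp, Y.strict_ε, Submodule.map_comap_subtype]
  · intro i n
    cases i with
    | zero =>
      change (wfil (fun k => (I ^ k : Ideal A)) (Y.a 1) n).map (Y.δ 0) =
        LinearMap.ker ((LinearMap.ker φ).subtype ∘ₗ Y.ε) ⊓ wfil (fun k => (I ^ k : Ideal A)) (Y.a 0) n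
      rw [LinearMap.ker_comp_of_ker_eq_bot _ (Submodule.ker_subtype _), Y.strict_zero]
    | succ i => exact Y.strict_succ i n
  · intro i hi
    obtain ⟨j, rfl⟩ : ∃ j, i = j + 1 := ⟨i - 1, by omega⟩
    exact Y.bound j (by omega)

theorem exists_fres (r : ℕ) : ∀ {M : Type u} [AddCommGroup M] [Module A M]
    {F : ℕ → Submodule A M}, F 0 = ⊤ → FPD I r M F → Nonempty (FRes I F r) := by
  induction r with
  | zero =>
    intro M _ _ F hF h
    obtain ⟨b, a, φ, hφ, hk⟩ := h
    exact exists_fres_zero hF b a φ hφ hk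
  | succ r ih =>
    intro M _ _ F hF h
    obtain ⟨b, a, φ, hφ, hrec⟩ := h
    obtain ⟨Y⟩ := ih (by
      rw [((goodFil_self I).weighted a).top]
      exact Submodule.comap_top _) hrec
    exact exists_fres_succ hF b a φ hφ r Y

/-- Strict free resolutions over regular local rings. -/
theorem exists_fres_of_regular {A : Type u} [CommRing A] [IsRegularLocalRing A] {d : ℕ}
    (hd : ringKrullDim A = d) {M : Type u} [AddCommGroup M] [Module A M] [Module.Finite A M]
    {F : ℕ → Submodule A M} (hF : GoodFil (maximalIdeal A) F) :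
    Nonempty (FRes (maximalIdeal A) F d) :=
  exists_fres d hF.top (fpd_of_regular d A hd M F hF)

end Vale.Agent.P177
end

section

/-!
Action of strict resolutions on filtered modules, and filtered homotopies.
-/

namespace Vale.Agent.P177

open Function IsLocalRing

universe u

section act

variable {A : Type*} [CommRing A] {I : Ideal A} {p q : ℕ} {N : Type*} [AddCommGroup N]
  [Module A N] {G : ℕ → Submodule A N}

theorem act_mem (hG : GoodFil I G) {δ : (Fin p → A) →ₗ[A] (Fin q → A)} {a : Fin p → ℕ}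
    {a' : Fin q → ℕ} {r : ℕ} (hδ : ∀ j k, δ (Pi.single j 1) k ∈ I ^ (a j + r - a' k)) {n : ℕ}
    {v : Fin p → N} (hv : v ∈ wfil G a n) : act N δ v ∈ wfil G a' (n + r) := by
  rw [mem_wfil] at hv ⊢
  intro k
  rw [act_apply]
  refine Submodule.sum_mem _ fun j _ => ?_
  exact hG.antitone (by omega) (hG.smul_mem (hδ j k) (hv j))

theorem act_add (δ δ' : (Fin p → A) →ₗ[A] (Fin q → A)) (v : Fin p → N) :
    act N (δ + δ') v = act N δ v + act N δ' v := by
  funext k
  simp only [act_apply, LinearMap.add_apply, Pi.add_apply, add_smul, Finset.sum_add_distrib]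

theorem act_smul_id (c : A) (v : Fin p → N) :
    act N (c • (LinearMap.id : (Fin p → A) →ₗ[A] (Fin p → A))) v = c • v := by
  funext k
  rw [act_apply, Finset.sum_eq_single k]
  · simp
  · intro j _ hj
    simp [Pi.single_eq_of_ne hj.symm]
  · simp

/-- Lifting through a linear map generator by generator. -/
theorem exists_lift_basis {q : ℕ} (δ : (Fin q → A) →ₗ[A] (Fin p → A))
    (g : (Fin p → A) →ₗ[A] (Fin p → A)) (a : Fin p → ℕ) (a' : Fin q → ℕ) (r : ℕ)
    (h : ∀ j, g (Pi.single j 1) ∈ (wfil (fun k => (I ^ k : Ideal A)) a' (a j + r)).map δ) :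
    ∃ s : (Fin p → A) →ₗ[A] (Fin q → A), (∀ j k, s (Pi.single j 1) k ∈ I ^ (a j + r - a' k)) ∧
      δ.comp s = g := by
  choose w hw hwg using h
  refine ⟨lc w, ?_, ?_⟩
  · intro j k
    have h1 : lc w (Pi.single j (1 : A)) = w j := by
      rw [lc_apply, Finset.sum_eq_single j]
      · rw [Pi.single_eq_same, one_smul]
      · intro i _ hi
        rw [Pi.single_eq_of_ne hi, zero_smul]
      · simp
    rw [h1]
    exact mem_wfil.1 (hw j) k
  · refine LinearMap.pi_ext' fun j => LinearMap.ext_ring ?_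
    change δ (lc w (Pi.single j 1)) = g (Pi.single j 1)
    have h1 : lc w (Pi.single j (1 : A)) = w j := by
      rw [lc_apply, Finset.sum_eq_single j]
      · rw [Pi.single_eq_same, one_smul]
      · intro i _ hi
        rw [Pi.single_eq_of_ne hi, zero_smul]
      · simp
    rw [h1, hwg]

theorem single_mem_wfil (a : Fin p → ℕ) (j : Fin p) :
    (Pi.single j 1 : Fin p → A) ∈ wfil (fun k => (I ^ k : Ideal A)) a (a j) := by
  rw [mem_wfil]
  intro k
  by_cases h : k = j
  · subst h
    simp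
  · simp [Pi.single_eq_of_ne h]

end act

section fres

variable {A : Type u} [CommRing A] {I : Ideal A} {M : Type u} [AddCommGroup M] [Module A M]
  {F : ℕ → Submodule A M} {r : ℕ} (X : FRes I F r)

theorem FRes.delta_mem (i : ℕ) (j : Fin (X.b (i + 1))) (k : Fin (X.b i)) :
    X.δ i (Pi.single j 1) k ∈ I ^ (X.a (i + 1) j + 0 - X.a i k) := by
  rw [add_zero]
  have h1 : X.δ i (Pi.single j 1) ∈ wfil (fun k => (I ^ k : Ideal A)) (X.a i) (X.a (i + 1) j) := by
    cases i with
    | zero =>
      have h2 : X.δ 0 (Pi.single j 1) ∈ (wfil (fun k => (I ^ k : Ideal A)) (X.a 1)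
          (X.a 1 j)).map (X.δ 0) := ⟨_, single_mem_wfil _ _, rfl⟩
      rw [X.strict_zero] at h2
      exact h2.2
    | succ i =>
      have h2 : X.δ (i + 1) (Pi.single j 1) ∈ (wfil (fun k => (I ^ k : Ideal A)) (X.a (i + 2))
          (X.a (i + 2) j)).map (X.δ (i + 1)) := ⟨_, single_mem_wfil _ _, rfl⟩
      rw [X.strict_succ] at h2
      exact h2.2
  exact mem_wfil.1 h1 k

theorem FRes.comp_eq_zero (i : ℕ) : (X.δ i).comp (X.δ (i + 1)) = 0 :=
  LinearMap.ext fun v => (X.exact_succ i).apply_apply_eq_zero v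

variable (N : Type u) [AddCommGroup N] [Module A N]

/-- Multiplication by an element of `I ^ m` that kills `M` is homotopic to zero in a filtered
way. -/
theorem FRes.homotopy {c : A} {m : ℕ} (hc : c ∈ I ^ m) (hcM : ∀ v : M, c • v = 0) (i : ℕ) :
    ∃ s : (Fin (X.b i) → A) →ₗ[A] (Fin (X.b (i + 1)) → A),
      (∀ j k, s (Pi.single j 1) k ∈ I ^ (X.a i j + m - X.a (i + 1) k)) ∧
      ((X.δ i).comp s).comp (X.δ i) = c • X.δ i ∧
      ∀ v ∈ X.Z N i, c • v = act N (X.δ i) (act N s v) := by
  have hcf : ∀ (i : ℕ) (j : Fin (X.b i)), c • (Pi.single j 1 : Fin (X.b i) → A) ∈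
      wfil (fun k => (I ^ k : Ideal A)) (X.a i) (X.a i j + m) := fun i j =>
    ((goodFil_self I).weighted (X.a i)).smul_mem hc (single_mem_wfil _ _)
  induction i with
  | zero =>
    obtain ⟨s, hs, hsc⟩ := exists_lift_basis (I := I) (X.δ 0) (c • LinearMap.id) (X.a 0) (X.a 1) m
      (by
        intro j
        rw [X.strict_zero]
        refine ⟨?_, hcf 0 j⟩
        change X.ε (c • Pi.single j 1) = 0
        rw [map_smul, hcM])
    refine ⟨s, hs, ?_, ?_⟩
    · rw [hsc, LinearMap.smul_comp, LinearMap.id_comp]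
    · intro v _
      rw [← act_comp, hsc, act_smul_id]
  | succ i ih =>
    obtain ⟨s, hs, hsc, -⟩ := ih
    obtain ⟨s', hs', hsc'⟩ := exists_lift_basis (I := I) (X.δ (i + 1))
      (c • LinearMap.id - s.comp (X.δ i)) (X.a (i + 1)) (X.a (i + 2)) m
      (by
        intro j
        rw [X.strict_succ]
        refine ⟨?_, ?_⟩
        · change X.δ i (c • Pi.single j 1 - s (X.δ i (Pi.single j 1))) = 0
          have := LinearMap.congr_fun hsc (Pi.single j 1)
          change X.δ i (s (X.δ i (Pi.single j 1))) = c • X.δ i (Pi.single j 1) at this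
          rw [map_sub, map_smul, this, sub_self]
        · refine Submodule.sub_mem _ (hcf _ j) ?_
          rw [mem_wfil]
          intro k
          change s (X.δ i (Pi.single j 1)) k ∈ _
          rw [apply_eq_sum]
          refine Submodule.sum_mem _ fun l _ => ?_
          have h1 := Ideal.mul_mem_mul (X.delta_mem i j l) (hs l k)
          rw [← pow_add] at h1
          exact Ideal.pow_le_pow_right (by omega) h1)
    have hz := X.comp_eq_zero i
    refine ⟨s', hs', ?_, ?_⟩
    · rw [hsc', LinearMap.sub_comp, LinearMap.smul_comp, LinearMap.id_comp, LinearMap.comp_assoc,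
        hz, LinearMap.comp_zero, sub_zero]
    · intro v hv
      have hv' : act N (X.δ i) v = 0 := hv
      rw [← act_comp, hsc', sub_eq_add_neg, act_add, act_smul_id]
      have h1 : act N (-(s.comp (X.δ i))) v = - act N (s.comp (X.δ i)) v := by
        funext k
        simp only [act_apply, LinearMap.neg_apply, Pi.neg_apply, neg_smul, Finset.sum_neg_distrib]
      rw [h1, act_comp, hv', map_zero, neg_zero, add_zero]

variable {N} {G : ℕ → Submodule A N}

theorem FRes.map_wfil_le (hG : GoodFil I G) (i n : ℕ) :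
    (wfil G (X.a (i + 1)) n).map (act N (X.δ i)) ≤ wfil G (X.a i) n := by
  rintro _ ⟨v, hv, rfl⟩
  exact act_mem hG (X.delta_mem i) hv

end fres

end Vale.Agent.P177
end

section

/-!
Hilbert functions of filtered modules over regular local rings.
-/

namespace Vale.Agent.P177

open Function IsLocalRing PowerSeries

universe u

section basic

variable {A : Type*} [CommRing A] {C : Type*} [AddCommGroup C] [Module A C]

theorem rl_top_eq (Y : Submodule A C) : rl ⊤ Y = Module.length A (C ⧸ Y) := by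
  unfold rl
  refine LinearEquiv.length_eq (Submodule.Quotient.equiv _ _ Submodule.topEquiv ?_)
  ext v
  constructor
  · rintro ⟨w, hw, rfl⟩
    exact hw
  · intro hv
    exact ⟨⟨v, trivial⟩, hv, rfl⟩

theorem rl_top_anti {Y Z : Submodule A C} (h : Y ≤ Z) : rl ⊤ Z ≤ rl ⊤ Y := by
  rw [rl_top_eq, rl_top_eq]
  exact Module.length_le_of_surjective (Submodule.factor h) (Submodule.factor_surjective h)

/-- The Hilbert function of a filtration. -/
noncomputable def lamF (G : ℕ → Submodule A C) (n : ℕ) : ℤ := ((rl ⊤ (G n)).toNat : ℤ)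

theorem rl_pi {b : ℕ} (G : Fin b → Submodule A C) :
    rl ⊤ (Submodule.pi Set.univ G : Submodule A (Fin b → C)) = ∑ j, rl ⊤ (G j) := by
  rw [rl_top_eq, LinearEquiv.length_eq (Submodule.quotientPi G), Module.length_pi_of_fintype]
  exact Finset.sum_congr rfl fun j _ => (rl_top_eq _).symm

theorem lamF_wfil (G : ℕ → Submodule A C) (hG : ∀ n, rl ⊤ (G n) ≠ ⊤) {b : ℕ} (a : Fin b → ℕ)
    (n : ℕ) : rl ⊤ (wfil G a n) ≠ ⊤ ∧ lamF (wfil G a) n = ∑ j, lamF G (n - a j) := by
  unfold lamF
  have h1 : rl ⊤ (wfil G a n) = ∑ j, rl ⊤ (G (n - a j)) := rl_pi _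
  have h2 : ∀ j, rl ⊤ (G (n - a j)) = (((rl ⊤ (G (n - a j))).toNat : ℕ) : ℕ∞) := fun j =>
    (ENat.natCast_toNat (hG _)).symm
  have h3 : rl ⊤ (wfil G a n) = ((∑ j, (rl ⊤ (G (n - a j))).toNat : ℕ) : ℕ∞) := by
    rw [h1, Nat.cast_sum]
    exact Finset.sum_congr rfl fun j _ => h2 j
  rw [h3]
  refine ⟨ENat.natCast_ne_top _, ?_⟩
  rw [ENat.toNat_natCast]
  push_cast
  rfl

end basic

section fin

variable {A : Type u} [CommRing A] [IsLocalRing A] [IsNoetherianRing A]
  {M : Type u} [AddCommGroup M] [Module A M] [Module.Finite A M]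

theorem rl_pow_ne_top (n : ℕ) : rl ⊤ (maximalIdeal A ^ n • ⊤ : Submodule A M) ≠ ⊤ := by
  rw [rl_top_eq, Module.length_ne_top_iff]
  refine isFiniteLength_of_pow_smul_eq_zero n ?_
  intro a ha x
  obtain ⟨x, rfl⟩ := Submodule.mkQ_surjective _ x
  rw [← map_smul]
  exact (Submodule.Quotient.mk_eq_zero _).2 (Submodule.smul_mem_smul ha trivial)

theorem GoodFil.rl_ne_top {F : ℕ → Submodule A M} (hF : GoodFil (maximalIdeal A) F) (n : ℕ) :
    rl ⊤ (F n) ≠ ⊤ := by
  have h1 : (maximalIdeal A ^ n • ⊤ : Submodule A M) ≤ F n := by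
    have := hF.pow_smul n 0
    rwa [hF.top, zero_add] at this
  intro h
  have h2 := rl_top_anti h1
  rw [h, top_le_iff] at h2
  exact rl_pow_ne_top n h2

theorem rl_self_ne_top (n : ℕ) : rl ⊤ (maximalIdeal A ^ n : Ideal A) ≠ ⊤ :=
  (goodFil_self (maximalIdeal A)).rl_ne_top n

variable (A M) in
/-- The Hilbert function of a module. -/
noncomputable def lam : ℕ → ℤ := lamF (fun n => (maximalIdeal A ^ n • ⊤ : Submodule A M))

variable (A) in
/-- The Hilbert function of the ring. -/
noncomputable def lamR : ℕ → ℤ := lamF (fun n => (maximalIdeal A ^ n : Ideal A))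

omit [IsLocalRing A] [IsNoetherianRing A] [Module.Finite A M] in
theorem lamF_zero {F : ℕ → Submodule A M} (hF : F 0 = ⊤) : lamF F 0 = 0 := by
  unfold lamF
  rw [hF, rl_eq_zero le_rfl]
  rfl

end fin

section regular

theorem rl_restrictScalars {A B : Type*} [CommRing A] [CommRing B] [Algebra A B] {C : Type*}
    [AddCommGroup C] [Module B C] [Module A C] [IsScalarTower A B C]
    (h : Surjective (algebraMap A B)) (Y : Submodule B C) :
    rl ⊤ (Y.restrictScalars A) = rl ⊤ Y := by
  rw [rl_top_eq, rl_top_eq, LinearEquiv.length_eq (Submodule.Quotient.restrictScalarsEquiv A Y)]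
  exact Module.length_eq_of_surjective h

theorem lamR_succ {A : Type u} [CommRing A] [IsRegularLocalRing A] {x : A}
    (hx : x ∈ maximalIdeal A) (hx2 : x ∉ maximalIdeal A ^ 2)
    [IsLocalRing (A ⧸ Ideal.span {x})] (n : ℕ) :
    rl ⊤ (maximalIdeal A ^ (n + 1) : Ideal A) = rl ⊤ (maximalIdeal A ^ n : Ideal A) +
      rl ⊤ (maximalIdeal (A ⧸ Ideal.span {x}) ^ (n + 1) : Ideal (A ⧸ Ideal.span {x})) := by
  have hdom : IsDomain A := regular_isDomain A
  have hx0 : x ≠ 0 := by
    rintro rfl
    exact hx2 (zero_mem _)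
  have hmap : (maximalIdeal A).map (algebraMap A (A ⧸ Ideal.span {x})) =
      maximalIdeal (A ⧸ Ideal.span {x}) :=
    map_maximalIdeal_of_surjective _ Ideal.Quotient.mk_surjective
  let f : A →ₗ[A] (A ⧸ Ideal.span {x}) := Algebra.linearMap A _
  let g : A →ₗ[A] A := LinearMap.mulLeft A x
  have hg : LinearMap.ker g = ⊥ := by
    rw [LinearMap.ker_eq_bot]
    exact mul_right_injective₀ hx0
  have h1 := rl_map f (X := ⊤) (Y := (maximalIdeal A ^ (n + 1) : Ideal A)) le_top
  have h2 := rl_map g (X := ⊤) (Y := (maximalIdeal A ^ n : Ideal A)) le_top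
  rw [hg, bot_inf_eq, bot_inf_eq, rl_eq_zero le_rfl, zero_add] at h2
  have h3 : LinearMap.ker f ⊓ ⊤ = (⊤ : Submodule A A).map g := by
    rw [inf_top_eq]
    ext v
    constructor
    · intro hv
      have hv' : (Ideal.Quotient.mk (Ideal.span {x})) v = 0 := hv
      rw [Ideal.Quotient.eq_zero_iff_mem, Ideal.mem_span_singleton'] at hv'
      obtain ⟨c, hc⟩ := hv'
      exact ⟨c, trivial, by change x * c = v; rw [← hc, mul_comm]⟩
    · rintro ⟨c, -, rfl⟩
      change (Ideal.Quotient.mk (Ideal.span {x})) (x * c) = 0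
      rw [Ideal.Quotient.eq_zero_iff_mem]
      exact Ideal.mul_mem_right _ _ (Ideal.mem_span_singleton_self x)
  have h4 : LinearMap.ker f ⊓ (maximalIdeal A ^ (n + 1) : Ideal A) =
      Submodule.map g (maximalIdeal A ^ n : Ideal A) := by
    ext v
    constructor
    · rintro ⟨hv, hv2⟩
      have hv' : (Ideal.Quotient.mk (Ideal.span {x})) v = 0 := hv
      rw [Ideal.Quotient.eq_zero_iff_mem, Ideal.mem_span_singleton'] at hv'
      obtain ⟨c, hc⟩ := hv'
      refine ⟨c, mem_pow_of_mul_mem hx hx2 ?_, by change x * c = v; rw [← hc, mul_comm]⟩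
      rw [mul_comm, hc]
      exact hv2
    · rintro ⟨c, hc, rfl⟩
      refine ⟨?_, ?_⟩
      · change (Ideal.Quotient.mk (Ideal.span {x})) (x * c) = 0
        rw [Ideal.Quotient.eq_zero_iff_mem]
        exact Ideal.mul_mem_right _ _ (Ideal.mem_span_singleton_self x)
      · change x * c ∈ maximalIdeal A ^ (n + 1)
        rw [pow_succ']
        exact Ideal.mul_mem_mul hx hc
  rw [h3, h4, ← h2] at h1
  rw [h1]
  congr 1
  have h5 : (⊤ : Submodule A A).map f = ⊤ := by
    rw [Submodule.map_top, LinearMap.range_eq_top]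
    exact Ideal.Quotient.mk_surjective
  have h6 : Submodule.map f (maximalIdeal A ^ (n + 1) : Ideal A) =
      (maximalIdeal (A ⧸ Ideal.span {x}) ^ (n + 1) :
        Ideal (A ⧸ Ideal.span {x})).restrictScalars A := by
    rw [← hmap, ← Ideal.map_pow]
    ext v
    constructor
    · rintro ⟨c, hc, rfl⟩
      exact Ideal.mem_map_of_mem _ hc
    · intro hv
      obtain ⟨c, hc, rfl⟩ := (Ideal.mem_map_iff_of_surjective (algebraMap A _)
        Ideal.Quotient.mk_surjective).1 hv
      exact ⟨c, hc, rfl⟩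
  rw [h5, h6]
  exact rl_restrictScalars Ideal.Quotient.mk_surjective _

theorem mk_lamR (d : ℕ) : ∀ (A : Type u) [CommRing A] [IsRegularLocalRing A],
    ringKrullDim A = d → (1 - X) ^ (d + 1) * PowerSeries.mk (lamR A) = (X : ℤ⟦X⟧) := by
  induction d with
  | zero =>
    intro A _ _ hd
    have hbot : maximalIdeal A = ⊥ := by
      obtain ⟨rs, hrs, hlen⟩ := exists_list_maximalIdeal A
      rw [hd] at hlen
      have : rs.length = 0 := by exact_mod_cast hlen
      rw [List.length_eq_zero_iff] at this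
      rw [← hrs, this]
      simp [Ideal.ofList]
    have h0 : lamR A 0 = 0 := by
      unfold lamR
      exact lamF_zero (by simp)
    have h1 : ∀ n, lamR A (n + 1) = 1 := by
      intro n
      have h2 : rl ⊤ (maximalIdeal A ^ (n + 1) : Ideal A) = 1 := by
        rw [hbot, Ideal.bot_pow (by omega), rl_top_eq]
        have e : (A ⧸ (⊥ : Ideal A)) ≃ₗ[A] (A ⧸ maximalIdeal A) :=
          Submodule.quotEquivOfEq _ _ hbot.symm
        have hs : IsSimpleModule A (A ⧸ maximalIdeal A) :=
          isSimpleModule_iff_isCoatom.2 (Ideal.IsMaximal.out (I := maximalIdeal A))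
        exact e.length_eq.trans (Module.length_eq_one _ _)
      change ((rl ⊤ (maximalIdeal A ^ (n + 1) : Ideal A)).toNat : ℤ) = 1
      rw [h2]
      rfl
    rw [zero_add, pow_one, one_sub_X_mul_mk]
    ext n
    rw [coeff_mk, coeff_X]
    match n with
    | 0 => exact h0
    | 1 =>
      change lamR A (0 + 1) - lamR A 0 = _
      rw [h0, h1]
      simp
    | n + 2 =>
      change lamR A (n + 1 + 1) - lamR A (n + 1) = _
      rw [h1, h1]
      simp
  | succ d ih =>
    intro A _ _ hd
    obtain ⟨x, hx, hx2⟩ := exists_notMem_sq hd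
    obtain ⟨hreg, hdim⟩ := regular_quotient A x hx hx2
    have hdim' : ringKrullDim (A ⧸ Ideal.span {x}) = d := by
      obtain ⟨e, he⟩ := exists_nat_eq_ringKrullDim (A ⧸ Ideal.span {x})
      rw [hd, he] at hdim
      have h1 : e + 1 = d + 1 := by exact_mod_cast hdim
      rw [he]
      have h2 : e = d := by omega
      rw [h2]
    have h1 : dif (lamR A) = lamR (A ⧸ Ideal.span {x}) := by
      funext n
      cases n with
      | zero =>
        change lamR A 0 = _
        unfold lamR
        rw [lamF_zero (by simp), lamF_zero (by simp)]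
      | succ n =>
        change lamR A (n + 1) - lamR A n = _
        unfold lamR lamF
        rw [lamR_succ hx hx2 n, ENat.toNat_add (rl_self_ne_top n) (rl_self_ne_top (n + 1))]
        push_cast
        ring
    rw [pow_succ, mul_assoc, one_sub_X_mul_mk, h1]
    exact ih (A ⧸ Ideal.span {x}) hdim'

end regular

end Vale.Agent.P177
end

section

/-!
The Hilbert function of a filtered module through a strict resolution.
-/

namespace Vale.Agent.P177

open Function IsLocalRing PowerSeries

universe u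

section aug

variable {A : Type u} [CommRing A] {M : Type u} [AddCommGroup M] [Module A M] (X : FR A M)

/-- The terms of the augmented complex. -/
def augC : ℕ → Type u
  | 0 => M
  | i + 1 => Fin (X.b i) → A

instance augGrp : ∀ i, AddCommGroup (augC X i)
  | 0 => inferInstanceAs (AddCommGroup M)
  | i + 1 => inferInstanceAs (AddCommGroup (Fin (X.b i) → A))

instance augMod : ∀ i, Module A (augC X i)
  | 0 => inferInstanceAs (Module A M)
  | i + 1 => inferInstanceAs (Module A (Fin (X.b i) → A))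

/-- The differentials of the augmented complex. -/
def augD : ∀ i, augC X (i + 1) →ₗ[A] augC X i
  | 0 => X.ε
  | i + 1 => X.δ i

end aug

section fres

variable {A : Type u} [CommRing A] {I : Ideal A} {M : Type u} [AddCommGroup M] [Module A M]
  {F : ℕ → Submodule A M} {r : ℕ} (X : FRes I F r)

/-- The numerator polynomial of a strict resolution. -/
noncomputable def FRes.pol : Polynomial ℤ :=
  ∑ i ∈ Finset.range (r + 1), (-1) ^ i * ∑ j, Polynomial.X ^ (X.a i j)

/-- The alternating sum of shifts. -/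
def FRes.psi (f : ℕ → ℤ) (n : ℕ) : ℤ :=
  ∑ i ∈ Finset.range (r + 1), (-1) ^ i * ∑ j, f (n - X.a i j)

theorem mk_shift (f : ℕ → ℤ) (hf : f 0 = 0) (a : ℕ) :
    (PowerSeries.mk fun n => f (n - a)) = (PowerSeries.X : ℤ⟦X⟧) ^ a * PowerSeries.mk f := by
  ext n
  rw [coeff_X_pow_mul', coeff_mk]
  split_ifs with h
  · rw [coeff_mk]
  · rw [Nat.sub_eq_zero_of_le (by omega), hf]

theorem FRes.mk_psi (f : ℕ → ℤ) (hf : f 0 = 0) :
    PowerSeries.mk (X.psi f) = (X.pol : ℤ⟦X⟧) * PowerSeries.mk f := by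
  have h1 : PowerSeries.mk (X.psi f) = ∑ i ∈ Finset.range (r + 1), (-1) ^ i * ∑ j,
      (PowerSeries.mk fun n => f (n - X.a i j)) := by
    ext n
    rw [coeff_mk, map_sum]
    unfold FRes.psi
    refine Finset.sum_congr rfl fun i _ => ?_
    have h2 : ((-1 : ℤ⟦X⟧) ^ i) = PowerSeries.C ((-1 : ℤ) ^ i) := by simp
    rw [h2, coeff_C_mul, map_sum]
    congr 1
    exact Finset.sum_congr rfl fun j _ => by rw [coeff_mk]
  rw [h1]
  unfold FRes.pol
  have h3 : ((∑ i ∈ Finset.range (r + 1), (-1) ^ i * ∑ j, Polynomial.X ^ (X.a i j) :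
      Polynomial ℤ) : ℤ⟦X⟧) = ∑ i ∈ Finset.range (r + 1), (-1) ^ i * ∑ j,
        (PowerSeries.X : ℤ⟦X⟧) ^ (X.a i j) := by
    have h4 : ∀ p : Polynomial ℤ, (p : ℤ⟦X⟧) = Polynomial.coeToPowerSeries.ringHom p :=
      fun p => rfl
    rw [h4, map_sum]
    refine Finset.sum_congr rfl fun i _ => ?_
    rw [map_mul, map_pow, map_neg, map_one, map_sum]
    congr 1
    refine Finset.sum_congr rfl fun j _ => ?_
    rw [map_pow]
    congr 1
    exact Polynomial.coe_X
  rw [h3, Finset.sum_mul]
  refine Finset.sum_congr rfl fun i _ => ?_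
  rw [mul_assoc, Finset.sum_mul]
  congr 1
  exact Finset.sum_congr rfl fun j _ => mk_shift f hf _

/-- The Hilbert function is computed by a strict resolution. -/
theorem FRes.lamF_eq (hR : ∀ n, rl ⊤ (I ^ n : Ideal A) ≠ ⊤) (hF : ∀ n, rl ⊤ (F n) ≠ ⊤) :
    lamF F = X.psi (lamF (fun n => (I ^ n : Ideal A))) := by
  funext n
  let G : ℕ → Submodule A A := fun n => (I ^ n : Ideal A)
  have hG : ∀ n, rl ⊤ (G n) ≠ ⊤ := hR
  let K : ∀ i, Submodule A (augC X.toFR i) := fun _ => ⊤
  let K' : ∀ i, Submodule A (augC X.toFR i)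
    | 0 => F n
    | i + 1 => wfil G (X.a i) n
  have hsub : Subsingleton (augC X.toFR (r + 1 + 1)) := by
    refine ⟨fun v w => ?_⟩
    exact (eq_zero_of_fin_zero (X.bound (r + 1) (by omega)) v).trans
      (eq_zero_of_fin_zero (X.bound (r + 1) (by omega)) w).symm
  have hK'0 : (K' 1).map (augD X.toFR 0) = F n := X.strict_ε n
  have hK'1 : (K' 2).map (augD X.toFR 1) = LinearMap.ker (augD X.toFR 0) ⊓ K' 1 := X.strict_zero n
  have hK'2 : ∀ i, (K' (i + 3)).map (augD X.toFR (i + 2)) =
      LinearMap.ker (augD X.toFR (i + 1)) ⊓ K' (i + 2) := fun i => X.strict_succ i n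
  have hZ' : ∀ i, (K' (i + 1)).map (augD X.toFR i) = Zc (augC X.toFR) (augD X.toFR) i ⊓ K' i := by
    intro i
    match i with
    | 0 =>
      rw [hK'0]
      exact (top_inf_eq _).symm
    | 1 => exact hK'1
    | i + 2 => exact hK'2 i
  have hZ : ∀ i, (K (i + 1)).map (augD X.toFR i) = Zc (augC X.toFR) (augD X.toFR) i ⊓ K i := by
    intro i
    change Submodule.map _ ⊤ = _ ⊓ ⊤
    rw [inf_top_eq, Submodule.map_top]
    match i with
    | 0 => exact LinearMap.range_eq_top.2 X.surj
    | 1 => exact (LinearMap.exact_iff.1 X.exact_zero).symm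
    | i + 2 => exact (LinearMap.exact_iff.1 (X.exact_succ i)).symm
  obtain ⟨-, h2⟩ := rel_euler (augC X.toFR) (augD X.toFR) (r + 1) hsub (by
      intro i v
      match i with
      | 0 => exact X.exact_zero.apply_apply_eq_zero v
      | i + 1 => exact (X.exact_succ i).apply_apply_eq_zero v) K K' (fun i => le_top)
    (fun i => le_top) (fun i => by rw [hZ']; exact inf_le_right) (by
      intro i
      match i with
      | 0 => exact hF n
      | i + 1 => exact (lamF_wfil G hG (X.a i) n).1) (by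
      intro i
      rw [hZ, rl_eq_zero le_rfl]
      exact ENat.zero_ne_top)
  have hz1 : ∀ i, rl (Zc (augC X.toFR) (augD X.toFR) i ⊓ K i)
      ((K (i + 1)).map (augD X.toFR i)) = 0 := fun i => by rw [hZ, rl_eq_zero le_rfl]
  have hz2 : ∀ i, rl (Zc (augC X.toFR) (augD X.toFR) i ⊓ K' i)
      ((K' (i + 1)).map (augD X.toFR i)) = 0 := fun i => by rw [hZ', rl_eq_zero le_rfl]
  simp only [hz1, hz2] at h2
  simp only [ENat.toNat_zero, Nat.cast_zero, mul_zero, Finset.sum_const_zero, sub_self] at h2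
  rw [Finset.sum_range_succ'] at h2
  have h3 : ∀ i, ((rl (K (i + 1)) (K' (i + 1))).toNat : ℤ) = ∑ j, lamF G (n - X.a i j) :=
    fun i => (lamF_wfil G hG (X.a i) n).2
  simp only [h3] at h2
  have h4 : ((rl (K 0) (K' 0)).toNat : ℤ) = lamF F n := rfl
  rw [h4] at h2
  change lamF F n = ∑ i ∈ Finset.range (r + 1), (-1) ^ i * ∑ j, lamF G (n - X.a i j)
  have h5 : ∑ i ∈ Finset.range (r + 1), (-1 : ℤ) ^ (i + 1) * ∑ j, lamF G (n - X.a i j) =
      - ∑ i ∈ Finset.range (r + 1), (-1 : ℤ) ^ i * ∑ j, lamF G (n - X.a i j) := by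
    rw [← Finset.sum_neg_distrib]
    exact Finset.sum_congr rfl fun i _ => by ring
  rw [h5] at h2
  linarith

end fres

end Vale.Agent.P177
end

section

/-!
Degrees of Hilbert functions and dimension.
-/

namespace Vale.Agent.P177

open Function IsLocalRing PowerSeries

universe u

variable {A : Type u} [CommRing A] [IsRegularLocalRing A] {d : ℕ}

theorem lamF_pos {M : Type u} [AddCommGroup M] [Module A M] [Module.Finite A M] [Nontrivial M]
    (n : ℕ) (hn : 1 ≤ n) : 1 ≤ lam A M n := by
  have h1 : rl ⊤ (maximalIdeal A ^ n • ⊤ : Submodule A M) ≠ 0 := by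
    rw [rl_top_eq]
    intro h
    rw [Module.length_eq_zero_iff, Submodule.Quotient.subsingleton_iff] at h
    have h2 : (⊤ : Submodule A M) ≤ maximalIdeal A • ⊤ := by
      obtain ⟨k, rfl⟩ : ∃ k, n = k + 1 := ⟨n - 1, by omega⟩
      rw [pow_succ', mul_smul] at h
      rw [← h]
      refine (smul_mono_right _ le_top).trans ?_
      rw [h]
    have h3 := Submodule.eq_bot_of_le_smul_of_le_jacobson_bot (maximalIdeal A) ⊤
      Module.Finite.fg_top h2 (IsLocalRing.maximalIdeal_le_jacobson _)
    exact bot_ne_top h3.symm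
  have h4 : (rl ⊤ (maximalIdeal A ^ n • ⊤ : Submodule A M)).toNat ≠ 0 := by
    intro h5
    rw [ENat.toNat_eq_zero] at h5
    exact h5.elim h1 (rl_pow_ne_top n)
  change 1 ≤ (((rl ⊤ (maximalIdeal A ^ n • ⊤ : Submodule A M)).toNat : ℕ) : ℤ)
  omega

/-- Numerator of the Hilbert series. -/
theorem mk_lam (hd : ringKrullDim A = d) {M : Type u} [AddCommGroup M] [Module A M]
    [Module.Finite A M]
    (X : FRes (maximalIdeal A) (fun n => (maximalIdeal A ^ n • ⊤ : Submodule A M)) d) :
    (1 - PowerSeries.X) ^ (d + 1) * PowerSeries.mk (lam A M) =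
      ((Polynomial.X * X.pol : Polynomial ℤ) : ℤ⟦X⟧) := by
  have h1 : lam A M = X.psi (lamR A) := X.lamF_eq rl_self_ne_top rl_pow_ne_top
  rw [h1, X.mk_psi _ (by unfold lamR; exact lamF_zero (by simp))]
  rw [mul_left_comm, mk_lamR d A hd]
  push_cast
  ring

theorem exists_HP_lam {M : Type u} [AddCommGroup M] [Module A M]
    [Module.Finite A M] [Nontrivial M] : ∃ D, HP (lam A M) D := by
  obtain ⟨d, hd⟩ := exists_nat_eq_ringKrullDim A
  obtain ⟨X⟩ := exists_fres_of_regular hd (goodFil_pow (maximalIdeal A) M)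
  obtain ⟨D, -, hD⟩ := exists_HP (mk_lam hd X) 1 (fun n hn => lamF_pos n hn)
  exact ⟨D, hD⟩

theorem lam_le_of_surjective {M N : Type u} [AddCommGroup M] [Module A M]
    [Module.Finite A M] [AddCommGroup N] [Module A N] [Module.Finite A N] (f : M →ₗ[A] N)
    (hf : Surjective f) (n : ℕ) : lam A N n ≤ lam A M n := by
  unfold lam lamF
  have h1 : rl ⊤ (maximalIdeal A ^ n • ⊤ : Submodule A N) ≤
      rl ⊤ (maximalIdeal A ^ n • ⊤ : Submodule A M) := by
    rw [rl_top_eq, rl_top_eq]
    refine Module.length_le_of_surjective (Submodule.mapQ _ _ f ?_) ?_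
    · rw [← Submodule.map_le_iff_le_comap, Submodule.map_smul'']
      exact smul_mono_right _ le_top
    · intro v
      obtain ⟨v, rfl⟩ := Submodule.mkQ_surjective _ v
      obtain ⟨w, rfl⟩ := hf v
      exact ⟨Submodule.Quotient.mk w, rfl⟩
  exact_mod_cast ENat.toNat_le_toNat h1 (rl_pow_ne_top n)

/-- Artin-Rees for an injective map. -/
theorem exists_shift {M N : Type u} [AddCommGroup M] [Module A M]
    [Module.Finite A M] [AddCommGroup N] [Module A N] [Module.Finite A N] (f : N →ₗ[A] M)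
    (hf : Injective f) : ∃ c, ∀ n, (maximalIdeal A ^ n • ⊤ : Submodule A M).comap f ≤
      (maximalIdeal A ^ (n - c) • ⊤ : Submodule A N) := by
  have h1 := (goodFil_pow (maximalIdeal A) M).comap_subtype (LinearMap.range f)
  obtain ⟨c, hc⟩ := h1.stable
  have h2 : ∀ k, ((maximalIdeal A ^ (c + k) • ⊤ : Submodule A M).comap
      (LinearMap.range f).subtype) ≤ (maximalIdeal A ^ k • ⊤ : Submodule A (LinearMap.range f)) := by
    intro k
    induction k with
    | zero => simp
    | succ k ih =>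
      have := hc (c + k) (by omega)
      rw [← add_assoc]
      rw [← this, pow_succ', mul_smul]
      exact smul_mono_right _ ih
  refine ⟨c, fun n v hv => ?_⟩
  by_cases hn : n ≤ c
  · rw [Nat.sub_eq_zero_of_le hn]
    simp
  · obtain ⟨k, rfl⟩ : ∃ k, n = c + k := ⟨n - c, by omega⟩
    rw [Nat.add_sub_cancel_left]
    have h3 : (⟨f v, v, rfl⟩ : LinearMap.range f) ∈
        (maximalIdeal A ^ k • ⊤ : Submodule A (LinearMap.range f)) := h2 k hv
    let e := LinearEquiv.ofInjective f hf
    have h4 : e v = ⟨f v, v, rfl⟩ := rfl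
    have h5 : (maximalIdeal A ^ k • ⊤ : Submodule A (LinearMap.range f)) =
        (maximalIdeal A ^ k • ⊤ : Submodule A N).map e.toLinearMap := by
      rw [Submodule.map_smul'', Submodule.map_top, LinearMap.range_eq_top.2 e.surjective]
    rw [h5] at h3
    obtain ⟨w, hw, hwv⟩ := h3
    have : w = v := e.injective (hwv.trans h4.symm)
    rwa [← this]

theorem HP.sub_shift {f : ℕ → ℤ} {D c : ℕ} (hf : HP f D) (h0 : f 0 = 0) (hc : 1 ≤ c) :
    (∀ D', D = D' + 1 → HP (fun n => f n - f (n - c)) D') ∧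
    (D = 0 → ∃ n₀, ∀ n, n₀ ≤ n → f n - f (n - c) = 0) := by
  obtain ⟨P, hP, he⟩ := hf
  have h1 : (PowerSeries.mk fun n => f n - f (n - c)) =
      (1 - PowerSeries.X) * ((∑ i ∈ Finset.range c, PowerSeries.X ^ i) * PowerSeries.mk f) := by
    have h2 : (PowerSeries.mk fun n => f n - f (n - c)) = PowerSeries.mk f -
        (PowerSeries.mk fun n => f (n - c)) := by
      ext n
      simp
    rw [h2, mk_shift f h0, ← mul_assoc, mul_neg_geom_sum]
    ring
  have h3 : (1 - PowerSeries.X) ^ D * (PowerSeries.mk fun n => f n - f (n - c)) =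
      ((P * ∑ i ∈ Finset.range c, Polynomial.X ^ i : Polynomial ℤ) : ℤ⟦X⟧) := by
    have h4 : ((P * ∑ i ∈ Finset.range c, Polynomial.X ^ i : Polynomial ℤ) : ℤ⟦X⟧) =
        (P : ℤ⟦X⟧) * ∑ i ∈ Finset.range c, PowerSeries.X ^ i := by
      have h4 : ∀ p : Polynomial ℤ, (p : ℤ⟦X⟧) = Polynomial.coeToPowerSeries.ringHom p :=
        fun p => rfl
      rw [h4, map_mul, map_sum]
      congr 1
      refine Finset.sum_congr rfl fun i _ => ?_
      rw [map_pow]
      congr 1
      exact Polynomial.coe_X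
    rw [h4, ← he, h1]
    ring
  refine ⟨?_, ?_⟩
  · rintro D' rfl
    refine ⟨P * ∑ i ∈ Finset.range c, Polynomial.X ^ i, ?_, h3⟩
    rw [Polynomial.eval_mul, Polynomial.eval_finsetSum]
    simp only [Polynomial.eval_pow, Polynomial.eval_X, one_pow, Finset.sum_const,
      Finset.card_range, nsmul_eq_mul, mul_one]
    exact mul_pos hP (by exact_mod_cast hc)
  · rintro rfl
    refine ⟨(P * ∑ i ∈ Finset.range c, Polynomial.X ^ i : Polynomial ℤ).natDegree + 1,
      fun n hn => ?_⟩
    have h4 := congrArg (coeff n) h3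
    rw [pow_zero, one_mul, coeff_mk, Polynomial.coeff_coe,
      Polynomial.coeff_eq_zero_of_natDegree_lt (by omega)] at h4
    exact h4

theorem lam_prime_step (P₀ P₁ : Ideal A) [P₀.IsPrime] [P₁.IsPrime] (h : P₀ < P₁) {D E : ℕ}
    (hD : HP (lam A (A ⧸ P₀)) D) (hE : HP (lam A (A ⧸ P₁)) E) : E + 1 ≤ D := by
  obtain ⟨x, hx1, hx0⟩ := SetLike.exists_of_lt h
  let f : (A ⧸ P₀) →ₗ[A] (A ⧸ P₀) := LinearMap.lsmul A (A ⧸ P₀) x
  have hf : Injective f := by
    rw [injective_iff_map_eq_zero]
    intro v hv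
    obtain ⟨v, rfl⟩ := Ideal.Quotient.mk_surjective v
    have h1 : Ideal.Quotient.mk P₀ (x * v) = 0 := hv
    rw [Ideal.Quotient.eq_zero_iff_mem] at h1 ⊢
    exact (Ideal.IsPrime.mem_or_mem ‹_› h1).resolve_left hx0
  obtain ⟨c, hc⟩ := exists_shift f hf
  have key : ∀ n, lam A (A ⧸ P₁) n ≤ lam A (A ⧸ P₀) n - lam A (A ⧸ P₀) (n - (c + 1)) := by
    intro n
    let Y : Submodule A (A ⧸ P₀) := maximalIdeal A ^ n • ⊤
    let W : Submodule A (A ⧸ P₀) := LinearMap.range f ⊔ Y
    have h1 : rl ⊤ Y = rl ⊤ W + rl W Y := rl_add le_sup_right le_top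
    have h2 : rl ⊤ (maximalIdeal A ^ n • ⊤ : Submodule A (A ⧸ P₁)) ≤ rl ⊤ W := by
      rw [rl_top_eq, rl_top_eq]
      have hle : W ≤ (maximalIdeal A ^ n • ⊤ : Submodule A (A ⧸ P₁)).comap
          (Submodule.factor h.le : (A ⧸ P₀) →ₗ[A] (A ⧸ P₁)) := by
        refine sup_le ?_ ?_
        · rintro _ ⟨v, rfl⟩
          obtain ⟨v, rfl⟩ := Ideal.Quotient.mk_surjective v
          have h3 : (Submodule.factor h.le : (A ⧸ P₀) →ₗ[A] (A ⧸ P₁))
              (f (Ideal.Quotient.mk P₀ v)) = 0 := by
            change Ideal.Quotient.mk P₁ (x * v) = 0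
            rw [Ideal.Quotient.eq_zero_iff_mem]
            exact Ideal.mul_mem_right _ _ hx1
          rw [Submodule.mem_comap, h3]
          exact zero_mem _
        · rw [← Submodule.map_le_iff_le_comap, Submodule.map_smul'']
          exact smul_mono_right _ le_top
      refine Module.length_le_of_surjective (Submodule.mapQ _ _ _ hle) ?_
      intro v
      obtain ⟨v, rfl⟩ := Submodule.mkQ_surjective _ v
      obtain ⟨w, rfl⟩ := Submodule.factor_surjective h.le v
      exact ⟨Submodule.Quotient.mk w, rfl⟩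
    have h3 : rl ⊤ (maximalIdeal A ^ (n - (c + 1)) • ⊤ : Submodule A (A ⧸ P₀)) ≤ rl W Y := by
      refine (rl_top_anti (Y := Y.comap f) ?_).trans ?_
      · exact (hc n).trans (Submodule.smul_mono_left (Ideal.pow_le_pow_right (by omega)))
      · rw [rl_top_eq]
        unfold rl
        let g : (A ⧸ P₀) →ₗ[A] W := f.codRestrict W (fun v => le_sup_left (a := LinearMap.range f)
          (b := Y) ⟨v, rfl⟩)
        refine Module.length_le_of_injective (Submodule.mapQ (Y.comap f) (Y.submoduleOf W) g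
          (fun v hv => hv)) ?_
        rw [injective_iff_map_eq_zero]
        intro v hv
        obtain ⟨v, rfl⟩ := Submodule.mkQ_surjective _ v
        have h4 : (Submodule.Quotient.mk (g v) : W ⧸ Y.submoduleOf W) = 0 := hv
        rw [Submodule.Quotient.mk_eq_zero] at h4
        exact (Submodule.Quotient.mk_eq_zero _).2 h4
    have hfin : rl ⊤ Y ≠ ⊤ := rl_pow_ne_top n
    have hW : rl ⊤ W ≠ ⊤ := fun h5 => hfin (by rw [h1, h5, top_add])
    have hWY : rl W Y ≠ ⊤ := fun h5 => hfin (by rw [h1, h5, add_top])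
    have h5 := congrArg ENat.toNat h1
    rw [ENat.toNat_add hW hWY] at h5
    have h6 := ENat.toNat_le_toNat h2 hW
    have h7 := ENat.toNat_le_toNat h3 hWY
    have e1 : lam A (A ⧸ P₁) n =
      ((rl ⊤ (maximalIdeal A ^ n • ⊤ : Submodule A (A ⧸ P₁))).toNat : ℤ) := rfl
    have e2 : lam A (A ⧸ P₀) n = ((rl ⊤ Y).toNat : ℤ) := rfl
    have e3 : lam A (A ⧸ P₀) (n - (c + 1)) =
      ((rl ⊤ (maximalIdeal A ^ (n - (c + 1)) • ⊤ : Submodule A (A ⧸ P₀))).toNat : ℤ) := rfl
    rw [e1, e2, e3]
    omega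
  have h0 : lam A (A ⧸ P₀) 0 = 0 := by
    unfold lam
    exact lamF_zero (by rw [pow_zero, Ideal.one_eq_top, Submodule.top_smul])
  obtain ⟨h1, h2⟩ := hD.sub_shift (c := c + 1) h0 (by omega)
  cases D with
  | zero =>
    obtain ⟨n₀, hn₀⟩ := h2 rfl
    have h3 := key (n₀ + 1)
    rw [hn₀ (n₀ + 1) (by omega)] at h3
    have : Nontrivial (A ⧸ P₁) := Ideal.Quotient.nontrivial_iff.2 (Ideal.IsPrime.ne_top ‹_›)
    have h4 := lamF_pos (A := A) (M := A ⧸ P₁) (n₀ + 1) (by omega)
    omega
  | succ D' =>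
    have := hE.le_of_le (h1 D' rfl) 0 (fun n _ => key n)
    omega

/-- The degree of the Hilbert function bounds the length of chains of primes. -/
theorem chain_le (k : ℕ) : ∀ (l : LTSeries (PrimeSpectrum A)), l.length = k →
    ∀ D, HP (lam A (A ⧸ (l.head).asIdeal)) D → k ≤ D := by
  induction k with
  | zero => exact fun _ _ _ _ => Nat.zero_le _
  | succ k ih =>
    intro l hl D hD
    have hne : l.length ≠ 0 := by omega
    have : Nontrivial (A ⧸ ((l.tail hne).head).asIdeal) :=
      Ideal.Quotient.nontrivial_iff.2 ((l.tail hne).head).2.ne_top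
    obtain ⟨E, hE⟩ := exists_HP_lam (A := A) (M := A ⧸ ((l.tail hne).head).asIdeal)
    have h1 := ih (l.tail hne) (by simp [hl]) E hE
    have hlt : l.head < (l.tail hne).head := by
      rw [RelSeries.head_tail]
      have hs : l ⟨0, by omega⟩ < l ⟨1, by omega⟩ := l.strictMono (by simp [Fin.lt_def])
      have e1 : l.head = l ⟨0, by omega⟩ := rfl
      have e2 : l 1 = l ⟨1, by omega⟩ := by
        congr 1
        ext
        simp [Nat.mod_eq_of_lt (show 1 < l.length + 1 by omega)]
      rw [e1, e2]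
      exact hs
    have h2 := lam_prime_step l.head.asIdeal (l.tail hne).head.asIdeal hlt hD hE
    omega

theorem le_HP_lam {M : Type u} [AddCommGroup M] [Module A M] [Module.Finite A M] {D k : ℕ}
    (hD : HP (lam A M) D) (hk : (k : WithBot ℕ∞) ≤ Module.supportDim A M) : k ≤ D := by
  obtain ⟨l, hl⟩ := Order.le_krullDim_iff.1 hk
  have hmono : StrictMono (Subtype.val : Module.support A M → PrimeSpectrum A) := fun _ _ h => h
  let l' : LTSeries (PrimeSpectrum A) := l.map _ hmono
  have hhead : l'.head = l.head.1 := rfl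
  obtain ⟨m, hm⟩ := Module.mem_support_iff_exists_annihilator.1 l.head.2
  let f : (A ⧸ (A ∙ m).annihilator) →ₗ[A] M := Submodule.liftQ _ (LinearMap.toSpanSingleton A M m)
    (by
      intro a ha
      rw [LinearMap.mem_ker, LinearMap.toSpanSingleton_apply]
      exact (Submodule.mem_annihilator_span_singleton m a).1 ha)
  have hf : Injective f := by
    rw [injective_iff_map_eq_zero]
    intro v hv
    obtain ⟨v, rfl⟩ := Submodule.mkQ_surjective _ v
    have h1 : v • m = 0 := hv
    exact (Submodule.Quotient.mk_eq_zero _).2 ((Submodule.mem_annihilator_span_singleton m v).2 h1)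
  obtain ⟨c, hc⟩ := exists_shift f hf
  let P := l'.head.asIdeal
  have hP : (A ∙ m).annihilator ≤ P := hm
  have : Nontrivial (A ⧸ P) := Ideal.Quotient.nontrivial_iff.2 l'.head.2.ne_top
  obtain ⟨E, hE⟩ := exists_HP_lam (A := A) (M := A ⧸ P)
  have h1 := chain_le k l' (by simpa [l'] using hl) E hE
  refine h1.trans ?_
  have h2 : ∀ n, lam A (A ⧸ P) (n - c) ≤ lam A M n := by
    intro n
    refine (lam_le_of_surjective (Submodule.factor hP) (Submodule.factor_surjective hP) _).trans ?_
    have h3 : rl ⊤ (maximalIdeal A ^ (n - c) • ⊤ : Submodule A (A ⧸ (A ∙ m).annihilator)) ≤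
        rl ⊤ (maximalIdeal A ^ n • ⊤ : Submodule A M) := by
      refine (rl_top_anti (hc n)).trans ?_
      rw [rl_top_eq, rl_top_eq]
      refine Module.length_le_of_injective (Submodule.mapQ _ _ f le_rfl) ?_
      rw [injective_iff_map_eq_zero]
      intro v hv
      obtain ⟨v, rfl⟩ := Submodule.mkQ_surjective _ v
      have h4 : (Submodule.Quotient.mk (f v) : M ⧸ _) = 0 := hv
      rw [Submodule.Quotient.mk_eq_zero] at h4
      exact (Submodule.Quotient.mk_eq_zero _).2 h4
    have h5 := ENat.toNat_le_toNat h3 (rl_pow_ne_top n)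
    unfold lam lamF
    exact_mod_cast h5
  have h3 : HP (fun n => lam A (A ⧸ P) (n - c)) E := by
    obtain ⟨Q, hQ, he⟩ := hE
    refine ⟨Polynomial.X ^ c * Q, by simpa using hQ, ?_⟩
    rw [mk_shift]
    · push_cast
      rw [← he]
      ring
    · unfold lam
      exact lamF_zero (by rw [pow_zero, Ideal.one_eq_top, Submodule.top_smul])
  exact h3.le_of_le hD 0 (fun n _ => h2 n)

/-- Asymptotic behaviour of the tensor Hilbert function. -/
theorem psi_cases (hd : ringKrullDim A = d) {M N : Type u} [AddCommGroup M] [Module A M]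
    [Module.Finite A M] [AddCommGroup N] [Module A N] [Module.Finite A N]
    [Nontrivial M] [Nontrivial N]
    (X : FRes (maximalIdeal A) (fun n => (maximalIdeal A ^ n • ⊤ : Submodule A M)) d) :
    (∃ n₀, ∀ n, n₀ ≤ n → 0 ≤ X.psi (lam A N) n) ∧
    (∀ k l : ℕ, (k : WithBot ℕ∞) ≤ Module.supportDim A M → (l : WithBot ℕ∞) ≤
      Module.supportDim A N → d ≤ k + l → ∃ n₀, ∀ n, n₀ ≤ n → 1 ≤ X.psi (lam A N) n) := by
  obtain ⟨D, hD⟩ := exists_HP_lam (A := A) (M := M)
  obtain ⟨E, hE⟩ := exists_HP_lam (A := A) (M := N)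
  have h0 : lam A N 0 = 0 := by
    unfold lam
    exact lamF_zero (by simp)
  have h1 : PowerSeries.X * PowerSeries.mk (X.psi (lam A N)) =
      (1 - PowerSeries.X) ^ (d + 1) * (PowerSeries.mk (lam A M) * PowerSeries.mk (lam A N)) := by
    rw [X.mk_psi _ h0, ← mul_assoc, ← mul_assoc, mk_lam hd X]
    push_cast
    rfl
  obtain ⟨c1, c2, c3⟩ := prod_cases hD hE h1
  have c3' : d < D + E → ∃ n₀, ∀ n, n₀ ≤ n → 1 ≤ X.psi (lam A N) n := fun h =>
    Filter.tendsto_atTop_atTop.1 (c3 h) 1
  refine ⟨?_, ?_⟩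
  · rcases lt_trichotomy (D + E) d with h | h | h
    · obtain ⟨n₀, hn₀⟩ := c1 h
      exact ⟨n₀, fun n hn => (hn₀ n hn).ge⟩
    · obtain ⟨n₀, hn₀⟩ := c2 h
      exact ⟨n₀, fun n hn => zero_le_one.trans (hn₀ n hn)⟩
    · obtain ⟨n₀, hn₀⟩ := c3' h
      exact ⟨n₀, fun n hn => zero_le_one.trans (hn₀ n hn)⟩
  · intro k l hk hl hkl
    have hkD := le_HP_lam hD hk
    have hlE := le_HP_lam hE hl
    rcases lt_trichotomy (D + E) d with h | h | h
    · omega
    · exact c2 h
    · exact c3' h

end Vale.Agent.P177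
end

section

/-!
Stabilization of the homology of the filtered pieces.
-/

namespace Vale.Agent.P177

open Function IsLocalRing

universe u

section stab

variable {A : Type u} [CommRing A] {I : Ideal A} {M : Type u} [AddCommGroup M] [Module A M]
  {F : ℕ → Submodule A M} {r : ℕ} (X : FRes I F r) {N : Type u} [AddCommGroup N] [Module A N]
  (G : ℕ → Submodule A N)

/-- Cycles of filtration level `n`. -/
def FRes.ZK (n i : ℕ) : Submodule A (Fin (X.b i) → N) := X.Z N i ⊓ wfil G (X.a i) n

/-- Boundaries of filtration level `n`. -/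
def FRes.BK (n i : ℕ) : Submodule A (Fin (X.b i) → N) :=
  (wfil G (X.a (i + 1)) n).map (act N (X.δ i))

variable {G}

theorem FRes.exists_stable [IsNoetherianRing A] [Module.Finite A N] (hG : GoodFil I G) (i : ℕ) :
    ∃ c, ∀ n, c ≤ n → ∀ m, X.ZK G (n + m) i = I ^ m • X.ZK G n i := by
  have h1 := (hG.weighted (X.a i)).comap_subtype (X.Z N i)
  obtain ⟨c, hc⟩ := h1.stable
  have h2 : ∀ n, (((wfil G (X.a i) n).comap (X.Z N i).subtype).map (X.Z N i).subtype) =
      X.ZK G n i := fun n => Submodule.map_comap_subtype _ _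
  have h3 : ∀ n, c ≤ n → X.ZK G (n + 1) i = I • X.ZK G n i := by
    intro n hn
    rw [← h2, ← h2, ← hc n hn, Submodule.map_smul'']
  refine ⟨c, fun n hn m => ?_⟩
  induction m with
  | zero => simp
  | succ m ih => rw [← add_assoc, h3 _ (by omega), ih, pow_succ', mul_smul]

theorem FRes.surj_stab [IsNoetherianRing A] [Module.Finite A N] (hG : GoodFil I G) {x : A}
    {n₀ : ℕ} {I₁ J₁ : Ideal A} (hI : ∀ c ∈ I₁, ∀ v : M, c • v = 0)
    (hJ : ∀ c ∈ J₁, ∀ v : N, c • v = 0)
    (hC : I ^ (n₀ + 1) ≤ (I₁ ⊓ I ^ (n₀ + 1)) ⊔ (J₁ ⊓ I ^ (n₀ + 1)) ⊔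
      Ideal.span {x} * I ^ n₀) (i : ℕ) :
    ∃ k₀, ∀ k, k₀ ≤ k → ∀ z ∈ X.ZK G (k + 1) i, ∃ w ∈ X.ZK G k i, z - x • w ∈
      X.BK G (k + 1) i := by
  obtain ⟨c, hc⟩ := X.exists_stable (N := N) hG i
  refine ⟨c + n₀, fun k hk z hz => ?_⟩
  obtain ⟨m, rfl⟩ : ∃ m, k = m + n₀ := ⟨k - n₀, by omega⟩
  rw [add_assoc, hc m (by omega)] at hz
  refine Submodule.smul_induction_on hz ?_ ?_
  · intro e he w hw
    obtain ⟨ab, hab, y, hy, rfl⟩ := Submodule.mem_sup.1 (hC he)
    obtain ⟨a, ha, b, hb, rfl⟩ := Submodule.mem_sup.1 hab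
    obtain ⟨y, hy', rfl⟩ := Ideal.mem_span_singleton_mul.1 hy
    refine ⟨y • w, ?_, ?_⟩
    · rw [hc m (by omega)]
      exact Submodule.smul_mem_smul hy' hw
    · have hbw : b • w = 0 := by
        funext k
        exact hJ b hb.1 _
      have h1 : (a + b + x * y) • w - x • y • w = a • w := by
        rw [add_smul, add_smul, hbw, mul_smul, add_zero, add_sub_cancel_right]
      rw [h1]
      obtain ⟨s, hs, -, hs2⟩ := X.homotopy N ha.2 (hI a ha.1) i
      rw [hs2 w hw.1]
      exact ⟨_, act_mem hG hs hw.2, rfl⟩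
  · rintro z₁ z₂ ⟨w₁, hw₁, h₁⟩ ⟨w₂, hw₂, h₂⟩
    refine ⟨w₁ + w₂, add_mem hw₁ hw₂, ?_⟩
    have : z₁ + z₂ - x • (w₁ + w₂) = (z₁ - x • w₁) + (z₂ - x • w₂) := by
      rw [smul_add]
      abel
    rw [this]
    exact add_mem h₁ h₂

theorem eventually_const (f : ℕ → ℕ) (k₀ : ℕ) (h : ∀ k, k₀ ≤ k → f (k + 1) ≤ f k) :
    ∃ k₁, k₀ ≤ k₁ ∧ ∀ k, k₁ ≤ k → f (k + 1) = f k := by
  have hanti : ∀ k m, k₀ ≤ k → f (k + m) ≤ f k := by
    intro k m hk
    induction m with
    | zero => exact le_rfl
    | succ m ih => exact (h (k + m) (Nat.le_add_right_of_le hk)).trans ih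
  obtain ⟨m, ⟨k₁, hk₁, rfl⟩, hmin⟩ :
      ∃ m, (∃ k, k₀ ≤ k ∧ f k = m) ∧ ∀ m', (∃ k, k₀ ≤ k ∧ f k = m') → m ≤ m' := by
    classical
    have hex : ∃ m, ∃ k, k₀ ≤ k ∧ f k = m := ⟨_, k₀, le_rfl, rfl⟩
    exact ⟨Nat.find hex, Nat.find_spec hex, fun m' hm' => Nat.find_min' hex hm'⟩
  refine ⟨k₁, hk₁, fun k hk => le_antisymm (h k (by omega)) ?_⟩
  have h1 := hmin _ ⟨k + 1, by omega, rfl⟩
  obtain ⟨m, rfl⟩ : ∃ m, k = k₁ + m := ⟨k - k₁, by omega⟩
  exact (hanti k₁ m hk₁).trans h1

theorem FRes.inj_stab (hG : GoodFil I G) {x : A} (hx : x ∈ I) {i k₀ : ℕ}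
    (hfin : ∀ n, rl (X.ZK G n i) (X.BK G n i) ≠ ⊤)
    (hsurj : ∀ k, k₀ ≤ k → ∀ z ∈ X.ZK G (k + 1) i, ∃ w ∈ X.ZK G k i, z - x • w ∈
      X.BK G (k + 1) i) :
    ∃ k₁, k₀ ≤ k₁ ∧ ∀ k, k₁ ≤ k → ∀ w ∈ X.ZK G k i, x • w ∈ X.BK G (k + 1) i →
      w ∈ X.BK G k i := by
  have hxK : ∀ (k : ℕ) (j : ℕ), ∀ w ∈ wfil G (X.a j) k, x • w ∈ wfil G (X.a j) (k + 1) :=
    fun k j w hw => (hG.weighted (X.a j)).smul _ (Submodule.smul_mem_smul hx hw)
  have hxZ : ∀ k, ∀ w ∈ X.ZK G k i, x • w ∈ X.ZK G (k + 1) i := fun k w hw =>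
    ⟨Submodule.smul_mem _ _ hw.1, hxK k i w hw.2⟩
  have hxB : ∀ k, ∀ w ∈ X.BK G k i, x • w ∈ X.BK G (k + 1) i := by
    rintro k _ ⟨v, hv, rfl⟩
    exact ⟨x • v, hxK k _ v hv, map_smul _ _ _⟩
  let μ : ∀ k, X.ZK G k i →ₗ[A] X.ZK G (k + 1) i := fun k =>
    (LinearMap.lsmul A _ x).restrict (hxZ k)
  let φ : ∀ k, (X.ZK G k i ⧸ (X.BK G k i).submoduleOf (X.ZK G k i)) →ₗ[A]
      (X.ZK G (k + 1) i ⧸ (X.BK G (k + 1) i).submoduleOf (X.ZK G (k + 1) i)) := fun k =>
    Submodule.mapQ _ _ (μ k) (fun v hv => hxB k v.1 hv)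
  have hφ : ∀ k, k₀ ≤ k → Surjective (φ k) := by
    intro k hk v
    obtain ⟨⟨v, hv⟩, rfl⟩ := Submodule.mkQ_surjective _ v
    obtain ⟨w, hw, hvw⟩ := hsurj k hk v hv
    refine ⟨Submodule.Quotient.mk ⟨w, hw⟩, ?_⟩
    change (Submodule.Quotient.mk (μ k ⟨w, hw⟩) : _ ⧸ _) = Submodule.Quotient.mk _
    rw [eq_comm, Submodule.Quotient.eq]
    exact hvw
  obtain ⟨k₁, hk₁, hconst⟩ := eventually_const
    (fun k => (rl (X.ZK G k i) (X.BK G k i)).toNat) k₀ (fun k hk =>
      ENat.toNat_le_toNat (Module.length_le_of_surjective (φ k) (hφ k hk)) (hfin k))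
  refine ⟨k₁, hk₁, fun k hk w hw hxw => ?_⟩
  have h1 := Module.length_eq_add_of_exact (LinearMap.ker (φ k)).subtype (φ k)
    (Submodule.injective_subtype _) (hφ k (by omega)) (LinearMap.exact_subtype_ker_map _)
  have h2 : rl (X.ZK G k i) (X.BK G k i) = rl (X.ZK G (k + 1) i) (X.BK G (k + 1) i) := by
    have := hconst k hk
    rw [← ENat.natCast_toNat (hfin k), ← ENat.natCast_toNat (hfin (k + 1))]
    exact_mod_cast this.symm
  have h3 : Module.length A (LinearMap.ker (φ k)) = 0 := by
    change rl (X.ZK G k i) (X.BK G k i) = _ + rl (X.ZK G (k + 1) i) (X.BK G (k + 1) i) at h1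
    rw [h2] at h1
    have h4 : (0 : ℕ∞) + rl (X.ZK G (k + 1) i) (X.BK G (k + 1) i) =
        Module.length A (LinearMap.ker (φ k)) + rl (X.ZK G (k + 1) i) (X.BK G (k + 1) i) := by
      rw [zero_add]
      exact h1
    exact (WithTop.add_right_cancel (hfin (k + 1)) h4).symm
  rw [Module.length_eq_zero_iff] at h3
  have h5 : (⟨Submodule.Quotient.mk ⟨w, hw⟩, by
      rw [LinearMap.mem_ker]
      exact (Submodule.Quotient.mk_eq_zero _).2 hxw⟩ : LinearMap.ker (φ k)) = 0 :=
    Subsingleton.elim _ _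
  have h6 : (Submodule.Quotient.mk ⟨w, hw⟩ :
      X.ZK G k i ⧸ (X.BK G k i).submoduleOf (X.ZK G k i)) = 0 := congrArg Subtype.val h5
  exact (Submodule.Quotient.mk_eq_zero ((X.BK G k i).submoduleOf (X.ZK G k i))).1 h6

/-- The stabilization statement for one homological degree. -/
def FRes.Stab (G : ℕ → Submodule A N) (x : A) (i k : ℕ) : Prop :=
  (∀ z ∈ X.ZK G (k + 1) i, ∃ w ∈ X.ZK G k i, z - x • w ∈ X.BK G (k + 1) i) ∧
  ∀ w ∈ X.ZK G k i, x • w ∈ X.BK G (k + 1) i → w ∈ X.BK G k i

theorem FRes.exists_stab [IsNoetherianRing A] [Module.Finite A N] (hG : GoodFil I G) {x : A}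
    (hx : x ∈ I) {n₀ : ℕ} {I₁ J₁ : Ideal A} (hI : ∀ c ∈ I₁, ∀ v : M, c • v = 0)
    (hJ : ∀ c ∈ J₁, ∀ v : N, c • v = 0)
    (hC : I ^ (n₀ + 1) ≤ (I₁ ⊓ I ^ (n₀ + 1)) ⊔ (J₁ ⊓ I ^ (n₀ + 1)) ⊔
      Ideal.span {x} * I ^ n₀)
    (hfin : ∀ i n, rl (X.ZK G n i) (X.BK G n i) ≠ ⊤) (t : ℕ) :
    ∃ k₁, ∀ i, i < t → ∀ k, k₁ ≤ k → X.Stab G x i k := by
  have h1 : ∀ i, ∃ k₁, ∀ k, k₁ ≤ k → X.Stab G x i k := by
    intro i
    obtain ⟨k₀, hk₀⟩ := X.surj_stab hG hI hJ hC i
    obtain ⟨k₁, hk₁, h⟩ := X.inj_stab hG hx (hfin i) hk₀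
    exact ⟨k₁, fun k hk => ⟨hk₀ k (by omega), h k hk⟩⟩
  choose k₁ hk₁ using h1
  refine ⟨∑ i ∈ Finset.range t, k₁ i, fun i hi k hk => hk₁ i k (le_trans ?_ hk)⟩
  exact Finset.single_le_sum (f := k₁) (fun _ _ => Nat.zero_le _) (Finset.mem_range.2 hi)

end stab

end Vale.Agent.P177
end

section

/-!
Strict transforms of filtered modules.
-/

namespace Vale.Agent.P177

open Function IsLocalRing

universe u

section basic

variable {A : Type*} [CommRing A] {M M₁ : Type*} [AddCommGroup M] [Module A M]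
  [AddCommGroup M₁] [Module A M₁] {x : A}

/-- `M₁` is the union of the `x ^ (-n) F n`. -/
structure IsStrict (x : A) (F : ℕ → Submodule A M) (ι : M →ₗ[A] M₁) : Prop where
  reg : ∀ v : M₁, x • v = 0 → v = 0
  div : ∀ n, ∀ m ∈ F n, ∃ v, x ^ n • v = ι m
  surj : ∀ v, ∃ n, ∃ m ∈ F n, x ^ n • v = ι m
  ker : ∀ m, ι m = 0 → ∃ l, x ^ l • m = 0

variable {F : ℕ → Submodule A M} {ι : M →ₗ[A] M₁}

theorem IsStrict.reg_pow (h : IsStrict x F ι) (n : ℕ) {v : M₁} (hv : x ^ n • v = 0) : v = 0 := by
  induction n with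
  | zero => simpa using hv
  | succ n ih =>
    rw [pow_succ', mul_smul] at hv
    exact ih (h.reg _ hv)

theorem IsStrict.cancel (h : IsStrict x F ι) (n : ℕ) {v w : M₁} (hv : x ^ n • v = x ^ n • w) :
    v = w := by
  rw [← sub_eq_zero]
  apply h.reg_pow n
  rw [smul_sub, hv, sub_self]

/-- Division by `x ^ n`. -/
noncomputable def IsStrict.divMap (h : IsStrict x F ι) (n : ℕ) : F n →ₗ[A] M₁ where
  toFun m := (h.div n m.1 m.2).choose
  map_add' m m' := by
    apply h.cancel n
    rw [smul_add, (h.div n _ (m + m').2).choose_spec, (h.div n _ m.2).choose_spec,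
      (h.div n _ m'.2).choose_spec]
    exact map_add ι _ _
  map_smul' c m := by
    apply h.cancel n
    rw [(h.div n _ (c • m).2).choose_spec, smul_comm, RingHom.id_apply,
      (h.div n _ m.2).choose_spec]
    exact map_smul ι _ _

theorem IsStrict.divMap_spec (h : IsStrict x F ι) (n : ℕ) (m : F n) :
    x ^ n • h.divMap n m = ι m := (h.div n m.1 m.2).choose_spec

/-- The weighted version of a map. -/
def wmap (x : A) (ι : M →ₗ[A] M₁) {b : ℕ} (a : Fin b → ℕ) : (Fin b → M) →ₗ[A] (Fin b → M₁) where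
  toFun f j := x ^ a j • ι (f j)
  map_add' f g := by
    funext j
    simp
  map_smul' c f := by
    funext j
    simp only [Pi.smul_apply, map_smul, RingHom.id_apply]
    exact smul_comm _ _ _

theorem wmap_apply {b : ℕ} (a : Fin b → ℕ) (f : Fin b → M) (j : Fin b) :
    wmap x ι a f j = x ^ a j • ι (f j) := rfl

theorem pow_smul_mem {F : ℕ → Submodule A M} (hxF : ∀ n, ∀ m ∈ F n, x • m ∈ F (n + 1)) {n : ℕ}
    {m : M} (hm : m ∈ F n) (k : ℕ) : x ^ k • m ∈ F (n + k) := by
  induction k with
  | zero => simpa using hm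
  | succ k ih =>
    rw [pow_succ', mul_smul, ← add_assoc]
    exact hxF _ _ ih

theorem IsStrict.weighted (h : IsStrict x F ι) (hanti : Antitone F)
    (hxF : ∀ n, ∀ m ∈ F n, x • m ∈ F (n + 1)) {b : ℕ} (a : Fin b → ℕ) :
    IsStrict x (wfil F a) (wmap x ι a) where
  reg v hv := by
    funext j
    exact h.reg _ (congrFun hv j)
  div n m hm := by
    rw [mem_wfil] at hm
    have h1 : ∀ j, ∃ v, x ^ n • v = x ^ a j • ι (m j) := by
      intro j
      rcases le_total (a j) n with hj | hj
      · obtain ⟨v, hv⟩ := h.div _ _ (hm j)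
        refine ⟨v, ?_⟩
        rw [← hv, ← mul_smul, ← pow_add]
        congr 2
        omega
      · refine ⟨x ^ (a j - n) • ι (m j), ?_⟩
        rw [← mul_smul, ← pow_add]
        congr 2
        omega
    choose v hv using h1
    exact ⟨v, funext fun j => hv j⟩
  surj v := by
    have h1 : ∀ j, ∃ n, ∃ m ∈ F n, x ^ n • v j = ι m := fun j => h.surj (v j)
    choose n m hm hv using h1
    refine ⟨∑ j, (n j + a j), fun j => x ^ (∑ i, (n i + a i) - n j - a j) • m j, ?_, ?_⟩
    · rw [mem_wfil]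
      intro j
      have hj : n j + a j ≤ ∑ i, (n i + a i) := Finset.single_le_sum
        (f := fun i => n i + a i) (fun _ _ => Nat.zero_le _) (Finset.mem_univ j)
      exact hanti (by omega) (pow_smul_mem hxF (hm j) _)
    · funext j
      have hj : n j + a j ≤ ∑ i, (n i + a i) := Finset.single_le_sum
        (f := fun i => n i + a i) (fun _ _ => Nat.zero_le _) (Finset.mem_univ j)
      rw [wmap_apply, map_smul, ← hv j, ← mul_smul, ← mul_smul, ← pow_add, ← pow_add]
      change x ^ _ • v j = _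
      congr 2
      omega
  ker m hm := by
    have h1 : ∀ j, ∃ l, x ^ l • m j = 0 := fun j => h.ker _ (h.reg_pow _ (congrFun hm j))
    choose l hl using h1
    refine ⟨∑ j, l j, ?_⟩
    funext j
    obtain ⟨e, he⟩ := Nat.exists_eq_add_of_le (Finset.single_le_sum (f := l)
      (fun _ _ => Nat.zero_le _) (Finset.mem_univ j))
    change x ^ (∑ j, l j) • m j = 0
    rw [he, add_comm, pow_add, mul_smul, hl, smul_zero]

end basic

section compare

variable {A : Type*} [CommRing A] {C₂ C₁ E₂ E₁ : Type*} [AddCommGroup C₂] [Module A C₂]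
  [AddCommGroup C₁] [Module A C₁] [AddCommGroup E₂] [Module A E₂] [AddCommGroup E₁] [Module A E₁]
  {x : A} {K₂ : ℕ → Submodule A C₂} {K₁ : ℕ → Submodule A C₁} {ι₂ : C₂ →ₗ[A] E₂}
  {ι₁ : C₁ →ₗ[A] E₁}

theorem strict_homology (h₂ : IsStrict x K₂ ι₂) (h₁ : IsStrict x K₁ ι₁) {D : C₂ →ₗ[A] C₁}
    {D₁ : E₂ →ₗ[A] E₁} (hD : ∀ v, D₁ (ι₂ v) = ι₁ (D v))
    (hx₂ : ∀ n, ∀ m ∈ K₂ n, x • m ∈ K₂ (n + 1)) (hx₁ : ∀ n, ∀ m ∈ K₁ n, x • m ∈ K₁ (n + 1))
    {Z : Submodule A C₁} {Z₁ : Submodule A E₁}
    (zA : ∀ (v : E₁) (n : ℕ), ∀ m ∈ K₁ n, x ^ n • v = ι₁ m → v ∈ Z₁ → ∃ e, x ^ e • m ∈ Z)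
    (zB : ∀ (v : E₁) (n : ℕ), ∀ m ∈ K₁ n, x ^ n • v = ι₁ m → m ∈ Z → v ∈ Z₁)
    {k : ℕ} (hs : ∀ k', k ≤ k' → ∀ z ∈ Z ⊓ K₁ (k' + 1), ∃ w ∈ Z ⊓ K₁ k', z - x • w ∈
      (K₂ (k' + 1)).map D)
    (hi : ∀ k', k ≤ k' → ∀ w ∈ Z ⊓ K₁ k', x • w ∈ (K₂ (k' + 1)).map D → w ∈ (K₂ k').map D) :
    Nonempty (((Z ⊓ K₁ k : Submodule A C₁) ⧸ ((K₂ k).map D).submoduleOf (Z ⊓ K₁ k)) ≃ₗ[A]
      (Z₁ ⧸ (LinearMap.range D₁).submoduleOf Z₁)) := by
  have hs' : ∀ e, ∀ z ∈ Z ⊓ K₁ (k + e), ∃ w ∈ Z ⊓ K₁ k, z - x ^ e • w ∈ (K₂ (k + e)).map D := by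
    intro e
    induction e with
    | zero =>
      intro z hz
      exact ⟨z, hz, by simp⟩
    | succ e ih =>
      intro z hz
      obtain ⟨w, hw, u, hu, hzw⟩ := hs (k + e) (by omega) z hz
      obtain ⟨w', hw', u', hu', hww'⟩ := ih w hw
      refine ⟨w', hw', u + x • u', add_mem hu (hx₂ _ _ hu'), ?_⟩
      rw [map_add, map_smul, hzw, hww', smul_sub, pow_succ', mul_smul]
      abel
  have hi' : ∀ e, ∀ w ∈ Z ⊓ K₁ k, x ^ e • w ∈ (K₂ (k + e)).map D → w ∈ (K₂ k).map D := by
    intro e
    induction e with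
    | zero =>
      intro w _ h
      simpa using h
    | succ e ih =>
      intro w hw h
      apply ih w hw
      refine hi (k + e) (by omega) _ ⟨Submodule.smul_mem _ _ hw.1, pow_smul_mem hx₁ hw.2 e⟩ ?_
      rw [← mul_smul, ← pow_succ']
      exact h
  let g : (Z ⊓ K₁ k : Submodule A C₁) →ₗ[A] Z₁ :=
    ((h₁.divMap k).comp (Submodule.inclusion inf_le_right)).codRestrict Z₁ (fun v =>
      zB _ k v.1 v.2.2 (h₁.divMap_spec k _) v.2.1)
  have hg : ∀ v, x ^ k • (g v).1 = ι₁ v.1 := fun v => h₁.divMap_spec k ⟨v.1, v.2.2⟩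
  let π : (Z ⊓ K₁ k : Submodule A C₁) →ₗ[A] (Z₁ ⧸ (LinearMap.range D₁).submoduleOf Z₁) :=
    (Submodule.mkQ _).comp g
  have hπ : Surjective π := by
    intro v
    obtain ⟨⟨v, hv⟩, rfl⟩ := Submodule.mkQ_surjective _ v
    obtain ⟨n, m, hm, hvm⟩ := h₁.surj v
    obtain ⟨e, he⟩ := zA v n m hm hvm hv
    have hz1 : x ^ (e + k) • m ∈ Z ⊓ K₁ (k + (n + e)) := by
      refine ⟨?_, ?_⟩
      · rw [add_comm, pow_add, mul_smul]
        exact Submodule.smul_mem _ _ he
      · have := pow_smul_mem hx₁ hm (e + k)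
        have e1 : n + (e + k) = k + (n + e) := by omega
        rwa [e1] at this
    obtain ⟨w, hw, u, hu, hzw⟩ := hs' (n + e) _ hz1
    obtain ⟨u₁, hu₁⟩ := h₂.div _ _ hu
    have key : v - D₁ u₁ = (g ⟨w, hw⟩).1 := by
      apply h₁.cancel (k + (n + e))
      rw [smul_sub, ← map_smul, hu₁, hD, hzw, map_sub, map_smul, map_smul, ← hvm, ← mul_smul,
        ← pow_add]
      have e2 : e + k + n = k + (n + e) := by omega
      have e3 : x ^ (k + (n + e)) • (g ⟨w, hw⟩).1 = x ^ (n + e) • ι₁ w := by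
        rw [← hg ⟨w, hw⟩, ← mul_smul, ← pow_add, add_comm]
      rw [e2, sub_sub_cancel, e3]
    refine ⟨⟨w, hw⟩, ?_⟩
    change (Submodule.Quotient.mk (g ⟨w, hw⟩) : Z₁ ⧸ (LinearMap.range D₁).submoduleOf Z₁) =
      Submodule.Quotient.mk ⟨v, hv⟩
    rw [eq_comm, Submodule.Quotient.eq]
    change v - (g ⟨w, hw⟩).1 ∈ LinearMap.range D₁
    rw [← key, sub_sub_cancel]
    exact ⟨u₁, rfl⟩
  have hk : LinearMap.ker π = ((K₂ k).map D).submoduleOf (Z ⊓ K₁ k) := by
    ext w
    constructor
    · intro hw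
      have hw' : (Submodule.Quotient.mk (g w) : Z₁ ⧸ (LinearMap.range D₁).submoduleOf Z₁) = 0 := hw
      rw [Submodule.Quotient.mk_eq_zero] at hw'
      obtain ⟨u₁, hu₁⟩ := hw'
      have hu₁' : D₁ u₁ = (g w).1 := hu₁
      obtain ⟨n, u, hu, hun⟩ := h₂.surj u₁
      have h3 : ι₁ (x ^ n • w.1 - x ^ k • D u) = 0 := by
        rw [map_sub, map_smul, map_smul, ← hg w, ← hD, ← hun, map_smul, hu₁', smul_comm, sub_self]
      obtain ⟨l, hl⟩ := h₁.ker _ h3
      rw [smul_sub, ← mul_smul, ← mul_smul, ← pow_add, ← pow_add, sub_eq_zero] at hl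
      refine hi' (l + n) w.1 w.2 ?_
      rw [hl, ← map_smul]
      refine ⟨_, ?_, rfl⟩
      have h4 := pow_smul_mem hx₂ hu (l + k)
      have e1 : n + (l + k) = k + (l + n) := by omega
      rwa [e1] at h4
    · rintro ⟨u, hu, huw⟩
      have huw' : D u = w.1 := huw
      obtain ⟨u₁, hu₁⟩ := h₂.div _ _ hu
      change (Submodule.Quotient.mk (g w) : Z₁ ⧸ (LinearMap.range D₁).submoduleOf Z₁) = 0
      rw [Submodule.Quotient.mk_eq_zero]
      refine ⟨u₁, ?_⟩
      change D₁ u₁ = (g w).1
      apply h₁.cancel k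
      rw [← map_smul, hu₁, hD, huw', hg]
  exact ⟨(Submodule.quotEquivOfEq _ _ hk.symm).trans (LinearMap.quotKerEquivOfSurjective π hπ)⟩

/-- Exactness of the strict transforms of a strict exact sequence. -/
theorem strict_exact (h₂ : IsStrict x K₂ ι₂) (h₁ : IsStrict x K₁ ι₁) {D : C₂ →ₗ[A] C₁}
    {D₁ : E₂ →ₗ[A] E₁} (hD : ∀ v, D₁ (ι₂ v) = ι₁ (D v))
    (hx₁ : ∀ n, ∀ m ∈ K₁ n, x • m ∈ K₁ (n + 1))
    {Z : Submodule A C₁} {Z₁ : Submodule A E₁}
    (zA : ∀ (v : E₁) (n : ℕ), ∀ m ∈ K₁ n, x ^ n • v = ι₁ m → v ∈ Z₁ → ∃ e, x ^ e • m ∈ Z)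
    (hex : ∀ n, (K₂ n).map D = Z ⊓ K₁ n) : Z₁ ≤ LinearMap.range D₁ := by
  intro v hv
  obtain ⟨n, m, hm, hvm⟩ := h₁.surj v
  obtain ⟨e, he⟩ := zA v n m hm hvm hv
  have hz1 : x ^ e • m ∈ (K₂ (n + e)).map D := by
    rw [hex]
    exact ⟨he, pow_smul_mem hx₁ hm e⟩
  obtain ⟨u, hu, hum⟩ := hz1
  obtain ⟨u₁, hu₁⟩ := h₂.div _ _ hu
  refine ⟨u₁, ?_⟩
  apply h₁.cancel (n + e)
  rw [← map_smul, hu₁, hD, hum, map_smul, ← hvm, ← mul_smul, ← pow_add, add_comm]

variable {C₀ E₀ : Type*} [AddCommGroup C₀] [Module A C₀] [AddCommGroup E₀] [Module A E₀]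
  {K₀ : ℕ → Submodule A C₀} {ι₀ : C₀ →ₗ[A] E₀}

theorem zA_ker (h₀ : IsStrict x K₀ ι₀) {D : C₁ →ₗ[A] C₀} {D₁ : E₁ →ₗ[A] E₀}
    (hD : ∀ v, D₁ (ι₁ v) = ι₀ (D v)) (v : E₁) (n : ℕ) (m : C₁)
    (hvm : x ^ n • v = ι₁ m) (hv : v ∈ LinearMap.ker D₁) : ∃ e, x ^ e • m ∈ LinearMap.ker D := by
  obtain ⟨l, hl⟩ := h₀.ker (D m) (by
    rw [← hD, ← hvm, map_smul]
    have : D₁ v = 0 := hv
    rw [this, smul_zero])
  exact ⟨l, by rw [LinearMap.mem_ker, map_smul, hl]⟩

theorem zB_ker (h₀ : IsStrict x K₀ ι₀) {D : C₁ →ₗ[A] C₀} {D₁ : E₁ →ₗ[A] E₀}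
    (hD : ∀ v, D₁ (ι₁ v) = ι₀ (D v)) (v : E₁) (n : ℕ) (m : C₁)
    (hvm : x ^ n • v = ι₁ m) (hm : m ∈ LinearMap.ker D) : v ∈ LinearMap.ker D₁ := by
  apply h₀.reg_pow n
  rw [← map_smul, hvm, hD]
  have : D m = 0 := hm
  rw [this, map_zero]

end compare

end Vale.Agent.P177
end

section

/-!
The chart as a strict transform, and strict transforms of modules.
-/

namespace Vale.Agent.P177

open IsLocalRing Function TensorProduct

universe u

section inv

variable {A : Type u} [CommRing A] {d : ℕ} (x c : Fin d → A)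

/-- The chart maps to the localization at the equation of the exceptional divisor. -/
theorem exists_chart_away (L : Type*) [CommRing L] [Algebra A L]
    (hL : IsUnit (algebraMap A L (x0 x c))) :
    ∃ f : Chart x c →+* L, ∀ a, f (algebraMap A _ a) = algebraMap A L a := by
  obtain ⟨u, hu⟩ := hL
  have hu1 : algebraMap A L (x0 x c) * (u⁻¹ : Lˣ) = 1 := by rw [← hu, Units.mul_inv]
  refine ⟨cLift x c (algebraMap A L) (algebraMap A L (x0 x c))
    (fun i => algebraMap A L (x i) * (u⁻¹ : Lˣ)) ?_ ?_, fun a => cLift_algebraMap _ _ _ _ _ a⟩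
  · intro i
    rw [mul_left_comm, hu1, mul_one]
  · rw [← hu1]
    unfold x0
    rw [map_sum, Finset.sum_mul]
    refine Finset.sum_congr rfl fun i _ => ?_
    rw [map_mul]
    ring

variable {x c}

open LaurentPolynomial in
theorem laurent_C_injective {R : Type*} [CommRing R] :
    Injective (C : R →+* LaurentPolynomial R) := by
  intro a b h
  have h1 := congrArg (fun p : LaurentPolynomial R => p.coeff 0) h
  simpa using h1

end inv

section reg

variable {A : Type u} [CommRing A] [IsRegularLocalRing A] {d : ℕ} (hd : ringKrullDim A = d)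
  {x : Fin d → A} (hx : Ideal.span (Set.range x) = maximalIdeal A) (c : Fin d → A)

include hd hx in
open LaurentPolynomial in
theorem chart_x0_regular (v : Chart x c) (hv : algebraMap A (Chart x c) (x0 x c) * v = 0) :
    v = 0 := by
  let _ := (chartPhi x c).toAlgebra
  have hloc : IsLocalization.Away (eXi x c) (LaurentPolynomial (Chart x c)) :=
    chart_isLocalization x c
  obtain ⟨⟨F, ⟨_, n, rfl⟩⟩, hF⟩ := IsLocalization.surj (Submonoid.powers (eXi x c))
    (C v : LaurentPolynomial (Chart x c))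
  change C v * chartPhi x c (eXi x c ^ n) = chartPhi x c F at hF
  have hTn : chartPhi x c (eXi x c ^ n) = T n := by
    rw [map_pow, chartPhi_eXi, T_pow]
    simp
  have h1 : chartPhi x c (eT x * F) = 0 := by
    rw [map_mul, ← hF, chartPhi_eT, mul_mul_mul_comm, ← map_mul, hv, map_zero, zero_mul]
  have h2 : algebraMap (ERees x) (LaurentPolynomial (Chart x c)) (eT x * F) =
      algebraMap (ERees x) (LaurentPolynomial (Chart x c)) 0 := by
    rw [map_zero]
    exact h1
  obtain ⟨⟨_, m, rfl⟩, hm⟩ := IsLocalization.exists_of_eq (M := Submonoid.powers (eXi x c)) h2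
  have h3 : eT x * (eXi x c ^ m * F) = 0 := by
    have : eXi x c ^ m * (eT x * F) = 0 := by rw [hm, mul_zero]
    rw [← this]
    ring
  have h4 := eT_regular hd hx _ h3
  have h5 : T m * (C v * T n) = (0 : LaurentPolynomial (Chart x c)) := by
    rw [← hTn, hF]
    have h6 := congrArg (chartPhi x c) h4
    rw [map_mul, map_pow, chartPhi_eXi, T_pow, map_zero] at h6
    simpa using h6
  have h6 : C v * T n = (0 : LaurentPolynomial (Chart x c)) :=
    (isUnit_T _).mul_right_eq_zero.1 h5
  have h7 : (C v : LaurentPolynomial (Chart x c)) = 0 := (isUnit_T _).mul_left_eq_zero.1 h6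
  apply laurent_C_injective
  rw [h7, map_zero]

include hx in
theorem chart_div (n : ℕ) (a : A) (ha : a ∈ maximalIdeal A ^ n) :
    ∃ v : Chart x c, (algebraMap A (Chart x c) (x0 x c)) ^ n * v = algebraMap A _ a := by
  rw [← hx, Ideal.mem_span_pow_iff_exists_isHomogeneous] at ha
  obtain ⟨F, hF, rfl⟩ := ha
  refine ⟨cMk x c (MvPolynomial.aeval (eY x) F), ?_⟩
  rw [← mk_eT, ← map_pow, ← map_mul, ← algebraMap_eval_of_isHomogeneous F n hF]
  rfl

include hx in
theorem x0_mem : x0 x c ∈ maximalIdeal A := by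
  unfold x0
  refine Ideal.sum_mem _ fun i _ => Ideal.mul_mem_left _ _ ?_
  rw [← hx]
  exact Ideal.subset_span ⟨i, rfl⟩

include hx in
theorem chart_surj (v : Chart x c) : ∃ n, ∃ a ∈ maximalIdeal A ^ n,
    (algebraMap A (Chart x c) (x0 x c)) ^ n * v = algebraMap A _ a := by
  have hx0 := x0_mem hx c
  refine chart_induction (p := fun v => ∃ n, ∃ a ∈ maximalIdeal A ^ n,
    (algebraMap A (Chart x c) (x0 x c)) ^ n * v = algebraMap A _ a) ?_ ?_ ?_ ?_ v
  · intro a
    exact ⟨0, a, by simp, by simp⟩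
  · intro i
    refine ⟨1, x i, ?_, ?_⟩
    · rw [pow_one, ← hx]
      exact Ideal.subset_span ⟨i, rfl⟩
    · rw [pow_one, algebraMap_chart]
  · rintro v w ⟨n, a, ha, hv⟩ ⟨m, b, hb, hw⟩
    refine ⟨n + m, x0 x c ^ m * a + x0 x c ^ n * b, ?_, ?_⟩
    · refine add_mem ?_ ?_
      · rw [pow_add, mul_comm (maximalIdeal A ^ n)]
        exact Ideal.mul_mem_mul (Ideal.pow_mem_pow hx0 m) ha
      · rw [pow_add]
        exact Ideal.mul_mem_mul (Ideal.pow_mem_pow hx0 n) hb
    · rw [map_add, map_mul, map_mul, ← hv, ← hw, map_pow, map_pow]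
      ring
  · rintro v w ⟨n, a, ha, hv⟩ ⟨m, b, hb, hw⟩
    refine ⟨n + m, a * b, ?_, ?_⟩
    · rw [pow_add]
      exact Ideal.mul_mem_mul ha hb
    · rw [map_mul, ← hv, ← hw]
      ring

include hd hx in
/-- The chart is the strict transform of the ring. -/
theorem chart_isStrict : IsStrict (x0 x c) (fun k => (maximalIdeal A ^ k : Ideal A))
    (Algebra.linearMap A (Chart x c)) where
  reg v hv := by
    rw [Algebra.smul_def] at hv
    exact chart_x0_regular hd hx c v hv
  div n a ha := by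
    obtain ⟨v, hv⟩ := chart_div hx c n a ha
    refine ⟨v, ?_⟩
    rw [Algebra.smul_def, map_pow, hv]
    rfl
  surj v := by
    obtain ⟨n, a, ha, hv⟩ := chart_surj hx c v
    refine ⟨n, a, ha, ?_⟩
    rw [Algebra.smul_def, map_pow, hv]
    rfl
  ker a ha := by
    obtain ⟨f, hf⟩ := exists_chart_away x c (Localization.Away (x0 x c))
      (IsLocalization.Away.algebraMap_isUnit (x0 x c))
    have h1 : algebraMap A (Localization.Away (x0 x c)) a = 0 := by
      rw [← hf]
      change f (Algebra.linearMap A (Chart x c) a) = 0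
      rw [ha, map_zero]
    obtain ⟨⟨_, n, rfl⟩, hn⟩ := (IsLocalization.map_eq_zero_iff (Submonoid.powers (x0 x c))
      (Localization.Away (x0 x c)) a).1 h1
    exact ⟨n, hn⟩

end reg

end Vale.Agent.P177
end

section

/-!
Quotients by the power torsion of an element.
-/

namespace Vale.Agent.P177

open IsLocalRing Function TensorProduct

universe u

section tors

variable {S : Type u} [CommRing S] (t : S) (W : Type u) [AddCommGroup W] [Module S W]

/-- Elements killed by a power of `t`. -/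
def tors : Submodule S W where
  carrier := {w | ∃ n : ℕ, t ^ n • w = 0}
  zero_mem' := ⟨0, by simp⟩
  add_mem' := by
    rintro v w ⟨n, hn⟩ ⟨m, hm⟩
    refine ⟨n + m, ?_⟩
    rw [smul_add, pow_add, mul_smul, mul_smul, hm, smul_zero, add_zero, smul_comm, hn, smul_zero]
  smul_mem' := by
    rintro c w ⟨n, hn⟩
    exact ⟨n, by rw [smul_comm, hn, smul_zero]⟩

theorem mem_tors {w : W} : w ∈ tors t W ↔ ∃ n : ℕ, t ^ n • w = 0 := Iff.rfl

/-- The quotient by the power torsion. -/
abbrev St := W ⧸ tors t W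

variable {t W}

theorem St_reg (v : St t W) (hv : t • v = 0) : v = 0 := by
  obtain ⟨w, rfl⟩ := Submodule.mkQ_surjective _ v
  have h1 : (Submodule.Quotient.mk (t • w) : St t W) = 0 := hv
  rw [Submodule.Quotient.mk_eq_zero] at h1
  obtain ⟨n, hn⟩ := h1
  refine (Submodule.Quotient.mk_eq_zero _).2 ⟨n + 1, ?_⟩
  rw [pow_succ, mul_smul]
  exact hn

theorem tors_unit_mul {t t' : S} (u : Sˣ) (h : t' = u * t) : tors t' W = tors t W := by
  ext w
  rw [mem_tors, mem_tors]
  refine exists_congr fun n => ?_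
  rw [h, mul_pow, mul_smul]
  have : IsUnit ((u : S) ^ n) := (u ^ n).isUnit
  constructor
  · intro h1
    have h2 : ((u⁻¹ : Sˣ) : S) ^ n • ((u : S) ^ n • t ^ n • w) = 0 := by rw [h1, smul_zero]
    rw [← mul_smul, ← mul_pow, Units.inv_mul, one_pow, one_smul] at h2
    exact h2
  · intro h1
    rw [h1, smul_zero]

theorem St_congr {W' : Type u} [AddCommGroup W'] [Module S W'] (e : W ≃ₗ[S] W') :
    Nonempty (St t W ≃ₗ[S] St t W') := by
  refine ⟨Submodule.Quotient.equiv _ _ e ?_⟩
  ext w
  constructor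
  · rintro ⟨v, ⟨n, hn⟩, rfl⟩
    refine ⟨n, ?_⟩
    have := congrArg e hn
    rw [map_smul, map_zero] at this
    exact this
  · rintro ⟨n, hn⟩
    refine ⟨e.symm w, ⟨n, ?_⟩, e.apply_symm_apply w⟩
    rw [← map_smul, hn, map_zero]

theorem St_unit {t' : S} (u : Sˣ) (h : t' = u * t) : Nonempty (St t' W ≃ₗ[S] St t W) :=
  ⟨Submodule.quotEquivOfEq _ _ (tors_unit_mul u h)⟩

/-- The power torsion commutes with flat base change. -/
theorem St_baseChange {S' : Type u} [CommRing S'] [Algebra S S'] [Module.Flat S S'] :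
    Nonempty ((S' ⊗[S] St t W) ≃ₗ[S'] St (algebraMap S S' t) (S' ⊗[S] W)) := by
  let π : (S' ⊗[S] W) →ₗ[S'] (S' ⊗[S] St t W) := (Submodule.mkQ (tors t W)).baseChange S'
  have hπ : Surjective π := by
    change Surjective ((Submodule.mkQ (tors t W)).lTensor S')
    exact LinearMap.lTensor_surjective _ (Submodule.mkQ_surjective _)
  have hk : LinearMap.ker π = tors (algebraMap S S' t) (S' ⊗[S] W) := by
    ext z
    constructor
    · intro hz
      have hex : Exact ((tors t W).subtype.lTensor S') ((Submodule.mkQ (tors t W)).lTensor S') :=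
        lTensor_exact S' (LinearMap.exact_subtype_mkQ _) (Submodule.mkQ_surjective _)
      obtain ⟨y, rfl⟩ := (hex z).1 hz
      induction y with
      | zero => rw [map_zero]; exact zero_mem _
      | add y y' hy hy' =>
        rw [map_add]
        refine add_mem (hy ?_) (hy' ?_)
        · exact (hex _).2 ⟨_, rfl⟩
        · exact (hex _).2 ⟨_, rfl⟩
      | tmul s w =>
        obtain ⟨n, hn⟩ := w.2
        refine ⟨n, ?_⟩
        rw [LinearMap.lTensor_tmul, ← map_pow, algebraMap_smul, ← TensorProduct.tmul_smul]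
        change s ⊗ₜ (t ^ n • (w : W)) = 0
        rw [hn, TensorProduct.tmul_zero]
    · rintro ⟨n, hn⟩
      let f : W →ₗ[S] W := LinearMap.lsmul S W (t ^ n)
      have hex : Exact ((LinearMap.ker f).subtype.lTensor S') (f.lTensor S') :=
        Module.Flat.lTensor_exact S' (LinearMap.exact_subtype_ker_map f)
      have hf : ∀ z : S' ⊗[S] W, f.lTensor S' z = (algebraMap S S' t) ^ n • z := by
        intro z
        induction z with
        | zero => rw [map_zero, smul_zero]
        | add y y' hy hy' => rw [map_add, smul_add, hy, hy']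
        | tmul s w =>
          rw [LinearMap.lTensor_tmul, ← map_pow, algebraMap_smul, ← TensorProduct.tmul_smul]
          rfl
      obtain ⟨y, rfl⟩ := (hex z).1 ((hf z).trans hn)
      clear hn
      induction y with
      | zero => rw [map_zero]; exact zero_mem _
      | add y y' hy hy' =>
        rw [map_add]
        exact add_mem hy hy'
      | tmul s w =>
        change (Submodule.mkQ (tors t W)).lTensor S' (s ⊗ₜ (w : W)) = 0
        rw [LinearMap.lTensor_tmul]
        have h1 : (Submodule.mkQ (tors t W)) (w : W) = 0 := by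
          rw [Submodule.mkQ_apply, Submodule.Quotient.mk_eq_zero]
          exact ⟨n, w.2⟩
        rw [h1, TensorProduct.tmul_zero]
  exact ⟨((Submodule.quotEquivOfEq _ _ hk.symm).trans
    (LinearMap.quotKerEquivOfSurjective π hπ)).symm⟩

end tors

section strict

variable {A S : Type u} [CommRing A] [CommRing S] [Algebra A S] (x : A) (M : Type u)
  [AddCommGroup M] [Module A M]

/-- The strict transform of a module on a chart. -/
abbrev StM := St (algebraMap A S x) (S ⊗[A] M)

variable (S) in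
/-- The canonical map to the strict transform. -/
noncomputable def stMap : M →ₗ[A] StM (S := S) x M :=
  ((tors (algebraMap A S x) (S ⊗[A] M)).mkQ.restrictScalars A).comp (TensorProduct.mk A S M 1)

variable {x M} {I : Ideal A}

theorem stMap_isStrict (hS : IsStrict x (fun k => (I ^ k : Ideal A)) (Algebra.linearMap A S))
    (hx : x ∈ I) (f : S →+* Localization.Away x)
    (hf : ∀ a, f (algebraMap A S a) = algebraMap A _ a) :
    IsStrict x (fun n => (I ^ n • ⊤ : Submodule A M)) (stMap S x M) := by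
  let q : (S ⊗[A] M) →ₗ[S] StM (S := S) x M := (tors (algebraMap A S x) (S ⊗[A] M)).mkQ
  have hq : ∀ m : M, stMap S x M m = q (1 ⊗ₜ m) := fun m => rfl
  have hmul : ∀ (n : ℕ) (v : StM (S := S) x M), x ^ n • v = (algebraMap A S x) ^ n • v := by
    intro n v
    rw [← map_pow, algebraMap_smul]
  constructor
  · intro v hv
    rw [← algebraMap_smul S x v] at hv
    exact St_reg v hv
  · intro n m hm
    refine Submodule.smul_induction_on hm ?_ ?_
    · intro a ha m _
      obtain ⟨v, hv⟩ := hS.div n a ha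
      refine ⟨v • stMap S x M m, ?_⟩
      rw [← smul_assoc, hv, map_smul]
      exact algebraMap_smul S a _
    · rintro m m' ⟨v, hv⟩ ⟨v', hv'⟩
      exact ⟨v + v', by rw [smul_add, hv, hv', map_add]⟩
  · intro v
    obtain ⟨w, rfl⟩ := Submodule.mkQ_surjective _ v
    change ∃ n, ∃ m ∈ _, x ^ n • q w = _
    induction w with
    | zero => exact ⟨0, 0, zero_mem _, by rw [map_zero, map_zero, smul_zero]⟩
    | add w w' hw hw' =>
      obtain ⟨n, m, hm, hwm⟩ := hw
      obtain ⟨n', m', hm', hwm'⟩ := hw'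
      refine ⟨n + n', x ^ n' • m + x ^ n • m', ?_, ?_⟩
      · refine add_mem ?_ ?_
        · rw [add_comm, pow_add, mul_smul]
          exact Submodule.smul_mem_smul (Ideal.pow_mem_pow hx n') hm
        · rw [pow_add, mul_smul]
          exact Submodule.smul_mem_smul (Ideal.pow_mem_pow hx n) hm'
      · rw [map_add, map_add, map_smul, map_smul, ← hwm, ← hwm', smul_add, ← mul_smul,
          ← mul_smul, ← pow_add, ← pow_add, add_comm n' n]
    | tmul s m =>
      obtain ⟨n, a, ha, hs⟩ := hS.surj s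
      refine ⟨n, a • m, Submodule.smul_mem_smul ha trivial, ?_⟩
      have h1 : x ^ n • q (s ⊗ₜ m) = q ((x ^ n • s) ⊗ₜ m) := by
        rw [hmul, ← map_smul, TensorProduct.smul_tmul', smul_eq_mul, Algebra.smul_def, map_pow]
      have h2 : (Algebra.linearMap A S) a = a • (1 : S) := by
        rw [Algebra.linearMap_apply, Algebra.algebraMap_eq_smul_one]
      rw [h1, hs, hq, TensorProduct.tmul_smul, TensorProduct.smul_tmul', h2]
  · intro m hm
    rw [hq] at hm
    have h1 : (Submodule.Quotient.mk ((1 : S) ⊗ₜ[A] m) : StM (S := S) x M) = 0 := hm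
    rw [Submodule.Quotient.mk_eq_zero] at h1
    obtain ⟨n, hn⟩ := h1
    rw [← map_pow, algebraMap_smul, ← TensorProduct.tmul_smul] at hn
    let L := Localization.Away x
    let fA : S →ₐ[A] L := { f with commutes' := hf }
    have h2 : (1 : L) ⊗ₜ[A] (x ^ n • m) = 0 := by
      have := congrArg (fA.toLinearMap.rTensor M) hn
      rw [LinearMap.rTensor_tmul, map_zero] at this
      change f 1 ⊗ₜ[A] (x ^ n • m) = 0 at this
      rwa [map_one] at this
    have h3 : IsLocalizedModule (Submonoid.powers x) (TensorProduct.mk A L M 1) :=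
      (isLocalizedModule_iff_isBaseChange (Submonoid.powers x) L _).2
        (TensorProduct.isBaseChange A M L)
    obtain ⟨⟨_, k, rfl⟩, hk⟩ := (IsLocalizedModule.eq_zero_iff (Submonoid.powers x)
      (TensorProduct.mk A L M 1)).1 h2
    refine ⟨k + n, ?_⟩
    rw [pow_add, mul_smul]
    exact hk

end strict

end Vale.Agent.P177
end

section

/-!
Localizations of the chart and of the extended Rees algebra.
-/

namespace Vale.Agent.P177

open IsLocalRing Function TensorProduct

universe u

section laurent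

open LaurentPolynomial

variable {S : Type u} [CommRing S] (P : Ideal S)

/-- Extension of an ideal to Laurent polynomials. -/
noncomputable def lExt : Ideal (LaurentPolynomial S) := P.map (C : S →+* LaurentPolynomial S)

theorem lExt_eq : lExt P = (P.map (Polynomial.C : S →+* Polynomial S)).map
    (algebraMap (Polynomial S) (LaurentPolynomial S)) := by
  rw [Ideal.map_map]
  unfold lExt
  congr 1
  ext a : 1
  rw [RingHom.comp_apply, LaurentPolynomial.algebraMap_eq_toLaurent, Polynomial.toLaurent_C]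

instance lExt_isPrime [P.IsPrime] : (lExt P).IsPrime := by
  rw [lExt_eq]
  refine IsLocalization.isPrime_of_isPrime_disjoint
    (Submonoid.powers (Polynomial.X : Polynomial S)) _ _ inferInstance ?_
  rw [Set.disjoint_left]
  rintro _ ⟨n, rfl⟩ h
  have h1 := Ideal.mem_map_C_iff.1 h n
  simp only [Polynomial.coeff_X_pow_self] at h1
  exact (Ideal.IsPrime.ne_top ‹P.IsPrime›) ((Ideal.eq_top_iff_one P).2 h1)

theorem lExt_comap [P.IsMaximal] : P = (lExt P).comap (C : S →+* LaurentPolynomial S) := by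
  refine Ideal.IsMaximal.eq_of_le ‹_› ?_ Ideal.le_comap_map
  have h1 : P.IsPrime := Ideal.IsMaximal.isPrime ‹_›
  exact (Ideal.comap_isPrime (C : S →+* LaurentPolynomial S) (lExt P)).ne_top

theorem coeff_mem_of_sum_mem (a : ℕ → S) (n : ℕ)
    (h : ∑ i ∈ Finset.range n, (C (a i) * T i : LaurentPolynomial S) ∈ lExt P) :
    ∀ i, i < n → a i ∈ P := by
  let u : (LaurentPolynomial (S ⧸ P))ˣ := (isUnit_T 1).unit
  let κ : LaurentPolynomial S →+* LaurentPolynomial (S ⧸ P) :=
    eval₂ ((C : (S ⧸ P) →+* LaurentPolynomial (S ⧸ P)).comp (Ideal.Quotient.mk P)) u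
  have hκ : ∀ (r : S) (i : ℕ), κ (C r * T i) = C (Ideal.Quotient.mk P r) * T i := by
    intro r i
    have h1 := eval₂_C_mul_T_n ((C : (S ⧸ P) →+* LaurentPolynomial (S ⧸ P)).comp
      (Ideal.Quotient.mk P)) u r i
    refine h1.trans ?_
    rw [RingHom.comp_apply]
    congr 1
    change (T 1 : LaurentPolynomial (S ⧸ P)) ^ i = T i
    rw [T_pow]
    simp
  have hle : lExt P ≤ RingHom.ker κ := by
    unfold lExt
    rw [Ideal.map_le_iff_le_comap]
    intro r hr
    have h1 := hκ r 0
    rw [Nat.cast_zero, T_zero, mul_one] at h1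
    change κ (C r) = 0
    rw [h1, Ideal.Quotient.eq_zero_iff_mem.2 hr, map_zero, zero_mul]
  have h1 : κ (∑ i ∈ Finset.range n, (C (a i) * T i : LaurentPolynomial S)) = 0 := hle h
  rw [map_sum, Finset.sum_congr rfl fun i _ => hκ (a i) i] at h1
  have h2 : Polynomial.toLaurent (∑ i ∈ Finset.range n,
      Polynomial.monomial i (Ideal.Quotient.mk P (a i))) = 0 := by
    rw [map_sum, ← h1]
    refine Finset.sum_congr rfl fun i _ => ?_
    rw [← Polynomial.C_mul_X_pow_eq_monomial, Polynomial.toLaurent_C_mul_X_pow]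
  rw [Polynomial.toLaurent_eq_zero] at h2
  intro i hi
  have h3 := congrArg (fun p => Polynomial.coeff p i) h2
  simp only [Polynomial.finsetSum_coeff, Polynomial.coeff_monomial, Polynomial.coeff_zero,
    Finset.sum_ite_eq', Finset.mem_range, hi, if_true] at h3
  exact Ideal.Quotient.eq_zero_iff_mem.1 h3

end laurent

section omega

open LaurentPolynomial

variable {A : Type u} [CommRing A] {d : ℕ} {x : Fin d → A} (c : Fin d → A)

theorem chartPhi_aeval (F : MvPolynomial (Fin d) A) (n : ℕ) (hF : F.IsHomogeneous n) :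
    chartPhi x c (MvPolynomial.aeval (eY x) F) = C (MvPolynomial.aeval (cY x c) F) * T n := by
  have h1 : chartPhi x c (MvPolynomial.aeval (eY x) F) =
      MvPolynomial.aeval (fun i => T 1 * C (cY x c i)) F := by
    have h2 : chartPhi x c (MvPolynomial.aeval (eY x) F) = MvPolynomial.eval₂
        ((chartPhi x c).comp (algebraMap A (ERees x))) (fun i => chartPhi x c (eY x i)) F := by
      rw [MvPolynomial.aeval_def]
      exact MvPolynomial.eval₂_comp_left _ _ _ _
    rw [h2, MvPolynomial.aeval_def]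
    congr 1
    · ext a : 1
      rw [RingHom.comp_apply, chartPhi_algebraMap]
      rfl
    · funext i
      rw [chartPhi_eY, mul_comm]
  rw [h1, aeval_mul_of_isHomogeneous _ _ F n hF, T_pow, mul_one, mul_comm]
  congr 1
  have h3 : (fun i => (C (cY x c i) : LaurentPolynomial (Chart x c))) =
      fun i => algebraMap (Chart x c) (LaurentPolynomial (Chart x c)) (cY x c i) := rfl
  rw [h3]
  exact MvPolynomial.aeval_algebraMap_apply (LaurentPolynomial (Chart x c)) (cY x c) F

variable [IsRegularLocalRing A] (hd : ringKrullDim A = d)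
  (hx : Ideal.span (Set.range x) = maximalIdeal A)

include hd in
theorem exists_omega (P : Ideal (Chart x c)) [hP : P.IsMaximal]
    (hmP : ∀ a ∈ maximalIdeal A, algebraMap A (Chart x c) a ∈ P) :
    ∃ (Ω : Type u) (_ : CommRing Ω) (_ : IsRegularLocalRing Ω)
      (_ : Algebra (Localization.AtPrime P) Ω) (_ : Module.Flat (Localization.AtPrime P) Ω)
      (ρ : ERees x →+* Ω) (q : Ideal (MvPolynomial (Fin d) (ResidueField A))) (_ : q.IsPrime),
      (maximalIdeal (Localization.AtPrime P)).map (algebraMap (Localization.AtPrime P) Ω) =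
        maximalIdeal Ω ∧
      ringKrullDim Ω = ((q.height + 1 : ℕ∞) : WithBot ℕ∞) ∧
      (∀ f ∈ q, ∀ n, MvPolynomial.homogeneousComponent n f ∈ q) ∧
      (∃ i, MvPolynomial.X i ∉ q) ∧
      (∀ a : A, algebraMap (Localization.AtPrime P) Ω
        (algebraMap (Chart x c) _ (algebraMap A _ a)) = ρ (algebraMap A _ a)) ∧
      (∃ u : Ωˣ, algebraMap (Localization.AtPrime P) Ω
        (algebraMap (Chart x c) _ (algebraMap A _ (x0 x c))) = u * ρ (eT x)) ∧
      ρ.Flat ∧ (maximalIdeal Ω).comap ρ = q.comap (eRes hx) := by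
  have hPp : P.IsPrime := hP.isPrime
  let Q : Ideal (LaurentPolynomial (Chart x c)) := lExt P
  have hcomap : P = Q.comap (C : Chart x c →+* _) := lExt_comap P
  let Ω := Localization.AtPrime Q
  let f : Localization.AtPrime P →+* Ω := Localization.localRingHom P Q C hcomap
  let _ : Algebra (Localization.AtPrime P) Ω := f.toAlgebra
  have hf : ∀ s : Chart x c, f (algebraMap _ _ s) = algebraMap _ Ω (C s) := fun s =>
    Localization.localRingHom_to_map P Q C hcomap s
  have htow : IsScalarTower (Chart x c) (Localization.AtPrime P) Ω :=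
    IsScalarTower.of_algebraMap_eq fun s => (hf s).symm
  have hflat : Module.Flat (Localization.AtPrime P) Ω :=
    (Module.flat_iff_of_isLocalization (Localization.AtPrime P) P.primeCompl Ω).2 inferInstance
  -- the extended Rees algebra
  let _ : Algebra (ERees x) (LaurentPolynomial (Chart x c)) := (chartPhi x c).toAlgebra
  have hloc : IsLocalization.Away (eXi x c) (LaurentPolynomial (Chart x c)) :=
    chart_isLocalization x c
  let ρ : ERees x →+* Ω := (algebraMap (LaurentPolynomial (Chart x c)) Ω).comp (chartPhi x c)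
  have hρ : algebraMap (ERees x) Ω = ρ := IsScalarTower.algebraMap_eq _ _ _
  let 𝔓 : Ideal (ERees x) := Q.comap (chartPhi x c)
  have h𝔓 : 𝔓.IsPrime := inferInstance
  have hlocP : IsLocalization.AtPrime Ω 𝔓 :=
    IsLocalization.isLocalization_isLocalization_atPrime_isLocalization
      (Submonoid.powers (eXi x c)) Ω Q
  have hT𝔓 : eT x ∈ 𝔓 := by
    change chartPhi x c (eT x) ∈ Q
    rw [chartPhi_eT]
    exact Ideal.mul_mem_right _ _ (Ideal.mem_map_of_mem _ (hmP _ (x0_mem hx c)))
  obtain ⟨q, hq, h𝔓q⟩ := exists_comap_eRes hx 𝔓 hT𝔓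
  obtain ⟨hreg, hht, -⟩ := eRees_regular_aux hd hx q
  have hregΩ : IsRegularLocalRing Ω := by
    have : IsRegularLocalRing (Localization.AtPrime 𝔓) := by
      have : ∀ (J : Ideal (ERees x)) [J.IsPrime], J = q.comap (eRes hx) →
          IsRegularLocalRing (Localization.AtPrime J) := by
        rintro J hJ rfl
        exact hreg
      exact this 𝔓 h𝔓q
    let e : Localization.AtPrime 𝔓 ≃+* Ω :=
      (IsLocalization.algEquiv 𝔓.primeCompl (Localization.AtPrime 𝔓) Ω).toRingEquiv
    exact IsRegularLocalRing.of_ringEquiv (R := Localization.AtPrime 𝔓) (R' := Ω) e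
  have hmem : ∀ F : ERees x, F ∈ 𝔓 ↔ eRes hx F ∈ q := fun F => by rw [h𝔓q]; rfl
  have hξ : eXi x c ∉ 𝔓 := by
    intro h
    have h1 : chartPhi x c (eXi x c) ∈ Q := h
    rw [chartPhi_eXi] at h1
    exact (inferInstance : Q.IsPrime).ne_top (Ideal.eq_top_of_isUnit_mem _ h1 (isUnit_T 1))
  refine ⟨Ω, inferInstance, hregΩ, inferInstance, hflat, ρ, q, hq, ?_, ?_, ?_, ?_, ?_, ?_, ?_, ?_⟩
  · rw [← Localization.AtPrime.map_eq_maximalIdeal, Ideal.map_map,
      ← Localization.AtPrime.map_eq_maximalIdeal]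
    change _ = (lExt P).map _
    unfold lExt
    rw [Ideal.map_map]
    congr 1
    ext s : 1
    exact hf s
  · rw [← hht, ← h𝔓q]
    exact IsLocalization.AtPrime.ringKrullDim_eq_height 𝔓 Ω
  · intro g hg n
    obtain ⟨G, hG⟩ := MvPolynomial.map_surjective (residue A) residue_surjective g
    have h1 : MvPolynomial.aeval (eY x) G ∈ 𝔓 := by
      rw [hmem, eRes_aeval, hG]
      exact hg
    have h2 : ∑ i ∈ Finset.range (G.totalDegree + 1), (C (MvPolynomial.aeval (cY x c)
        (MvPolynomial.homogeneousComponent i G)) * T i : LaurentPolynomial (Chart x c)) ∈ Q := by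
      have h3 : ∑ i ∈ Finset.range (G.totalDegree + 1), (C (MvPolynomial.aeval (cY x c)
          (MvPolynomial.homogeneousComponent i G)) * T i : LaurentPolynomial (Chart x c)) =
          chartPhi x c (MvPolynomial.aeval (eY x) G) := by
        conv_rhs => rw [← MvPolynomial.sum_homogeneousComponent G]
        rw [map_sum, map_sum]
        refine Finset.sum_congr rfl fun i _ => ?_
        rw [chartPhi_aeval c _ i (MvPolynomial.homogeneousComponent_isHomogeneous i G)]
      rw [h3]
      exact h1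
    have h3 := coeff_mem_of_sum_mem P _ _ h2
    have h4 : MvPolynomial.homogeneousComponent n g =
        (MvPolynomial.homogeneousComponent n G).map (residue A) := by
      rw [← hG]
      ext m
      rw [MvPolynomial.coeff_map, MvPolynomial.coeff_homogeneousComponent,
        MvPolynomial.coeff_homogeneousComponent]
      split_ifs
      · rw [MvPolynomial.coeff_map]
      · rw [map_zero]
    rw [h4, ← eRes_aeval hx, ← hmem]
    change chartPhi x c _ ∈ Q
    rw [chartPhi_aeval c _ n (MvPolynomial.homogeneousComponent_isHomogeneous n G)]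
    refine Ideal.mul_mem_right _ _ (Ideal.mem_map_of_mem _ ?_)
    by_cases hn : n < G.totalDegree + 1
    · exact h3 n hn
    · rw [MvPolynomial.homogeneousComponent_eq_zero n G (by omega), map_zero]
      exact zero_mem _
  · by_contra hcon
    push Not at hcon
    apply hξ
    rw [hmem]
    unfold eXi
    rw [map_sum]
    refine Ideal.sum_mem _ fun i _ => ?_
    rw [map_mul, eRes_eY]
    exact Ideal.mul_mem_left _ _ (hcon i)
  · intro a
    change f (algebraMap _ _ (algebraMap A (Chart x c) a)) = ρ (algebraMap A _ a)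
    rw [hf, RingHom.comp_apply, chartPhi_algebraMap]
  · have hu : IsUnit (ρ (eXi x c)) := by
      rw [← hρ]
      exact IsLocalization.map_units Ω (⟨eXi x c, hξ⟩ : 𝔓.primeCompl)
    refine ⟨hu.unit, ?_⟩
    change f (algebraMap _ _ (algebraMap A (Chart x c) (x0 x c))) = ρ (eXi x c) * ρ (eT x)
    rw [← map_mul, mul_comm, ← algebraMap_x0, RingHom.comp_apply, chartPhi_algebraMap, hf]
  · have h1 : Module.Flat (ERees x) (LaurentPolynomial (Chart x c)) :=
      IsLocalization.flat _ (Submonoid.powers (eXi x c))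
    have h2 : Module.Flat (ERees x) Ω := Module.Flat.trans _ (LaurentPolynomial (Chart x c)) _
    rw [← hρ]
    exact RingHom.flat_algebraMap_iff.2 h2
  · rw [← h𝔓q]
    change (maximalIdeal Ω).comap ((algebraMap (LaurentPolynomial (Chart x c)) Ω).comp _) = _
    rw [← Ideal.comap_comap]
    exact congrArg (Ideal.comap (chartPhi x c)) Localization.AtPrime.under_maximalIdeal

end omega

end Vale.Agent.P177
end

section

/-!
Comparison of strict transforms under flat base change.
-/

namespace Vale.Agent.P177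

open Function TensorProduct

universe u

theorem st_compare {R₁ A S S' Λ Ω : Type u} [CommRing R₁] [CommRing A] [CommRing S] [CommRing S']
    [CommRing Λ] [CommRing Ω] [Algebra R₁ A] [Algebra A S] [Algebra S S'] [Algebra S' Ω]
    [Algebra S Ω] [IsScalarTower S S' Ω] [Algebra A Ω] [IsScalarTower A S Ω] [Algebra R₁ Ω]
    [IsScalarTower R₁ A Ω] [Algebra R₁ Λ] [Algebra Λ Ω] [IsScalarTower R₁ Λ Ω] [Module.Flat S Ω]
    [Module.Flat Λ Ω] (t : S) (t' : Λ) (u : Ωˣ) (h : algebraMap S Ω t = u * algebraMap Λ Ω t')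
    (M : Type u) [AddCommGroup M] [Module R₁ M] :
    Nonempty ((Ω ⊗[S'] (S' ⊗[S] St t (S ⊗[A] (A ⊗[R₁] M)))) ≃ₗ[Ω]
      (Ω ⊗[Λ] St t' (Λ ⊗[R₁] M))) := by
  have e1 := TensorProduct.AlgebraTensorModule.cancelBaseChange S S' Ω Ω
    (St t (S ⊗[A] (A ⊗[R₁] M)))
  obtain ⟨e2⟩ := St_baseChange (S' := Ω) (t := t) (W := S ⊗[A] (A ⊗[R₁] M))
  obtain ⟨e3⟩ := St_congr (t := algebraMap S Ω t)
    (TensorProduct.AlgebraTensorModule.cancelBaseChange A S Ω Ω (A ⊗[R₁] M))
  obtain ⟨e4⟩ := St_congr (t := algebraMap S Ω t)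
    (TensorProduct.AlgebraTensorModule.cancelBaseChange R₁ A Ω Ω M)
  obtain ⟨e5⟩ := St_unit (W := Ω ⊗[R₁] M) u h
  obtain ⟨e6⟩ := St_congr (t := algebraMap Λ Ω t')
    (TensorProduct.AlgebraTensorModule.cancelBaseChange R₁ Λ Ω Ω M)
  obtain ⟨e7⟩ := St_baseChange (S' := Ω) (t := t') (W := Λ ⊗[R₁] M)
  exact ⟨e1 ≪≫ₗ e2 ≪≫ₗ e3 ≪≫ₗ e4 ≪≫ₗ e5 ≪≫ₗ e6.symm ≪≫ₗ e7.symm⟩

end Vale.Agent.P177
end

section

/-!
Heights of primes containing an ideal of initial forms.
-/

namespace Vale.Agent.P177

open IsLocalRing Function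

universe u

section goingDown

theorem height_under_le {R S : Type*} [CommRing R] [CommRing S] [Algebra R S] [Module.Flat R S]
    (P : Ideal S) [hP : P.IsPrime] : (P.under R).height ≤ P.height := by
  have h1 := PrimeSpectrum.height_eq_orderHeight (⟨P.under R, inferInstance⟩ : PrimeSpectrum R)
  have h2 := PrimeSpectrum.height_eq_orderHeight (⟨P, hP⟩ : PrimeSpectrum S)
  change (P.under R).height = _ at h1
  change P.height = _ at h2
  rw [h1, h2, Order.height_le_iff']
  intro l hl
  have hlo : P.LiesOver l.last.asIdeal := ⟨by rw [hl]⟩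
  obtain ⟨L, hL1, hL2, -⟩ := Ideal.exists_ltSeries_of_hasGoingDown l P
  rw [← hL1, ← hL2]
  exact Order.length_le_height_last

end goingDown

section psi

open LaurentPolynomial

variable {R : Type u} [CommRing R] {d : ℕ} (x : Fin d → R)

theorem T_neg_one_mul_T_one : (T (-1) * T 1 : LaurentPolynomial R) = 1 := by
  rw [← T_add]
  simp

/-- The embedding of the extended Rees algebra into Laurent polynomials. -/
noncomputable def ePsi : ERees x →+* LaurentPolynomial R :=
  eLift x (C : R →+* LaurentPolynomial R) (T (-1)) (fun i => C (x i) * T 1) (by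
    intro i
    rw [mul_left_comm, T_neg_one_mul_T_one, mul_one])

@[simp]
theorem ePsi_algebraMap (a : R) : ePsi x (algebraMap R _ a) = C a := eLift_algebraMap _ _ _ _ _

@[simp]
theorem ePsi_eT : ePsi x (eT x) = T (-1) := eLift_eT _ _ _ _

@[simp]
theorem ePsi_eY (i : Fin d) : ePsi x (eY x i) = C (x i) * T 1 := eLift_eY _ _ _ _ _

theorem ePsi_isLocalization :
    letI := (ePsi x).toAlgebra
    IsLocalization.Away (eT x) (LaurentPolynomial R) := by
  let _ := (ePsi x).toAlgebra
  have hT : ∀ n : ℕ, ePsi x (eT x ^ n) = T (-n) := by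
    intro n
    rw [map_pow, ePsi_eT, T_pow]
    simp
  refine ⟨⟨?_, ?_, ?_⟩⟩
  · rintro ⟨_, n, rfl⟩
    change IsUnit (ePsi x (eT x ^ n))
    rw [hT]
    exact isUnit_T _
  · have key : ∀ z : LaurentPolynomial R, ∃ (n : ℕ) (F : ERees x), z * T (-n) = ePsi x F := by
      intro z
      induction z using LaurentPolynomial.induction_on' with
      | add z w hz hw =>
        obtain ⟨n, F, hF⟩ := hz
        obtain ⟨m, G, hG⟩ := hw
        refine ⟨n + m, F * eT x ^ m + G * eT x ^ n, ?_⟩
        rw [map_add, map_mul, map_mul, hT, hT, ← hF, ← hG]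
        push_cast
        rw [neg_add, T_add]
        ring
      | C_mul_T n a =>
        rcases n with n | n
        · refine ⟨n, algebraMap R _ a, ?_⟩
          rw [mul_assoc, ← T_add, ePsi_algebraMap]
          simp
        · refine ⟨0, algebraMap R _ a * eT x ^ (n + 1), ?_⟩
          rw [map_mul, hT, ePsi_algebraMap]
          simp [Int.negSucc_eq]
    intro z
    obtain ⟨n, F, hF⟩ := key z
    refine ⟨(F, ⟨eT x ^ n, n, rfl⟩), ?_⟩
    change z * ePsi x (eT x ^ n) = ePsi x F
    rw [hT, hF]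
  · intro F G h
    change ePsi x F = ePsi x G at h
    let L := Localization.Away (eT x)
    let g : ERees x →+* L := algebraMap (ERees x) L
    obtain ⟨u, hu⟩ := IsLocalization.Away.algebraMap_isUnit (S := L) (eT x)
    have hu1 : g (eT x) = u := hu.symm
    let ψ : LaurentPolynomial R →+* L := eval₂ (g.comp (algebraMap R _)) u⁻¹
    have hψ : ψ.comp (ePsi x) = g := by
      refine eRees_hom_ext (fun a => ?_) ?_ (fun i => ?_)
      · rw [RingHom.comp_apply, ePsi_algebraMap]
        exact eval₂_C _ _ _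
      · rw [RingHom.comp_apply, ePsi_eT]
        refine (eval₂_T _ _ _).trans ?_
        simp [hu1]
      · rw [RingHom.comp_apply, ePsi_eY]
        refine (eval₂_C_mul_T _ _ _ _).trans ?_
        rw [RingHom.comp_apply, algebraMap_rees, map_mul, hu1, mul_comm (u : L), mul_assoc]
        simp
    have h1 := congrArg ψ h
    rw [← RingHom.comp_apply, ← RingHom.comp_apply, hψ] at h1
    exact IsLocalization.exists_of_eq h1

end psi

section star

open LaurentPolynomial

variable {R : Type u} [CommRing R] {d : ℕ} (x : Fin d → R) (I : Ideal R)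

/-- The saturated extension of an ideal to the extended Rees algebra. -/
noncomputable def eStar : Ideal (ERees x) :=
  (I.map (C : R →+* LaurentPolynomial R)).comap (ePsi x)

variable {x I}

theorem mem_eStar {z : ERees x} : z ∈ eStar x I ↔ ePsi x z ∈ I.map (C : R →+* LaurentPolynomial R) :=
  Iff.rfl

theorem eStar_sat {z : ERees x} (h : eT x * z ∈ eStar x I) : z ∈ eStar x I := by
  rw [mem_eStar, map_mul, ePsi_eT] at h
  rw [mem_eStar]
  have h1 := Ideal.mul_mem_left _ (T 1) h
  rw [← mul_assoc, mul_comm (T 1), T_neg_one_mul_T_one, one_mul] at h1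
  exact h1

theorem coeff_mem_of_mem_map {z : LaurentPolynomial R}
    (h : z ∈ I.map (C : R →+* LaurentPolynomial R)) (n : ℤ) : z.coeff n ∈ I := by
  let κ : LaurentPolynomial R →+* LaurentPolynomial (R ⧸ I) :=
    AddMonoidAlgebra.mapRingHom ℤ (Ideal.Quotient.mk I)
  have hle : I.map (C : R →+* LaurentPolynomial R) ≤ RingHom.ker κ := by
    rw [Ideal.map_le_iff_le_comap]
    intro a ha
    change κ (C a) = 0
    have h1 : (C a : LaurentPolynomial R) = AddMonoidAlgebra.single 0 a := rfl
    rw [h1]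
    refine (AddMonoidAlgebra.mapRingHom_single _ _ _).trans ?_
    rw [Ideal.Quotient.eq_zero_iff_mem.2 ha]
    exact AddMonoidAlgebra.single_zero _
  have h1 : κ z = 0 := hle h
  have h2 : (κ z).coeff n = Ideal.Quotient.mk I (z.coeff n) :=
    AddMonoidAlgebra.coeff_mapRingHom _ _ _
  rw [h1] at h2
  exact Ideal.Quotient.eq_zero_iff_mem.1 h2.symm

/-- A prime above the special fibre of the saturated extension has large height. -/
theorem exists_prime_height_le [IsRegularLocalRing R] (hd : ringKrullDim R = d)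
    (hx : Ideal.span (Set.range x) = maximalIdeal R)
    (q : Ideal (MvPolynomial (Fin d) (ResidueField R))) [q.IsPrime]
    (hq : eStar x I ≤ q.comap (eRes hx)) :
    ∃ P₀ : Ideal R, P₀.IsPrime ∧ I ≤ P₀ ∧ P₀.height ≤ q.height := by
  obtain ⟨𝔮₀, h𝔮₀, hle⟩ := Ideal.exists_minimalPrimes_le hq
  have h𝔮₀p : 𝔮₀.IsPrime := h𝔮₀.1.1
  have hτ : eT x ∉ 𝔮₀ := by
    intro h
    obtain ⟨y, hy, hxy⟩ := Ideal.exists_mul_mem_of_mem_minimalPrimes h𝔮₀ h
    exact hy (eStar_sat hxy)
  have hτ' : eT x ∈ q.comap (eRes hx) := by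
    change eRes hx (eT x) ∈ q
    rw [eRes_eT]
    exact zero_mem _
  have hlt : 𝔮₀ < q.comap (eRes hx) := lt_of_le_of_ne hle (fun h => hτ (h ▸ hτ'))
  let _ := (ePsi x).toAlgebra
  have hloc : IsLocalization.Away (eT x) (LaurentPolynomial R) := ePsi_isLocalization x
  have hdisj : Disjoint (Submonoid.powers (eT x) : Set (ERees x)) 𝔮₀ := by
    rw [Set.disjoint_left]
    rintro _ ⟨n, rfl⟩ h
    exact hτ (h𝔮₀p.mem_of_pow_mem n h)
  let Q₀ : Ideal (LaurentPolynomial R) := 𝔮₀.map (algebraMap (ERees x) (LaurentPolynomial R))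
  have hQ₀ : Q₀.IsPrime :=
    IsLocalization.isPrime_of_isPrime_disjoint (Submonoid.powers (eT x)) _ _ h𝔮₀p hdisj
  have hQ₀c : Q₀.under (ERees x) = 𝔮₀ :=
    IsLocalization.under_map_of_isPrime_disjoint (Submonoid.powers (eT x)) _ h𝔮₀p hdisj
  have hht : Q₀.height = 𝔮₀.height := by
    rw [← IsLocalization.height_under (Submonoid.powers (eT x)) Q₀, hQ₀c]
  refine ⟨Q₀.under R, inferInstance, ?_, ?_⟩
  · intro a ha
    change C a ∈ Q₀
    have h1 : algebraMap R (ERees x) a ∈ 𝔮₀ := by
      apply h𝔮₀.1.2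
      rw [mem_eStar, ePsi_algebraMap]
      exact Ideal.mem_map_of_mem _ ha
    have h2 := Ideal.mem_map_of_mem (algebraMap (ERees x) (LaurentPolynomial R)) h1
    have h3 : algebraMap (ERees x) (LaurentPolynomial R) (algebraMap R (ERees x) a) = C a :=
      ePsi_algebraMap x a
    rw [h3] at h2
    exact h2
  · have h1 := height_under_le (R := R) Q₀
    rw [hht] at h1
    refine h1.trans ?_
    have h2 := Ideal.height_add_one_le_of_lt_of_isPrime hlt
    obtain ⟨-, h3, -⟩ := eRees_regular_aux hd hx q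
    rw [h3] at h2
    exact (ENat.add_le_add_iff_right (by simp)).1 h2

end star

end Vale.Agent.P177
end

section

/-!
Initial forms and the saturated extension of an ideal.
-/

namespace Vale.Agent.P177

open IsLocalRing Function

universe u

section nf

variable {R : Type u} [CommRing R] {d : ℕ} (x : Fin d → R)

/-- Normal forms of elements of the extended Rees algebra. -/
theorem exists_normal_form (z : ERees x) : ∃ (F : MvPolynomial (Fin d) R) (g : Polynomial R),
    z = MvPolynomial.aeval (eY x) F + eT x * Polynomial.aeval (eT x) g := by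
  have hadd : ∀ z w : ERees x,
      (∃ (F : MvPolynomial (Fin d) R) (g : Polynomial R),
        z = MvPolynomial.aeval (eY x) F + eT x * Polynomial.aeval (eT x) g) →
      (∃ (F : MvPolynomial (Fin d) R) (g : Polynomial R),
        w = MvPolynomial.aeval (eY x) F + eT x * Polynomial.aeval (eT x) g) →
      ∃ (F : MvPolynomial (Fin d) R) (g : Polynomial R),
        z + w = MvPolynomial.aeval (eY x) F + eT x * Polynomial.aeval (eT x) g := by
    rintro _ _ ⟨F, g, rfl⟩ ⟨F', g', rfl⟩
    exact ⟨F + F', g + g', by rw [map_add, map_add]; ring⟩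
  have h1 : ∀ F : MvPolynomial (Fin d) R, ∃ (F' : MvPolynomial (Fin d) R) (g : Polynomial R),
      MvPolynomial.aeval (eY x) F * eT x =
        MvPolynomial.aeval (eY x) F' + eT x * Polynomial.aeval (eT x) g := by
    intro F
    induction F using MvPolynomial.induction_on with
    | C a =>
      refine ⟨0, Polynomial.C a, ?_⟩
      rw [map_zero, zero_add, MvPolynomial.aeval_C, Polynomial.aeval_C, mul_comm]
    | add F F' hF hF' =>
      rw [map_add, add_mul]
      exact hadd _ _ hF hF'
    | mul_X F i _ =>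
      refine ⟨F * MvPolynomial.C (x i), 0, ?_⟩
      rw [map_mul, map_mul, MvPolynomial.aeval_X, MvPolynomial.aeval_C, map_zero, mul_zero,
        add_zero, algebraMap_rees]
      ring
  have h2 : ∀ h : Polynomial R, ∃ (F' : MvPolynomial (Fin d) R) (g : Polynomial R),
      Polynomial.aeval (eT x) h =
        MvPolynomial.aeval (eY x) F' + eT x * Polynomial.aeval (eT x) g := by
    intro h
    refine ⟨MvPolynomial.C (h.coeff 0), h.divX, ?_⟩
    conv_lhs => rw [← Polynomial.divX_mul_X_add h]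
    rw [map_add, map_mul, Polynomial.aeval_X, Polynomial.aeval_C, MvPolynomial.aeval_C]
    ring
  obtain ⟨p, rfl⟩ := Ideal.Quotient.mk_surjective z
  induction p using MvPolynomial.induction_on with
  | C a =>
    refine ⟨MvPolynomial.C a, 0, ?_⟩
    rw [map_zero, mul_zero, add_zero, MvPolynomial.aeval_C]
    rfl
  | add p p' hp hp' =>
    rw [map_add]
    exact hadd _ _ hp hp'
  | mul_X p o hp =>
    obtain ⟨F, g, hFg⟩ := hp
    rw [map_mul, hFg]
    rcases o with _ | i
    · change ∃ (F' : MvPolynomial (Fin d) R) (g' : Polynomial R), _ * eT x = _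
      rw [add_mul]
      refine hadd _ _ (h1 F) ⟨0, g * Polynomial.X, ?_⟩
      rw [map_zero, zero_add, map_mul, Polynomial.aeval_X]
      ring
    · change ∃ (F' : MvPolynomial (Fin d) R) (g' : Polynomial R), _ * eY x i = _
      rw [add_mul]
      refine hadd _ _ ⟨F * MvPolynomial.X i, 0, ?_⟩ ?_
      · rw [map_zero, mul_zero, add_zero, map_mul, MvPolynomial.aeval_X]
      · obtain ⟨F', g', h⟩ := h2 (Polynomial.C (x i) * g)
        refine ⟨F', g', ?_⟩
        rw [← h, map_mul, Polynomial.aeval_C, algebraMap_rees]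
        ring

end nf

section coeff

open LaurentPolynomial

variable {R : Type u} [CommRing R] {d : ℕ} (x : Fin d → R)

theorem coeff_C_mul_T (a : R) (m n : ℤ) : (C a * T m : LaurentPolynomial R).coeff n =
    if m = n then a else 0 := by
  rw [← single_eq_C_mul_T]
  exact Finsupp.single_apply

theorem ePsi_aeval (F : MvPolynomial (Fin d) R) (n : ℕ) (hF : F.IsHomogeneous n) :
    ePsi x (MvPolynomial.aeval (eY x) F) = C (MvPolynomial.eval x F) * T n := by
  have h1 : ePsi x (MvPolynomial.aeval (eY x) F) =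
      MvPolynomial.aeval (fun i => T 1 * C (x i)) F := by
    have h2 : ePsi x (MvPolynomial.aeval (eY x) F) = MvPolynomial.eval₂
        ((ePsi x).comp (algebraMap R (ERees x))) (fun i => ePsi x (eY x i)) F := by
      rw [MvPolynomial.aeval_def]
      exact MvPolynomial.eval₂_comp_left _ _ _ _
    rw [h2, MvPolynomial.aeval_def]
    congr 1
    · ext a : 1
      rw [RingHom.comp_apply, ePsi_algebraMap]
      rfl
    · funext i
      rw [ePsi_eY, mul_comm]
  rw [h1, aeval_mul_of_isHomogeneous _ _ F n hF, T_pow, mul_one, mul_comm]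
  congr 1
  have h3 : (fun i => (C (x i) : LaurentPolynomial R)) =
      fun i => algebraMap R (LaurentPolynomial R) (x i) := rfl
  rw [h3]
  exact MvPolynomial.aeval_algebraMap_apply (LaurentPolynomial R) x F

theorem coeff_ePsi_aeval (F : MvPolynomial (Fin d) R) (n : ℕ) :
    (ePsi x (MvPolynomial.aeval (eY x) F)).coeff n =
      MvPolynomial.eval x (MvPolynomial.homogeneousComponent n F) := by
  conv_lhs => rw [← MvPolynomial.sum_homogeneousComponent F]
  rw [map_sum, map_sum]
  have h1 : ∀ i, ePsi x (MvPolynomial.aeval (eY x) (MvPolynomial.homogeneousComponent i F)) =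
      C (MvPolynomial.eval x (MvPolynomial.homogeneousComponent i F)) * T i := fun i =>
    ePsi_aeval x _ i (MvPolynomial.homogeneousComponent_isHomogeneous i F)
  rw [Finset.sum_congr rfl fun i _ => h1 i, AddMonoidAlgebra.coeff_sum, Finsupp.finsetSum_apply]
  simp only [coeff_C_mul_T]
  by_cases hn : n < F.totalDegree + 1
  · rw [Finset.sum_eq_single n]
    · simp
    · intro i _ hi
      rw [if_neg (by exact_mod_cast hi)]
    · intro h
      exact absurd (Finset.mem_range.2 hn) h
  · rw [MvPolynomial.homogeneousComponent_eq_zero n F (by omega), map_zero]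
    refine Finset.sum_eq_zero fun i hi => ?_
    rw [Finset.mem_range] at hi
    rw [if_neg]
    intro h
    have : i = n := by exact_mod_cast h
    omega

theorem coeff_ePsi_neg (g : Polynomial R) (n : ℕ) :
    (ePsi x (eT x * Polynomial.aeval (eT x) g)).coeff n = 0 := by
  induction g using Polynomial.induction_on' with
  | add p q hp hq =>
    rw [map_add, mul_add, map_add, AddMonoidAlgebra.coeff_add, Finsupp.add_apply, hp, hq, add_zero]
  | monomial m a =>
    have h1 : ePsi x (eT x * Polynomial.aeval (eT x) (Polynomial.monomial m a)) =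
        C a * T (-(m + 1 : ℤ)) := by
      rw [Polynomial.aeval_monomial, map_mul, map_mul, map_pow, ePsi_eT, ePsi_algebraMap, T_pow,
        mul_left_comm, ← T_add]
      congr 2
      ring
    rw [h1, coeff_C_mul_T, if_neg]
    omega

end coeff

section crit

variable {R : Type u} [CommRing R] [IsLocalRing R] {d : ℕ} {x : Fin d → R} {I : Ideal R}

/-- Criterion for a prime to contain the special fibre of the saturated extension. -/
theorem eStar_le (hx : Ideal.span (Set.range x) = maximalIdeal R)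
    (q : Ideal (MvPolynomial (Fin d) (ResidueField R)))
    (hq : ∀ (n : ℕ) (F : MvPolynomial (Fin d) R), F.IsHomogeneous n → MvPolynomial.eval x F ∈ I →
      F.map (residue R) ∈ q) : eStar x I ≤ q.comap (eRes hx) := by
  intro z hz
  obtain ⟨F, g, rfl⟩ := exists_normal_form x z
  have h1 : ∀ n : ℕ, MvPolynomial.eval x (MvPolynomial.homogeneousComponent n F) ∈ I := by
    intro n
    have h2 := coeff_mem_of_mem_map hz n
    rw [map_add, AddMonoidAlgebra.coeff_add, Finsupp.add_apply, coeff_ePsi_aeval, coeff_ePsi_neg,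
      add_zero] at h2
    exact h2
  change eRes hx _ ∈ q
  rw [map_add, map_mul, eRes_eT, zero_mul, add_zero, eRes_aeval]
  rw [← MvPolynomial.sum_homogeneousComponent F, map_sum]
  exact Ideal.sum_mem _ fun n _ => hq n _ (MvPolynomial.homogeneousComponent_isHomogeneous n F)
    (h1 n)

end crit

end Vale.Agent.P177
end

section

/-!
The resolution of a strict transform.
-/

namespace Vale.Agent.P177

open Function IsLocalRing

universe u

section overS

variable {A S : Type u} [CommRing A] [CommRing S] [Algebra A S] {I : Ideal A} {x : A}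
  {M M₁ : Type u} [AddCommGroup M] [Module A M] [AddCommGroup M₁] [Module A M₁] [Module S M₁]
  [IsScalarTower A S M₁] {F : ℕ → Submodule A M} {ι : M →ₗ[A] M₁}

theorem lc_single {R : Type*} [CommRing R] {N : Type*} [AddCommGroup N] [Module R N] {b : ℕ}
    (w : Fin b → N) (j : Fin b) : lc w (Pi.single j (1 : R)) = w j := by
  rw [lc_apply, Finset.sum_eq_single j]
  · rw [Pi.single_eq_same, one_smul]
  · intro i _ hi
    rw [Pi.single_eq_of_ne hi, zero_smul]
  · simp

/-- The strict transform of a filtered map from a free module. -/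
theorem exists_strict_map (hM : IsStrict x F ι) {b : ℕ} (a : Fin b → ℕ)
    (ε : (Fin b → A) →ₗ[A] M) (hε : ∀ j, ε (Pi.single j 1) ∈ F (a j)) :
    ∃ ε₁ : (Fin b → S) →ₗ[S] M₁,
      (∀ j, x ^ a j • ε₁ (Pi.single j 1) = ι (ε (Pi.single j 1))) ∧
      ∀ f, ε₁ (wmap x (Algebra.linearMap A S) a f) = ι (ε f) := by
  have h1 : ∀ j, ∃ v, x ^ a j • v = ι (ε (Pi.single j 1)) := fun j => hM.div _ _ (hε j)
  choose v hv using h1
  refine ⟨lc v, fun j => by rw [lc_single, hv], fun f => ?_⟩
  have h2 : f = ∑ j, f j • (Pi.single j (1 : A) : Fin b → A) := by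
    funext k
    simp [Finset.sum_apply, Pi.single_apply]
  conv_rhs => rw [h2]
  rw [lc_apply, map_sum, map_sum]
  refine Finset.sum_congr rfl fun j _ => ?_
  rw [wmap_apply, map_smul, map_smul, ← hv j]
  change (x ^ a j • algebraMap A S (f j)) • v j = _
  rw [smul_assoc, algebraMap_smul, smul_comm]

section fr

variable {r : ℕ} (X : FRes I F r)

theorem FRes.eps_mem (j : Fin (X.b 0)) : X.ε (Pi.single j 1) ∈ F (X.a 0 j) := by
  rw [← X.strict_ε]
  exact ⟨_, single_mem_wfil _ _, rfl⟩

theorem FRes.delta_mem' (i : ℕ) (j : Fin (X.b (i + 1))) : X.δ i (Pi.single j 1) ∈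
    wfil (fun k => (I ^ k : Ideal A)) (X.a i) (X.a (i + 1) j) := by
  rw [mem_wfil]
  exact fun k => X.delta_mem i j k

variable (hS : IsStrict x (fun k => (I ^ k : Ideal A)) (Algebra.linearMap A S)) (hx : x ∈ I)
  (hM : IsStrict x F ι)

include hS hx in
theorem strict_free {b : ℕ} (a : Fin b → ℕ) : IsStrict x (wfil (fun k => (I ^ k : Ideal A)) a)
    (wmap x (Algebra.linearMap A S) a) := by
  refine hS.weighted (goodFil_self I).antitone ?_ a
  intro n m hm
  exact (goodFil_self I).smul n (Submodule.smul_mem_smul hx hm)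

/-- The augmentation of the strict transform. -/
noncomputable def strictEps : (Fin (X.b 0) → S) →ₗ[S] M₁ :=
  (exists_strict_map (S := S) hM (X.a 0) X.ε X.eps_mem).choose

theorem strictEps_wmap (f : Fin (X.b 0) → A) :
    strictEps X hM (wmap x (Algebra.linearMap A S) (X.a 0) f) = ι (X.ε f) :=
  (exists_strict_map (S := S) hM (X.a 0) X.ε X.eps_mem).choose_spec.2 f

/-- The differentials of the strict transform. -/
noncomputable def strictDelta (i : ℕ) : (Fin (X.b (i + 1)) → S) →ₗ[S] (Fin (X.b i) → S) :=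
  (exists_strict_map (S := S) (strict_free hS hx (X.a i)) (X.a (i + 1)) (X.δ i)
    (X.delta_mem' i)).choose

theorem strictDelta_wmap (i : ℕ) (f : Fin (X.b (i + 1)) → A) :
    strictDelta X hS hx i (wmap x (Algebra.linearMap A S) (X.a (i + 1)) f) =
      wmap x (Algebra.linearMap A S) (X.a i) (X.δ i f) :=
  (exists_strict_map (S := S) (strict_free hS hx (X.a i)) (X.a (i + 1)) (X.δ i)
    (X.delta_mem' i)).choose_spec.2 f

theorem strictDelta_single (i : ℕ) (j : Fin (X.b (i + 1))) (k : Fin (X.b i)) :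
    x ^ X.a (i + 1) j • strictDelta X hS hx i (Pi.single j 1) k =
      x ^ X.a i k • algebraMap A S (X.δ i (Pi.single j 1) k) :=
  congrFun ((exists_strict_map (S := S) (strict_free hS hx (X.a i)) (X.a (i + 1)) (X.δ i)
    (X.delta_mem' i)).choose_spec.1 j) k

theorem GoodFil.x_smul {N : Type*} [AddCommGroup N] [Module A N] {G : ℕ → Submodule A N}
    (hG : GoodFil I G) (hx : x ∈ I) (n : ℕ) (m : N) (hm : m ∈ G n) : x • m ∈ G (n + 1) :=
  hG.smul n (Submodule.smul_mem_smul hx hm)

/-- The resolution of the strict transform. -/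
noncomputable def strictFR (hF : GoodFil I F) : FR S M₁ where
  b := X.b
  ε := strictEps X hM
  δ := strictDelta X hS hx
  surj := by
    have h := strict_exact (D := X.ε) (D₁ := (strictEps X hM (S := S)).restrictScalars A)
      (K₂ := wfil (fun k => (I ^ k : Ideal A)) (X.a 0))
      (strict_free hS hx (X.a 0)) hM (strictEps_wmap X hM)
      (hF.x_smul hx) (Z := ⊤) (Z₁ := ⊤) (fun _ _ _ _ _ _ => ⟨0, trivial⟩)
      (fun n => by rw [X.strict_ε, top_inf_eq])
    intro v
    exact h (Submodule.mem_top (x := v))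
  exact_zero := by
    intro v
    constructor
    · intro hv
      have h := strict_exact (D := X.δ 0)
        (D₁ := (strictDelta X hS hx 0).restrictScalars A)
        (K₂ := wfil (fun k => (I ^ k : Ideal A)) (X.a 1))
        (K₁ := wfil (fun k => (I ^ k : Ideal A)) (X.a 0))
        (strict_free hS hx (X.a 1)) (strict_free hS hx (X.a 0)) (strictDelta_wmap X hS hx 0)
        (((goodFil_self I).weighted (X.a 0)).x_smul hx) (Z := LinearMap.ker X.ε)
        (Z₁ := LinearMap.ker ((strictEps X hM (S := S)).restrictScalars A))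
        (fun v n m _ hvm hv => zA_ker hM (D := X.ε)
          (D₁ := (strictEps X hM (S := S)).restrictScalars A) (strictEps_wmap X hM) v n m hvm hv)
        (fun n => X.strict_zero n)
      exact h hv
    · rintro ⟨w, rfl⟩
      obtain ⟨n, m, -, hwm⟩ := (strict_free hS hx (X.a 1)).surj w
      apply hM.reg_pow n
      have h1 : ((strictEps X hM (S := S)).restrictScalars A)
        (((strictDelta X hS hx 0).restrictScalars A) (x ^ n • w)) = 0 := by
        rw [hwm]
        change strictEps X hM (strictDelta X hS hx 0 (wmap x (Algebra.linearMap A S) (X.a 1) m)) = 0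
        rw [strictDelta_wmap, strictEps_wmap, X.exact_zero.apply_apply_eq_zero, map_zero]
      rw [map_smul, map_smul] at h1
      exact h1
  exact_succ i := by
    intro v
    constructor
    · intro hv
      have h := strict_exact (D := X.δ (i + 1))
        (D₁ := (strictDelta X hS hx (i + 1)).restrictScalars A)
        (K₂ := wfil (fun k => (I ^ k : Ideal A)) (X.a (i + 2)))
        (K₁ := wfil (fun k => (I ^ k : Ideal A)) (X.a (i + 1)))
        (strict_free hS hx (X.a (i + 2))) (strict_free hS hx (X.a (i + 1)))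
        (strictDelta_wmap X hS hx (i + 1))
        (((goodFil_self I).weighted (X.a (i + 1))).x_smul hx) (Z := LinearMap.ker (X.δ i))
        (Z₁ := LinearMap.ker ((strictDelta X hS hx i).restrictScalars A))
        (fun v n m _ hvm hv => zA_ker (strict_free hS hx (X.a i)) (D := X.δ i)
          (D₁ := (strictDelta X hS hx i).restrictScalars A) (strictDelta_wmap X hS hx i)
          v n m hvm hv)
        (fun n => X.strict_succ i n)
      exact h hv
    · rintro ⟨w, rfl⟩
      obtain ⟨n, m, -, hwm⟩ := (strict_free hS hx (X.a (i + 2))).surj w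
      apply (strict_free hS hx (X.a i)).reg_pow n
      have h1 : ((strictDelta X hS hx i).restrictScalars A)
        (((strictDelta X hS hx (i + 1)).restrictScalars A) (x ^ n • w)) = 0 := by
        rw [hwm]
        change strictDelta X hS hx i (strictDelta X hS hx (i + 1)
          (wmap x (Algebra.linearMap A S) (X.a (i + 2)) m)) = 0
        rw [strictDelta_wmap, strictDelta_wmap, (X.exact_succ i).apply_apply_eq_zero, map_zero]
      rw [map_smul, map_smul] at h1
      exact h1

end fr

section tensor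

variable {r : ℕ} (X : FRes I F r)
  (hS : IsStrict x (fun k => (I ^ k : Ideal A)) (Algebra.linearMap A S)) (hx : x ∈ I)
  (hM : IsStrict x F ι) (hF : GoodFil I F) {N N₁ : Type u} [AddCommGroup N] [Module A N]
  [AddCommGroup N₁] [Module A N₁] [Module S N₁] [IsScalarTower A S N₁] {G : ℕ → Submodule A N}
  {κ : N →ₗ[A] N₁} (hN : IsStrict x G κ) (hG : GoodFil I G)

include hN hG hx in
theorem strict_wN {b : ℕ} (a : Fin b → ℕ) : IsStrict x (wfil G a) (wmap x κ a) :=
  hN.weighted hG.antitone (hG.x_smul hx) a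

theorem act_strictDelta (i : ℕ) (v : Fin (X.b (i + 1)) → N) :
    act N₁ (strictDelta X hS hx i) (wmap x κ (X.a (i + 1)) v) =
      wmap x κ (X.a i) (act N (X.δ i) v) := by
  funext k
  rw [act_apply, wmap_apply, act_apply, map_sum, Finset.smul_sum]
  refine Finset.sum_congr rfl fun j _ => ?_
  rw [wmap_apply, map_smul, smul_comm, ← smul_assoc, strictDelta_single, smul_assoc,
    algebraMap_smul]

include hN hG in
/-- The homology of the filtered pieces is the homology of the strict transform. -/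
theorem strict_length (i k : ℕ) (hstab : ∀ k', k ≤ k' → X.Stab G x i k') :
    rl (X.ZK G k i) (X.BK G k i) = Module.length A
      ((strictFR X hS hx hM hF).Z N₁ i ⧸ ((strictFR X hS hx hM hF).B N₁ i).submoduleOf
        ((strictFR X hS hx hM hF).Z N₁ i)) := by
  let X₁ := strictFR X hS hx hM hF
  let D₁ : (Fin (X.b (i + 1)) → N₁) →ₗ[A] (Fin (X.b i) → N₁) :=
    (act N₁ (strictDelta X hS hx i)).restrictScalars A
  have hz : (∀ (v : Fin (X.b i) → N₁) (n : ℕ), ∀ m ∈ wfil G (X.a i) n,
        x ^ n • v = wmap x κ (X.a i) m → v ∈ (X₁.Z N₁ i).restrictScalars A →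
        ∃ e, x ^ e • m ∈ X.Z N i) ∧
      (∀ (v : Fin (X.b i) → N₁) (n : ℕ), ∀ m ∈ wfil G (X.a i) n,
        x ^ n • v = wmap x κ (X.a i) m → m ∈ X.Z N i → v ∈ (X₁.Z N₁ i).restrictScalars A) := by
    cases i with
    | zero => exact ⟨fun _ _ _ _ _ _ => ⟨0, trivial⟩, fun _ _ _ _ _ _ => trivial⟩
    | succ i =>
      refine ⟨fun v n m _ hvm hv => ?_, fun v n m _ hvm hm => ?_⟩
      · exact zA_ker (strict_wN hx hN hG (X.a i)) (D := act N (X.δ i))
          (D₁ := (act N₁ (strictDelta X hS hx i)).restrictScalars A) (act_strictDelta X hS hx i)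
          v n m hvm hv
      · exact zB_ker (strict_wN hx hN hG (X.a i)) (D := act N (X.δ i))
          (D₁ := (act N₁ (strictDelta X hS hx i)).restrictScalars A) (act_strictDelta X hS hx i)
          v n m hvm hm
  obtain ⟨e⟩ := strict_homology (D := act N (X.δ i)) (D₁ := D₁)
    (strict_wN hx hN hG (X.a (i + 1))) (strict_wN hx hN hG (X.a i)) (act_strictDelta X hS hx i)
    ((hG.weighted (X.a (i + 1))).x_smul hx) ((hG.weighted (X.a i)).x_smul hx)
    (Z := X.Z N i) (Z₁ := (X₁.Z N₁ i).restrictScalars A) hz.1 hz.2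
    (fun k' hk' => (hstab k' hk').1) (fun k' hk' => (hstab k' hk').2)
  have e' := e.length_eq
  refine e'.trans ?_
  exact (Submodule.Quotient.restrictScalarsEquiv A
    ((X₁.B N₁ i).submoduleOf (X₁.Z N₁ i))).length_eq

end tensor

end overS

end Vale.Agent.P177
end

section

/-!
Decomposition of the Euler characteristic along a filtration, and positivity through the
localizations of a chart.
-/

namespace Vale.Agent.P177

open Function IsLocalRing TensorProduct

universe u

section split

variable {A : Type u} [CommRing A] [IsRegularLocalRing A] {d : ℕ} {M N : Type u}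
  [AddCommGroup M] [Module A M] [AddCommGroup N] [Module A N] [Module.Finite A N]
  {F : ℕ → Submodule A M} (X : FRes (maximalIdeal A) F d)

omit [Module.Finite A N] in
theorem fr_length (i : ℕ) : rl (X.Z N i) (X.B N i) = Module.length A (TorM A i M N) := by
  obtain ⟨e⟩ := X.toFR.tor_eq N i
  exact e.length_eq.symm

omit [Module.Finite A N] in
theorem Zc_eq_Z (i : ℕ) : Zc (fun i => Fin (X.b i) → N) (fun i => act N (X.δ i)) i = X.Z N i := by
  cases i <;> rfl

theorem euler_split (hfin : ∀ i, Module.length A (TorM A i M N) ≠ ⊤) (n : ℕ) :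
    (∀ i, rl (X.ZK (fun n => (maximalIdeal A ^ n • ⊤ : Submodule A N)) n i)
      (X.BK (fun n => (maximalIdeal A ^ n • ⊤ : Submodule A N)) n i) ≠ ⊤) ∧
    eulerTor A (d + 1) M N = ∑ i ∈ Finset.range (d + 1), (-1) ^ i *
      ((rl (X.ZK (fun n => (maximalIdeal A ^ n • ⊤ : Submodule A N)) n i)
        (X.BK (fun n => (maximalIdeal A ^ n • ⊤ : Submodule A N)) n i)).toNat : ℤ) +
        X.psi (lam A N) n := by
  let G : ℕ → Submodule A N := fun n => (maximalIdeal A ^ n • ⊤ : Submodule A N)
  have hG : GoodFil (maximalIdeal A) G := goodFil_pow _ _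
  let C : ℕ → Type u := fun i => Fin (X.b i) → N
  let D : ∀ i, C (i + 1) →ₗ[A] C i := fun i => act N (X.δ i)
  have hw : ∀ i, rl ⊤ (wfil G (X.a i) n) ≠ ⊤ ∧
      lamF (wfil G (X.a i)) n = ∑ j, lamF G (n - X.a i j) := fun i =>
    lamF_wfil G rl_pow_ne_top (X.a i) n
  have hZ : ∀ i, Zc C D i = X.Z N i := Zc_eq_Z X
  have h := rel_euler C D d (by
      refine ⟨fun v w => ?_⟩
      exact (eq_zero_of_fin_zero (X.bound (d + 1) (by omega)) v).trans
        (eq_zero_of_fin_zero (X.bound (d + 1) (by omega)) w).symm)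
    (fun i v => X.B_le_Z N (i + 1) ⟨v, rfl⟩) (fun _ => ⊤) (fun i => wfil G (X.a i) n)
    (fun _ => le_top) (fun _ => le_top) (fun i => X.map_wfil_le hG i n) (fun i => (hw i).1)
    (by
      intro i
      rw [hZ, inf_top_eq, Submodule.map_top]
      change rl (X.Z N i) (X.B N i) ≠ ⊤
      rw [fr_length]
      exact hfin i)
  obtain ⟨h1, h2⟩ := h
  simp only [hZ] at h1 h2
  refine ⟨h1, ?_⟩
  have h3 : ∀ i, rl (X.Z N i ⊓ ⊤) ((⊤ : Submodule A (C (i + 1))).map (D i)) =
      Module.length A (TorM A i M N) := by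
    intro i
    rw [inf_top_eq, Submodule.map_top]
    exact fr_length X i
  simp only [h3] at h2
  have h4 : ∀ i, ((rl ⊤ (wfil G (X.a i) n)).toNat : ℤ) = ∑ j, lamF G (n - X.a i j) :=
    fun i => (hw i).2
  simp only [h4] at h2
  have h5 : eulerTor A (d + 1) M N = ∑ i ∈ Finset.range (d + 1), (-1) ^ i *
      ((Module.length A (TorM A i M N)).toNat : ℤ) := rfl
  rw [h5]
  rw [sub_eq_iff_eq_add] at h2
  rw [h2, add_comm]
  rfl

end split

section local_sum

variable {A S : Type u} [CommRing A] [CommRing S] [Algebra A S]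

theorem exists_finset_support (W : Type u) [AddCommGroup W] [Module S W]
    (hfin : IsFiniteLength S W) : ∃ T : Finset (MaximalSpectrum S), ∀ m : MaximalSpectrum S,
      m ∉ T → Subsingleton (Localization.AtPrime m.asIdeal ⊗[S] W) := by
  classical
  induction hfin with
  | of_subsingleton => exact ⟨∅, fun _ _ => inferInstance⟩
  | of_simple_quotient hN ih =>
    rename_i M _ _ N hsimple
    obtain ⟨T, hT⟩ := ih
    obtain ⟨m', hm', ⟨e⟩⟩ := isSimpleModule_iff_quot_maximal.1 hsimple
    refine ⟨insert ⟨m', hm'⟩ T, fun m hm => ?_⟩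
    rw [Finset.mem_insert, not_or] at hm
    have hmm := m.isMaximal
    have h1 := hT m hm.2
    have hne : m.asIdeal ≠ m' := fun h' => hm.1 (MaximalSpectrum.ext h')
    have h2 := subsingleton_localization_quot m.asIdeal m' hne
    have h3 : Subsingleton (Localization.AtPrime m.asIdeal ⊗[S] (M ⧸ N)) :=
      (e.baseChange S (Localization.AtPrime m.asIdeal) _ _).toEquiv.subsingleton
    have hex : Exact N.subtype N.mkQ := by
      intro x
      rw [Submodule.mkQ_apply, Submodule.Quotient.mk_eq_zero]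
      simp
    have h4 := (baseChange_ses (B := Localization.AtPrime m.asIdeal) N.subtype N.mkQ
      (Submodule.injective_subtype _) (Submodule.mkQ_surjective _) hex).2.2
    refine ⟨fun v w => ?_⟩
    have h5 : ∀ v : Localization.AtPrime m.asIdeal ⊗[S] M, v = 0 := by
      intro v
      obtain ⟨w, rfl⟩ := (h4 v).1 (Subsingleton.elim _ _)
      rw [Subsingleton.elim w 0, map_zero]
    rw [h5 v, h5 w]

theorem sum_nonneg_of_local [IsLocalRing A] [IsNoetherianRing A] (t : ℕ) (W : ℕ → Type u)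
    [∀ i, AddCommGroup (W i)]
    [∀ i, Module S (W i)] [∀ i, Module A (W i)] [∀ i, IsScalarTower A S (W i)]
    (hW : ∀ i, i < t → Module.length A (W i) ≠ ⊤)
    (hP : ∀ m : MaximalSpectrum S, (∀ a ∈ maximalIdeal A, algebraMap A S a ∈ m.asIdeal) →
      (∀ i, i < t → Module.length (Localization.AtPrime m.asIdeal)
        (Localization.AtPrime m.asIdeal ⊗[S] W i) ≠ ⊤) →
      0 ≤ ∑ i ∈ Finset.range t, (-1) ^ i * ((Module.length (Localization.AtPrime m.asIdeal)
        (Localization.AtPrime m.asIdeal ⊗[S] W i)).toNat : ℤ)) :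
    0 ≤ ∑ i ∈ Finset.range t, (-1) ^ i * ((Module.length A (W i)).toNat : ℤ) := by
  classical
  have hfin : ∀ i, i < t → IsFiniteLength S (W i) := by
    intro i hi
    have h3 := Module.length_ne_top_iff.1 (hW i hi)
    rw [isFiniteLength_iff_isNoetherian_isArtinian] at h3 ⊢
    obtain ⟨h4, h5⟩ := h3
    exact ⟨isNoetherian_of_tower A h4, isArtinian_of_tower A h5⟩
  have hex : ∀ i, ∃ T : Finset (MaximalSpectrum S), i < t → ∀ m : MaximalSpectrum S,
      m ∉ T → Subsingleton (Localization.AtPrime m.asIdeal ⊗[S] W i) := by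
    intro i
    by_cases hi : i < t
    · obtain ⟨T, hT⟩ := exists_finset_support (W i) (hfin i hi)
      exact ⟨T, fun _ => hT⟩
    · exact ⟨∅, fun h => absurd h hi⟩
  choose T hT using hex
  let U : Finset (MaximalSpectrum S) := (Finset.range t).biUnion T
  have hU : ∀ m : MaximalSpectrum S, m ∉ U → ∀ i, i < t →
      Subsingleton (Localization.AtPrime m.asIdeal ⊗[S] W i) := by
    intro m hm i hi
    refine hT i hi m fun h => hm ?_
    exact Finset.mem_biUnion.2 ⟨i, Finset.mem_range.2 hi, h⟩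
  have hlen : ∀ i, i < t → Module.length A (W i) = ∑ m ∈ U, Module.length A (S ⧸ m.asIdeal) *
      Module.length (Localization.AtPrime m.asIdeal)
        (Localization.AtPrime m.asIdeal ⊗[S] W i) := fun i hi =>
    length_eq_sum (T := A) U (W i) (hfin i hi) (fun m hm => hU m hm i hi)
  have hne : ∀ i, i < t → ∀ m ∈ U, Module.length A (S ⧸ m.asIdeal) *
      Module.length (Localization.AtPrime m.asIdeal)
        (Localization.AtPrime m.asIdeal ⊗[S] W i) ≠ ⊤ := by
    intro i hi m hm htop
    apply hW i hi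
    rw [hlen i hi, eq_top_iff, ← htop]
    exact Finset.single_le_sum (f := fun m : MaximalSpectrum S =>
      Module.length A (S ⧸ m.asIdeal) * Module.length (Localization.AtPrime m.asIdeal)
        (Localization.AtPrime m.asIdeal ⊗[S] W i)) (fun _ _ => bot_le) hm
  have hfinL : ∀ (m : MaximalSpectrum S) (i : ℕ), i < t →
      Module.length (Localization.AtPrime m.asIdeal)
        (Localization.AtPrime m.asIdeal ⊗[S] W i) ≠ ⊤ := by
    intro m i hi htop
    by_cases hm : m ∈ U
    · have h1 := hne i hi m hm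
      rw [htop] at h1
      apply h1
      refine ENat.mul_top ?_
      intro h0
      rw [Module.length_eq_zero_iff, Submodule.Quotient.subsingleton_iff] at h0
      exact m.isMaximal.ne_top h0
    · have := hU m hm i hi
      rw [Module.length_eq_zero] at htop
      exact ENat.zero_ne_top htop
  have hsum : ∑ i ∈ Finset.range t, (-1) ^ i * ((Module.length A (W i)).toNat : ℤ) =
      ∑ m ∈ U, ((Module.length A (S ⧸ m.asIdeal)).toNat : ℤ) *
        ∑ i ∈ Finset.range t, (-1) ^ i * ((Module.length (Localization.AtPrime m.asIdeal)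
          (Localization.AtPrime m.asIdeal ⊗[S] W i)).toNat : ℤ) := by
    have h1 : ∀ i ∈ Finset.range t, (-1) ^ i * ((Module.length A (W i)).toNat : ℤ) =
        ∑ m ∈ U, ((Module.length A (S ⧸ m.asIdeal)).toNat : ℤ) *
          ((-1) ^ i * ((Module.length (Localization.AtPrime m.asIdeal)
          (Localization.AtPrime m.asIdeal ⊗[S] W i)).toNat : ℤ)) := by
      intro i hi
      rw [Finset.mem_range] at hi
      rw [hlen i hi, ENat.toNat_sum (hne i hi)]
      push_cast
      rw [Finset.mul_sum]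
      refine Finset.sum_congr rfl fun m _ => ?_
      rw [ENat.toNat_mul]
      push_cast
      ring
    rw [Finset.sum_congr rfl h1, Finset.sum_comm]
    refine Finset.sum_congr rfl fun m _ => ?_
    rw [Finset.mul_sum]
  rw [hsum]
  refine Finset.sum_nonneg fun m _ => mul_nonneg (Int.natCast_nonneg _) ?_
  by_cases hm : ∀ a ∈ maximalIdeal A, algebraMap A S a ∈ m.asIdeal
  · exact hP m hm (hfinL m)
  · push Not at hm
    obtain ⟨a, ha, ham⟩ := hm
    refine (Finset.sum_eq_zero fun i hi => ?_).ge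
    rw [Finset.mem_range] at hi
    obtain ⟨n, hn⟩ := exists_pow_smul_eq_zero (Module.length_ne_top_iff.1 (hW i hi))
    have hz : ∀ w : W i, algebraMap A S (a ^ n) • w = 0 := fun w => by
      rw [algebraMap_smul]
      exact hn _ (Ideal.pow_mem_pow ha n) w
    have hunit : IsUnit (algebraMap S (Localization.AtPrime m.asIdeal)
        (algebraMap A S (a ^ n))) := by
      refine IsLocalization.map_units (Localization.AtPrime m.asIdeal)
        (⟨algebraMap A S (a ^ n), ?_⟩ : m.asIdeal.primeCompl)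
      rw [map_pow]
      intro h
      exact ham (Ideal.IsPrime.mem_of_pow_mem inferInstance n h)
    have hsub : Subsingleton (Localization.AtPrime m.asIdeal ⊗[S] W i) := by
      refine ⟨fun v w => ?_⟩
      have h5 : ∀ v : Localization.AtPrime m.asIdeal ⊗[S] W i, v = 0 := by
        intro v
        apply hunit.smul_left_cancel.1
        rw [smul_zero]
        induction v with
        | zero => rw [smul_zero]
        | add v w hv hw => rw [smul_add, hv, hw, add_zero]
        | tmul b w =>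
          rw [TensorProduct.smul_tmul', smul_eq_mul, ← Algebra.smul_def, TensorProduct.smul_tmul,
            hz, TensorProduct.tmul_zero]
      rw [h5 v, h5 w]
    rw [Module.length_eq_zero]
    simp

end local_sum

end Vale.Agent.P177
end

section

/-!
Nonnegativity and positivity of the Euler characteristic from a chart of the blow-up.
-/

namespace Vale.Agent.P177

open Function IsLocalRing TensorProduct

universe u

/-- Nonnegativity (and positivity) of the Euler characteristic, given a chart of the blow-up on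
which the local Euler characteristics of the strict transforms are nonnegative. -/
theorem pos_of_chart {A S : Type u} [CommRing A] [IsRegularLocalRing A] [CommRing S]
    [Algebra A S] {d : ℕ} (hd : ringKrullDim A = d) {M N : Type u}
    [AddCommGroup M] [Module A M] [Module.Finite A M] [AddCommGroup N] [Module A N]
    [Module.Finite A N] [Nontrivial M] [Nontrivial N]
    (hfin : ∀ i, Module.length A (TorM A i M N) ≠ ⊤)
    {x : A} (hx : x ∈ maximalIdeal A) {n₀ : ℕ} {I₁ J₁ : Ideal A}
    (hI : ∀ c ∈ I₁, ∀ v : M, c • v = 0) (hJ : ∀ c ∈ J₁, ∀ v : N, c • v = 0)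
    (hC : maximalIdeal A ^ (n₀ + 1) ≤ (I₁ ⊓ maximalIdeal A ^ (n₀ + 1)) ⊔
      (J₁ ⊓ maximalIdeal A ^ (n₀ + 1)) ⊔ Ideal.span {x} * maximalIdeal A ^ n₀)
    (hS : IsStrict x (fun k => (maximalIdeal A ^ k : Ideal A)) (Algebra.linearMap A S))
    {M₁ N₁ : Type u} [AddCommGroup M₁] [Module A M₁] [Module S M₁] [IsScalarTower A S M₁]
    [AddCommGroup N₁] [Module A N₁] [Module S N₁] [IsScalarTower A S N₁]
    {ι : M →ₗ[A] M₁} {κ : N →ₗ[A] N₁}
    (hM : IsStrict x (fun n => (maximalIdeal A ^ n • ⊤ : Submodule A M)) ι)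
    (hN : IsStrict x (fun n => (maximalIdeal A ^ n • ⊤ : Submodule A N)) κ)
    (hloc : ∀ m : MaximalSpectrum S, (∀ a ∈ maximalIdeal A, algebraMap A S a ∈ m.asIdeal) →
      (∀ i, i < d + 1 → Module.length (Localization.AtPrime m.asIdeal)
        (TorM (Localization.AtPrime m.asIdeal) i (Localization.AtPrime m.asIdeal ⊗[S] M₁)
          (Localization.AtPrime m.asIdeal ⊗[S] N₁)) ≠ ⊤) →
      0 ≤ eulerTor (Localization.AtPrime m.asIdeal) (d + 1)
        (Localization.AtPrime m.asIdeal ⊗[S] M₁) (Localization.AtPrime m.asIdeal ⊗[S] N₁)) :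
    0 ≤ eulerTor A (d + 1) M N ∧
    (∀ k l : ℕ, (k : WithBot ℕ∞) ≤ Module.supportDim A M → (l : WithBot ℕ∞) ≤
      Module.supportDim A N → d ≤ k + l → 0 < eulerTor A (d + 1) M N) := by
  let F : ℕ → Submodule A M := fun n => (maximalIdeal A ^ n • ⊤ : Submodule A M)
  let G : ℕ → Submodule A N := fun n => (maximalIdeal A ^ n • ⊤ : Submodule A N)
  have hF : GoodFil (maximalIdeal A) F := goodFil_pow _ _
  have hG : GoodFil (maximalIdeal A) G := goodFil_pow _ _
  obtain ⟨X⟩ := exists_fres_of_regular hd hF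
  have hfinK : ∀ i n, rl (X.ZK G n i) (X.BK G n i) ≠ ⊤ := fun i n => (euler_split X hfin n).1 i
  obtain ⟨k₁, hk₁⟩ := X.exists_stab hG hx hI hJ hC hfinK (d + 1)
  let X₁ : FR S M₁ := strictFR X hS hx hM hF
  -- nonnegativity of the contribution of the chart
  have hh : ∀ k, k₁ ≤ k → 0 ≤ ∑ i ∈ Finset.range (d + 1), (-1) ^ i *
      ((rl (X.ZK G k i) (X.BK G k i)).toNat : ℤ) := by
    intro k hk
    have hlen : ∀ i, i < d + 1 → rl (X.ZK G k i) (X.BK G k i) = Module.length A
        (X₁.Z N₁ i ⧸ (X₁.B N₁ i).submoduleOf (X₁.Z N₁ i)) := fun i hi =>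
      strict_length X hS hx hM hF hN hG i k fun k' hk' => hk₁ i hi k' (hk.trans hk')
    have e : ∑ i ∈ Finset.range (d + 1), (-1) ^ i *
        ((rl (X.ZK G k i) (X.BK G k i)).toNat : ℤ) = ∑ i ∈ Finset.range (d + 1), (-1) ^ i *
        ((Module.length A (X₁.Z N₁ i ⧸ (X₁.B N₁ i).submoduleOf (X₁.Z N₁ i))).toNat : ℤ) :=
      Finset.sum_congr rfl fun i hi => by rw [hlen i (Finset.mem_range.1 hi)]
    rw [e]
    refine sum_nonneg_of_local (S := S) (d + 1)
      (fun i => X₁.Z N₁ i ⧸ (X₁.B N₁ i).submoduleOf (X₁.Z N₁ i)) ?_ ?_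
    · intro i hi
      rw [← hlen i hi]
      exact hfinK i k
    · intro m hm hfinm
      have hT : ∀ i, Module.length (Localization.AtPrime m.asIdeal)
          (TorM (Localization.AtPrime m.asIdeal) i (Localization.AtPrime m.asIdeal ⊗[S] M₁)
            (Localization.AtPrime m.asIdeal ⊗[S] N₁)) =
          Module.length (Localization.AtPrime m.asIdeal) (Localization.AtPrime m.asIdeal ⊗[S]
            (X₁.Z N₁ i ⧸ (X₁.B N₁ i).submoduleOf (X₁.Z N₁ i))) := by
        intro i
        obtain ⟨e1⟩ := exists_tor_flat_iso (A := S) (C := Localization.AtPrime m.asIdeal) i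
          (TensorProduct.isBaseChange S M₁ (Localization.AtPrime m.asIdeal))
          (TensorProduct.isBaseChange S N₁ (Localization.AtPrime m.asIdeal))
        obtain ⟨e2⟩ := X₁.tor_eq N₁ i
        exact (e1 ≪≫ₗ e2.baseChange S (Localization.AtPrime m.asIdeal) _ _).length_eq
      have h1 := hloc m hm (fun i hi => by rw [hT]; exact hfinm i hi)
      unfold eulerTor at h1
      simp only [hT] at h1
      exact h1
  obtain ⟨⟨n₁, hn₁⟩, hpos⟩ := psi_cases hd (N := N) X
  refine ⟨?_, ?_⟩
  · have h1 := (euler_split X hfin (max k₁ n₁)).2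
    rw [h1]
    exact add_nonneg (hh _ (le_max_left _ _)) (hn₁ _ (le_max_right _ _))
  · intro k l hk hl hkl
    obtain ⟨n₂, hn₂⟩ := hpos k l hk hl hkl
    have h1 := (euler_split X hfin (max k₁ n₂)).2
    rw [h1]
    have h2 := hh _ (le_max_left k₁ n₂)
    have h3 := hn₂ _ (le_max_right k₁ n₂)
    change 0 < ∑ i ∈ Finset.range (d + 1), (-1) ^ i *
        ((rl (X.ZK G (max k₁ n₂) i) (X.BK G (max k₁ n₂) i)).toNat : ℤ) + _
    linarith

end Vale.Agent.P177
end

section

/-!
Values of elements of a one-dimensional local domain.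
-/

namespace Vale.Agent.P177

open IsLocalRing Function

universe u

theorem length_succ_le_of_lt {D : Type u} [CommRing D] {I J : Ideal D} (h : I < J) :
    Module.length D (D ⧸ J) + 1 ≤ Module.length D (D ⧸ I) := by
  rw [Module.length_quotient, Module.length_quotient]
  exact Order.coheight_add_one_le h

theorem length_quot_mul {D : Type u} [CommRing D] [IsDomain D] {b : D} (hb : b ≠ 0)
    (J : Ideal D) : Module.length D (D ⧸ (Ideal.span {b} * J)) =
      Module.length D (D ⧸ J) + Module.length D (D ⧸ Ideal.span {b}) := by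
  have hle : J ≤ Submodule.comap (LinearMap.lsmul D D b) (Ideal.span {b} * J) := by
    intro a ha
    exact Ideal.mul_mem_mul (Ideal.mem_span_singleton_self b) ha
  let f : (D ⧸ J) →ₗ[D] D ⧸ (Ideal.span {b} * J) :=
    Submodule.mapQ J (Ideal.span {b} * J) (LinearMap.lsmul D D b) hle
  let g : (D ⧸ (Ideal.span {b} * J)) →ₗ[D] D ⧸ Ideal.span {b} :=
    Submodule.factor Ideal.mul_le_left
  refine Module.length_eq_add_of_exact f g ?_ ?_ ?_
  · rw [injective_iff_map_eq_zero]
    intro a ha
    obtain ⟨a, rfl⟩ := Submodule.mkQ_surjective _ a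
    have h1 : b * a ∈ Ideal.span {b} * J := by
      have h2 : (Ideal.span {b} * J).mkQ (b * a) = 0 := ha
      rwa [Submodule.mkQ_apply, Submodule.Quotient.mk_eq_zero] at h2
    rw [Ideal.mem_span_singleton_mul] at h1
    obtain ⟨c, hc, hbc⟩ := h1
    rw [Submodule.mkQ_apply, Submodule.Quotient.mk_eq_zero]
    rwa [← mul_left_cancel₀ hb hbc]
  · intro a
    obtain ⟨a, rfl⟩ := Submodule.mkQ_surjective _ a
    exact ⟨(Ideal.span {b} * J).mkQ a, rfl⟩
  · intro a
    obtain ⟨a, rfl⟩ := Submodule.mkQ_surjective _ a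
    constructor
    · intro ha
      have h1 : a ∈ Ideal.span {b} := by
        have h2 : (Ideal.span {b}).mkQ a = 0 := ha
        rwa [Submodule.mkQ_apply, Submodule.Quotient.mk_eq_zero] at h2
      obtain ⟨c, rfl⟩ := Ideal.mem_span_singleton.1 h1
      exact ⟨J.mkQ c, rfl⟩
    · rintro ⟨c, hc⟩
      obtain ⟨c, rfl⟩ := Submodule.mkQ_surjective _ c
      rw [← hc]
      change (Ideal.span {b}).mkQ (b * c) = 0
      rw [Submodule.mkQ_apply, Submodule.Quotient.mk_eq_zero]
      exact Ideal.mul_mem_right _ _ (Ideal.mem_span_singleton_self b)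

section

variable {D O : Type u} [CommRing D] [CommRing O] [IsDomain O] [ValuationRing O] (φ : D →+* O)

theorem exists_greatest (S : Finset D) (hS : S.Nonempty) : ∃ s ∈ S, ∀ t ∈ S, φ t ∣ φ s := by
  classical
  induction hS using Finset.Nonempty.cons_induction with
  | singleton a => exact ⟨a, by simp, by simp⟩
  | cons a S _ _ ih =>
    obtain ⟨s, hs, h⟩ := ih
    rcases ValuationRing.dvd_total (φ a) (φ s) with h1 | h1
    · exact ⟨s, by simp [hs], by simpa using ⟨h1, h⟩⟩
    · exact ⟨a, by simp, by simpa using fun t ht => (h t ht).trans h1⟩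

theorem length_add_card_le (J : Ideal D) (n : ℕ) : ∀ (S : Finset D), S.card = n →
    (∀ s ∈ S, s ∈ J) →
    (∀ s ∈ S, ∀ s' ∈ S, φ s ∣ φ s' → φ s' ∣ φ s → s = s') → ∀ t : O, (∀ s ∈ S, ¬ t ∣ φ s) →
    Module.length D (D ⧸ J) + n ≤ Module.length D (D ⧸ (J ⊓ (Ideal.span {t}).comap φ)) := by
  classical
  induction n with
  | zero =>
    intro S _ _ _ t _
    rw [Nat.cast_zero, add_zero, Module.length_quotient, Module.length_quotient]
    exact Order.coheight_anti inf_le_left
  | succ n ih =>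
    intro S hS hJ hne t ht
    obtain ⟨s, hs, hmax⟩ := exists_greatest φ S (by
      rw [← Finset.card_pos]
      omega)
    have h1 := ih (S.erase s) (by rw [Finset.card_erase_of_mem hs, hS]; rfl)
      (fun a ha => hJ a (Finset.mem_of_mem_erase ha))
      (fun a ha b hb => hne a (Finset.mem_of_mem_erase ha) b (Finset.mem_of_mem_erase hb)) (φ s)
      (fun a ha h2 => Finset.ne_of_mem_erase ha
        (hne a (Finset.mem_of_mem_erase ha) s hs (hmax a (Finset.mem_of_mem_erase ha)) h2))
    have h2 : φ s ∣ t := (ValuationRing.dvd_total (φ s) t).resolve_right (ht s hs)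
    have h3 : J ⊓ (Ideal.span {t}).comap φ < J ⊓ (Ideal.span {φ s}).comap φ := by
      refine lt_of_le_of_ne (inf_le_inf_left _ (Ideal.comap_mono
        (Ideal.span_singleton_le_span_singleton.2 h2))) ?_
      intro h3
      have h4 : s ∈ J ⊓ (Ideal.span {φ s}).comap φ :=
        ⟨hJ s hs, Ideal.mem_span_singleton_self _⟩
      rw [← h3] at h4
      exact ht s hs (Ideal.mem_span_singleton.1 h4.2)
    have h4 := length_succ_le_of_lt h3
    push_cast
    rw [← add_assoc]
    exact (add_le_add_left h1 1).trans h4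

end

theorem max_le_radical {D : Type u} [CommRing D] [IsLocalRing D]
    (hD : ∀ p : Ideal D, p.IsPrime → p ≠ ⊥ → p = maximalIdeal D) {I : Ideal D} (hI : I ≠ ⊥) :
    maximalIdeal D ≤ I.radical := by
  rw [Ideal.radical_eq_sInf]
  refine le_sInf fun p hp => ?_
  have h1 : p ≠ ⊥ := fun h => hI (le_bot_iff.1 (h ▸ hp.1))
  rw [hD p hp.2 h1]

theorem length_quotient_ne_top {D : Type u} [CommRing D] [IsLocalRing D] [IsNoetherianRing D]
    (hD : ∀ p : Ideal D, p.IsPrime → p ≠ ⊥ → p = maximalIdeal D) {J : Ideal D} (hJ0 : J ≠ ⊥) :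
    Module.length D (D ⧸ J) ≠ ⊤ := by
  rw [Module.length_ne_top_iff]
  obtain ⟨k, hk⟩ := Ideal.exists_pow_le_of_le_radical_of_fg (max_le_radical hD hJ0)
    (IsNoetherian.noetherian _)
  refine isFiniteLength_of_pow_smul_eq_zero k fun a ha x => ?_
  obtain ⟨x, rfl⟩ := Ideal.Quotient.mk_surjective x
  change Ideal.Quotient.mk J (a * x) = 0
  rw [Ideal.Quotient.eq_zero_iff_mem]
  exact Ideal.mul_mem_right _ _ (hk ha)

/-- Values of elements of a one-dimensional local domain are commensurable. -/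
theorem exists_assoc_pow {D O : Type u} [CommRing D] [IsDomain D] [IsLocalRing D]
    [IsNoetherianRing D] (hD : ∀ p : Ideal D, p.IsPrime → p ≠ ⊥ → p = maximalIdeal D)
    [CommRing O] [IsDomain O] [ValuationRing O] (φ : D →+* O) (hφ : Injective φ) [IsLocalHom φ]
    (a b : D) (hb : b ∈ maximalIdeal D) (ha0 : a ≠ 0) (hb0 : b ≠ 0)
    (e : ℕ) (he : Module.length D (D ⧸ Ideal.span {b}) = e) :
    ∃ n, 1 ≤ n ∧ n ≤ e ∧ ∃ c : ℕ, Associated (φ a ^ n) (φ b ^ c) := by
  classical
  obtain ⟨N, hN⟩ := max_le_radical hD (I := Ideal.span {a}) (by simpa using ha0) hb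
  rw [Ideal.mem_span_singleton] at hN
  have hb' : φ b ≠ 0 := (map_ne_zero_iff φ hφ).2 hb0
  have hbu : ¬ IsUnit (φ b) := fun h => hb (isUnit_of_map_unit φ b h)
  have hle : ∀ c d : ℕ, φ b ^ c ∣ φ b ^ d → c ≤ d := fun c d h => by
    exact (pow_dvd_pow_iff hb' hbu).1 h
  have hc : ∀ n : ℕ, ∃ c : ℕ, φ b ^ c ∣ φ a ^ n ∧ ¬ φ b ^ (c + 1) ∣ φ a ^ n := by
    intro n
    by_contra hcon
    push Not at hcon
    have h1 : ∀ c : ℕ, φ b ^ c ∣ φ a ^ n := by
      intro c
      induction c with
      | zero => simp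
      | succ c ih => exact hcon c ih
    have h2 : φ a ^ n ∣ φ b ^ (N * n) := by
      rw [pow_mul, ← map_pow φ b N]
      exact pow_dvd_pow_of_dvd (map_dvd φ hN) n
    have h3 := hle _ _ ((h1 (N * n + 1)).trans h2)
    omega
  choose c hc1 hc2 using hc
  have hcle : ∀ n d, φ b ^ d ∣ φ a ^ n → d ≤ c n := by
    intro n d h
    by_contra hcon
    exact hc2 n ((pow_dvd_pow _ (by omega)).trans h)
  have hcm : ∀ n m, n ≤ m → c n ≤ c m := fun n m h => hcle m _ ((hc1 n).trans (pow_dvd_pow _ h))
  by_contra hcon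
  push Not at hcon
  let M := c e
  have hM : ∀ n, n ≤ e → c n ≤ M := fun n h => hcm n e h
  let g : ℕ → D := fun n => a ^ n * b ^ (M - c n)
  have hg : ∀ n, φ (g n) = φ a ^ n * φ b ^ (M - c n) := fun n => by
    simp only [g, map_mul, map_pow]
  have hginj : ∀ n m, n ≤ e → m ≤ e → n < m → φ (g n) ∣ φ (g m) → φ (g m) ∣ φ (g n) → False := by
    intro n m hn hm hnm h1 h2
    have h3 : Associated (φ (g m)) (φ (g n)) := associated_of_dvd_dvd h2 h1
    rw [hg, hg] at h3
    have h4 : φ a ^ m = φ a ^ n * φ a ^ (m - n) := by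
      rw [← pow_add]
      congr 1
      omega
    have h5 : φ b ^ (M - c n) = φ b ^ (M - c m) * φ b ^ (c m - c n) := by
      rw [← pow_add]
      congr 1
      have := hcm n m hnm.le
      have := hM m hm
      omega
    obtain ⟨u, hu⟩ := h3
    have ha' : φ a ≠ 0 := (map_ne_zero_iff φ hφ).2 ha0
    refine hcon (m - n) (by omega) (by omega) (c m - c n) ⟨u, ?_⟩
    have h6 : φ a ^ n * φ b ^ (M - c m) ≠ 0 := mul_ne_zero (pow_ne_zero _ ha') (pow_ne_zero _ hb')
    apply mul_left_cancel₀ h6
    rw [h4, h5] at hu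
    calc φ a ^ n * φ b ^ (M - c m) * (φ a ^ (m - n) * ↑u)
        = φ a ^ n * φ a ^ (m - n) * φ b ^ (M - c m) * ↑u := by ring
      _ = φ a ^ n * (φ b ^ (M - c m) * φ b ^ (c m - c n)) := hu
      _ = _ := by ring
  let S : Finset D := (Finset.range (e + 1)).image g
  have hginj' : ∀ n m, n ≤ e → m ≤ e → φ (g n) ∣ φ (g m) → φ (g m) ∣ φ (g n) → n = m := by
    intro n m hn hm h1 h2
    rcases lt_trichotomy n m with h | h | h
    · exact (hginj n m hn hm h h1 h2).elim
    · exact h
    · exact (hginj m n hm hn h h2 h1).elim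
  have hcard : S.card = e + 1 := by
    rw [Finset.card_image_of_injOn, Finset.card_range]
    intro n hn m hm h
    simp only [Finset.coe_range, Set.mem_Iio] at hn hm
    exact hginj' n m (by omega) (by omega) (by rw [h]) (by rw [h])
  let J : Ideal D := Ideal.span (S : Set D)
  have hJ : ∀ f ∈ J, φ b ^ M ∣ φ f := by
    intro f hf
    have h1 : J ≤ (Ideal.span {φ b ^ M}).comap φ := by
      rw [Ideal.span_le]
      intro s hs
      obtain ⟨n, hn, rfl⟩ := Finset.mem_image.1 (Finset.mem_coe.1 hs)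
      rw [Finset.mem_range] at hn
      change φ (g n) ∈ Ideal.span {φ b ^ M}
      rw [Ideal.mem_span_singleton, hg]
      have h2 : φ b ^ M = φ b ^ c n * φ b ^ (M - c n) := by
        rw [← pow_add]
        congr 1
        have := hM n (by omega)
        omega
      rw [h2]
      exact mul_dvd_mul_right (hc1 n) _
    exact Ideal.mem_span_singleton.1 (h1 hf)
  have key := length_add_card_le φ J (e + 1) S hcard (fun s hs => Ideal.subset_span hs) (by
      intro s hs s' hs' h1 h2
      obtain ⟨n, hn, rfl⟩ := Finset.mem_image.1 hs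
      obtain ⟨m, hm, rfl⟩ := Finset.mem_image.1 hs'
      rw [Finset.mem_range] at hn hm
      rw [hginj' n m (by omega) (by omega) h1 h2]) (φ b ^ (M + 1)) (by
      intro s hs
      obtain ⟨n, hn, rfl⟩ := Finset.mem_image.1 hs
      rw [Finset.mem_range] at hn
      rw [hg]
      have h2 : φ b ^ (M + 1) = φ b ^ (c n + 1) * φ b ^ (M - c n) := by
        rw [← pow_add]
        congr 1
        have := hM n (by omega)
        omega
      rw [h2]
      intro h
      exact hc2 n ((mul_dvd_mul_iff_right (pow_ne_zero _ hb')).1 h))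
  have h1 : Module.length D (D ⧸ (J ⊓ (Ideal.span {φ b ^ (M + 1)}).comap φ)) ≤
      Module.length D (D ⧸ (Ideal.span {b} * J)) := by
    rw [Module.length_quotient, Module.length_quotient]
    refine Order.coheight_anti ?_
    rw [Ideal.mul_le]
    intro s hs f hf
    obtain ⟨s, rfl⟩ := Ideal.mem_span_singleton.1 hs
    refine ⟨Ideal.mul_mem_left _ _ hf, ?_⟩
    change φ (b * s * f) ∈ Ideal.span {φ b ^ (M + 1)}
    rw [Ideal.mem_span_singleton, map_mul, map_mul, pow_succ']
    exact mul_dvd_mul (Dvd.intro _ rfl) (hJ f hf)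
  have hg0 : ∀ n, g n ≠ 0 := fun n => mul_ne_zero (pow_ne_zero _ ha0) (pow_ne_zero _ hb0)
  have hJ0 : J ≠ ⊥ := by
    intro h
    have h2 : g 0 ∈ J := Ideal.subset_span (Finset.mem_coe.2 (Finset.mem_image_of_mem g
      (Finset.mem_range.2 (by omega))))
    rw [h, Ideal.mem_bot] at h2
    exact hg0 0 h2
  have hfin : Module.length D (D ⧸ J) ≠ ⊤ := length_quotient_ne_top hD hJ0
  rw [length_quot_mul hb0, he] at h1
  have h2 := key.trans h1
  rw [ENat.add_le_add_iff_left hfin] at h2
  have h3 : e + 1 ≤ e := by exact_mod_cast h2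
  omega

/-- A uniform exponent for the valuations with given kernel and centre. -/
theorem exists_weight_prime {B : Type u} [CommRing B] [IsNoetherianRing B] (𝔎 𝔠 : Ideal B)
    [𝔎.IsPrime] [𝔠.IsPrime] (hle : 𝔎 ≤ 𝔠)
    (hbet : ∀ q : Ideal B, q.IsPrime → 𝔎 ≤ q → q ≤ 𝔠 → q = 𝔎 ∨ q = 𝔠)
    (a b : B) (hb : b ∈ 𝔠) (ha0 : a ∉ 𝔎) (hb0 : b ∉ 𝔎) :
    ∃ w : ℕ, 1 ≤ w ∧ ∀ (O : Type u) [CommRing O] [IsDomain O] [ValuationRing O] (Φ : B →+* O),
      RingHom.ker Φ = 𝔎 → (maximalIdeal O).comap Φ = 𝔠 → ∃ c : ℕ,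
        Associated (Φ a ^ w) (Φ b ^ c) := by
  let L := Localization.AtPrime 𝔠
  let 𝔎' : Ideal L := 𝔎.map (algebraMap B L)
  have hdisj : Disjoint (𝔠.primeCompl : Set B) 𝔎 := by
    rw [Set.disjoint_left]
    intro a ha ha'
    exact ha (hle ha')
  have h𝔎' : 𝔎'.IsPrime :=
    IsLocalization.isPrime_of_isPrime_disjoint 𝔠.primeCompl _ _ inferInstance hdisj
  have hc : 𝔎'.comap (algebraMap B L) = 𝔎 :=
    IsLocalization.under_map_of_isPrime_disjoint 𝔠.primeCompl L inferInstance hdisj
  let D := L ⧸ 𝔎'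
  have hl1 : IsLocalHom (Ideal.Quotient.mk 𝔎') :=
    IsLocalHom.of_surjective _ Ideal.Quotient.mk_surjective
  have hDl : IsLocalRing D :=
    IsLocalRing.of_surjective' (Ideal.Quotient.mk 𝔎') Ideal.Quotient.mk_surjective
  have hLN : IsNoetherianRing L := IsLocalization.isNoetherianRing 𝔠.primeCompl L inferInstance
  let ι : B →+* D := (Ideal.Quotient.mk 𝔎').comp (algebraMap B L)
  have hι : ∀ x, ι x = 0 ↔ x ∈ 𝔎 := fun x => by
    rw [← hc]
    exact Ideal.Quotient.eq_zero_iff_mem
  have hιm : (maximalIdeal D).comap ι = 𝔠 := by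
    have h1 : (maximalIdeal D).comap (Ideal.Quotient.mk 𝔎') = maximalIdeal L :=
      ((IsLocalRing.local_hom_TFAE (Ideal.Quotient.mk 𝔎')).out 0 4).mp hl1
    rw [← Ideal.comap_comap, h1]
    exact Localization.AtPrime.under_maximalIdeal
  have hD : ∀ p : Ideal D, p.IsPrime → p ≠ ⊥ → p = maximalIdeal D := by
    intro p hp hp0
    let q : Ideal B := p.comap ι
    have hq : q.IsPrime := Ideal.IsPrime.comap _
    have h1 : 𝔎 ≤ q := fun x hx => by
      change ι x ∈ p
      rw [(hι x).2 hx]
      exact zero_mem _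
    have h2 : q ≤ 𝔠 := by
      rw [← hιm]
      exact Ideal.comap_mono (le_maximalIdeal hp.ne_top)
    have hinj : ∀ p₁ p₂ : Ideal D, p₁.comap ι = p₂.comap ι → p₁ = p₂ := by
      intro p₁ p₂ h
      rw [← Ideal.comap_comap, ← Ideal.comap_comap] at h
      have h3 : p₁.comap (Ideal.Quotient.mk 𝔎') = p₂.comap (Ideal.Quotient.mk 𝔎') := by
        have e1 := IsLocalization.map_under 𝔠.primeCompl L (p₁.comap (Ideal.Quotient.mk 𝔎'))
        have e2 := IsLocalization.map_under 𝔠.primeCompl L (p₂.comap (Ideal.Quotient.mk 𝔎'))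
        change ((p₁.comap (Ideal.Quotient.mk 𝔎')).comap (algebraMap B L)).map _ = _ at e1
        change ((p₂.comap (Ideal.Quotient.mk 𝔎')).comap (algebraMap B L)).map _ = _ at e2
        rw [← e1, ← e2, h]
      exact Ideal.comap_injective_of_surjective _ Ideal.Quotient.mk_surjective h3
    rcases hbet q hq h1 h2 with h3 | h3
    · exfalso
      apply hp0
      apply hinj
      change q = _
      rw [h3]
      ext x
      rw [Ideal.mem_comap, Ideal.mem_bot, hι]
    · apply hinj
      rw [hιm]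
      exact h3
  have hbD : ι b ≠ 0 := fun h => hb0 ((hι b).1 h)
  have haD : ι a ≠ 0 := fun h => ha0 ((hι a).1 h)
  obtain ⟨e, he⟩ := ENat.ne_top_iff_exists.1 (length_quotient_ne_top hD
    (J := Ideal.span {ι b}) (by simpa using hbD))
  refine ⟨e.factorial, Nat.factorial_pos e, ?_⟩
  intro O _ _ _ Φ hker hcomap
  have hunit : ∀ s : 𝔠.primeCompl, IsUnit (Φ s) := by
    intro s
    by_contra hs
    have h1 : Φ s ∈ maximalIdeal O := hs
    have h2 : (s : B) ∈ (maximalIdeal O).comap Φ := h1
    rw [hcomap] at h2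
    exact s.2 h2
  let Φ₁ : L →+* O := IsLocalization.lift hunit
  have hΦ₁ : ∀ x, Φ₁ (algebraMap B L x) = Φ x := fun x => IsLocalization.lift_eq hunit x
  let Φ₂ : D →+* O := Ideal.Quotient.lift 𝔎' Φ₁ (by
    intro x hx
    have h1 : 𝔎' ≤ RingHom.ker Φ₁ := by
      rw [Ideal.map_le_iff_le_comap]
      intro y hy
      change Φ₁ (algebraMap B L y) = 0
      rw [hΦ₁, ← RingHom.mem_ker, hker]
      exact hy
    exact h1 hx)
  have hΦ₂ : ∀ x, Φ₂ (ι x) = Φ x := fun x => hΦ₁ x
  have hrep : ∀ d : D, ∃ (x : B) (s : 𝔠.primeCompl), d * ι s = ι x := by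
    intro d
    obtain ⟨l, rfl⟩ := Ideal.Quotient.mk_surjective d
    obtain ⟨⟨x, s⟩, hxs⟩ := IsLocalization.surj 𝔠.primeCompl l
    exact ⟨x, s, by
      change Ideal.Quotient.mk 𝔎' l * Ideal.Quotient.mk 𝔎' (algebraMap B L s) = _
      rw [← map_mul, hxs]
      rfl⟩
  have hinj : Injective Φ₂ := by
    rw [injective_iff_map_eq_zero]
    intro d hd
    obtain ⟨x, s, hxs⟩ := hrep d
    have h1 := congrArg Φ₂ hxs
    rw [map_mul, hd, zero_mul, hΦ₂] at h1
    have h2 : x ∈ 𝔎 := by
      rw [← hker]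
      exact h1.symm
    rw [(hι x).2 h2] at hxs
    refine (mul_eq_zero.1 hxs).resolve_right fun h => ?_
    exact s.2 (hle ((hι s).1 h))
  have hloc : IsLocalHom Φ₂ := by
    refine ⟨fun d hd => ?_⟩
    by_contra hd'
    obtain ⟨x, s, hxs⟩ := hrep d
    have h1 : x ∈ 𝔠 := by
      rw [← hιm]
      change ι x ∈ maximalIdeal D
      rw [← hxs]
      exact Ideal.mul_mem_right _ _ hd'
    have h2 := congrArg Φ₂ hxs
    rw [map_mul, hΦ₂, hΦ₂] at h2
    rw [← hcomap] at h1
    have h3 : Φ x ∈ maximalIdeal O := h1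
    rw [← h2] at h3
    exact h3 (hd.mul (hunit s))
  obtain ⟨n, hn1, hn2, c, hc⟩ := exists_assoc_pow hD Φ₂ hinj (ι a) (ι b)
    (by
      have : b ∈ (maximalIdeal D).comap ι := by
        rw [hιm]
        exact hb
      exact this) haD hbD e he.symm
  rw [hΦ₂, hΦ₂] at hc
  obtain ⟨m, hm⟩ := Nat.dvd_factorial hn1 hn2
  refine ⟨c * m, ?_⟩
  rw [hm, pow_mul, pow_mul]
  exact hc.pow_pow

/-- A uniform exponent for the valuations with given kernel. -/
theorem exists_weight {B : Type u} [CommRing B] [IsNoetherianRing B] (𝔎 : Ideal B)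
    [𝔎.IsPrime] (a b : B) (ha0 : a ∉ 𝔎) (hb0 : b ∉ 𝔎) :
    ∃ w : ℕ, 1 ≤ w ∧ ∀ (O : Type u) [CommRing O] [IsDomain O] [ValuationRing O] (Φ : B →+* O),
      RingHom.ker Φ = 𝔎 → a ∈ (maximalIdeal O).comap Φ → b ∈ (maximalIdeal O).comap Φ →
      (∀ q : Ideal B, q.IsPrime → 𝔎 ≤ q → q ≤ (maximalIdeal O).comap Φ →
        q = 𝔎 ∨ q = (maximalIdeal O).comap Φ) → ∃ c : ℕ, Associated (Φ a ^ w) (Φ b ^ c) := by
  have hfin := Ideal.finite_minimalPrimes_of_isNoetherianRing B (𝔎 ⊔ Ideal.span {a})
  have key : ∀ T : Set (Ideal B), T.Finite → ∃ w : ℕ, 1 ≤ w ∧ ∀ 𝔠 ∈ T, ∀ (O : Type u) [CommRing O]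
      [IsDomain O] [ValuationRing O] (Φ : B →+* O),
      RingHom.ker Φ = 𝔎 → (maximalIdeal O).comap Φ = 𝔠 → a ∈ 𝔠 → b ∈ 𝔠 →
      (∀ q : Ideal B, q.IsPrime → 𝔎 ≤ q → q ≤ 𝔠 → q = 𝔎 ∨ q = 𝔠) →
      ∃ c : ℕ, Associated (Φ a ^ w) (Φ b ^ c) := by
    intro T hT
    induction T, hT using Set.Finite.induction_on with
    | empty => exact ⟨1, le_rfl, fun 𝔠 h => h.elim⟩
    | @insert 𝔠 T _ _ ih =>
      obtain ⟨w, hw, h⟩ := ih
      by_cases hgood : 𝔠.IsPrime ∧ 𝔎 ≤ 𝔠 ∧ a ∈ 𝔠 ∧ b ∈ 𝔠 ∧
          ∀ q : Ideal B, q.IsPrime → 𝔎 ≤ q → q ≤ 𝔠 → q = 𝔎 ∨ q = 𝔠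
      · obtain ⟨h1, h2, h3, h4, h5⟩ := hgood
        obtain ⟨w', hw', h'⟩ := exists_weight_prime 𝔎 𝔠 h2 h5 a b h4 ha0 hb0
        refine ⟨w * w', Nat.mul_pos hw hw', ?_⟩
        intro 𝔠' hmem O _ _ _ Φ hker hcomap ha hb hbet
        rcases hmem with rfl | hmem
        · obtain ⟨c, hc⟩ := h' O Φ hker hcomap
          refine ⟨c * w, ?_⟩
          rw [mul_comm w, pow_mul, pow_mul]
          exact hc.pow_pow
        · obtain ⟨c, hc⟩ := h 𝔠' hmem O Φ hker hcomap ha hb hbet
          refine ⟨c * w', ?_⟩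
          rw [pow_mul, pow_mul]
          exact hc.pow_pow
      · refine ⟨w, hw, ?_⟩
        intro 𝔠' hmem O _ _ _ Φ hker hcomap ha hb hbet
        rcases hmem with rfl | hmem
        · exfalso
          apply hgood
          refine ⟨?_, ?_, ha, hb, hbet⟩
          · rw [← hcomap]
            exact Ideal.IsPrime.comap _
          · rw [← hcomap, ← hker]
            intro x hx
            change Φ x ∈ maximalIdeal O
            rw [RingHom.mem_ker.1 hx]
            exact zero_mem _
        · exact h 𝔠' hmem O Φ hker hcomap ha hb hbet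
  obtain ⟨w, hw, h⟩ := key _ hfin
  refine ⟨w, hw, ?_⟩
  intro O _ _ _ Φ hker ha hb hbet
  refine h _ ?_ O Φ hker rfl ha hb hbet
  have hp : ((maximalIdeal O).comap Φ).IsPrime := Ideal.IsPrime.comap _
  have hle : 𝔎 ≤ (maximalIdeal O).comap Φ := by
    rw [← hker]
    intro x hx
    change Φ x ∈ maximalIdeal O
    rw [RingHom.mem_ker.1 hx]
    exact zero_mem _
  refine ⟨⟨hp, sup_le hle (by rwa [Ideal.span_singleton_le_iff_mem])⟩, ?_⟩
  intro q hq hqle
  rcases hbet q hq.1 (le_sup_left.trans hq.2) hqle with h1 | h1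
  · exfalso
    apply ha0
    rw [← h1]
    exact hq.2 (Ideal.mem_sup_right (Ideal.mem_span_singleton_self a))
  · rw [h1]

end Vale.Agent.P177
end

section

/-!
The local ring of the chart, compared with the extended Rees algebra.
-/

namespace Vale.Agent.P177

open IsLocalRing Function TensorProduct

universe u

section omega

open LaurentPolynomial

variable {A : Type u} [CommRing A] {d : ℕ} {x : Fin d → A} (c : Fin d → A)

variable [IsRegularLocalRing A] (hd : ringKrullDim A = d)
  (hx : Ideal.span (Set.range x) = maximalIdeal A)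

include hd in
theorem exists_omega' (P : Ideal (Chart x c)) [hP : P.IsMaximal]
    (hmP : ∀ a ∈ maximalIdeal A, algebraMap A (Chart x c) a ∈ P) :
    ∃ (Ω : Type u) (_ : CommRing Ω) (_ : IsRegularLocalRing Ω)
      (_ : Algebra (Localization.AtPrime P) Ω) (_ : Module.Flat (Localization.AtPrime P) Ω)
      (ρ : ERees x →+* Ω) (q : Ideal (MvPolynomial (Fin d) (ResidueField A))) (_ : q.IsPrime),
      (maximalIdeal (Localization.AtPrime P)).map (algebraMap (Localization.AtPrime P) Ω) =
        maximalIdeal Ω ∧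
      ringKrullDim Ω = ((q.height + 1 : ℕ∞) : WithBot ℕ∞) ∧
      (∀ f ∈ q, ∀ n, MvPolynomial.homogeneousComponent n f ∈ q) ∧
      (∃ i, MvPolynomial.X i ∉ q) ∧
      (∀ a : A, algebraMap (Localization.AtPrime P) Ω
        (algebraMap (Chart x c) _ (algebraMap A _ a)) = ρ (algebraMap A _ a)) ∧
      (∃ u : Ωˣ, algebraMap (Localization.AtPrime P) Ω
        (algebraMap (Chart x c) _ (algebraMap A _ (x0 x c))) = u * ρ (eT x)) ∧
      ρ.Flat ∧ (maximalIdeal Ω).comap ρ = q.comap (eRes hx) ∧
      (q.comap (eRes hx)).map ρ = maximalIdeal Ω := by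
  have hPp : P.IsPrime := hP.isPrime
  let Q : Ideal (LaurentPolynomial (Chart x c)) := lExt P
  have hcomap : P = Q.comap (C : Chart x c →+* _) := lExt_comap P
  let Ω := Localization.AtPrime Q
  let f : Localization.AtPrime P →+* Ω := Localization.localRingHom P Q C hcomap
  let _ : Algebra (Localization.AtPrime P) Ω := f.toAlgebra
  have hf : ∀ s : Chart x c, f (algebraMap _ _ s) = algebraMap _ Ω (C s) := fun s =>
    Localization.localRingHom_to_map P Q C hcomap s
  have htow : IsScalarTower (Chart x c) (Localization.AtPrime P) Ω :=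
    IsScalarTower.of_algebraMap_eq fun s => (hf s).symm
  have hflat : Module.Flat (Localization.AtPrime P) Ω :=
    (Module.flat_iff_of_isLocalization (Localization.AtPrime P) P.primeCompl Ω).2 inferInstance
  -- the extended Rees algebra
  let _ : Algebra (ERees x) (LaurentPolynomial (Chart x c)) := (chartPhi x c).toAlgebra
  have hloc : IsLocalization.Away (eXi x c) (LaurentPolynomial (Chart x c)) :=
    chart_isLocalization x c
  let ρ : ERees x →+* Ω := (algebraMap (LaurentPolynomial (Chart x c)) Ω).comp (chartPhi x c)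
  have hρ : algebraMap (ERees x) Ω = ρ := IsScalarTower.algebraMap_eq _ _ _
  let 𝔓 : Ideal (ERees x) := Q.comap (chartPhi x c)
  have h𝔓 : 𝔓.IsPrime := inferInstance
  have hlocP : IsLocalization.AtPrime Ω 𝔓 :=
    IsLocalization.isLocalization_isLocalization_atPrime_isLocalization
      (Submonoid.powers (eXi x c)) Ω Q
  have hT𝔓 : eT x ∈ 𝔓 := by
    change chartPhi x c (eT x) ∈ Q
    rw [chartPhi_eT]
    exact Ideal.mul_mem_right _ _ (Ideal.mem_map_of_mem _ (hmP _ (x0_mem hx c)))
  obtain ⟨q, hq, h𝔓q⟩ := exists_comap_eRes hx 𝔓 hT𝔓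
  obtain ⟨hreg, hht, -⟩ := eRees_regular_aux hd hx q
  have hregΩ : IsRegularLocalRing Ω := by
    have : IsRegularLocalRing (Localization.AtPrime 𝔓) := by
      have : ∀ (J : Ideal (ERees x)) [J.IsPrime], J = q.comap (eRes hx) →
          IsRegularLocalRing (Localization.AtPrime J) := by
        rintro J hJ rfl
        exact hreg
      exact this 𝔓 h𝔓q
    let e : Localization.AtPrime 𝔓 ≃+* Ω :=
      (IsLocalization.algEquiv 𝔓.primeCompl (Localization.AtPrime 𝔓) Ω).toRingEquiv
    exact IsRegularLocalRing.of_ringEquiv (R := Localization.AtPrime 𝔓) (R' := Ω) e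
  have hmem : ∀ F : ERees x, F ∈ 𝔓 ↔ eRes hx F ∈ q := fun F => by rw [h𝔓q]; rfl
  have hξ : eXi x c ∉ 𝔓 := by
    intro h
    have h1 : chartPhi x c (eXi x c) ∈ Q := h
    rw [chartPhi_eXi] at h1
    exact (inferInstance : Q.IsPrime).ne_top (Ideal.eq_top_of_isUnit_mem _ h1 (isUnit_T 1))
  refine ⟨Ω, inferInstance, hregΩ, inferInstance, hflat, ρ, q, hq, ?_, ?_, ?_, ?_, ?_, ?_, ?_, ?_,
    ?_⟩
  · rw [← Localization.AtPrime.map_eq_maximalIdeal, Ideal.map_map,
      ← Localization.AtPrime.map_eq_maximalIdeal]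
    change _ = (lExt P).map _
    unfold lExt
    rw [Ideal.map_map]
    congr 1
    ext s : 1
    exact hf s
  · rw [← hht, ← h𝔓q]
    exact IsLocalization.AtPrime.ringKrullDim_eq_height 𝔓 Ω
  · intro g hg n
    obtain ⟨G, hG⟩ := MvPolynomial.map_surjective (residue A) residue_surjective g
    have h1 : MvPolynomial.aeval (eY x) G ∈ 𝔓 := by
      rw [hmem, eRes_aeval, hG]
      exact hg
    have h2 : ∑ i ∈ Finset.range (G.totalDegree + 1), (C (MvPolynomial.aeval (cY x c)
        (MvPolynomial.homogeneousComponent i G)) * T i : LaurentPolynomial (Chart x c)) ∈ Q := by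
      have h3 : ∑ i ∈ Finset.range (G.totalDegree + 1), (C (MvPolynomial.aeval (cY x c)
          (MvPolynomial.homogeneousComponent i G)) * T i : LaurentPolynomial (Chart x c)) =
          chartPhi x c (MvPolynomial.aeval (eY x) G) := by
        conv_rhs => rw [← MvPolynomial.sum_homogeneousComponent G]
        rw [map_sum, map_sum]
        refine Finset.sum_congr rfl fun i _ => ?_
        rw [chartPhi_aeval c _ i (MvPolynomial.homogeneousComponent_isHomogeneous i G)]
      rw [h3]
      exact h1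
    have h3 := coeff_mem_of_sum_mem P _ _ h2
    have h4 : MvPolynomial.homogeneousComponent n g =
        (MvPolynomial.homogeneousComponent n G).map (residue A) := by
      rw [← hG]
      ext m
      rw [MvPolynomial.coeff_map, MvPolynomial.coeff_homogeneousComponent,
        MvPolynomial.coeff_homogeneousComponent]
      split_ifs
      · rw [MvPolynomial.coeff_map]
      · rw [map_zero]
    rw [h4, ← eRes_aeval hx, ← hmem]
    change chartPhi x c _ ∈ Q
    rw [chartPhi_aeval c _ n (MvPolynomial.homogeneousComponent_isHomogeneous n G)]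
    refine Ideal.mul_mem_right _ _ (Ideal.mem_map_of_mem _ ?_)
    by_cases hn : n < G.totalDegree + 1
    · exact h3 n hn
    · rw [MvPolynomial.homogeneousComponent_eq_zero n G (by omega), map_zero]
      exact zero_mem _
  · by_contra hcon
    push Not at hcon
    apply hξ
    rw [hmem]
    unfold eXi
    rw [map_sum]
    refine Ideal.sum_mem _ fun i _ => ?_
    rw [map_mul, eRes_eY]
    exact Ideal.mul_mem_left _ _ (hcon i)
  · intro a
    change f (algebraMap _ _ (algebraMap A (Chart x c) a)) = ρ (algebraMap A _ a)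
    rw [hf, RingHom.comp_apply, chartPhi_algebraMap]
  · have hu : IsUnit (ρ (eXi x c)) := by
      rw [← hρ]
      exact IsLocalization.map_units Ω (⟨eXi x c, hξ⟩ : 𝔓.primeCompl)
    refine ⟨hu.unit, ?_⟩
    change f (algebraMap _ _ (algebraMap A (Chart x c) (x0 x c))) = ρ (eXi x c) * ρ (eT x)
    rw [← map_mul, mul_comm, ← algebraMap_x0, RingHom.comp_apply, chartPhi_algebraMap, hf]
  · have h1 : Module.Flat (ERees x) (LaurentPolynomial (Chart x c)) :=
      IsLocalization.flat _ (Submonoid.powers (eXi x c))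
    have h2 : Module.Flat (ERees x) Ω := Module.Flat.trans _ (LaurentPolynomial (Chart x c)) _
    rw [← hρ]
    exact RingHom.flat_algebraMap_iff.2 h2
  · rw [← h𝔓q]
    change (maximalIdeal Ω).comap ((algebraMap (LaurentPolynomial (Chart x c)) Ω).comp _) = _
    rw [← Ideal.comap_comap]
    exact congrArg (Ideal.comap (chartPhi x c)) Localization.AtPrime.under_maximalIdeal
  · rw [← h𝔓q, ← hρ]
    exact IsLocalization.AtPrime.map_eq_maximalIdeal 𝔓 Ω

end omega

end Vale.Agent.P177
end
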