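import Mathlib
import Vale.Agent.P177.Bd3.B3
import Vale.Agent.P177.Bd3.B4
import Vale.Agent.P177.Bd3.B1
import Vale.Agent.P177.Bd3.B2

set_option linter.all false

section

/-!
Flat local base change with closed fibre of finite length.
-/

namespace Vale.Agent.P177

open CategoryTheory TensorProduct Function IsLocalRing RingTheory.Sequence Pointwise

universe u

section

variable {A C : Type u} [CommRing A] [CommRing C] [Algebra A C] [Module.Flat A C]

theorem ker_baseChange_equiv {P Q : Type u} [AddCommGroup P] [Module A P] [AddCommGroup Q]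
    [Module A Q] (f : P →ₗ[A] Q) :
    Nonempty (LinearMap.ker (f.baseChange C) ≃ₗ[C] C ⊗[A] LinearMap.ker f) := by
  have hex : Exact (LinearMap.ker f).subtype f := by
    intro x
    simp
  have h1 : Injective ((LinearMap.ker f).subtype.baseChange C) := by
    rw [LinearMap.baseChange_eq_ltensor]
    exact Module.Flat.lTensor_preserves_injective_linearMap _ (Submodule.injective_subtype _)
  have h2 : Exact ((LinearMap.ker f).subtype.baseChange C) (f.baseChange C) := by
    rw [LinearMap.baseChange_eq_ltensor, LinearMap.baseChange_eq_ltensor]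
    exact Module.Flat.lTensor_exact C hex
  have h3 := LinearEquiv.ofInjective _ h1
  rw [LinearMap.exact_iff.1 h2]
  exact ⟨h3.symm⟩

/-- Flat base change of Tor in both variables. -/
theorem exists_tor_baseChange (n : ℕ) {K X N Y : Type u}
    [AddCommGroup K] [Module A K] [AddCommGroup N] [Module A N]
    [AddCommGroup X] [Module A X] [Module C X] [IsScalarTower A C X]
    [AddCommGroup Y] [Module A Y] [Module C Y] [IsScalarTower A C Y]
    {φ : K →ₗ[A] X} (hφ : IsBaseChange C φ) {ψ : N →ₗ[A] Y} (hψ : IsBaseChange C ψ) :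
    Nonempty (TorM C n X Y ≃ₗ[C] C ⊗[A] TorM A n K N) := by
  induction n generalizing K X with
  | zero =>
    obtain ⟨e, -⟩ := exists_cancel₂ hφ hψ
    exact ⟨torZero X Y ≪≫ₗ e ≪≫ₗ (torZero K N).symm.baseChange A C _ _⟩
  | succ n ih =>
    obtain ⟨F, K1, _, _, _, _, i, g, hF, hi, hg, h⟩ := exists_cover A K
    obtain ⟨Y1, _, _, _, _, ψ1, hψ1⟩ := exists_baseChange (R := A) C F
    obtain ⟨X1, _, _, _, _, φ1, hφ1⟩ := exists_baseChange (R := A) C K1
    let j : X1 →ₗ[C] Y1 := hφ1.lift (ψ1 ∘ₗ i)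
    have hj : ∀ k, j (φ1 k) = ψ1 (i k) := fun k => hφ1.lift_eq _ k
    let q : Y1 →ₗ[C] X := hψ1.lift (φ ∘ₗ g)
    have hq : ∀ y, q (ψ1 y) = φ (g y) := fun y => hψ1.lift_eq _ y
    have hjinj : Injective j := bc_injective hφ1 hψ1 i j hj hi
    have hqs : Surjective q := bc_surjective hψ1 hφ g q hq hg
    have hex : Exact j q := bc_exact hφ1 hψ1 hφ i j hj g q hq hg h
    have hYflat : Module.Flat C Y1 := Module.Flat.isBaseChange A C F Y1 hψ1
    cases n with
    | zero =>
      obtain ⟨e1⟩ := tor_one i g hi hg h N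
      obtain ⟨e2⟩ := tor_one j q hjinj hqs hex Y
      obtain ⟨eX, heX⟩ := exists_cancel₂ hφ1 hψ
      obtain ⟨eY, heY⟩ := exists_cancel₂ hψ1 hψ
      have key : ∀ z : C ⊗[A] (K1 ⊗[A] N), j.rTensor Y (eX.symm z) =
          eY.symm ((i.rTensor N).baseChange C z) := by
        intro z
        induction z using TensorProduct.induction_on with
        | zero => simp
        | tmul c w =>
          induction w using TensorProduct.induction_on with
          | zero => simp
          | tmul k n =>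
            rw [heX, map_smul, LinearMap.rTensor_tmul, hj, LinearMap.baseChange_tmul,
              LinearMap.rTensor_tmul, heY]
          | add a b ha hb => rw [TensorProduct.tmul_add, map_add, map_add, ha, hb, map_add, map_add]
        | add a b ha hb => rw [map_add, map_add, ha, hb, map_add, map_add]
      obtain ⟨e3⟩ := ker_equiv eX.symm eY.symm ((i.rTensor N).baseChange C) (j.rTensor Y) key
      obtain ⟨e4⟩ := ker_baseChange_equiv (C := C) (i.rTensor N)
      exact ⟨e2 ≪≫ₗ e3.symm ≪≫ₗ e4 ≪≫ₗ e1.symm.baseChange A C _ _⟩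
    | succ n =>
      obtain ⟨e1⟩ := tor_shift i g hi hg h N n
      obtain ⟨e2⟩ := tor_shift j q hjinj hqs hex Y n
      obtain ⟨e3⟩ := ih hφ1
      exact ⟨e2 ≪≫ₗ e3 ≪≫ₗ e1.symm.baseChange A C _ _⟩

end

section descend

variable {R C : Type u} [CommRing R] [CommRing C] [IsLocalRing R] [IsNoetherianRing R]
  [IsLocalRing C] [IsNoetherianRing C] [Algebra R C] [Module.Flat R C]
  [IsLocalHom (algebraMap R C)]

omit [IsNoetherianRing R] [IsNoetherianRing C] in
theorem eulerTor_baseChange
    {K X N Y : Type u}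
    [AddCommGroup K] [Module R K] [AddCommGroup N] [Module R N]
    [AddCommGroup X] [Module R X] [Module C X] [IsScalarTower R C X]
    [AddCommGroup Y] [Module R Y] [Module C Y] [IsScalarTower R C Y]
    {φ : K →ₗ[R] X} (hφ : IsBaseChange C φ) {ψ : N →ₗ[R] Y} (hψ : IsBaseChange C ψ) (n : ℕ) :
    eulerTor C n X Y = ((Module.length C (C ⧸ (maximalIdeal R).map (algebraMap R C))).toNat : ℤ) *
      eulerTor R n K N := by
  unfold eulerTor
  rw [Finset.mul_sum]
  refine Finset.sum_congr rfl fun i _ => ?_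
  obtain ⟨e⟩ := exists_tor_baseChange (A := R) i hφ hψ
  rw [e.length_eq, IsLocalRing.length_baseChange, ENat.toNat_mul]
  push_cast
  ring

omit [IsNoetherianRing R] [IsNoetherianRing C] [Module.Flat R C] in
theorem length_fibre_pos : 0 < (Module.length C (C ⧸ (maximalIdeal R).map (algebraMap R C))) := by
  rw [pos_iff_ne_zero, Ne, Module.length_eq_zero_iff, ← not_nontrivial_iff_subsingleton, not_not,
    Ideal.Quotient.nontrivial_iff]
  intro h
  have h1 := ((local_hom_TFAE (algebraMap R C)).out 0 2).1 ‹_›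
  rw [h, top_le_iff] at h1
  exact (maximalIdeal.isMaximal C).ne_top h1

/-- Descent of Serre's statements for a pair. -/
theorem serrePair_descend_finite
    (hfin : Module.length C (C ⧸ (maximalIdeal R).map (algebraMap R C)) ≠ ⊤) {d : ℕ}
    (M N : Type u) [AddCommGroup M] [Module R M] [Module.Finite R M]
    [AddCommGroup N] [Module R N] [Module.Finite R N]
    (h : 0 ≤ eulerTor C (d + 1) (C ⊗[R] M) (C ⊗[R] N) ∧ ∀ m n : ℕ,
      (m : WithBot ℕ∞) ≤ Module.supportDim C (C ⊗[R] M) →
      (n : WithBot ℕ∞) ≤ Module.supportDim C (C ⊗[R] N) →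
      (m + n ≤ d) ∧ (d ≤ m + n → 0 < eulerTor C (d + 1) (C ⊗[R] M) (C ⊗[R] N))) :
    0 ≤ eulerTor R (d + 1) M N ∧ ∀ m n : ℕ, (m : WithBot ℕ∞) ≤ Module.supportDim R M →
      (n : WithBot ℕ∞) ≤ Module.supportDim R N →
      (m + n ≤ d) ∧ (d ≤ m + n → 0 < eulerTor R (d + 1) M N) := by
  obtain ⟨h1, h2⟩ := h
  have hff : Module.FaithfullyFlat R C := Module.FaithfullyFlat.of_flat_of_isLocalHom
  have heq := eulerTor_baseChange (R := R) (C := C) (TensorProduct.isBaseChange R M C)
    (TensorProduct.isBaseChange R N C) (d + 1)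
  have hpos : 0 < ((Module.length C (C ⧸ (maximalIdeal R).map (algebraMap R C))).toNat : ℤ) := by
    have := length_fibre_pos (R := R) (C := C)
    have h3 := ENat.toNat_pos this.ne' hfin
    exact_mod_cast h3
  rw [heq] at h1 h2
  refine ⟨nonneg_of_mul_nonneg_right h1 hpos, fun m n hm hn => ?_⟩
  obtain ⟨h4, h5⟩ := h2 m n (hm.trans (supportDim_le_baseChange_of_faithfullyFlat M))
    (hn.trans (supportDim_le_baseChange_of_faithfullyFlat N))
  exact ⟨h4, fun hd => (mul_pos_iff_of_pos_left hpos).1 (h5 hd)⟩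

theorem length_tensor_ne_top_of_fibre
    (hfin : Module.length C (C ⧸ (maximalIdeal R).map (algebraMap R C)) ≠ ⊤)
    (M N : Type u) [AddCommGroup M] [Module R M]
    [AddCommGroup N] [Module R N]
    (hlen : Module.length R (M ⊗[R] N) ≠ ⊤) :
    Module.length C ((C ⊗[R] M) ⊗[C] (C ⊗[R] N)) ≠ ⊤ := by
  have e : (C ⊗[R] M) ⊗[C] (C ⊗[R] N) ≃ₗ[C] C ⊗[R] (M ⊗[R] N) :=
    (AlgebraTensorModule.distribBaseChange R C M N).symm
  rw [e.length_eq, IsLocalRing.length_baseChange]
  exact WithTop.mul_ne_top hlen hfin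

theorem SerreAll.descend_finite
    (hfin : Module.length C (C ⧸ (maximalIdeal R).map (algebraMap R C)) ≠ ⊤) {d : ℕ}
    (h : SerreAll C d) : SerreAll R d := by
  intro M N _ _ _ _ _ _ hlen
  exact serrePair_descend_finite hfin M N (h _ _ (length_tensor_ne_top_of_fibre hfin M N hlen))

end descend

end Vale.Agent.P177
end

section

/-!
Devissage: from modules killed by `p` to `p`-power torsion modules.
-/

namespace Vale.Agent.P177

open CategoryTheory TensorProduct Function IsLocalRing RingTheory.Sequence Pointwise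

universe u

section

variable {R : Type u} [CommRing R]

theorem Good.symm {d : ℕ} {M N : Type u} [AddCommGroup M] [Module R M]
    [AddCommGroup N] [Module R N] (h : Good R d M N) : Good R d N M := by
  have heq : eulerTor R (d + 1) N M = eulerTor R (d + 1) M N := by
    unfold eulerTor
    refine Finset.sum_congr rfl fun i _ => ?_
    obtain ⟨e⟩ := tor_symm (R := R) i N M
    rw [e.length_eq]
  unfold Good
  rw [heq]
  refine ⟨h.1, fun a b ha hb hab => h.2 b a hb ha (by omega)⟩

variable [IsLocalRing R] [IsNoetherianRing R]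

theorem length_tensor_ne_top_of_annihilator_le (M M' N : Type u) [AddCommGroup M] [Module R M]
    [AddCommGroup M'] [Module R M'] [AddCommGroup N] [Module R N] [Module.Finite R M]
    [Module.Finite R M'] [Module.Finite R N]
    (h : Module.length R (M ⊗[R] N) ≠ ⊤)
    (hle : Module.annihilator R M ≤ Module.annihilator R M') :
    Module.length R (M' ⊗[R] N) ≠ ⊤ := by
  obtain ⟨k, hk⟩ := exists_pow_le_sup_annihilator M N h
  rw [Module.length_ne_top_iff]
  refine isFiniteLength_of_pow_smul_eq_zero k ?_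
  intro a ha x
  obtain ⟨b, hb, c, hc, rfl⟩ := Submodule.mem_sup.1 (hk ha)
  rw [add_smul, tensor_smul_eq_zero_left b (fun m => Module.mem_annihilator.1 (hle hb) m) x,
    zero_add]
  apply (TensorProduct.comm R M' N).injective
  rw [map_smul, map_zero]
  exact tensor_smul_eq_zero_left c (fun m => Module.mem_annihilator.1 hc m) _

end

section

variable {R : Type u} [CommRing R] [IsRegularLocalRing R] {d : ℕ} (hd : ringKrullDim R = d)

include hd in
theorem Good.of_exact {M' M M'' N : Type u} [AddCommGroup M'] [Module R M']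
    [AddCommGroup M] [Module R M] [AddCommGroup M''] [Module R M''] [Module.Finite R M']
    [Module.Finite R M] [Module.Finite R M'']
    [AddCommGroup N] [Module R N] [Module.Finite R N]
    (f : M' →ₗ[R] M) (g : M →ₗ[R] M'') (hf : Injective f) (hg : Surjective g) (h : Exact f g)
    (hlen : Module.length R (M ⊗[R] N) ≠ ⊤) (h1 : Good R d M' N) (h3 : Good R d M'' N)
    (hdim : Module.supportDim R M ≤ Module.supportDim R M'') : Good R d M N := by
  have hlen' : Module.length R (M' ⊗[R] N) ≠ ⊤ :=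
    length_tensor_ne_top_of_annihilator_le M M' N hlen (LinearMap.annihilator_le_of_injective f hf)
  have hv : Module.length R (TorM R (d + 1) M'' N) = 0 := by
    have := regular_tor_vanish R d hd M'' N (d + 1) le_rfl
    exact Module.length_eq_zero
  have hadd := eulerTor_add_aux f g hf hg h N (fun i => tor_length_ne_top i M' N hlen')
    (fun i => tor_length_ne_top i M N hlen) (d + 1) hv
  unfold Good
  rw [hadd]
  refine ⟨add_nonneg h1.1 h3.1, fun a b ha hb hab => ?_⟩
  exact add_pos_of_nonneg_of_pos h1.1 (h3.2 a b (ha.trans hdim) hb hab)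

include hd in
theorem good_devissage (p : R) (W : Type u) [AddCommGroup W] [Module R W] [Module.Finite R W]
    (hW : ∀ (X : Type u) [AddCommGroup X] [Module R X] [Module.Finite R X],
      (∀ x : X, p • x = 0) → Module.length R (X ⊗[R] W) ≠ ⊤ → Good R d X W) (a : ℕ)
    (X : Type u) [AddCommGroup X] [Module R X] [Module.Finite R X]
    (hX : ∀ x : X, p ^ a • x = 0) (hlen : Module.length R (X ⊗[R] W) ≠ ⊤) : Good R d X W := by
  induction a generalizing X with
  | zero =>
    refine hW X (fun x => ?_) hlen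
    have := hX x
    rw [pow_zero, one_smul] at this
    rw [this, smul_zero]
  | succ a ih =>
    have hex : Exact (LinearMap.range (LinearMap.lsmul R X p)).subtype
        (LinearMap.range (LinearMap.lsmul R X p)).mkQ := by
      intro x
      simp
    have e1 : Injective (LinearMap.range (LinearMap.lsmul R X p)).subtype :=
      Submodule.injective_subtype _
    have e2 : Surjective (LinearMap.range (LinearMap.lsmul R X p)).mkQ :=
      Submodule.mkQ_surjective _
    have hlen1 : Module.length R ((LinearMap.range (LinearMap.lsmul R X p)) ⊗[R] W) ≠ ⊤ :=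
      length_tensor_ne_top_of_annihilator_le X _ W hlen
        (LinearMap.annihilator_le_of_injective _ e1)
    have hlen2 : Module.length R ((X ⧸ LinearMap.range (LinearMap.lsmul R X p)) ⊗[R] W) ≠ ⊤ :=
      length_tensor_ne_top_of_annihilator_le X _ W hlen
        (LinearMap.annihilator_le_of_surjective _ e2)
    refine Good.of_exact hd _ _ e1 e2 hex hlen (ih _ ?_ hlen1) (hW _ ?_ hlen2) ?_
    · rintro ⟨x, y, rfl⟩
      apply Subtype.ext
      change p ^ a • (p • y) = 0
      rw [smul_smul, ← pow_succ, hX]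
    · intro x
      obtain ⟨y, rfl⟩ := Submodule.mkQ_surjective _ x
      rw [← map_smul, Submodule.mkQ_apply, Submodule.Quotient.mk_eq_zero]
      exact ⟨y, rfl⟩
    · have hsup : Module.support R (X ⧸ LinearMap.range (LinearMap.lsmul R X p)) =
          Module.support R X := by
        have h1 : LinearMap.range (LinearMap.lsmul R X p) = Ideal.span {p} • (⊤ : Submodule R X) := by
          rw [Submodule.ideal_span_singleton_smul]
          ext x
          rw [Submodule.mem_smul_pointwise_iff_exists]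
          simp
        rw [h1, Module.support_quotient]
        refine Set.inter_eq_left.2 ?_
        intro P hP
        have h2 := Module.annihilator_le_of_mem_support hP
        have h3 : p ^ (a + 1) ∈ Module.annihilator R X := Module.mem_annihilator.2 hX
        have h4 : p ∈ P.asIdeal := P.2.mem_of_pow_mem _ (h2 h3)
        change (Ideal.span {p} : Set R) ⊆ P.asIdeal
        exact (Ideal.span_singleton_le_iff_mem _).2 h4
      unfold Module.supportDim
      rw [hsup]

/-- All pairs of `p`-power torsion modules over a regular local ring of mixed characteristic. -/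
theorem good_p_power (R : Type u) [CommRing R] [IsRegularLocalRing R] (d : ℕ)
    (hd : ringKrullDim R = d) (p : ℕ) [Fact p.Prime] (hp0 : (p : R) ≠ 0)
    (hpm : (p : R) ∈ maximalIdeal R) (M N : Type u) [AddCommGroup M] [Module R M]
    [Module.Finite R M] [AddCommGroup N] [Module R N] [Module.Finite R N] (a b : ℕ)
    (hM : ∀ x : M, (p : R) ^ a • x = 0) (hN : ∀ x : N, (p : R) ^ b • x = 0)
    (hlen : Module.length R (M ⊗[R] N) ≠ ⊤) : Good R d M N := by
  refine good_devissage hd (p : R) N ?_ a M hM hlen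
  intro X _ _ _ hX hlenX
  apply Good.symm
  have hsymm : ∀ (Y : Type u) [AddCommGroup Y] [Module R Y],
      Module.length R (X ⊗[R] Y) = Module.length R (Y ⊗[R] X) := fun Y _ _ =>
    (TensorProduct.comm R X Y).length_eq
  refine good_devissage hd (p : R) X ?_ b N hN (by rwa [← hsymm])
  intro Y _ _ _ hY hlenY
  exact good_killed_by_p R d hd p hp0 hpm Y X hY hX hlenY

end

end Vale.Agent.P177
end

section

/-!
Pairs of modules supported on a common hypersurface: transfer between two regular local rings,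
along a flat local map with closed fibre of finite length.
-/

namespace Vale.Agent.P177

open CategoryTheory TensorProduct Function IsLocalRing RingTheory.Sequence Pointwise

universe u

section data

variable (A : Type u) [CommRing A] [IsLocalRing A] [IsNoetherianRing A]
    (C : Type u) [CommRing C] [IsLocalRing C] [IsNoetherianRing C] [Algebra A C] [Module.Flat A C]
    [IsLocalHom (algebraMap A C)]
    (hfin : Module.length C (C ⧸ (maximalIdeal A).map (algebraMap A C)) ≠ ⊤)
    (S : Type u) [CommRing S] [Algebra S C]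
    (hφ : Surjective (algebraMap S C))

include hfin hφ in
/-- Data over `S` attached to a pair of `A`-modules. -/
theorem exists_modules_of_surjective' (d : ℕ) (hS : SerreAll S d)
    (M N : Type u) [AddCommGroup M] [Module A M] [Module.Finite A M]
    [AddCommGroup N] [Module A N] [Module.Finite A N]
    (hlen : Module.length A (M ⊗[A] N) ≠ ⊤) :
    ∃ (X Y : Type u) (_ : AddCommGroup X) (_ : Module C X) (_ : Module S X)
      (_ : IsScalarTower S C X)
      (_ : AddCommGroup Y) (_ : Module C Y) (_ : Module S Y)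
      (_ : IsScalarTower S C Y),
      (∀ n, Module.length C (TorM C n X Y) = Module.length A (TorM A n M N) *
        Module.length C (C ⧸ (maximalIdeal A).map (algebraMap A C))) ∧
      (0 ≤ eulerTor S (d + 1) X Y) ∧
      (Module.Finite S X) ∧ (Module.Finite S Y) ∧
      (∀ a b : ℕ, (a : WithBot ℕ∞) ≤ Module.supportDim A M →
        (b : WithBot ℕ∞) ≤ Module.supportDim A N →
        (a + b ≤ d) ∧ (d ≤ a + b → 0 < eulerTor S (d + 1) X Y)) := by
  obtain ⟨X, _, _, _, _, φ, hφX⟩ := exists_baseChange (R := A) C M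
  obtain ⟨Y, _, _, _, _, ψ, hψY⟩ := exists_baseChange (R := A) C N
  let mX : Module S X := Module.compHom X (algebraMap S C)
  let mY : Module S Y := Module.compHom Y (algebraMap S C)
  have sX : IsScalarTower S C X := ⟨fun s b t => by
    rw [Algebra.smul_def, mul_smul]
    rfl⟩
  have sY : IsScalarTower S C Y := ⟨fun s b t => by
    rw [Algebra.smul_def, mul_smul]
    rfl⟩
  have fX : Module.Finite C X := Module.Finite.of_surjective hφX.equiv.toLinearMap
    hφX.equiv.surjective
  have fY : Module.Finite C Y := Module.Finite.of_surjective hψY.equiv.toLinearMap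
    hψY.equiv.surjective
  have fC : Module.Finite S C :=
    Module.Finite.of_surjective (Algebra.linearMap _ C) hφ
  have fX' : Module.Finite S X := Module.Finite.trans C X
  have fY' : Module.Finite S Y := Module.Finite.trans C Y
  have ht : ∀ n, Module.length C (TorM C n X Y) = Module.length A (TorM A n M N) *
      Module.length C (C ⧸ (maximalIdeal A).map (algebraMap A C)) := fun n => by
    obtain ⟨e⟩ := exists_tor_baseChange (A := A) n hφX hψY
    rw [e.length_eq, IsLocalRing.length_baseChange]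
  have hlenS : Module.length S (X ⊗[S] Y) ≠ ⊤ := by
    rw [length_tensor_baseChange hφ (isBaseChange_id_of_surjective hφ X) Y,
      ← (torZero X Y).length_eq, ht 0, (torZero M N).length_eq]
    exact WithTop.mul_ne_top hlen hfin
  obtain ⟨h1, h2⟩ := hS X Y hlenS
  have hdim : ∀ (M : Type u) [AddCommGroup M] [Module A M] [Module.Finite A M]
      (X : Type u) [AddCommGroup X] [Module A X] [Module C X] [IsScalarTower A C X]
      [Module S X] [IsScalarTower S C X]
      [Module.Finite S X]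
      (φ : M →ₗ[A] X), IsBaseChange C φ →
      Module.supportDim A M ≤ Module.supportDim S X := by
    intro M _ _ _ X _ _ _ _ _ _ _ φ hφX
    rw [supportDim_eq_of_surjective hφ X, ← Module.supportDim_eq_of_equiv hφX.equiv]
    have h6 : Module.FaithfullyFlat A C := Module.FaithfullyFlat.of_flat_of_isLocalHom
    exact supportDim_le_baseChange_of_faithfullyFlat M
  refine ⟨X, Y, inferInstance, inferInstance, mX, sX, inferInstance, inferInstance, mY, sY, ht, h1,
    fX', fY', ?_⟩
  intro a b ha hb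
  exact h2 a b (ha.trans (hdim M X φ hφX)) (hb.trans (hdim N Y ψ hψY))

end data

section base

variable (R : Type u) [CommRing R] [IsRegularLocalRing R] (d : ℕ) (hd : ringKrullDim R = d)
  (f : R) (hf0 : f ≠ 0)
  (S : Type u) [CommRing S] [IsRegularLocalRing S] (hdS : ringKrullDim S = d)
  (hS : SerreAll S d) (g : S) (hg0 : g ≠ 0)
  (C : Type u) [CommRing C] [IsLocalRing C] [IsNoetherianRing C]
  [Algebra (R ⧸ Ideal.span {f}) C]
  [Module.Flat (R ⧸ Ideal.span {f}) C] [IsLocalRing (R ⧸ Ideal.span {f})]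
  [IsLocalHom (algebraMap (R ⧸ Ideal.span {f}) C)]
  (hfin : Module.length C (C ⧸ (maximalIdeal (R ⧸ Ideal.span {f})).map
    (algebraMap (R ⧸ Ideal.span {f}) C)) ≠ ⊤)
  [Algebra S C] (hφ : Surjective (algebraMap S C))
  (hker : RingHom.ker (algebraMap S C) = Ideal.span {g})

include hd hf0 hdS hS hg0 hfin hφ hker in
theorem good_hypersurface_aux'
    (M N : Type u) [AddCommGroup M] [Module R M] [Module.Finite R M]
    [Module (R ⧸ Ideal.span {f}) M] [IsScalarTower R (R ⧸ Ideal.span {f}) M]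
    [AddCommGroup N] [Module R N] [Module.Finite R N]
    [Module (R ⧸ Ideal.span {f}) N] [IsScalarTower R (R ⧸ Ideal.span {f}) N]
    (hlen : Module.length R (M ⊗[R] N) ≠ ⊤) : Good R d M N := by
  have hdom : IsDomain R := regular_isDomain R
  have hdomS : IsDomain S := regular_isDomain S
  have hsurj : Surjective (algebraMap R (R ⧸ Ideal.span {f})) :=
    Ideal.Quotient.mk_surjective
  have fM : Module.Finite (R ⧸ Ideal.span {f}) M :=
    Module.Finite.of_restrictScalars_finite R _ M
  have fN : Module.Finite (R ⧸ Ideal.span {f}) N :=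
    Module.Finite.of_restrictScalars_finite R _ N
  have H : IsHypersurface R (R ⧸ Ideal.span {f}) f :=
    { regular := fun x y hxy => mul_left_cancel₀ hf0 hxy
      surj := hsurj
      ker := Ideal.mk_ker }
  have H' : IsHypersurface S C g :=
    { regular := fun x y hxy => mul_left_cancel₀ hg0 hxy
      surj := hφ
      ker := hker }
  have hlenA : Module.length (R ⧸ Ideal.span {f})
      (M ⊗[R ⧸ Ideal.span {f}] N) ≠ ⊤ := by
    rw [← length_tensor_baseChange hsurj (isBaseChange_id_of_surjective hsurj M) N]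
    exact hlen
  obtain ⟨X, Y, _, _, _, _, _, _, _, _, ht, h1, fX, fY, h2⟩ :=
    exists_modules_of_surjective' (R ⧸ Ideal.span {f}) C hfin S hφ d hS M N hlenA
  have hfinA : ∀ n, Module.length (R ⧸ Ideal.span {f})
      (TorM (R ⧸ Ideal.span {f}) n M N) ≠ ⊤ := fun n =>
    tor_length_ne_top n M N hlenA
  have hfinC : ∀ n, Module.length C (TorM C n X Y) ≠ ⊤ := fun n => by
    rw [ht]
    exact WithTop.mul_ne_top (hfinA n) hfin
  have hRv : Module.length R (TorM R (d + 1) M N) = 0 := by
    have := regular_tor_vanish R d hd M N (d + 1) le_rfl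
    exact Module.length_eq_zero
  have hSv : Module.length S (TorM S (d + 1) X Y) = 0 := by
    have := regular_tor_vanish S d hdS X Y (d + 1) le_rfl
    exact Module.length_eq_zero
  have hc : 0 < ((Module.length C (C ⧸ (maximalIdeal (R ⧸ Ideal.span {f})).map
      (algebraMap (R ⧸ Ideal.span {f}) C))).toNat : ℤ) := by
    have h3 := ENat.toNat_pos (length_fibre_pos (R := R ⧸ Ideal.span {f}) (C := C)).ne' hfin
    exact_mod_cast h3
  have heq : eulerTor S (d + 1) X Y = ((Module.length C
      (C ⧸ (maximalIdeal (R ⧸ Ideal.span {f})).map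
      (algebraMap (R ⧸ Ideal.span {f}) C))).toNat : ℤ) * eulerTor R (d + 1) M N := by
    rw [H.eulerTor_eq M N hfinA d hRv, H'.eulerTor_eq X Y hfinC d hSv, ht, ht, ENat.toNat_mul,
      ENat.toNat_mul]
    push_cast
    ring
  rw [heq] at h1 h2
  refine ⟨nonneg_of_mul_nonneg_right h1 hc, ?_⟩
  intro a b ha hb hab
  rw [supportDim_eq_of_surjective hsurj M] at ha
  rw [supportDim_eq_of_surjective hsurj N] at hb
  exact (mul_pos_iff_of_pos_left hc).1 ((h2 a b ha hb).2 hab)

include hd hf0 hdS hS hg0 hfin hφ hker in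
theorem good_killed_by'
    (M N : Type u) [AddCommGroup M] [Module R M] [Module.Finite R M]
    [AddCommGroup N] [Module R N] [Module.Finite R N]
    (hM : ∀ m : M, f • m = 0) (hN : ∀ m : N, f • m = 0)
    (hlen : Module.length R (M ⊗[R] N) ≠ ⊤) : Good R d M N := by
  have tM : Module.IsTorsionBySet R M (Ideal.span {f} : Set R) := by
    intro x a
    obtain ⟨c, hc⟩ := Ideal.mem_span_singleton'.1 a.2
    rw [← hc, mul_smul, hM, smul_zero]
  have tN : Module.IsTorsionBySet R N (Ideal.span {f} : Set R) := by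
    intro x a
    obtain ⟨c, hc⟩ := Ideal.mem_span_singleton'.1 a.2
    rw [← hc, mul_smul, hN, smul_zero]
  let _ : Module (R ⧸ Ideal.span {f}) M := tM.module
  let _ : Module (R ⧸ Ideal.span {f}) N := tN.module
  have _ : IsScalarTower R (R ⧸ Ideal.span {f}) M := tM.isScalarTower
  have _ : IsScalarTower R (R ⧸ Ideal.span {f}) N := tN.isScalarTower
  exact good_hypersurface_aux' R d hd f hf0 S hdS hS g hg0 C hfin hφ hker M N hlen

include hd hf0 hdS hS hg0 hfin hφ hker in
theorem good_power_torsion'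
    (M N : Type u) [AddCommGroup M] [Module R M] [Module.Finite R M]
    [AddCommGroup N] [Module R N] [Module.Finite R N] (a b : ℕ)
    (hM : ∀ x : M, f ^ a • x = 0) (hN : ∀ x : N, f ^ b • x = 0)
    (hlen : Module.length R (M ⊗[R] N) ≠ ⊤) : Good R d M N := by
  refine good_devissage hd f N ?_ a M hM hlen
  intro X _ _ _ hX hlenX
  apply Good.symm
  have hsymm : ∀ (Y : Type u) [AddCommGroup Y] [Module R Y],
      Module.length R (X ⊗[R] Y) = Module.length R (Y ⊗[R] X) := fun Y _ _ =>
    (TensorProduct.comm R X Y).length_eq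
  refine good_devissage hd f X ?_ b N hN (by rwa [← hsymm])
  intro Y _ _ _ hY hlenY
  exact good_killed_by' R d hd f hf0 S hdS hS g hg0 C hfin hφ hker Y X hY hX hlenY

end base

end Vale.Agent.P177
end

section

/-!
Serre's statements for primes of coheight one when the first ring is complete.
-/

namespace Vale.Agent.P177

open CategoryTheory TensorProduct Function IsLocalRing RingTheory.Sequence Pointwise

universe u

section coheight

variable {R : Type u} [CommRing R] [IsLocalRing R]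

theorem eq_maximalIdeal_of_coheight_one (P : Ideal R) [hP : P.IsPrime]
    (hPd : Module.supportDim R (R ⧸ P) = (1 : ℕ)) (q : Ideal R) [hq : q.IsPrime] (hlt : P < q) :
    q = maximalIdeal R := by
  by_contra hne
  have hlt' : q < maximalIdeal R := lt_of_le_of_ne (le_maximalIdeal hq.ne_top) hne
  have h1 : ((0 : ℕ) : WithBot ℕ∞) ≤ Module.supportDim R (R ⧸ maximalIdeal R) := by
    unfold Module.supportDim
    have := (Module.nonempty_support_of_nontrivial (R := R)
      (M := R ⧸ maximalIdeal R)).to_subtype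
    exact Order.krullDim_nonneg
  have h2 := supportDim_quotient_strict hlt' 0 h1
  have h3 := supportDim_quotient_strict hlt (0 + 1) h2
  rw [hPd] at h3
  have h4 : 0 + 1 + 1 ≤ 1 := by exact_mod_cast h3
  omega

theorem isAdicComplete_quotient [IsNoetherianRing R] [IsAdicComplete (maximalIdeal R) R]
    (P : Ideal R) [IsLocalRing (R ⧸ P)] :
    IsAdicComplete (maximalIdeal (R ⧸ P)) (R ⧸ P) := by
  have hprec : IsPrecomplete (maximalIdeal R) (R ⧸ P) := isPrecomplete_of_finite _ _
  have hhaus : IsHausdorff (maximalIdeal R) (R ⧸ P) := inferInstance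
  have hcomp : IsAdicComplete (maximalIdeal R) (R ⧸ P) := { hprec, hhaus with }
  have h1 : (maximalIdeal R).map (algebraMap R (R ⧸ P)) = maximalIdeal (R ⧸ P) :=
    map_maximalIdeal_of_surjective _ Ideal.Quotient.mk_surjective
  rw [← h1]
  exact (IsAdicComplete.map_algebraMap_iff _ _).2 hcomp

/-- A discrete valuation ring attached to a prime of coheight one of a complete ring. -/
theorem exists_dvr_of_prime [IsNoetherianRing R] [IsAdicComplete (maximalIdeal R) R]
    (P : Ideal R) [hP : P.IsPrime] (hPd : Module.supportDim R (R ⧸ P) = (1 : ℕ)) :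
    ∃ (V : Type u) (_ : CommRing V) (_ : IsDomain V) (_ : IsDiscreteValuationRing V)
      (_ : Algebra R V) (_ : Module.Finite R V) (f : (R ⧸ P) →ₗ[R] V), Injective f ∧
      Module.supportDim R (V ⧸ LinearMap.range f) ≤ 0 ∧ P ≤ Module.annihilator R V ∧
      Module.length R (V ⧸ LinearMap.range (Algebra.linearMap R V)) ≠ ⊤ := by
  have hdom : IsDomain (R ⧸ P) := Ideal.Quotient.isDomain P
  have hloc : IsLocalRing (R ⧸ P) :=
    .of_surjective' (Ideal.Quotient.mk P) Ideal.Quotient.mk_surjective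
  have hcomp := isAdicComplete_quotient P
  have hprime : ∀ q : Ideal (R ⧸ P), q.IsPrime → q ≠ ⊥ → q = maximalIdeal (R ⧸ P) := by
    intro q hq hq0
    have h1 : P < q.comap (Ideal.Quotient.mk P) := by
      refine lt_of_le_of_ne (fun x hx => ?_) ?_
      · rw [Ideal.mem_comap, Ideal.Quotient.eq_zero_iff_mem.2 hx]
        exact q.zero_mem
      · intro heq
        apply hq0
        rw [eq_bot_iff]
        intro x hx
        obtain ⟨x, rfl⟩ := Ideal.Quotient.mk_surjective x
        have h2 : x ∈ q.comap (Ideal.Quotient.mk P) := hx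
        rw [← heq] at h2
        exact Ideal.Quotient.eq_zero_iff_mem.2 h2
    have h2 := eq_maximalIdeal_of_coheight_one P hPd (q.comap (Ideal.Quotient.mk P)) h1
    have h3 : (q.comap (Ideal.Quotient.mk P)).map (Ideal.Quotient.mk P) = q :=
      Ideal.map_comap_of_surjective _ Ideal.Quotient.mk_surjective q
    rw [← h3, h2]
    exact map_maximalIdeal_of_surjective _ Ideal.Quotient.mk_surjective
  obtain ⟨x, hx, hxP⟩ := exists_mem_notMem_of_supportDim P hPd.ge
  have hne : maximalIdeal (R ⧸ P) ≠ ⊥ := by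
    intro hbot
    apply hxP
    have h1 : (maximalIdeal R).map (Ideal.Quotient.mk P) = maximalIdeal (R ⧸ P) :=
      map_maximalIdeal_of_surjective _ Ideal.Quotient.mk_surjective
    have h2 : Ideal.Quotient.mk P x ∈ maximalIdeal (R ⧸ P) := h1 ▸ Ideal.mem_map_of_mem _ hx
    rw [hbot, Ideal.mem_bot, Ideal.Quotient.eq_zero_iff_mem] at h2
    exact h2
  obtain ⟨V, _, _, _, _, hfin, hinj, c, hc0, hc⟩ := exists_dvr (R ⧸ P) hprime hne
  let aV : Algebra R V := ((algebraMap (R ⧸ P) V).comp (Ideal.Quotient.mk P)).toAlgebra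
  have sV : IsScalarTower R (R ⧸ P) V := IsScalarTower.of_algebraMap_eq fun x => rfl
  have fV : Module.Finite R V := Module.Finite.trans (R ⧸ P) V
  let f : (R ⧸ P) →ₗ[R] V := (Algebra.linearMap (R ⧸ P) V).restrictScalars R
  have hPann : P ≤ Module.annihilator R V := by
    rw [annihilator_eq_ker]
    intro p hp
    rw [RingHom.mem_ker]
    change algebraMap (R ⧸ P) V (Ideal.Quotient.mk P p) = 0
    rw [Ideal.Quotient.eq_zero_iff_mem.2 hp, map_zero]
  have hrange : LinearMap.range f = LinearMap.range (Algebra.linearMap R V) := by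
    ext v
    constructor
    · rintro ⟨a, rfl⟩
      obtain ⟨a, rfl⟩ := Ideal.Quotient.mk_surjective a
      exact ⟨a, rfl⟩
    · rintro ⟨a, rfl⟩
      exact ⟨Ideal.Quotient.mk P a, rfl⟩
  obtain ⟨c, rfl⟩ := Ideal.Quotient.mk_surjective c
  have hcP : c ∉ P := fun h => hc0 (Ideal.Quotient.eq_zero_iff_mem.2 h)
  have hFL : FL ([] : List R) (V ⧸ LinearMap.range f) := by
    unfold FL
    rw [Ideal.ofList_nil, sup_bot_eq, Ideal.radical_eq_sInf]
    refine le_sInf ?_
    rintro q ⟨hq1, hq⟩
    have h1 : P ≤ q := (hPann.trans (LinearMap.annihilator_le_of_surjective _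
      (Submodule.mkQ_surjective _))).trans hq1
    have h2 : c ∈ q := by
      apply hq1
      rw [Module.mem_annihilator]
      intro v
      obtain ⟨v, rfl⟩ := Submodule.mkQ_surjective _ v
      rw [← map_smul, Submodule.mkQ_apply, Submodule.Quotient.mk_eq_zero]
      obtain ⟨d, hd⟩ := hc v
      refine ⟨d, ?_⟩
      rw [← algebraMap_smul (R ⧸ P) c v]
      exact hd.symm
    have h3 : P < q := lt_of_le_of_ne h1 (fun h => hcP (h ▸ h2))
    exact (eq_maximalIdeal_of_coheight_one P hPd q h3).ge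
  refine ⟨V, inferInstance, inferInstance, inferInstance, aV, fV, f, hinj, ?_, hPann, ?_⟩
  · exact supportDim_le_length [] (by simp) _ hFL
  · rw [← hrange]
    exact hFL.length_ne_top

end coheight

variable {R₁ R₂ T : Type u} [CommRing R₁] [CommRing R₂] [CommRing T]
  [IsRegularLocalRing R₁] [IsRegularLocalRing R₂] [IsRegularLocalRing T]
  [Algebra R₁ T] [Algebra R₂ T] [Module.Flat R₁ T] [Module.Flat R₂ T]
  [IsLocalHom (algebraMap R₁ T)] [IsLocalHom (algebraMap R₂ T)] {r₁ r₂ t b : ℕ}

theorem hOne_complete (h1 : ringKrullDim R₁ = r₁) (h2 : ringKrullDim R₂ = r₂)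
    (ht : ringKrullDim T = t) (hb : r₁ + r₂ = t + b) [IsAdicComplete (maximalIdeal R₁) R₁] :
    HOne R₁ R₂ T t b := by
  intro P hP hPd G _ _ _ hFP
  obtain ⟨V, _, _, _, _, _, f, hf, hdim, hPann, hlen⟩ := exists_dvr_of_prime P hPd
  have hFPV : FP R₁ R₂ T V G := hFP.mono (by rwa [Ideal.annihilator_quotient]) le_rfl
  have hposV : Pos R₁ R₂ T t b V G := stepHyp_all h2 G
    (Module.length R₁ (V ⧸ LinearMap.range (Algebra.linearMap R₁ V))).toNat R₁ T r₁ t h1 ht hb
    (ENat.natCast_toNat hlen).ge hFPV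
  have hdimV := supportDim_dvr R₁ V
  have hex : Exact f (LinearMap.range f).mkQ := by
    intro x
    rw [Submodule.mkQ_apply, Submodule.Quotient.mk_eq_zero]
    rfl
  have hadd := chi_add ht f (LinearMap.range f).mkQ hf (Submodule.mkQ_surjective _) hex G hFPV
  have hq := pos_dim_zero h1 h2 ht hb G (V ⧸ LinearMap.range f) hdim (hFPV.mono
    (LinearMap.annihilator_le_of_surjective _ (Submodule.mkQ_surjective _)) le_rfl)
  rw [hq.zero, add_zero] at hadd
  · refine ⟨?_, ?_, ?_, ?_⟩
    · rw [hPd, ← hdimV]; exact hposV.dim_le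
    · rw [← hadd]; exact hposV.nonneg
    · rw [hPd, ← hdimV, ← hadd]; exact hposV.pos
    · rw [hPd, ← hdimV, ← hadd]; exact hposV.zero
  · intro e g he hg
    have h3 : (e : WithBot ℕ∞) ≤ 0 := he.trans hdim
    have h4 : e ≤ 0 := by exact_mod_cast h3
    have := hposV.dim_le 1 g hdimV.ge hg
    omega

end Vale.Agent.P177
end

section

/-!
Serre's statements for primes of coheight one, by passing to completions.
-/

namespace Vale.Agent.P177

open CategoryTheory TensorProduct Function IsLocalRing RingTheory.Sequence Pointwise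

universe u

section descend

variable {R₁ R₂ T S C : Type u} [CommRing R₁] [CommRing R₂] [CommRing T] [CommRing S] [CommRing C]
  [Algebra R₁ T] [Algebra R₂ T] [Algebra R₁ S] [Algebra S C] [Algebra T C] [Algebra R₁ C]
  [Algebra R₂ C] [IsScalarTower R₁ S C] [IsScalarTower R₁ T C] [IsScalarTower R₂ T C]

theorem chi_descend [IsLocalRing T] [IsLocalRing C] [Module.Flat T C]
    (hloc : (maximalIdeal T).map (algebraMap T C) = maximalIdeal C) (t : ℕ) (E G : Type u)
    [AddCommGroup E] [Module R₁ E] [AddCommGroup G] [Module R₂ G] :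
    chi S R₂ C t (S ⊗[R₁] E) G = chi R₁ R₂ T t E G := by
  unfold chi
  have e1 : (C ⊗[S] (S ⊗[R₁] E)) ≃ₗ[C] (C ⊗[T] (T ⊗[R₁] E)) :=
    AlgebraTensorModule.cancelBaseChange R₁ S C C E ≪≫ₗ
      (AlgebraTensorModule.cancelBaseChange R₁ T C C E).symm
  have e2 : (C ⊗[R₂] G) ≃ₗ[C] (C ⊗[T] (T ⊗[R₂] G)) :=
    (AlgebraTensorModule.cancelBaseChange R₂ T C C G).symm
  rw [eulerTor_congr e1 e2]
  unfold eulerTor
  refine Finset.sum_congr rfl fun j _ => ?_
  rw [length_tor_bc₂ (A := T) (C := C) hloc j (TensorProduct.isBaseChange T (T ⊗[R₁] E) C)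
    (TensorProduct.isBaseChange T (T ⊗[R₂] G) C)]

theorem FP.ascend [IsLocalRing T] [IsLocalRing C]
    (hloc : (maximalIdeal T).map (algebraMap T C) = maximalIdeal C) (E G : Type u)
    [AddCommGroup E] [Module R₁ E] [AddCommGroup G] [Module R₂ G] (h : FP R₁ R₂ T E G) :
    FP S R₂ C (S ⊗[R₁] E) G := by
  unfold FP at h ⊢
  rw [← hloc]
  refine (Ideal.map_mono h).trans ((Ideal.map_radical_le _).trans (Ideal.radical_mono ?_))
  rw [Ideal.map_sup, Ideal.map_map, Ideal.map_map, ← IsScalarTower.algebraMap_eq,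
    ← IsScalarTower.algebraMap_eq]
  refine sup_le_sup ?_ le_rfl
  rw [IsScalarTower.algebraMap_eq R₁ S C, ← Ideal.map_map]
  exact Ideal.map_mono (map_ann_le_tensor E)

theorem Pos.descend [IsRegularLocalRing R₁] [IsRegularLocalRing T] [IsRegularLocalRing S]
    [IsRegularLocalRing C] [Module.Flat R₁ S] [Module.Flat T C]
    (hlocS : (maximalIdeal R₁).map (algebraMap R₁ S) = maximalIdeal S)
    (hloc : (maximalIdeal T).map (algebraMap T C) = maximalIdeal C) {r : ℕ}
    (hr : ringKrullDim R₁ = r) (hs : ringKrullDim S = r) {t b : ℕ} (E G : Type u)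
    [AddCommGroup E] [Module R₁ E] [Module.Finite R₁ E] [AddCommGroup G] [Module R₂ G]
    (h : Pos S R₂ C t b (S ⊗[R₁] E) G) : Pos R₁ R₂ T t b E G := by
  have hS : IsLocalHom (algebraMap R₁ S) := isLocalHom_of_map_maximalIdeal _ _ hlocS
  have hle := supportDim_le_baseChange R₁ S hlocS E
  have hchi := chi_descend (R₁ := R₁) (R₂ := R₂) (S := S) hloc t E G
  refine ⟨?_, ?_, ?_, ?_⟩
  · intro e g he hg
    exact h.dim_le e g (he.trans hle) hg
  · rw [← hchi]; exact h.nonneg
  · intro e g he hg hb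
    rw [← hchi]
    exact h.pos e g (he.trans hle) hg hb
  · intro hh
    rw [← hchi]
    refine h.zero fun e g he hg => ?_
    obtain ⟨e', he', hee'⟩ := supportDim_baseChange_le hr hs E e he
    have := hh e' g he' hg
    omega

end descend

variable {R₁ R₂ T : Type u} [CommRing R₁] [CommRing R₂] [CommRing T]
  [IsRegularLocalRing R₁] [IsRegularLocalRing R₂] [IsRegularLocalRing T]
  [Algebra R₁ T] [Algebra R₂ T] [Module.Flat R₁ T] [Module.Flat R₂ T]
  [IsLocalHom (algebraMap R₁ T)] [IsLocalHom (algebraMap R₂ T)] {r₁ r₂ t b : ℕ}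

/-- Serre's statements when the first module has dimension at most one. -/
theorem pos_dim_le_one (h1 : ringKrullDim R₁ = r₁) (h2 : ringKrullDim R₂ = r₂)
    (ht : ringKrullDim T = t) (hb : r₁ + r₂ = t + b) (G : Type u)
    [AddCommGroup G] [Module R₂ G]
    [Module.Finite R₂ G] (E : Type u) [AddCommGroup E] [Module R₁ E] [Module.Finite R₁ E]
    (hE : Module.supportDim R₁ E ≤ ((1 : ℕ) : WithBot ℕ∞)) (h : FP R₁ R₂ T E G) :
    Pos R₁ R₂ T t b E G := by
  obtain ⟨S, _, _, _, hflatS, hlhS, hlocS, hdimS, hcS, huniv⟩ := exists_regular_completion R₁ h1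
  obtain ⟨C, _, _, _, hflatC, hlhC, hlocC, hdimC, hcC, -⟩ := exists_regular_completion T ht
  have hmap : maximalIdeal R₁ ≤ (maximalIdeal C).comap
      ((algebraMap T C).comp (algebraMap R₁ T)) := by
    intro x hx
    exact algebraMap_mem_maximalIdeal (R := T) (T := C)
      (algebraMap_mem_maximalIdeal (R := R₁) (T := T) hx)
  obtain ⟨g, hg⟩ := huniv C (maximalIdeal C) ((algebraMap T C).comp (algebraMap R₁ T)) hmap
  let aSC : Algebra S C := g.toAlgebra
  let a1C : Algebra R₁ C := ((algebraMap T C).comp (algebraMap R₁ T)).toAlgebra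
  let a2C : Algebra R₂ C := ((algebraMap T C).comp (algebraMap R₂ T)).toAlgebra
  have t1 : IsScalarTower R₁ T C := IsScalarTower.of_algebraMap_eq fun x => rfl
  have t2 : IsScalarTower R₂ T C := IsScalarTower.of_algebraMap_eq fun x => rfl
  have t3 : IsScalarTower R₁ S C := IsScalarTower.of_algebraMap_eq fun x =>
    (RingHom.congr_fun hg x).symm
  have f1 : Module.Flat R₁ C := Module.Flat.trans R₁ T C
  have f2 : Module.Flat R₂ C := Module.Flat.trans R₂ T C
  have l2 : IsLocalHom (algebraMap R₂ C) := by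
    rw [IsScalarTower.algebraMap_eq R₂ T C]
    infer_instance
  have lS : IsLocalHom (algebraMap S C) := by
    refine ((IsLocalRing.local_hom_TFAE (algebraMap S C)).out 0 2).mpr ?_
    rw [← hlocS, Ideal.map_map, ← IsScalarTower.algebraMap_eq, Ideal.map_le_iff_le_comap]
    exact hmap
  have fS : Module.Flat S C := by
    apply flat_of_tor_residue
    have h3 := tor_subsingleton_bc (S := R₁) (B := S) 0
      (TensorProduct.isBaseChange R₁ (R₁ ⧸ maximalIdeal R₁) S) C
    have e1 : (S ⊗[R₁] (R₁ ⧸ maximalIdeal R₁)) ≃ₗ[S] (S ⧸ maximalIdeal S) :=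
      (Algebra.TensorProduct.quotIdealMapEquivTensorQuot S (maximalIdeal R₁)).symm.toLinearEquiv
        ≪≫ₗ Submodule.quotEquivOfEq _ _ hlocS
    exact (torCongrLeft 1 e1 C).symm.toEquiv.subsingleton
  have hdimE : Module.supportDim S (S ⊗[R₁] E) ≤ ((1 : ℕ) : WithBot ℕ∞) := by
    by_contra hcon
    rw [not_le] at hcon
    obtain ⟨e, he, hee⟩ := supportDim_baseChange_le h1 hdimS E _ (succ_le_of_lt_withBot hcon)
    have h4 : e ≤ 1 := by exact_mod_cast he.trans hE
    omega
  have H : HOne S R₂ C t b := hOne_complete hdimS h2 hdimC hb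
  have hpos := pos_dim_one hdimS h2 hdimC hb H G (S ⊗[R₁] E) hdimE (FP.ascend hlocC E G h)
  exact Pos.descend hlocS hlocC h1 hdimS E G hpos

theorem hOne_all (h1 : ringKrullDim R₁ = r₁) (h2 : ringKrullDim R₂ = r₂)
    (ht : ringKrullDim T = t) (hb : r₁ + r₂ = t + b) : HOne R₁ R₂ T t b :=
  fun P _ hPd G _ _ _ hFP => pos_dim_le_one h1 h2 ht hb G (R₁ ⧸ P) hPd.le hFP

end Vale.Agent.P177
end

section

/-!
The local positivity statement for `dim R₁ + dim R₂ - dim T ≤ 4`.
-/

namespace Vale.Agent.P177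

open TensorProduct IsLocalRing

universe u

/-- The local positivity statement for `b ≤ 4`. -/
theorem locPos_four : LocPos.{u} 4 := by
  intro R₁ R₂ T _ _ _ _ _ _ _ _ _ _ _ _ r₁ r₂ t b h1 h2 ht hb hb4 E G _ _ _ _ _ _ hFP
  have H := hOne_all (R₁ := R₁) (R₂ := R₂) (T := T) h1 h2 ht hb
  have H' := hOne_all (R₁ := R₂) (R₂ := R₁) (T := T) h2 h1 ht (by omega : r₂ + r₁ = t + b)
  have hpos := pos_of_hOne h1 h2 ht hb hb4 H H' E G hFP
  exact ⟨hpos.dim_le, hpos.nonneg, hpos.pos⟩

end Vale.Agent.P177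
end

section

namespace Vale.Agent.P177

open CategoryTheory TensorProduct Function IsLocalRing RingTheory.Sequence Pointwise

universe u

/-- Positivity of the Euler characteristic along two maps. -/
def PosAlong {R₁ R₂ W : Type u} [CommRing R₁] [CommRing R₂] [CommRing W] (j₁ : R₁ →+* W)
    (j₂ : R₂ →+* W) (d : ℕ) (N M : Type u) [AddCommGroup N] [Module R₁ N] [AddCommGroup M]
    [Module R₂ M] : Prop :=
  let _ : Algebra R₁ W := j₁.toAlgebra
  let _ : Algebra R₂ W := j₂.toAlgebra
  (∀ e g : ℕ, (e : WithBot ℕ∞) ≤ Module.supportDim R₁ N →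
        (g : WithBot ℕ∞) ≤ Module.supportDim R₂ M → e + g ≤ d) ∧
      0 ≤ eulerTor W (d + 1) (W ⊗[R₁] N) (W ⊗[R₂] M) ∧
      (∀ e g : ℕ, (e : WithBot ℕ∞) ≤ Module.supportDim R₁ N →
        (g : WithBot ℕ∞) ≤ Module.supportDim R₂ M → d ≤ e + g →
        0 < eulerTor W (d + 1) (W ⊗[R₁] N) (W ⊗[R₂] M))

theorem posAlong_iff {R₁ R₂ W : Type u} [CommRing R₁] [CommRing R₂] [CommRing W]
    [a₁ : Algebra R₁ W] [a₂ : Algebra R₂ W] (j₁ : R₁ →+* W) (j₂ : R₂ →+* W)
    (h₁ : ∀ r, j₁ r = algebraMap R₁ W r) (h₂ : ∀ r, j₂ r = algebraMap R₂ W r) (d : ℕ)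
    (N M : Type u) [AddCommGroup N] [Module R₁ N] [AddCommGroup M] [Module R₂ M] :
    PosAlong j₁ j₂ d N M ↔ ((∀ e g : ℕ, (e : WithBot ℕ∞) ≤ Module.supportDim R₁ N →
        (g : WithBot ℕ∞) ≤ Module.supportDim R₂ M → e + g ≤ d) ∧
      0 ≤ eulerTor W (d + 1) (W ⊗[R₁] N) (W ⊗[R₂] M) ∧
      (∀ e g : ℕ, (e : WithBot ℕ∞) ≤ Module.supportDim R₁ N →
        (g : WithBot ℕ∞) ≤ Module.supportDim R₂ M → d ≤ e + g →
        0 < eulerTor W (d + 1) (W ⊗[R₁] N) (W ⊗[R₂] M))) := by
  have e₁ : j₁.toAlgebra = a₁ := Algebra.algebra_ext _ _ h₁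
  have e₂ : j₂.toAlgebra = a₂ := Algebra.algebra_ext _ _ h₂
  subst e₁ e₂
  rfl

theorem locPosAt_top' {R₁ R₂ T : Type u} [CommRing R₁] [CommRing R₂] [CommRing T]
    [IsRegularLocalRing R₁] [IsRegularLocalRing R₂] [IsRegularLocalRing T]
    [Algebra R₁ T] [Algebra R₂ T] [Module.Flat R₁ T] [Module.Flat R₂ T]
    (N M : Type u) [AddCommGroup N] [Module R₁ N] [Module.Finite R₁ N]
    [AddCommGroup M] [Module R₂ M] [Module.Finite R₂ M] (Q : Ideal T) [Q.IsPrime]
    (h₁ : Q.comap (algebraMap R₁ T) = maximalIdeal R₁)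
    (h₂ : Q.comap (algebraMap R₂ T) = maximalIdeal R₂) (d : ℕ)
    (hd₁ : ringKrullDim R₁ = d) (hd₂ : ringKrullDim R₂ = d)
    (hdW : ringKrullDim (Localization.AtPrime Q) = d)
    (hW : PosAlong ((algebraMap T (Localization.AtPrime Q)).comp (algebraMap R₁ T))
      ((algebraMap T (Localization.AtPrime Q)).comp (algebraMap R₂ T)) d N M) :
    LocPosAt (T := T) R₁ R₂ N M Q := by
  refine locPosAt_top N M Q h₁ h₂ d hd₁ hd₂ hdW ?_
  exact (posAlong_iff _ _ (fun r => rfl) (fun r => rfl) d N M).1 hW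

theorem global_pos_at {R₁ R₂ T : Type u} [CommRing R₁] [CommRing R₂] [CommRing T]
    [IsRegularLocalRing R₁] [IsRegularLocalRing R₂] [IsRegularLocalRing T]
    [Algebra R₁ T] [Algebra R₂ T] [Module.Flat R₁ T] [Module.Flat R₂ T]
    (μ : T →+* R₁) (hμ : ∀ s, μ (algebraMap R₁ T s) = s) (z : List T)
    (hkerμ : RingHom.ker μ = Ideal.ofList z) (hz : IsWeaklyRegular T z)
    (θ : R₂ ≃+* R₁) (hθ : ∀ s, μ (algebraMap R₂ T s) = θ s)
    (d : ℕ) (hd : ringKrullDim R₁ = d)
    (M N : Type u) [AddCommGroup M] [Module R₂ M] [Module.Finite R₂ M]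
    [AddCommGroup N] [Module R₁ N] [Module R₂ N] [Module.Finite R₁ N]
    (𝔪 : Ideal T) [𝔪.IsPrime] (h𝔪₁ : 𝔪.comap (algebraMap R₁ T) = maximalIdeal R₁)
    (h𝔪₂ : 𝔪.comap (algebraMap R₂ T) = maximalIdeal R₂)
    (hdW : ringKrullDim (Localization.AtPrime 𝔪) = d)
    (hex : ∀ (Q : Ideal T) [Q.IsPrime],
      (Module.annihilator R₁ N).map (algebraMap R₁ T) ≤ Q →
      (Module.annihilator R₂ M).map (algebraMap R₂ T) ≤ Q → 𝔪 ≤ Q ∨
      ∀ (r₁ r₂ q : ℕ), (Q.comap (algebraMap R₁ T)).height = r₁ →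
      (Q.comap (algebraMap R₂ T)).height = r₂ → Q.height = q → r₁ + r₂ ≤ q + 4)
    (hW : ∀ (N' M' : Type u) [AddCommGroup N'] [Module R₁ N'] [Module.Finite R₁ N']
      [AddCommGroup M'] [Module R₂ M'] [Module.Finite R₂ M'],
      Module.annihilator R₁ N ≤ Module.annihilator R₁ N' →
      Module.annihilator R₂ M ≤ Module.annihilator R₂ M' →
      maximalIdeal (Localization.AtPrime 𝔪) ≤ ((Module.annihilator R₁ N').map
        ((algebraMap T (Localization.AtPrime 𝔪)).comp (algebraMap R₁ T)) ⊔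
        (Module.annihilator R₂ M').map
        ((algebraMap T (Localization.AtPrime 𝔪)).comp (algebraMap R₂ T))).radical →
      PosAlong ((algebraMap T (Localization.AtPrime 𝔪)).comp (algebraMap R₁ T))
        ((algebraMap T (Localization.AtPrime 𝔪)).comp (algebraMap R₂ T)) d N' M')
    (hN : ∀ (s : R₂) (t : N), s • t = θ s • t)
    (hlen : Module.length R₂ (M ⊗[R₂] N) ≠ ⊤) :
    0 ≤ eulerTor R₂ (d + 1) M N ∧ ∀ m n : ℕ, (m : WithBot ℕ∞) ≤ Module.supportDim R₂ M →
      (n : WithBot ℕ∞) ≤ Module.supportDim R₁ N →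
      (m + n ≤ d) ∧ (d ≤ m + n → 0 < eulerTor R₂ (d + 1) M N) := by
  have hd₂ : ringKrullDim R₂ = d := by rw [ringKrullDim_eq_of_ringEquiv θ, hd]
  have key : ∀ (N' M' : Type u) [AddCommGroup N'] [Module R₁ N'] [Module.Finite R₁ N']
      [AddCommGroup M'] [Module R₂ M'] [Module.Finite R₂ M'],
      Module.annihilator R₁ N ≤ Module.annihilator R₁ N' →
      Module.annihilator R₂ M ≤ Module.annihilator R₂ M' →
      ∀ (Q : Ideal T) [Q.IsPrime], Q ∈ ((Module.annihilator R₁ N').map (algebraMap R₁ T) ⊔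
      (Module.annihilator R₂ M').map (algebraMap R₂ T)).minimalPrimes →
      LocPosAt (T := T) R₁ R₂ N' M' Q := by
    intro N' M' _ _ _ _ _ _ h1 h2 Q _ hQ
    have hQ1 := le_sup_left.trans hQ.1.2
    have hQ2 := le_sup_right.trans hQ.1.2
    rcases hex Q ((Ideal.map_mono h1).trans hQ1) ((Ideal.map_mono h2).trans hQ2) with h | h
    · have hle : (Module.annihilator R₁ N').map (algebraMap R₁ T) ⊔
          (Module.annihilator R₂ M').map (algebraMap R₂ T) ≤ 𝔪 := by
        refine sup_le ?_ ?_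
        · rw [Ideal.map_le_iff_le_comap, h𝔪₁]
          refine le_maximalIdeal fun htop => ?_
          rw [htop, Ideal.map_top] at hQ1
          exact Ideal.IsPrime.ne_top ‹_› (top_le_iff.1 hQ1)
        · rw [Ideal.map_le_iff_le_comap, h𝔪₂]
          refine le_maximalIdeal fun htop => ?_
          rw [htop, Ideal.map_top] at hQ2
          exact Ideal.IsPrime.ne_top ‹_› (top_le_iff.1 hQ2)
      have heq : Q = 𝔪 := le_antisymm (hQ.2 ⟨‹_›, hle⟩ h) h
      subst heq
      refine locPosAt_top' N' M' Q h𝔪₁ h𝔪₂ d hd hd₂ hdW (hW N' M' h1 h2 ?_)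
      have h3 := maximalIdeal_le_radical_of_minimal _ Q hQ
      rwa [Ideal.map_sup, Ideal.map_map, Ideal.map_map] at h3
    · exact locPosAt_of_locPos 4 locPos_four N' M' Q h
  refine global_pos_of_loc μ hμ z hkerμ hz θ hθ d hd M N (key N M le_rfl le_rfl) ?_ hN hlen
  intro p₁ p₂ hp₁ hp₂ Q _ hQ
  refine key (R₁ ⧸ p₁.asIdeal) (R₂ ⧸ p₂.asIdeal) ?_ ?_ Q ?_
  · rw [Ideal.annihilator_quotient]
    exact hp₁.1.2
  · rw [Ideal.annihilator_quotient]
    exact hp₂.1.2
  · rw [Ideal.annihilator_quotient, Ideal.annihilator_quotient]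
    exact hQ

/-- The same with ring homomorphisms. -/
theorem global_pos_at_hom {R₁ R₂ T : Type u} [CommRing R₁] [CommRing R₂] [CommRing T]
    [IsRegularLocalRing R₁] [IsRegularLocalRing R₂] [IsRegularLocalRing T]
    (i₁ : R₁ →+* T) (i₂ : R₂ →+* T) (f₁ : i₁.Flat) (f₂ : i₂.Flat)
    (μ : T →+* R₁) (hμ : ∀ s, μ (i₁ s) = s) (z : List T)
    (hkerμ : RingHom.ker μ = Ideal.ofList z) (hz : IsWeaklyRegular T z)
    (θ : R₂ ≃+* R₁) (hθ : ∀ s, μ (i₂ s) = θ s)
    (d : ℕ) (hd : ringKrullDim R₁ = d)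
    (M N : Type u) [AddCommGroup M] [Module R₂ M] [Module.Finite R₂ M]
    [AddCommGroup N] [Module R₁ N] [Module R₂ N] [Module.Finite R₁ N]
    (𝔪 : Ideal T) [𝔪.IsPrime] (h𝔪₁ : 𝔪.comap i₁ = maximalIdeal R₁)
    (h𝔪₂ : 𝔪.comap i₂ = maximalIdeal R₂)
    (hdW : ringKrullDim (Localization.AtPrime 𝔪) = d)
    (hex : ∀ (Q : Ideal T) [Q.IsPrime], (Module.annihilator R₁ N).map i₁ ≤ Q →
      (Module.annihilator R₂ M).map i₂ ≤ Q → 𝔪 ≤ Q ∨
      ∀ (r₁ r₂ q : ℕ), (Q.comap i₁).height = r₁ →
      (Q.comap i₂).height = r₂ → Q.height = q → r₁ + r₂ ≤ q + 4)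
    (hW : ∀ (N' M' : Type u) [AddCommGroup N'] [Module R₁ N'] [Module.Finite R₁ N']
      [AddCommGroup M'] [Module R₂ M'] [Module.Finite R₂ M'],
      Module.annihilator R₁ N ≤ Module.annihilator R₁ N' →
      Module.annihilator R₂ M ≤ Module.annihilator R₂ M' →
      maximalIdeal (Localization.AtPrime 𝔪) ≤ ((Module.annihilator R₁ N').map
        ((algebraMap T (Localization.AtPrime 𝔪)).comp i₁) ⊔
        (Module.annihilator R₂ M').map
        ((algebraMap T (Localization.AtPrime 𝔪)).comp i₂)).radical →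
      PosAlong ((algebraMap T (Localization.AtPrime 𝔪)).comp i₁)
        ((algebraMap T (Localization.AtPrime 𝔪)).comp i₂) d N' M')
    (hN : ∀ (s : R₂) (t : N), s • t = θ s • t)
    (hlen : Module.length R₂ (M ⊗[R₂] N) ≠ ⊤) :
    0 ≤ eulerTor R₂ (d + 1) M N ∧ ∀ m n : ℕ, (m : WithBot ℕ∞) ≤ Module.supportDim R₂ M →
      (n : WithBot ℕ∞) ≤ Module.supportDim R₁ N →
      (m + n ≤ d) ∧ (d ≤ m + n → 0 < eulerTor R₂ (d + 1) M N) := by
  let _ : Algebra R₁ T := i₁.toAlgebra
  let _ : Algebra R₂ T := i₂.toAlgebra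
  have : Module.Flat R₁ T := f₁
  have : Module.Flat R₂ T := f₂
  exact global_pos_at μ hμ z hkerμ hz θ hθ d hd M N 𝔪 h𝔪₁ h𝔪₂ hdW hex hW hN hlen

end Vale.Agent.P177
end

section

/-!
The local statement for quadrics over a base of dimension two.
-/

namespace Vale.Agent.P177

open IsLocalRing Function TensorProduct

universe u

/-- The matrix `θ` is the generic orthogonal transformation of a nondegenerate form over `k`. -/
def OrthData {k K : Type u} [Field k] [Field K] {r : ℕ} (κ : k →+* K)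
    (θ : Fin r → Fin r → K) : Prop :=
  ∃ (α : Fin r × Fin r → K) (b c : Fin r → Fin r → k),
    Function.Injective (MvPolynomial.eval₂Hom κ α) ∧ IsUnit (Matrix.det (Matrix.of b)) ∧
    ∀ i m, θ i m - (if i = m then 1 else 0) = ∑ l, (α (i, l) - α (l, i)) *
      (κ (b l m) + ∑ j, κ (c l j) * (θ j m - (if j = m then 1 else 0)))

/-- The local statement. -/
def LocStmtRel : Prop :=
  ∀ (R W : Type u) [CommRing R] [CommRing W] [IsRegularLocalRing R] [IsRegularLocalRing W]
    (j₁ j₂ : R →+* W) [IsLocalHom j₁] [IsLocalHom j₂], j₁.Flat → j₂.Flat →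
    ∀ (r : ℕ), ringKrullDim R = ((r + 1 : ℕ) : WithBot ℕ∞) →
    ringKrullDim W = ((r + 1 : ℕ) : WithBot ℕ∞) →
    ∀ (y : R) (x : Fin r → R),
    Ideal.span {y} ⊔ Ideal.span (Set.range x) = maximalIdeal R →
    (maximalIdeal R).map j₁ = maximalIdeal W → (maximalIdeal R).map j₂ = maximalIdeal W →
    j₁ y = j₂ y → ResidueField.map j₁ = ResidueField.map j₂ →
    ∀ (θ : Fin r → Fin r → W), (∀ i, j₂ (x i) = ∑ l, θ i l * j₁ (x l)) →
    OrthData (ResidueField.map j₁) (fun i l => residue W (θ i l)) →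
    ∀ (P Q : Ideal R) [P.IsPrime] [Q.IsPrime], y ∉ P → y ∉ Q →
    maximalIdeal W ≤ (P.map j₁ ⊔ Q.map j₂).radical →
    (∀ e g : ℕ, (e : WithBot ℕ∞) ≤ Module.supportDim R (R ⧸ P) →
      (g : WithBot ℕ∞) ≤ Module.supportDim R (R ⧸ Q) → e + g ≤ r + 1) →
    PosAlong j₁ j₂ (r + 1) (R ⧸ P) (R ⧸ Q)

end Vale.Agent.P177
end

section

/-!
Nonnegativity at the points of a chart.
-/

namespace Vale.Agent.P177

open IsLocalRing Function TensorProduct

universe u

section pair

variable {R₁ R₂ T : Type u} [CommRing R₁] [CommRing R₂] [CommRing T]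
    [IsRegularLocalRing R₁] [IsRegularLocalRing R₂] [IsRegularLocalRing T]
    [Algebra R₁ T] [Algebra R₂ T] [Module.Flat R₁ T] [Module.Flat R₂ T]
    [IsLocalHom (algebraMap R₁ T)] [IsLocalHom (algebraMap R₂ T)]

omit [IsRegularLocalRing R₁] [IsRegularLocalRing R₂] [IsRegularLocalRing T]
  [IsLocalHom (algebraMap R₁ T)] [IsLocalHom (algebraMap R₂ T)]
  [Module.Flat R₂ T] [Algebra R₂ T] in
theorem mem_support_of_map_le (E : Type u) [AddCommGroup E] [Module R₁ E] [Module.Finite R₁ E]
    (P : Ideal T) (hPp : P.IsPrime)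
    (hP : (Module.annihilator R₁ E).map (algebraMap R₁ T) ≤ P) :
    (⟨P, hPp⟩ : PrimeSpectrum T) ∈ Module.support T (T ⊗[R₁] E) := by
  apply mem_support_baseChange
  rw [Module.support_eq_zeroLocus, PrimeSpectrum.mem_zeroLocus]
  intro a ha
  exact hP (Ideal.mem_map_of_mem _ ha)

omit [IsRegularLocalRing T] in
theorem maximalIdeal_le_of_length [IsLocalRing T] (X Y : Type u) [AddCommGroup X] [Module T X]
    [Module.Finite T X] [AddCommGroup Y] [Module T Y] [Module.Finite T Y]
    (h : IsFiniteLength T (X ⊗[T] Y)) (P : Ideal T) (hPp : P.IsPrime)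
    (h1 : (⟨P, hPp⟩ : PrimeSpectrum T) ∈ Module.support T X)
    (h2 : (⟨P, hPp⟩ : PrimeSpectrum T) ∈ Module.support T Y) : maximalIdeal T ≤ P := by
  obtain ⟨k, hk⟩ := exists_pow_smul_eq_zero h
  have h3 := mem_support_tensorProduct _ h1 h2
  have h4 : Module.annihilator T (X ⊗[T] Y) ≤ P := Module.annihilator_le_of_mem_support h3
  have h5 : maximalIdeal T ^ k ≤ P := fun a ha => h4 (Module.mem_annihilator.2 (hk a ha))
  exact hPp.le_of_pow_le h5

omit [IsRegularLocalRing R₁] [IsRegularLocalRing R₂] [IsLocalHom (algebraMap R₁ T)]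
  [IsLocalHom (algebraMap R₂ T)] in
theorem fp_of_length (E G : Type u) [AddCommGroup E] [Module R₁ E] [Module.Finite R₁ E]
    [AddCommGroup G] [Module R₂ G] [Module.Finite R₂ G]
    (h : IsFiniteLength T ((T ⊗[R₁] E) ⊗[T] (T ⊗[R₂] G))) : FP R₁ R₂ T E G := by
  unfold FP
  rw [Ideal.radical_eq_sInf]
  refine le_sInf ?_
  rintro P ⟨hP, hPp⟩
  exact maximalIdeal_le_of_length (T ⊗[R₁] E) (T ⊗[R₂] G) h P hPp
    (mem_support_of_map_le (T := T) E P hPp (le_sup_left.trans hP))
    (mem_support_of_map_le (T := T) G P hPp (le_sup_right.trans hP))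

omit [IsRegularLocalRing T] in
theorem tor_subsingleton_left (i : ℕ) (X Y : Type u) [AddCommGroup X] [Module T X]
    [AddCommGroup Y] [Module T Y] [Subsingleton X] : Subsingleton (TorM T i X Y) := by
  cases i with
  | zero => exact (torZero X Y).toEquiv.subsingleton
  | succ i =>
    have : Module.Flat T X := inferInstance
    exact tor_subsingleton_of_flat i

/-- Nonnegativity for pairs with small excess. -/
theorem pair_nonneg {r₁ r₂ t : ℕ} (h1 : ringKrullDim R₁ = r₁) (h2 : ringKrullDim R₂ = r₂)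
    (ht : ringKrullDim T = t) (hb : r₁ + r₂ ≤ t + 4) (n : ℕ) (hn : t + 1 ≤ n)
    (E G : Type u) [AddCommGroup E] [Module R₁ E] [Module.Finite R₁ E]
    [AddCommGroup G] [Module R₂ G] [Module.Finite R₂ G]
    (h : IsFiniteLength T ((T ⊗[R₁] E) ⊗[T] (T ⊗[R₂] G))) :
    0 ≤ eulerTor T n (T ⊗[R₁] E) (T ⊗[R₂] G) := by
  have hFP := fp_of_length (R₁ := R₁) (R₂ := R₂) (T := T) E G h
  rw [eulerTor_of_vanish (T ⊗[R₁] E) (T ⊗[R₂] G) (t + 1) n hn
    (fun j hj => regular_tor_vanish T t ht _ _ j hj)]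
  by_cases hE : Nontrivial E
  · by_cases hG : Nontrivial G
    · have hle₁ : Module.annihilator R₁ E ≤ maximalIdeal R₁ := by
        refine le_maximalIdeal fun htop => ?_
        rw [Module.annihilator_eq_top_iff] at htop
        exact not_subsingleton E htop
      have hle₂ : Module.annihilator R₂ G ≤ maximalIdeal R₂ := by
        refine le_maximalIdeal fun htop => ?_
        rw [Module.annihilator_eq_top_iff] at htop
        exact not_subsingleton G htop
      have hdim := ringKrullDim_le_add_of_radical R₁ R₂ T r₁ r₂ h1 h2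
        (hFP.trans (Ideal.radical_mono (sup_le_sup (Ideal.map_mono hle₁) (Ideal.map_mono hle₂))))
      rw [ht] at hdim
      have hle : t ≤ r₁ + r₂ := by exact_mod_cast hdim
      obtain ⟨b, hb'⟩ := Nat.exists_eq_add_of_le hle
      exact (locPos_four R₁ R₂ T r₁ r₂ t b h1 h2 ht hb' (by omega) E G hFP).2.1
    · rw [not_nontrivial_iff_subsingleton] at hG
      have h0 : ∀ i, Subsingleton (TorM T i (T ⊗[R₁] E) (T ⊗[R₂] G)) := fun i => by
        obtain ⟨e⟩ := tor_symm (R := T) i (T ⊗[R₁] E) (T ⊗[R₂] G)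
        have : Subsingleton (T ⊗[R₂] G) := inferInstance
        have h3 := tor_subsingleton_left (T := T) i (T ⊗[R₂] G) (T ⊗[R₁] E)
        exact e.toEquiv.subsingleton
      rw [eulerTor_of_vanish _ _ 0 (t + 1) (by omega) (fun j _ => h0 j)]
      simp [eulerTor]
  · rw [not_nontrivial_iff_subsingleton] at hE
    have h0 : ∀ i, Subsingleton (TorM T i (T ⊗[R₁] E) (T ⊗[R₂] G)) := fun i => by
      have : Subsingleton (T ⊗[R₁] E) := inferInstance
      exact tor_subsingleton_left (T := T) i (T ⊗[R₁] E) (T ⊗[R₂] G)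
    rw [eulerTor_of_vanish _ _ 0 (t + 1) (by omega) (fun j _ => h0 j)]
    simp [eulerTor]

end pair

end Vale.Agent.P177
end

section

/-!
Nonnegativity at the points of a chart, for strict transforms.
-/

namespace Vale.Agent.P177

open IsLocalRing Function TensorProduct

universe u

section side

variable {R : Type u} [CommRing R] [IsRegularLocalRing R] {d : ℕ} {x' : Fin d → R}

theorem exists_side (hd : ringKrullDim R = d) (hx' : Ideal.span (Set.range x') = maximalIdeal R)
    {Ω : Type u} [CommRing Ω] [IsLocalRing Ω] (ρ : ERees x' →+* Ω) (hρ : ρ.Flat)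
    (q : Ideal (MvPolynomial (Fin d) (ResidueField R))) [q.IsPrime]
    (hq : (maximalIdeal Ω).comap ρ = q.comap (eRes hx')) :
    ∃ (Λ : Type u) (_ : CommRing Λ) (_ : IsRegularLocalRing Λ) (_ : Algebra Λ Ω)
      (_ : Module.Flat Λ Ω) (_ : IsLocalHom (algebraMap Λ Ω)) (σ : ERees x' →+* Λ),
      ringKrullDim Λ = ((q.height + 1 : ℕ∞) : WithBot ℕ∞) ∧ ∀ z, algebraMap Λ Ω (σ z) = ρ z := by
  obtain ⟨hreg, hht, -⟩ := eRees_regular_aux hd hx' q
  let 𝔭 : Ideal (ERees x') := q.comap (eRes hx')
  have hu : ∀ y : 𝔭.primeCompl, IsUnit (ρ y) := by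
    rintro ⟨y, hy⟩
    by_contra hcon
    apply hy
    change y ∈ q.comap (eRes hx')
    rw [← hq]
    exact hcon
  let f : Localization.AtPrime 𝔭 →+* Ω := IsLocalization.lift hu
  have hf : ∀ z, f (algebraMap _ _ z) = ρ z := fun z => IsLocalization.lift_eq hu z
  let _ : Algebra (Localization.AtPrime 𝔭) Ω := f.toAlgebra
  let _ : Algebra (ERees x') Ω := ρ.toAlgebra
  have htow : IsScalarTower (ERees x') (Localization.AtPrime 𝔭) Ω :=
    IsScalarTower.of_algebraMap_eq fun z => (hf z).symm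
  have hflat₀ : Module.Flat (ERees x') Ω := RingHom.flat_algebraMap_iff.1 hρ
  have hflat : Module.Flat (Localization.AtPrime 𝔭) Ω :=
    (Module.flat_iff_of_isLocalization (Localization.AtPrime 𝔭) 𝔭.primeCompl Ω).2 hflat₀
  have hlocal : IsLocalHom (algebraMap (Localization.AtPrime 𝔭) Ω) := by
    refine ⟨fun a ha => ?_⟩
    by_contra hcon
    obtain ⟨⟨z, s⟩, hzs⟩ := IsLocalization.surj 𝔭.primeCompl a
    have hz : z ∈ 𝔭 := by
      have h1 : algebraMap (ERees x') (Localization.AtPrime 𝔭) z ∈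
          maximalIdeal (Localization.AtPrime 𝔭) := by
        rw [← hzs]
        exact Ideal.mul_mem_right _ _ hcon
      exact (IsLocalization.AtPrime.to_map_mem_maximal_iff (Localization.AtPrime 𝔭) 𝔭 z).1 h1
    have h2 : ρ z ∈ maximalIdeal Ω := by
      have : z ∈ (maximalIdeal Ω).comap ρ := by rw [hq]; exact hz
      exact this
    have h3 : IsUnit (ρ z) := by
      rw [← hf, ← hzs, map_mul]
      refine IsUnit.mul ha ?_
      rw [hf]
      exact hu s
    exact h2 h3
  refine ⟨Localization.AtPrime 𝔭, inferInstance, hreg, inferInstance, hflat, hlocal,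
    algebraMap _ _, ?_, hf⟩
  rw [IsLocalization.AtPrime.ringKrullDim_eq_height 𝔭 (Localization.AtPrime 𝔭), hht]

end side

section transfer

theorem eulerTor_bc {B C : Type u} [CommRing B] [CommRing C] [IsLocalRing B] [IsNoetherianRing B]
    [IsLocalRing C] [IsNoetherianRing C] [Algebra B C] [Module.Flat B C]
    (hloc : (maximalIdeal B).map (algebraMap B C) = maximalIdeal C) (n : ℕ) (X Y : Type u)
    [AddCommGroup X] [Module B X] [AddCommGroup Y] [Module B Y] :
    eulerTor B n X Y = eulerTor C n (C ⊗[B] X) (C ⊗[B] Y) := by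
  unfold eulerTor
  refine Finset.sum_congr rfl fun j _ => ?_
  rw [length_tor_bc₂ (A := B) (C := C) hloc j (TensorProduct.isBaseChange B X C)
    (TensorProduct.isBaseChange B Y C)]

theorem eulerTor_left_zero {C : Type u} [CommRing C] (n : ℕ) (X Y : Type u)
    [AddCommGroup X] [Module C X] [AddCommGroup Y] [Module C Y] (hX : Subsingleton X) :
    eulerTor C n X Y = 0 := by
  unfold eulerTor
  refine Finset.sum_eq_zero fun j _ => ?_
  have h0 : Subsingleton (TorM C j X Y) := tor_subsingleton_left (T := C) j X Y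
  rw [Module.length_eq_zero]
  simp

theorem eulerTor_right_zero {C : Type u} [CommRing C] (n : ℕ) (X Y : Type u)
    [AddCommGroup X] [Module C X] [AddCommGroup Y] [Module C Y] (hY : Subsingleton Y) :
    eulerTor C n X Y = 0 := by
  unfold eulerTor
  refine Finset.sum_eq_zero fun j _ => ?_
  obtain ⟨e⟩ := tor_symm (R := C) j X Y
  have h0 : Subsingleton (TorM C j Y X) := tor_subsingleton_left (T := C) j Y X
  have h1 : Subsingleton (TorM C j X Y) := e.toEquiv.subsingleton
  rw [Module.length_eq_zero]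
  simp

theorem length_congr₂ {C : Type u} [CommRing C] {X X' Y Y' : Type u} [AddCommGroup X] [Module C X]
    [AddCommGroup X'] [Module C X'] [AddCommGroup Y] [Module C Y] [AddCommGroup Y'] [Module C Y']
    (e₁ : X ≃ₗ[C] X') (e₂ : Y ≃ₗ[C] Y') :
    Module.length C (X ⊗[C] Y) = Module.length C (X' ⊗[C] Y') :=
  (TensorProduct.congr e₁ e₂).length_eq

end transfer

section height

variable {K : Type u} [Field K] {d : ℕ}

/-- A homogeneous prime different from the irrelevant ideal has height less than `d`. -/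
theorem height_lt_of_homogeneous (q : Ideal (MvPolynomial (Fin d) K)) [q.IsPrime]
    (hhom : ∀ f ∈ q, ∀ n, MvPolynomial.homogeneousComponent n f ∈ q)
    (hX : ∃ i, MvPolynomial.X i ∉ q) : q.height + 1 ≤ d := by
  let n : Ideal (MvPolynomial (Fin d) K) :=
    RingHom.ker (MvPolynomial.constantCoeff : MvPolynomial (Fin d) K →+* K)
  have hn : n.IsPrime := RingHom.ker_isPrime _
  have hle : q ≤ n := by
    intro f hf
    have h1 := hhom f hf 0
    rw [MvPolynomial.homogeneousComponent_zero] at h1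
    by_contra hcon
    apply (inferInstance : q.IsPrime).ne_top
    refine Ideal.eq_top_of_isUnit_mem _ h1 ?_
    exact (IsUnit.mk0 _ hcon).map MvPolynomial.C
  have hlt : q < n := by
    refine lt_of_le_of_ne hle ?_
    rintro rfl
    obtain ⟨i, hi⟩ := hX
    apply hi
    change MvPolynomial.constantCoeff (MvPolynomial.X i) = 0
    simp
  refine (Ideal.height_add_one_le_of_lt_of_isPrime hlt).trans ?_
  have h1 : ringKrullDim (MvPolynomial (Fin d) K) = d := by
    rw [MvPolynomial.ringKrullDim_of_isNoetherianRing, ringKrullDim_eq_zero_of_field]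
    simp
  have h2 : (n.height : WithBot ℕ∞) ≤ d := by
    rw [← h1]
    exact Ideal.height_le_ringKrullDim_of_isPrime
  exact_mod_cast h2

end height

section forms

variable {R : Type u} [CommRing R] [IsLocalRing R] {d : ℕ}

/-- The ideal `z` contains the initial forms of the elements of `I` (with respect to the
system of parameters `x`). -/
def InForm (x : Fin d → R) (I : Ideal R) (z : Ideal (MvPolynomial (Fin d) (ResidueField R))) :
    Prop :=
  ∀ (n : ℕ) (F : MvPolynomial (Fin d) R), F.IsHomogeneous n → MvPolynomial.eval x F ∈ I →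
    F.map (residue R) ∈ z

omit [IsLocalRing R] in
theorem st_subsingleton {x : Fin d → R} {Λ : Type u} [CommRing Λ] [Algebra R Λ]
    (σ : ERees x →+* Λ) (hσ : ∀ r, σ (algebraMap R _ r) = algebraMap R Λ r)
    (M : Type u) [AddCommGroup M] [Module R M] {n : ℕ} {F : MvPolynomial (Fin d) R}
    (hF : F.IsHomogeneous n) (hFM : MvPolynomial.eval x F ∈ Module.annihilator R M)
    (hu : IsUnit (σ (MvPolynomial.aeval (eY x) F))) :
    Subsingleton (St (σ (eT x)) (Λ ⊗[R] M)) := by
  rw [Submodule.Quotient.subsingleton_iff, eq_top_iff]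
  intro w _
  have h1 : ∀ w : Λ ⊗[R] M, algebraMap R Λ (MvPolynomial.eval x F) • w = 0 := by
    intro w
    induction w with
    | zero => rw [smul_zero]
    | add y z hy hz => rw [smul_add, hy, hz, add_zero]
    | tmul s m =>
      rw [algebraMap_smul, ← TensorProduct.tmul_smul, Module.mem_annihilator.1 hFM,
        TensorProduct.tmul_zero]
  rw [← hσ, algebraMap_eval_of_isHomogeneous F n hF, map_mul, map_pow] at h1
  obtain ⟨u, hu⟩ := hu
  refine ⟨n, ?_⟩
  have h2 := h1 ((u⁻¹ : Λˣ) • w)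
  rw [← hu, mul_smul] at h2
  have h3 : (u : Λ) • ((u⁻¹ : Λˣ) • w) = w := by
    rw [Units.smul_def, ← mul_smul, Units.mul_inv, one_smul]
  rwa [h3] at h2

theorem subsingleton_of_not_inForm {x : Fin d → R}
    (hx : Ideal.span (Set.range x) = maximalIdeal R) {Λ : Type u} [CommRing Λ] [Algebra R Λ]
    (σ : ERees x →+* Λ) (hσ : ∀ r, σ (algebraMap R _ r) = algebraMap R Λ r)
    {q : Ideal (MvPolynomial (Fin d) (ResidueField R))}
    (hu : ∀ z, z ∉ q.comap (eRes hx) → IsUnit (σ z))
    (M : Type u) [AddCommGroup M] [Module R M]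
    (hin : ¬ InForm x (Module.annihilator R M) q) :
    Subsingleton (St (σ (eT x)) (Λ ⊗[R] M)) := by
  unfold InForm at hin
  push Not at hin
  obtain ⟨n, F, hF, hFM, hq⟩ := hin
  refine st_subsingleton σ hσ M hF hFM (hu _ ?_)
  change eRes hx _ ∉ q
  rwa [eRes_aeval]

end forms

section main

variable {R₁ R₂ A : Type u} [CommRing R₁] [CommRing R₂] [CommRing A]
  [IsRegularLocalRing R₁] [IsRegularLocalRing R₂] [IsRegularLocalRing A]
  [Algebra R₁ A] [Algebra R₂ A]
  [IsLocalHom (algebraMap R₁ A)] [IsLocalHom (algebraMap R₂ A)] {d : ℕ}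

noncomputable instance chart_noetherian (x c : Fin d → A) : IsNoetherianRing (Chart x c) :=
  isNoetherianRing_of_surjective _ _ (cMk x c) (cMk_surjective x c)

theorem nat_of_height {B Λ : Type u} [CommRing B] [CommRing Λ] [IsLocalRing Λ]
    [IsNoetherianRing Λ] (q : Ideal B) (h : ringKrullDim Λ = ((q.height + 1 : ℕ∞) : WithBot ℕ∞)) :
    ∃ n : ℕ, q.height = n ∧ ringKrullDim Λ = ((n + 1 : ℕ) : WithBot ℕ∞) := by
  obtain ⟨m, hm⟩ := exists_nat_eq_ringKrullDim Λ
  rw [hm] at h
  have h1 : (m : ℕ∞) = q.height + 1 := by exact_mod_cast h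
  have h2 : q.height ≠ ⊤ := by
    intro h3
    rw [h3] at h1
    exact ENat.natCast_ne_top m h1
  obtain ⟨n, hn⟩ := ENat.ne_top_iff_exists.1 h2
  refine ⟨n, hn.symm, ?_⟩
  rw [← hn] at h1
  have h3 : m = n + 1 := by exact_mod_cast h1
  rw [hm, h3]

/-- Nonnegativity of the local Euler characteristics of strict transforms. -/
theorem chart_local_nonneg (hd₁ : ringKrullDim R₁ = d) (hd₂ : ringKrullDim R₂ = d)
    (hd : ringKrullDim A = d) {x₁ : Fin d → R₁} {x₂ : Fin d → R₂} {x : Fin d → A}
    (hx₁ : Ideal.span (Set.range x₁) = maximalIdeal R₁)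
    (hx₂ : Ideal.span (Set.range x₂) = maximalIdeal R₂)
    (hx : Ideal.span (Set.range x) = maximalIdeal A) (θ₁ θ₂ : Fin d → Fin d → A)
    (hθ₁ : ∀ i, algebraMap R₁ A (x₁ i) = ∑ l, θ₁ i l * x l)
    (hθ₂ : ∀ i, algebraMap R₂ A (x₂ i) = ∑ l, θ₂ i l * x l)
    (hf₁ : (eMap θ₁ hθ₁).Flat) (hf₂ : (eMap θ₂ hθ₂).Flat)
    (c : Fin d → A) (P : Ideal (Chart x c)) [P.IsMaximal]
    (hmP : ∀ a ∈ maximalIdeal A, algebraMap A (Chart x c) a ∈ P)
    (M N : Type u) [AddCommGroup M] [Module R₁ M] [Module.Finite R₁ M]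
    [AddCommGroup N] [Module R₂ N] [Module.Finite R₂ N]
    (hK : ∀ (z : Ideal (MvPolynomial (Fin d) (ResidueField A))) [z.IsPrime],
      (∀ f ∈ z, ∀ n, MvPolynomial.homogeneousComponent n f ∈ z) →
      (∃ i, MvPolynomial.X i ∉ z) →
      InForm x₁ (Module.annihilator R₁ M) (z.comap (jMap R₁ θ₁)) →
      InForm x₂ (Module.annihilator R₂ N) (z.comap (jMap R₂ θ₂)) →
      (z.comap (jMap R₁ θ₁)).height + (z.comap (jMap R₂ θ₂)).height ≤ z.height + 1)
    (hfin : Module.length (Localization.AtPrime P) (TorM (Localization.AtPrime P) 0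
      (Localization.AtPrime P ⊗[Chart x c] StM (S := Chart x c) (x0 x c) (A ⊗[R₁] M))
      (Localization.AtPrime P ⊗[Chart x c] StM (S := Chart x c) (x0 x c) (A ⊗[R₂] N))) ≠ ⊤) :
    0 ≤ eulerTor (Localization.AtPrime P) (d + 1)
      (Localization.AtPrime P ⊗[Chart x c] StM (S := Chart x c) (x0 x c) (A ⊗[R₁] M))
      (Localization.AtPrime P ⊗[Chart x c] StM (S := Chart x c) (x0 x c) (A ⊗[R₂] N)) := by
  obtain ⟨Ω, _, _, _, _, ρ, q, _, hmax, hdimΩ, hhom, hX, hA, ⟨u, hu⟩, hρflat, hρcomap⟩ :=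
    exists_omega c hd hx P hmP
  have hq₁ : (maximalIdeal Ω).comap (ρ.comp (eMap θ₁ hθ₁)) =
      (q.comap (jMap R₁ θ₁)).comap (eRes hx₁) := by
    rw [← Ideal.comap_comap, hρcomap, Ideal.comap_comap, Ideal.comap_comap,
      eRes_eMap θ₁ hθ₁ hx₁ hx]
  have hq₂ : (maximalIdeal Ω).comap (ρ.comp (eMap θ₂ hθ₂)) =
      (q.comap (jMap R₂ θ₂)).comap (eRes hx₂) := by
    rw [← Ideal.comap_comap, hρcomap, Ideal.comap_comap, Ideal.comap_comap,
      eRes_eMap θ₂ hθ₂ hx₂ hx]
  obtain ⟨Λ₁, _, _, _, _, _, σ₁, hdimΛ₁, hσ₁⟩ := exists_side hd₁ hx₁ (ρ.comp (eMap θ₁ hθ₁))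
    (hf₁.comp hρflat) (q.comap (jMap R₁ θ₁)) hq₁
  obtain ⟨Λ₂, _, _, _, _, _, σ₂, hdimΛ₂, hσ₂⟩ := exists_side hd₂ hx₂ (ρ.comp (eMap θ₂ hθ₂))
    (hf₂.comp hρflat) (q.comap (jMap R₂ θ₂)) hq₂
  obtain ⟨h, hh, hdΩ⟩ := nat_of_height q hdimΩ
  obtain ⟨h₁, hh₁, hdΛ₁⟩ := nat_of_height _ hdimΛ₁
  obtain ⟨h₂, hh₂, hdΛ₂⟩ := nat_of_height _ hdimΛ₂
  have hhd : h + 1 ≤ d := by
    have := height_lt_of_homogeneous q hhom hX
    rw [hh] at this
    exact_mod_cast this
  -- algebra structures
  let S := Chart x c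
  let SP := Localization.AtPrime P
  let _ : Algebra R₁ Λ₁ := (σ₁.comp (algebraMap R₁ (ERees x₁))).toAlgebra
  let _ : Algebra R₂ Λ₂ := (σ₂.comp (algebraMap R₂ (ERees x₂))).toAlgebra
  let _ : Algebra R₁ Ω := ((algebraMap Λ₁ Ω).comp (algebraMap R₁ Λ₁)).toAlgebra
  let _ : Algebra R₂ Ω := ((algebraMap Λ₂ Ω).comp (algebraMap R₂ Λ₂)).toAlgebra
  let _ : Algebra A Ω := (ρ.comp (algebraMap A (ERees x))).toAlgebra
  let _ : Algebra S Ω := ((algebraMap SP Ω).comp (algebraMap S SP)).toAlgebra
  have t1 : IsScalarTower R₁ Λ₁ Ω := IsScalarTower.of_algebraMap_eq fun _ => rfl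
  have t2 : IsScalarTower R₂ Λ₂ Ω := IsScalarTower.of_algebraMap_eq fun _ => rfl
  have t3 : IsScalarTower R₁ A Ω := by
    refine IsScalarTower.of_algebraMap_eq fun r => ?_
    change algebraMap Λ₁ Ω (σ₁ (algebraMap R₁ (ERees x₁) r)) = ρ (algebraMap A (ERees x) _)
    rw [hσ₁, RingHom.comp_apply, eMap_algebraMap]
  have t4 : IsScalarTower R₂ A Ω := by
    refine IsScalarTower.of_algebraMap_eq fun r => ?_
    change algebraMap Λ₂ Ω (σ₂ (algebraMap R₂ (ERees x₂) r)) = ρ (algebraMap A (ERees x) _)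
    rw [hσ₂, RingHom.comp_apply, eMap_algebraMap]
  have t5 : IsScalarTower S SP Ω := IsScalarTower.of_algebraMap_eq fun _ => rfl
  have t6 : IsScalarTower A S Ω := IsScalarTower.of_algebraMap_eq fun a => (hA a).symm
  have f1 : Module.Flat S Ω := Module.Flat.trans S SP Ω
  obtain ⟨e₁⟩ := st_compare (R₁ := R₁) (A := A) (S := S) (S' := SP) (Λ := Λ₁) (Ω := Ω)
    (algebraMap A S (x0 x c)) (σ₁ (eT x₁)) u (by
      rw [hσ₁, RingHom.comp_apply, eMap_eT]
      exact hu) M
  obtain ⟨e₂⟩ := st_compare (R₁ := R₂) (A := A) (S := S) (S' := SP) (Λ := Λ₂) (Ω := Ω)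
    (algebraMap A S (x0 x c)) (σ₂ (eT x₂)) u (by
      rw [hσ₂, RingHom.comp_apply, eMap_eT]
      exact hu) N
  let E := St (σ₁ (eT x₁)) (Λ₁ ⊗[R₁] M)
  let G := St (σ₂ (eT x₂)) (Λ₂ ⊗[R₂] N)
  have hnoeth : IsNoetherianRing SP := inferInstance
  rw [eulerTor_bc (B := SP) (C := Ω) hmax, eulerTor_congr e₁ e₂]
  by_cases hin₁ : InForm x₁ (Module.annihilator R₁ M) (q.comap (jMap R₁ θ₁))
  swap
  · have hE : Subsingleton E := subsingleton_of_not_inForm hx₁ σ₁ (fun _ => rfl)
      (fun z hz => by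
        rw [← isUnit_map_iff (algebraMap Λ₁ Ω), hσ₁]
        by_contra hcon
        have h5 : z ∈ (maximalIdeal Ω).comap (ρ.comp (eMap θ₁ hθ₁)) := hcon
        rw [hq₁] at h5
        exact hz h5) M hin₁
    have hE' : Subsingleton (Ω ⊗[Λ₁] E) := inferInstance
    rw [eulerTor_left_zero _ _ _ hE']
  by_cases hin₂ : InForm x₂ (Module.annihilator R₂ N) (q.comap (jMap R₂ θ₂))
  swap
  · have hE : Subsingleton G := subsingleton_of_not_inForm hx₂ σ₂ (fun _ => rfl)
      (fun z hz => by
        rw [← isUnit_map_iff (algebraMap Λ₂ Ω), hσ₂]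
        by_contra hcon
        have h5 : z ∈ (maximalIdeal Ω).comap (ρ.comp (eMap θ₂ hθ₂)) := hcon
        rw [hq₂] at h5
        exact hz h5) N hin₂
    have hE' : Subsingleton (Ω ⊗[Λ₂] G) := inferInstance
    rw [eulerTor_right_zero _ _ _ hE']
  have hbound : h₁ + h₂ ≤ h + 1 := by
    have := hK q hhom hX hin₁ hin₂
    rw [hh, hh₁, hh₂] at this
    exact_mod_cast this
  refine pair_nonneg (R₁ := Λ₁) (R₂ := Λ₂) (T := Ω) hdΛ₁ hdΛ₂ hdΩ (by omega) (d + 1) (by omega)
    E G ?_
  rw [← Module.length_ne_top_iff]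
  have h3 := length_tor_bc₂ (A := SP) (C := Ω) hmax 0
    (TensorProduct.isBaseChange SP (SP ⊗[S] StM (S := S) (x0 x c) (A ⊗[R₁] M)) Ω)
    (TensorProduct.isBaseChange SP (SP ⊗[S] StM (S := S) (x0 x c) (A ⊗[R₂] N)) Ω)
  rw [h3, (torZero _ _).length_eq] at hfin
  have h4 := length_congr₂ e₁ e₂
  exact fun hc => hfin (h4.trans hc)

end main

end Vale.Agent.P177
end

section

/-!
Serre's statements for modules over a regular quotient of a regular local ring.
-/

namespace Vale.Agent.P177

open CategoryTheory TensorProduct Function IsLocalRing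
open scoped Pointwise

universe u

/-- Serre's statements for a pair of modules over a ring of dimension `d`. -/
def SP (R : Type u) [CommRing R] (d : ℕ) (M N : Type u) [AddCommGroup M] [Module R M]
    [AddCommGroup N] [Module R N] : Prop :=
  0 ≤ eulerTor R (d + 1) M N ∧ ∀ m n : ℕ, (m : WithBot ℕ∞) ≤ Module.supportDim R M →
      (n : WithBot ℕ∞) ≤ Module.supportDim R N →
      (m + n ≤ d) ∧ (d ≤ m + n → 0 < eulerTor R (d + 1) M N)

section basic

variable {R : Type u} [CommRing R] {d : ℕ}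

theorem SP.symm {M N : Type u} [AddCommGroup M] [Module R M] [AddCommGroup N] [Module R N]
    (h : SP R d M N) : SP R d N M := by
  unfold SP at h ⊢
  rw [eulerTor_symm]
  refine ⟨h.1, fun m n hm hn => ?_⟩
  obtain ⟨h1, h2⟩ := h.2 n m hn hm
  exact ⟨by omega, fun hd => h2 (by omega)⟩

theorem SP.congr {M N M' N' : Type u} [AddCommGroup M] [Module R M] [AddCommGroup N]
    [Module R N] [AddCommGroup M'] [Module R M'] [AddCommGroup N'] [Module R N']
    (e : M ≃ₗ[R] M') (e' : N ≃ₗ[R] N') (h : SP R d M N) : SP R d M' N' := by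
  unfold SP at h ⊢
  rw [← eulerTor_congr e e', ← Module.supportDim_eq_of_equiv e,
    ← Module.supportDim_eq_of_equiv e']
  exact h

theorem SP.of_subsingleton {M N : Type u} [AddCommGroup M] [Module R M] [AddCommGroup N]
    [Module R N] (hM : Subsingleton M) : SP R d M N := by
  refine ⟨(eulerTor_left_zero _ _ _ hM).ge, fun m n hm _ => ?_⟩
  rw [Module.supportDim_eq_bot_of_subsingleton] at hm
  exact absurd (le_bot_iff.1 hm) (WithBot.coe_ne_bot)

theorem SP.of_exact [IsRegularLocalRing R] (hd : ringKrullDim R = d)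
    {M' M M'' N : Type u} [AddCommGroup M'] [Module R M']
    [AddCommGroup M] [Module R M] [AddCommGroup M''] [Module R M''] [Module.Finite R M']
    [Module.Finite R M] [Module.Finite R M'']
    [AddCommGroup N] [Module R N] [Module.Finite R N]
    (f : M' →ₗ[R] M) (g : M →ₗ[R] M'') (hf : Injective f) (hg : Surjective g) (h : Exact f g)
    (hlen : Module.length R (M ⊗[R] N) ≠ ⊤) (h1 : SP R d M' N) (h3 : SP R d M'' N) :
    SP R d M N := by
  have hlen' : Module.length R (M' ⊗[R] N) ≠ ⊤ :=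
    length_tensor_ne_top_of_annihilator_le M M' N hlen (LinearMap.annihilator_le_of_injective f hf)
  have hv : Module.length R (TorM R (d + 1) M'' N) = 0 := by
    have := regular_tor_vanish R d hd M'' N (d + 1) le_rfl
    exact Module.length_eq_zero
  have hadd := eulerTor_add_aux f g hf hg h N (fun i => tor_length_ne_top i M' N hlen')
    (fun i => tor_length_ne_top i M N hlen) (d + 1) hv
  unfold SP
  rw [hadd]
  refine ⟨add_nonneg h1.1 h3.1, fun m n hm hn => ?_⟩
  rcases le_supportDim_of_exact f g hf hg h m hm with hm' | hm'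
  · obtain ⟨k1, k2⟩ := h1.2 m n hm' hn
    exact ⟨k1, fun hh => add_pos_of_pos_of_nonneg (k2 hh) h3.1⟩
  · obtain ⟨k1, k2⟩ := h3.2 m n hm' hn
    exact ⟨k1, fun hh => add_pos_of_nonneg_of_pos h1.1 (k2 hh)⟩

end basic

section step

variable {B A : Type u} [CommRing B] [IsRegularLocalRing B] [CommRing A] [IsRegularLocalRing A]
  [Algebra B A] {f : B}

omit [IsRegularLocalRing B] [IsRegularLocalRing A] in
theorem exists_quotHyp_equiv (H : IsHypersurface B A f) (N : Type u) [AddCommGroup N] [Module B N] :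
    Nonempty (QuotSMulTop f N ≃ₗ[B] A ⊗[B] N) := by
  let e1 : (B ⧸ Ideal.span {f}) ≃ₗ[B] A :=
    ((Ideal.quotientEquivAlgOfEq B H.ker.symm).trans
      (Ideal.quotientKerAlgEquivOfSurjective (f := Algebra.ofId B A) H.surj)).toLinearEquiv
  exact ⟨(QuotSMulTop.equivQuotTensor f N).trans
    (TensorProduct.congr e1 (LinearEquiv.refl B N))⟩

theorem IsHypersurface.mem (H : IsHypersurface B A f) : f ∈ maximalIdeal B := by
  rw [mem_maximalIdeal, mem_nonunits_iff]
  intro hu
  have h1 := hu.map (algebraMap B A)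
  rw [H.algebraMap_f] at h1
  exact not_isUnit_zero h1

variable {d : ℕ} (H : IsHypersurface B A f)
  (hdB : ringKrullDim B = ((d + 1 : ℕ) : WithBot ℕ∞)) (hdA : ringKrullDim A = d)
  (M : Type u) [AddCommGroup M] [Module B M] [Module A M] [IsScalarTower B A M]
  [Module.Finite A M] [Module.Finite B M]
  (hA : ∀ (N' : Type u) [AddCommGroup N'] [Module A N'] [Module.Finite A N'],
    Module.length A (N' ⊗[A] M) ≠ ⊤ → SP A d N' M)

include H hdA hA in
theorem sp_step_regular (N : Type u) [AddCommGroup N] [Module B N] [Module.Finite B N]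
    (hN : IsSMulRegular N f) (hlen : Module.length B (N ⊗[B] M) ≠ ⊤) : SP B (d + 1) N M := by
  have hbc := TensorProduct.isBaseChange B N A
  have hX : Module.Finite A (A ⊗[B] N) := inferInstance
  rw [length_tensor_baseChange H.surj hbc M] at hlen
  obtain ⟨h1, h2⟩ := hA (A ⊗[B] N) hlen
  have heq : eulerTor B (d + 1 + 1) N M = eulerTor A (d + 1) (A ⊗[B] N) M := by
    rw [← eulerTor_of_vanish (T := A) (A ⊗[B] N) M (d + 1) (d + 1 + 1) (Nat.le_succ _)
      (fun j hj => regular_tor_vanish A d hdA (A ⊗[B] N) M j hj)]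
    unfold eulerTor
    refine Finset.sum_congr rfl fun i _ => ?_
    rw [H.length_tor_baseChange i hbc hN M]
  have hfinB : Module.Finite B (A ⊗[B] N) := by
    have : Module.Finite B A := Module.Finite.of_surjective (Algebra.linearMap B A) H.surj
    exact Module.Finite.trans A _
  have hdimX : Module.supportDim A (A ⊗[B] N) + 1 = Module.supportDim B N := by
    obtain ⟨e⟩ := exists_quotHyp_equiv H N
    rw [← supportDim_eq_of_surjective H.surj (A ⊗[B] N), ← Module.supportDim_eq_of_equiv e]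
    exact Module.supportDim_quotSMulTop_succ_eq_supportDim hN H.mem
  unfold SP
  rw [heq]
  refine ⟨h1, fun n m hn hm => ?_⟩
  rw [supportDim_eq_of_surjective H.surj M] at hm
  rw [← hdimX] at hn
  have hnb : Module.supportDim A (A ⊗[B] N) ≠ ⊥ := by
    intro hb
    rw [hb] at hn
    simp at hn
  have h0 : ((0 : ℕ) : WithBot ℕ∞) ≤ Module.supportDim A (A ⊗[B] N) := by
    generalize Module.supportDim A (A ⊗[B] N) = a at hnb ⊢
    induction a using WithBot.recBotCoe with
    | bot => exact absurd rfl hnb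
    | coe a => exact_mod_cast (bot_le : (0 : ℕ∞) ≤ a)
  obtain ⟨k1, k2⟩ := h2 0 m h0 hm
  rcases n with _ | n
  · exact ⟨by omega, fun hh => by omega⟩
  · have hn' : (n : WithBot ℕ∞) ≤ Module.supportDim A (A ⊗[B] N) := by
      generalize Module.supportDim A (A ⊗[B] N) = a at hn ⊢
      push_cast at hn
      induction a using WithBot.recBotCoe with
      | bot => simp at hn
      | coe a =>
        have h7 : ((n : ℕ∞) + 1) ≤ a + 1 := by exact_mod_cast hn
        have h8 : (n : ℕ∞) ≤ a := (ENat.add_le_add_iff_right (by simp)).1 h7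
        exact_mod_cast h8
    obtain ⟨k3, k4⟩ := h2 n m hn' hm
    exact ⟨by omega, fun hh => k4 (by omega)⟩

include H hdB hdA hA in
theorem sp_step_killed (N : Type u) [AddCommGroup N] [Module B N] [Module.Finite B N]
    (hN : ∀ v : N, f • v = 0) (hlen : Module.length B (N ⊗[B] M) ≠ ⊤) : SP B (d + 1) N M := by
  have hbot : f • (⊤ : Submodule B N) = ⊥ := by
    rw [eq_bot_iff]
    rintro _ ⟨v, -, rfl⟩
    exact hN v
  have hfinB : Module.Finite B (A ⊗[B] N) := by
    have : Module.Finite B A := Module.Finite.of_surjective (Algebra.linearMap B A) H.surj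
    exact Module.Finite.trans A _
  obtain ⟨e⟩ := exists_quotHyp_equiv H N
  let e' : N ≃ₗ[B] A ⊗[B] N := (Submodule.quotEquivOfEqBot _ hbot).symm.trans e
  refine SP.congr e'.symm (LinearEquiv.refl B M) ?_
  have hlenX : Module.length B ((A ⊗[B] N) ⊗[B] M) ≠ ⊤ := by
    rw [← (TensorProduct.congr e' (LinearEquiv.refl B M)).length_eq]
    exact hlen
  have hlenA : Module.length A ((A ⊗[B] N) ⊗[A] M) ≠ ⊤ := by
    rw [← length_tensor_baseChange H.surj (isBaseChange_id_of_surjective H.surj (A ⊗[B] N)) M]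
    exact hlenX
  obtain ⟨-, h2⟩ := hA (A ⊗[B] N) hlenA
  have hBv : Module.length B (TorM B (d + 1 + 1) (A ⊗[B] N) M) = 0 := by
    have := regular_tor_vanish B (d + 1) hdB (A ⊗[B] N) M (d + 1 + 1) le_rfl
    exact Module.length_eq_zero
  have h6 := H.eulerTor_eq (A ⊗[B] N) M (fun n => tor_length_ne_top n _ M hlenA) (d + 1) hBv
  have h7 : Module.length A (TorM A (d + 1) (A ⊗[B] N) M) = 0 := by
    have := regular_tor_vanish A d hdA (A ⊗[B] N) M (d + 1) le_rfl
    exact Module.length_eq_zero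
  have h8 : Module.length A (TorM A (d + 1 + 1) (A ⊗[B] N) M) = 0 := by
    have := regular_tor_vanish A d hdA (A ⊗[B] N) M (d + 1 + 1) (by omega)
    exact Module.length_eq_zero
  rw [h7, h8, sub_self, mul_zero] at h6
  unfold SP
  rw [h6]
  refine ⟨le_rfl, fun n m hn hm => ?_⟩
  rw [supportDim_eq_of_surjective H.surj M] at hm
  rw [supportDim_eq_of_surjective H.surj (A ⊗[B] N)] at hn
  obtain ⟨k1, -⟩ := h2 n m hn hm
  exact ⟨by omega, fun hh => by omega⟩

include H hdB hdA hA in
/-- Passage from a regular hypersurface to the ambient ring. -/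
theorem sp_step (N : Type u) [AddCommGroup N] [Module B N] [Module.Finite B N]
    (hlen : Module.length B (N ⊗[B] M) ≠ ⊤) : SP B (d + 1) N M := by
  refine IsNoetherianRing.induction_on_isQuotientEquivQuotientPrime B (M := N) inferInstance
    (motive := fun N => Module.length B (N ⊗[B] M) ≠ ⊤ → SP B (d + 1) N M) ?_ ?_ ?_ hlen
  · intro N _ _ _ hN _
    exact SP.of_subsingleton hN
  · intro N _ _ _ q e hlen
    by_cases hf : f ∈ q.1
    · refine sp_step_killed H hdB hdA M hA N (fun v => ?_) hlen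
      apply e.injective
      rw [map_smul, map_zero]
      obtain ⟨b, hb⟩ := Ideal.Quotient.mk_surjective (e v)
      rw [← hb]
      change Ideal.Quotient.mk q.1 (f * b) = 0
      rw [Ideal.Quotient.eq_zero_iff_mem]
      exact Ideal.mul_mem_right _ _ hf
    · refine sp_step_regular H hdA M hA N ?_ hlen
      rw [isSMulRegular_iff_right_eq_zero_of_smul]
      intro v hv
      apply e.injective
      rw [map_zero]
      have h1 : f • e v = 0 := by rw [← map_smul, hv, map_zero]
      obtain ⟨b, hb⟩ := Ideal.Quotient.mk_surjective (e v)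
      rw [← hb] at h1 ⊢
      have h2 : Ideal.Quotient.mk q.1 (f * b) = 0 := h1
      rw [Ideal.Quotient.eq_zero_iff_mem] at h2 ⊢
      exact (q.2.mem_or_mem h2).resolve_left hf
  · intro N₁ _ _ _ N₂ _ _ _ N₃ _ _ _ i g hi hg hex h1 h3 hlen
    refine SP.of_exact hdB i g hi hg hex hlen (h1 ?_) (h3 ?_)
    · exact length_tensor_ne_top_of_annihilator_le N₂ N₁ M hlen
        (LinearMap.annihilator_le_of_injective i hi)
    · exact length_tensor_ne_top_of_annihilator_le N₂ N₃ M hlen
        (LinearMap.annihilator_le_of_surjective g hg)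

end step

end Vale.Agent.P177
end

section

/-!
Serre's statements for modules over a regular quotient of a regular local ring: induction on the
codimension.
-/

namespace Vale.Agent.P177

open CategoryTheory TensorProduct Function IsLocalRing
open scoped Pointwise

universe u

section ker

variable {R R' : Type u} [CommRing R] [IsRegularLocalRing R] [CommRing R'] [IsRegularLocalRing R']

theorem exists_mem_ker_notMem_sq (φ : R →+* R') (hφ : Surjective φ)
    (h : ringKrullDim R' < ringKrullDim R) :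
    ∃ f ∈ RingHom.ker φ, f ∈ maximalIdeal R ∧ f ∉ maximalIdeal R ^ 2 := by
  classical
  by_contra hcon
  push Not at hcon
  have hkm : RingHom.ker φ ≤ maximalIdeal R := le_maximalIdeal (RingHom.ker_ne_top φ)
  have hk2 : RingHom.ker φ ≤ maximalIdeal R ^ 2 := fun f hf => hcon f hf (hkm hf)
  obtain ⟨s, hcard, hs⟩ := Submodule.FG.exists_span_finset_card_eq_spanFinrank
    ((maximalIdeal R').fg_of_isNoetherianRing)
  change Ideal.span (s : Set R') = maximalIdeal R' at hs
  choose g hg using hφ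
  have hloc : maximalIdeal R = (maximalIdeal R').comap φ := by
    have : IsLocalHom φ := .of_surjective φ (fun y => ⟨g y, hg y⟩)
    have h9 : (maximalIdeal R').comap φ = maximalIdeal R :=
      ((IsLocalRing.local_hom_TFAE φ).out 0 4).1 this
    exact h9.symm
  have hle : maximalIdeal R ≤ Ideal.span ((s.image g : Finset R) : Set R) ⊔
      maximalIdeal R • maximalIdeal R := by
    intro x hx
    rw [hloc, Ideal.mem_comap, ← hs] at hx
    have hmap : (Ideal.span ((s.image g : Finset R) : Set R)).map φ =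
        Ideal.span (s : Set R') := by
      rw [Ideal.map_span, Finset.coe_image, ← Set.image_comp]
      congr 1
      ext y
      constructor
      · rintro ⟨z, hz, rfl⟩
        rw [Function.comp_apply, hg]
        exact hz
      · intro hy
        exact ⟨y, hy, hg y⟩
    rw [← hmap] at hx
    obtain ⟨y, hy, hyx⟩ := (Ideal.mem_map_iff_of_surjective φ (fun y => ⟨g y, hg y⟩)).1 hx
    have h1 : x - y ∈ RingHom.ker φ := by
      rw [RingHom.mem_ker, map_sub, hyx, sub_self]
    have h3 : x = y + (x - y) := by ring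
    rw [h3]
    refine Submodule.add_mem_sup hy ?_
    rw [smul_eq_mul, ← pow_two]
    exact hk2 h1
  have hle2 : maximalIdeal R ≤ Ideal.span ((s.image g : Finset R) : Set R) :=
    Submodule.le_of_le_smul_of_le_jacobson_bot ((maximalIdeal R).fg_of_isNoetherianRing)
      (IsLocalRing.maximalIdeal_le_jacobson ⊥) hle
  have hge : Ideal.span ((s.image g : Finset R) : Set R) ≤ maximalIdeal R := by
    rw [Ideal.span_le]
    intro x hx
    rw [Finset.coe_image] at hx
    obtain ⟨y, hy, rfl⟩ := hx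
    change g y ∈ maximalIdeal R
    rw [hloc, Ideal.mem_comap, hg, ← hs]
    exact Ideal.subset_span hy
  have heq : Ideal.span ((s.image g : Finset R) : Set R) = maximalIdeal R :=
    le_antisymm hge hle2
  have h5 : (maximalIdeal R).spanFinrank ≤ (s.image g).card := by
    rw [← heq]
    exact (Submodule.spanFinrank_span_le_ncard_of_finite (Finset.finite_toSet _)).trans
      (by rw [Set.ncard_coe_finset])
  have h6 : (s.image g).card ≤ (maximalIdeal R').spanFinrank := hcard ▸ Finset.card_image_le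
  rw [exists_nat_ringKrullDim R, exists_nat_ringKrullDim R'] at h
  have h7 : (maximalIdeal R').spanFinrank < (maximalIdeal R).spanFinrank := by exact_mod_cast h
  omega

omit [IsRegularLocalRing R'] in
theorem ker_eq_bot_of_dim_eq (φ : R →+* R') (hφ : Surjective φ)
    (h : ringKrullDim R' = ringKrullDim R) : RingHom.ker φ = ⊥ := by
  have hdom : IsDomain R := regular_isDomain R
  by_contra hne
  obtain ⟨f, hf, hf0⟩ := Submodule.exists_mem_ne_zero_of_ne_bot hne
  have h1 : ringKrullDim (R ⧸ Ideal.span {f}) + 1 ≤ ringKrullDim R :=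
    ringKrullDim_quotient_succ_le_of_nonZeroDivisor (mem_nonZeroDivisors_of_ne_zero hf0)
  have h2 : ringKrullDim R' ≤ ringKrullDim (R ⧸ Ideal.span {f}) := by
    refine ringKrullDim_le_of_surjective (Ideal.Quotient.lift (Ideal.span {f}) φ ?_) ?_
    · intro a ha
      have : Ideal.span {f} ≤ RingHom.ker φ := by
        rw [Ideal.span_singleton_le_iff_mem]
        exact hf
      exact this ha
    · intro y
      obtain ⟨x, rfl⟩ := hφ y
      exact ⟨Ideal.Quotient.mk _ x, rfl⟩
  rw [h] at h2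
  obtain ⟨n, hn⟩ := exists_nat_eq_ringKrullDim R
  have h3 := (add_le_add_left h2 1).trans h1
  rw [hn] at h3
  have h4 : n + 1 ≤ n := by exact_mod_cast h3
  omega

end ker

section main

/-- The case of a bijection. -/
theorem sp_of_bijective {R R' : Type u} [CommRing R] [IsRegularLocalRing R] [CommRing R']
    [IsRegularLocalRing R'] [Algebra R R'] (hb : Bijective (algebraMap R R')) (d : ℕ)
    (M : Type u) [AddCommGroup M] [Module R M] [Module R' M] [IsScalarTower R R' M]
    [Module.Finite R' M]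
    (hM : ∀ (N' : Type u) [AddCommGroup N'] [Module R' N'] [Module.Finite R' N'],
      Module.length R' (N' ⊗[R'] M) ≠ ⊤ → SP R' d N' M)
    (N : Type u) [AddCommGroup N] [Module R N] [Module.Finite R N]
    (hlen : Module.length R (N ⊗[R] M) ≠ ⊤) : SP R d N M := by
  let e : R ≃ₗ[R] R' := LinearEquiv.ofBijective (Algebra.linearMap R R') hb
  have hflat : Module.Flat R R' := Module.Flat.of_linearEquiv e.symm
  have hloc : (maximalIdeal R).map (algebraMap R R') = maximalIdeal R' :=
    map_maximalIdeal_of_surjective _ hb.2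
  have hN : ∀ b : R', ∃ s : R, ∀ t : M, b • t = s • t := fun b => by
    obtain ⟨s, rfl⟩ := hb.2 b
    exact ⟨s, fun t => algebraMap_smul R' s t⟩
  have hfin : Module.Finite R R' := Module.Finite.of_surjective (Algebra.linearMap R R') hb.2
  have hfinN : Module.Finite R (R' ⊗[R] N) := Module.Finite.trans R' _
  have hfinM : Module.Finite R M := Module.Finite.trans R' _
  have hbc := TensorProduct.isBaseChange R N R'
  have heq : eulerTor R (d + 1) N M = eulerTor R' (d + 1) (R' ⊗[R] N) M := by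
    unfold eulerTor
    refine Finset.sum_congr rfl fun i _ => ?_
    rw [length_tor_bc i hbc M hN]
  have hl : Module.length R' ((R' ⊗[R] N) ⊗[R'] M) ≠ ⊤ := by
    rw [← length_tensor_baseChange hb.2 hbc M]
    exact hlen
  have h := hM (R' ⊗[R] N) hl
  have hd1 : Module.supportDim R' (R' ⊗[R] N) = Module.supportDim R N := by
    rw [← supportDim_eq_of_surjective hb.2 (R' ⊗[R] N)]
    refine (Module.supportDim_eq_of_equiv ?_).symm
    exact (TensorProduct.lid R N).symm.trans (TensorProduct.congr e (LinearEquiv.refl R N))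
  have hd2 : Module.supportDim R M = Module.supportDim R' M := supportDim_eq_of_surjective hb.2 M
  unfold SP at h ⊢
  rw [heq, hd2, ← hd1]
  exact h

/-- Serre's statements for a module over a regular quotient, against all modules. -/
theorem sp_of_regular_quotient (k : ℕ) : ∀ {R R' : Type u} [CommRing R] [IsRegularLocalRing R]
    [CommRing R'] [IsRegularLocalRing R'] [Algebra R R'] (_ : Surjective (algebraMap R R'))
    {d' : ℕ} (_ : ringKrullDim R = ((d' + k : ℕ) : WithBot ℕ∞)) (_ : ringKrullDim R' = d')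
    (M : Type u) [AddCommGroup M] [Module R M] [Module R' M] [IsScalarTower R R' M]
    [Module.Finite R' M]
    (_ : ∀ (N' : Type u) [AddCommGroup N'] [Module R' N'] [Module.Finite R' N'],
      Module.length R' (N' ⊗[R'] M) ≠ ⊤ → SP R' d' N' M)
    (N : Type u) [AddCommGroup N] [Module R N] [Module.Finite R N]
    (_ : Module.length R (N ⊗[R] M) ≠ ⊤), SP R (d' + k) N M := by
  induction k with
  | zero =>
    intro R R' _ _ _ _ _ hs d' hd hd' M _ _ _ _ _ hM N _ _ _ hlen
    have hinj : Injective (algebraMap R R') := by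
      rw [RingHom.injective_iff_ker_eq_bot]
      refine ker_eq_bot_of_dim_eq (algebraMap R R') hs ?_
      rw [hd, hd', add_zero]
    exact sp_of_bijective ⟨hinj, hs⟩ d' M hM N hlen
  | succ k ih =>
    intro R R' _ _ _ _ _ hs d' hd hd' M _ _ _ _ _ hM N _ _ _ hlen
    obtain ⟨f, hfk, hfm, hf2⟩ := exists_mem_ker_notMem_sq (algebraMap R R') hs (by
      rw [hd, hd']
      exact_mod_cast (by omega : d' < d' + (k + 1)))
    obtain ⟨hreg, hdim⟩ := regular_quotient R f hfm hf2
    have hdom : IsDomain R := regular_isDomain R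
    have hf0 : f ≠ 0 := fun h => hf2 (h ▸ zero_mem _)
    have hdimA : ringKrullDim (R ⧸ Ideal.span {f}) = ((d' + k : ℕ) : WithBot ℕ∞) := by
      obtain ⟨n, hn⟩ := exists_nat_eq_ringKrullDim (R ⧸ Ideal.span {f})
      rw [hn, hd] at hdim
      have h4 : n + 1 = d' + (k + 1) := by exact_mod_cast hdim
      rw [hn]
      exact_mod_cast (by omega : n = d' + k)
    have hle : ∀ a ∈ Ideal.span {f}, algebraMap R R' a = 0 := by
      intro a ha
      have : Ideal.span {f} ≤ RingHom.ker (algebraMap R R') := by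
        rw [Ideal.span_singleton_le_iff_mem]
        exact hfk
      exact this ha
    let ψ : (R ⧸ Ideal.span {f}) →+* R' := Ideal.Quotient.lift (Ideal.span {f})
      (algebraMap R R') hle
    let : Algebra (R ⧸ Ideal.span {f}) R' := ψ.toAlgebra
    let : Module (R ⧸ Ideal.span {f}) M := Module.compHom M ψ
    have ht1 : IsScalarTower (R ⧸ Ideal.span {f}) R' M := ⟨fun a b m => by
      change (ψ a * b) • m = ψ a • (b • m)
      rw [mul_smul]⟩
    have ht2 : IsScalarTower R (R ⧸ Ideal.span {f}) M := ⟨fun a b m => by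
      obtain ⟨b, rfl⟩ := Ideal.Quotient.mk_surjective b
      change (algebraMap R R' (a * b)) • m = a • (algebraMap R R' b • m)
      rw [map_mul, mul_smul, algebraMap_smul R' a]⟩
    have hs' : Surjective (algebraMap (R ⧸ Ideal.span {f}) R') := fun y => by
      obtain ⟨x, hx⟩ := hs y
      exact ⟨Ideal.Quotient.mk _ x, hx⟩
    have H : IsHypersurface R (R ⧸ Ideal.span {f}) f :=
      ⟨(IsRegular.of_ne_zero hf0).left.isSMulRegular, Ideal.Quotient.mk_surjective,
        Ideal.mk_ker⟩
    have hfinR' : Module.Finite R R' := Module.Finite.of_surjective (Algebra.linearMap R R') hs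
    have hfinM : Module.Finite R M := Module.Finite.trans R' _
    have hfinA : Module.Finite (R ⧸ Ideal.span {f}) R' :=
      Module.Finite.of_surjective (Algebra.linearMap (R ⧸ Ideal.span {f}) R') hs'
    have hfinM' : Module.Finite (R ⧸ Ideal.span {f}) M := Module.Finite.trans R' _
    exact sp_step H (d := d' + k) hd hdimA M
      (fun N' _ _ _ hlen' => ih hs' hdimA hd' M hM N' hlen') N hlen

/-- **Serre's statements over a regular quotient.** Let `R → R'` be a surjection of regular local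
rings and `M` a finitely generated `R'`-module for which Serre's statements hold over `R'` against
all finitely generated `R'`-modules. Then they hold over `R` for `M` against all finitely
generated `R`-modules. -/
theorem serre_of_regular_quotient {R R' : Type u} [CommRing R] [IsRegularLocalRing R]
    [CommRing R'] [IsRegularLocalRing R'] [Algebra R R'] (hs : Surjective (algebraMap R R'))
    {d d' : ℕ} (hd : ringKrullDim R = d) (hd' : ringKrullDim R' = d')
    (M : Type u) [AddCommGroup M] [Module R M] [Module R' M] [IsScalarTower R R' M]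
    [Module.Finite R' M]
    (hM : ∀ (N' : Type u) [AddCommGroup N'] [Module R' N'] [Module.Finite R' N'],
      Module.length R' (M ⊗[R'] N') ≠ ⊤ →
      0 ≤ eulerTor R' (d' + 1) M N' ∧
        ∀ m n : ℕ, (m : WithBot ℕ∞) ≤ Module.supportDim R' M →
          (n : WithBot ℕ∞) ≤ Module.supportDim R' N' →
          (m + n ≤ d') ∧ (d' ≤ m + n → 0 < eulerTor R' (d' + 1) M N'))
    (N : Type u) [AddCommGroup N] [Module R N] [Module.Finite R N]
    (hlen : Module.length R (M ⊗[R] N) ≠ ⊤) :
    0 ≤ eulerTor R (d + 1) M N ∧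
      ∀ m n : ℕ, (m : WithBot ℕ∞) ≤ Module.supportDim R M →
        (n : WithBot ℕ∞) ≤ Module.supportDim R N →
        (m + n ≤ d) ∧ (d ≤ m + n → 0 < eulerTor R (d + 1) M N) := by
  have hle : ringKrullDim R' ≤ ringKrullDim R := ringKrullDim_le_of_surjective _ hs
  rw [hd, hd'] at hle
  have hle' : d' ≤ d := by exact_mod_cast hle
  obtain ⟨k, rfl⟩ := Nat.exists_eq_add_of_le hle'
  refine SP.symm (sp_of_regular_quotient k hs hd hd' M (fun N' _ _ _ hlen' => ?_) N ?_)
  · refine SP.symm (hM N' ?_)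
    rw [(TensorProduct.comm R' M N').length_eq]
    exact hlen'
  · rw [(TensorProduct.comm R N M).length_eq]
    exact hlen

end main

end Vale.Agent.P177
end

section

/-!
The prime `mT` and the linear relation between the two maps.
-/

namespace Vale.Agent.P177

open TensorProduct IsLocalRing MvPolynomial RingTheory.Sequence

universe u

namespace QData

variable {d : ℕ} {B Γ : Type u} [CommRing B] [IsRegularLocalRing B] [CommRing Γ]
  [IsRegularLocalRing Γ] {D : QData d B Γ}

section TD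

variable {T : Type u} [CommRing T] [IsRegularLocalRing T] (t : D.TD T)

/-- The prime ideal `mT`. -/
noncomputable def TD.m : Ideal T := Ideal.ofList (D.xs.map t.i₁)

theorem TD.m_le : t.m ≤ maximalIdeal T := by
  rw [← t.max₁]
  exact le_sup_left

theorem TD.m_prime : t.m.IsPrime := by
  have hzm : t.m ≤ maximalIdeal T := t.m_le
  have h0 : Nontrivial (T ⧸ t.m) := Ideal.Quotient.nontrivial_iff.2
    (fun h => (maximalIdeal.isMaximal T).ne_top (top_le_iff.1 (h ▸ hzm)))
  have h1 : IsLocalRing (T ⧸ t.m) :=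
    .of_surjective' (Ideal.Quotient.mk _) Ideal.Quotient.mk_surjective
  have hm : (maximalIdeal T).map (Ideal.Quotient.mk t.m) = maximalIdeal (T ⧸ t.m) :=
    map_maximalIdeal_of_surjective _ Ideal.Quotient.mk_surjective
  have h2 : Ideal.ofList (t.z.map (Ideal.Quotient.mk t.m)) = maximalIdeal (T ⧸ t.m) := by
    rw [← hm, ← t.max₁, Ideal.map_sup, show Ideal.ofList (D.xs.map t.i₁) = t.m from rfl,
      Ideal.map_quotient_self, bot_sup_eq, Ideal.map_ofList]
  have h3 : ringKrullDim (T ⧸ t.m) = ((d * d : ℕ) : WithBot ℕ∞) := by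
    have hreg : IsRegular T (D.xs.map t.i₁) := by
      refine ⟨((isWeaklyRegular_append_iff _ _ _).mp
        (t.isRegular_append _ t.max₁ (TD.length_xs_map _)).1).1, ?_⟩
      intro h
      have h1 : (Ideal.ofList (D.xs.map t.i₁) • ⊤ : Ideal T) ≤ maximalIdeal T := by
        rw [smul_eq_mul, Ideal.mul_top]
        exact hzm
      rw [← h] at h1
      exact (maximalIdeal.isMaximal T).ne_top (top_le_iff.1 h1)
    have h2 := ringKrullDim_add_length_eq_ringKrullDim_of_isRegular _ hreg
    rw [t.dimT, TD.length_xs_map] at h2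
    change ringKrullDim (T ⧸ t.m) + _ = _ at h2
    obtain ⟨e, he⟩ := exists_nat_ringKrullDim (T ⧸ t.m)
    rw [he] at h2 ⊢
    have h3 : e + d = d + d * d := by exact_mod_cast h2
    have h4 : e = d * d := by omega
    rw [h4]
  obtain ⟨h5, h6⟩ := isRegularLocalRing_of_list _ h2 (by
    rw [h3, List.length_map, t.length_z])
  have h7 : IsDomain (T ⧸ t.m) := regular_isDomain _
  exact (Ideal.Quotient.isDomain_iff_prime _).1 h7

theorem TD.X_mem (p : Fin d × Fin d) : t.f (X p) ∈ maximalIdeal T := by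
  rw [← t.max₁, t.ofList_z]
  exact Ideal.mem_sup_right (Ideal.subset_span ⟨p, rfl⟩)

theorem TD.exists_η : ∃ η : Matrix (Fin d) (Fin d) T,
    (∀ i, t.f (C (D.h i)) = ∑ m, η i m * t.f (C (D.a₁ (D.x m)))) ∧
    (∀ i m, η i m = ∑ l, (t.f (X (i, l)) - t.f (X (l, i))) *
      (t.f (C (D.β l m)) + ∑ j, t.f (C (D.γ l j)) * η j m)) ∧
    ∃ ω : Fin d → Fin d → T, ∀ i m, η i m = ∑ l, ω i l * t.f (C (D.β l m)) := by
  classical
  let Λ : Matrix (Fin d) (Fin d) T := fun i l => t.f (X (i, l)) - t.f (X (l, i))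
  let βT : Matrix (Fin d) (Fin d) T := fun i l => t.f (C (D.β i l))
  let γT : Matrix (Fin d) (Fin d) T := fun i l => t.f (C (D.γ i l))
  let hv : Fin d → T := fun i => t.f (C (D.h i))
  let Xv : Fin d → T := fun i => t.f (C (D.a₁ (D.x i)))
  let uv : Fin d → T := fun i => t.f (C (D.u i))
  have e1 : hv = Λ.mulVec uv := by
    funext i
    exact D.h_eq t.f t.hE i
  have e2 : uv = βT.mulVec Xv + γT.mulVec hv := by
    funext i
    change t.f (C (D.u i)) = ∑ m, t.f (C (D.β i m)) * t.f (C (D.a₁ (D.x m))) +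
      ∑ m, t.f (C (D.γ i m)) * t.f (C (D.h m))
    rw [D.hu, map_add, map_add, map_sum, map_sum, map_sum, map_sum]
    simp only [map_mul]
    rfl
  let M₁ : Matrix (Fin d) (Fin d) T := 1 - Λ * γT
  have hdet : IsUnit M₁.det := by
    have h2 : ∀ p, residue T (t.f (X p)) = 0 := fun p => (residue_eq_zero_iff _).2 (t.X_mem p)
    have hΛ : (residue T).mapMatrix Λ = 0 := by
      ext i l
      change residue T (t.f (X (i, l)) - t.f (X (l, i))) = 0
      rw [map_sub, h2, h2, sub_zero]
    have h1 : (residue T).mapMatrix M₁ = 1 := by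
      rw [show M₁ = 1 - Λ * γT from rfl, map_sub, map_one, map_mul, hΛ, zero_mul, sub_zero]
    have h2 : residue T M₁.det = 1 := by
      rw [RingHom.map_det, h1, Matrix.det_one]
    by_contra hcon
    have h3 : residue T M₁.det = 0 := (residue_eq_zero_iff _).2 ((mem_maximalIdeal _).2 hcon)
    rw [h2] at h3
    exact one_ne_zero h3
  let η : Matrix (Fin d) (Fin d) T := M₁⁻¹ * (Λ * βT)
  have e3 : M₁ * η = Λ * βT := by
    rw [← Matrix.mul_assoc, Matrix.mul_nonsing_inv _ hdet, Matrix.one_mul]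
  have e4 : η = Λ * (βT + γT * η) := by
    have h1 : η - Λ * γT * η = Λ * βT := by
      rw [← e3]
      simp only [M₁, Matrix.sub_mul, Matrix.one_mul]
    rw [Matrix.mul_add, ← Matrix.mul_assoc, ← h1]
    abel
  have e5 : M₁.mulVec hv = (Λ * βT).mulVec Xv := by
    have h1 : hv = (Λ * βT).mulVec Xv + (Λ * γT).mulVec hv := by
      conv_lhs => rw [e1, e2]
      rw [Matrix.mulVec_add, Matrix.mulVec_mulVec, Matrix.mulVec_mulVec]
    rw [show M₁ = 1 - Λ * γT from rfl, Matrix.sub_mulVec, Matrix.one_mulVec, sub_eq_iff_eq_add]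
    exact h1
  have e6 : hv = η.mulVec Xv := by
    have h1 : M₁⁻¹.mulVec (M₁.mulVec hv) = M₁⁻¹.mulVec ((Λ * βT).mulVec Xv) := by rw [e5]
    rw [Matrix.mulVec_mulVec, Matrix.mulVec_mulVec, Matrix.nonsing_inv_mul _ hdet,
      Matrix.one_mulVec] at h1
    exact h1
  refine ⟨η, fun i => congrFun e6 i, fun i m => ?_, fun i l => (M₁⁻¹ * Λ) i l, fun i m => ?_⟩
  · have h1 := congrFun (congrFun e4 i) m
    rw [Matrix.mul_apply] at h1
    exact h1
  · have h1 : η = M₁⁻¹ * Λ * βT := by rw [Matrix.mul_assoc]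
    have h2 := congrFun (congrFun h1 i) m
    rw [Matrix.mul_apply] at h2
    exact h2

end TD

end QData

end Vale.Agent.P177
end

section

/-!
The height inequality over the residue field of the prime `mT`.
-/

namespace Vale.Agent.P177

open TensorProduct IsLocalRing MvPolynomial RingTheory.Sequence

universe u

namespace QData

variable {d : ℕ} {B Γ : Type u} [CommRing B] [IsRegularLocalRing B] [CommRing Γ]
  [IsRegularLocalRing Γ] {D : QData d B Γ}

section TD

variable {T : Type u} [CommRing T] [IsRegularLocalRing T] (t : D.TD T)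

theorem TD.x_mem (i : Fin d) : t.f (C (D.a₁ (D.x i))) ∈ t.m := by
  rw [TD.m, t.ofList_i₁]
  exact Ideal.subset_span ⟨i, rfl⟩

theorem TD.h_mem_m (i : Fin d) : t.f (C (D.h i)) ∈ t.m := by
  obtain ⟨η, h1, -, -⟩ := t.exists_η
  rw [h1]
  exact Ideal.sum_mem _ fun m _ => Ideal.mul_mem_left _ _ (t.x_mem m)

theorem TD.fC_mem (y : Γ) (hy : y ∈ maximalIdeal Γ) : t.f (C y) ∈ t.m := by
  have h1 : maximalIdeal Γ ≤ t.m.comap (t.f.comp C) := by
    rw [D.maxΓ]
    refine sup_le (sup_le ?_ ?_) ?_
    · rw [Ideal.span_singleton_le_iff_mem]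
      change t.f (C (D.a₁ D.G)) ∈ t.m
      rw [t.hG]
      exact t.m.zero_mem
    · rw [Ideal.span_le]
      rintro _ ⟨i, rfl⟩
      exact t.x_mem i
    · rw [Ideal.span_le]
      rintro _ ⟨i, rfl⟩
      exact t.h_mem_m i
  exact h1 hy

theorem TD.fC_sub_mem (y : Γ) : t.f (C y) - t.i₁ (Ideal.Quotient.mk _ (D.μ y)) ∈ t.m := by
  rw [t.i₁_mk, ← map_sub, ← map_sub]
  apply t.fC_mem
  rw [mem_maximalIdeal, mem_nonunits_iff]
  intro hu
  have h1 := hu.map D.μ
  rw [map_sub, D.μ₁, sub_self] at h1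
  exact not_isUnit_zero h1

theorem TD.comap_m : t.m.comap t.f = (maximalIdeal Γ).map C := by
  classical
  have hm := t.m_prime
  have hp : ((maximalIdeal Γ).map (C : Γ →+* MvPolynomial (Fin d × Fin d) Γ)).IsPrime := by
    have e := MvPolynomial.quotientEquivQuotientMvPolynomial (σ := Fin d × Fin d) (maximalIdeal Γ)
    have hdom : IsDomain (MvPolynomial (Fin d × Fin d) Γ ⧸ (maximalIdeal Γ).map C) :=
      e.symm.toMulEquiv.isDomain _
    exact (Ideal.Quotient.isDomain_iff_prime _).1 hdom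
  have hQ : (t.m.comap t.f).IsPrime := Ideal.IsPrime.comap _
  have hle : (maximalIdeal Γ).map C ≤ t.m.comap t.f := by
    rw [Ideal.map_le_iff_le_comap]
    intro y hy
    exact t.fC_mem y hy
  have h1 : t.m.height ≤ d := by
    have hs : t.m = Ideal.span
        (((Finset.univ : Finset (Fin d)).image (fun i => t.f (C (D.a₁ (D.x i))))) : Set T) := by
      rw [TD.m, t.ofList_i₁]
      congr 1
      simp
    have h2 : t.m ∈ (Ideal.span
        ((((Finset.univ : Finset (Fin d)).image (fun i => t.f (C (D.a₁ (D.x i))))) :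
          Finset T) : Set T)).minimalPrimes := by
      rw [← hs]
      exact ⟨⟨hm, le_rfl⟩, fun q hq _ => hq.2⟩
    refine (Ideal.height_le_card_of_mem_minimalPrimes_span_finset h2).trans ?_
    have h3 := Finset.card_image_le (s := (Finset.univ : Finset (Fin d)))
      (f := fun i => t.f (C (D.a₁ (D.x i))))
    rw [Finset.card_univ, Fintype.card_fin] at h3
    exact_mod_cast h3
  have h2 := t.ht t.m hm
  by_contra hne
  have hlt : (maximalIdeal Γ).map C < t.m.comap t.f := lt_of_le_of_ne hle (Ne.symm hne)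
  have h3 := Ideal.height_add_one_le_of_lt_of_isPrime hlt
  have h4 : (2 * d + 1 : ℕ) ≤ ((maximalIdeal Γ).map
      (C : Γ →+* MvPolynomial (Fin d × Fin d) Γ)).height := by
    have h5 := height_comap_le_of_flat (R := Γ) (S := MvPolynomial (Fin d × Fin d) Γ)
      ((maximalIdeal Γ).map C)
    have h6 : ((maximalIdeal Γ).map C).comap (algebraMap Γ (MvPolynomial (Fin d × Fin d) Γ)) =
        maximalIdeal Γ := by
      apply le_antisymm
      · apply le_maximalIdeal
        exact Ideal.comap_ne_top _ hp.ne_top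
      · exact Ideal.le_comap_map
    rw [h6] at h5
    have h7 : ((maximalIdeal Γ).height : WithBot ℕ∞) = ((2 * d + 1 : ℕ) : WithBot ℕ∞) := by
      rw [IsLocalRing.maximalIdeal_height_eq_ringKrullDim, D.dimΓ]
    have h8 : (maximalIdeal Γ).height = ((2 * d + 1 : ℕ) : ℕ∞) := WithBot.coe_injective h7
    rwa [h8] at h5
  have h5 : ((2 * d + 1 : ℕ) : ℕ∞) + 1 ≤ (d : ℕ∞) + ((d + 1 : ℕ) : ℕ∞) :=
    (add_le_add_left h4 1).trans (h3.trans (h2.trans (add_le_add_left h1 _)))
  have h6 : 2 * d + 1 + 1 ≤ d + (d + 1) := by exact_mod_cast h5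
  omega

theorem TD.height_K {k K : Type u} [Field k] [Field K] [Algebra k K] (κ : T →+* K)
    (hκ : RingHom.ker κ = t.m) (ρ : B ⧸ Ideal.span {D.G} →+* k) (hρs : Function.Surjective ρ)
    (hρ : ∀ r, algebraMap k K (ρ r) = κ (t.i₁ r)) (η : Matrix (Fin d) (Fin d) T)
    (hη : ∀ i m, η i m = ∑ l, (t.f (X (i, l)) - t.f (X (l, i))) *
      (t.f (C (D.β l m)) + ∑ j, t.f (C (D.γ l j)) * η j m))
    (θ : Fin d → Fin d → K) (hθ : ∀ i m, θ i m = (if i = m then 1 else 0) + κ (η i m))
    (z : Ideal (MvPolynomial (Fin d) K)) [z.IsPrime] (hz : ∃ l,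
      ∑ m, C (κ (t.f (C (D.β l m)))) * (X m : MvPolynomial (Fin d) K) ∉ z) :
    (z.comap (aeval X : MvPolynomial (Fin d) k →ₐ[k] MvPolynomial (Fin d) K)).height +
      (z.comap (aeval (fun i => ∑ l, C (θ i l) * X l) :
        MvPolynomial (Fin d) k →ₐ[k] MvPolynomial (Fin d) K)).height ≤ z.height + 1 := by
  have hκm : ∀ y ∈ t.m, κ y = 0 := fun y hy => by
    rw [← hκ] at hy
    exact hy
  let τ : Γ →+* k := (ρ.comp (Ideal.Quotient.mk _)).comp D.μ
  have hκC : ∀ y : Γ, κ (t.f (C y)) = algebraMap k K (τ y) := by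
    intro y
    have h1 := hκm _ (t.fC_sub_mem y)
    rw [map_sub, sub_eq_zero] at h1
    rw [h1, ← hρ]
    rfl
  have hτs : Function.Surjective τ := by
    intro a
    obtain ⟨r, rfl⟩ := hρs a
    obtain ⟨b, rfl⟩ := Ideal.Quotient.mk_surjective r
    exact ⟨D.a₁ b, by simp [τ, D.μ₁]⟩
  refine height_orthogonal (k := k) (K := K) (fun p => κ (t.f (X p))) ?_
    (fun l m => τ (D.β l m)) (fun l m => τ (D.γ l m)) θ ?_ z
    (by simpa only [hκC] using hz)
  · rw [injective_iff_map_eq_zero]
    intro p hp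
    obtain ⟨q, rfl⟩ := MvPolynomial.map_surjective τ hτs p
    have h1 : κ (t.f q) = 0 := by
      have h2 : (κ.comp t.f) = ((aeval (fun p => κ (t.f (X p))) :
          MvPolynomial (Fin d × Fin d) k →ₐ[k] K) : MvPolynomial (Fin d × Fin d) k →+* K).comp
            (MvPolynomial.map τ) := by
        apply MvPolynomial.ringHom_ext
        · intro y
          simp [hκC]
        · intro p
          simp
      have h3 := RingHom.congr_fun h2 q
      rw [RingHom.comp_apply] at h3
      rw [h3]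
      exact hp
    have h2 : q ∈ t.m.comap t.f := by
      rw [Ideal.mem_comap, ← hκ]
      exact h1
    rw [t.comap_m, MvPolynomial.mem_map_C_iff] at h2
    ext m
    rw [MvPolynomial.coeff_map, MvPolynomial.coeff_zero]
    have h3 := h2 m
    by_contra hne
    -- `τ` kills the maximal ideal
    have h5 : ¬ IsUnit (coeff m q) := (mem_maximalIdeal _).1 h3
    apply h5
    have hμ : IsUnit (D.μ (coeff m q)) := by
      by_contra hcon
      apply hne
      have h6 : D.μ (coeff m q) ∈ maximalIdeal B := (mem_maximalIdeal _).2 hcon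
      have hkerρ : RingHom.ker (ρ.comp (Ideal.Quotient.mk (Ideal.span {D.G}))) =
          maximalIdeal B := by
        apply IsLocalRing.eq_maximalIdeal
        exact RingHom.ker_isMaximal_of_surjective _
          (hρs.comp Ideal.Quotient.mk_surjective)
      have h7 : D.μ (coeff m q) ∈ RingHom.ker (ρ.comp (Ideal.Quotient.mk (Ideal.span {D.G}))) := by
        rw [hkerρ]
        exact h6
      exact h7
    have hloc : IsLocalHom D.μ :=
      IsLocalHom.of_surjective D.μ (fun b => ⟨D.a₁ b, D.μ₁ b⟩)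
    exact isUnit_of_map_unit D.μ _ hμ
  · intro i m
    have h1 : ∀ i m, θ i m - (if i = m then 1 else 0) = κ (η i m) := by
      intro i m
      rw [hθ, add_sub_cancel_left]
    rw [h1, hη, map_sum]
    refine Finset.sum_congr rfl fun l _ => ?_
    rw [map_mul, map_sub, map_add, map_sum, hκC]
    simp only [h1, map_mul, hκC]

end TD

end QData

end Vale.Agent.P177
end

section

/-!
The prime `mT`: height, contractions, and the primes containing the polar forms.
-/

namespace Vale.Agent.P177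

open TensorProduct IsLocalRing MvPolynomial RingTheory.Sequence

universe u

namespace QData

variable {d : ℕ} {B Γ : Type u} [CommRing B] [IsRegularLocalRing B] [CommRing Γ]
  [IsRegularLocalRing Γ] {D : QData d B Γ}

section TD

variable {T : Type u} [CommRing T] [IsRegularLocalRing T] (t : D.TD T)

theorem TD.height_m_le : t.m.height ≤ d := by
  classical
  have hm := t.m_prime
  have hs : t.m = Ideal.span
      (((Finset.univ : Finset (Fin d)).image (fun i => t.f (C (D.a₁ (D.x i))))) : Set T) := by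
    rw [TD.m, t.ofList_i₁]
    congr 1
    simp
  have h2 : t.m ∈ (Ideal.span
      ((((Finset.univ : Finset (Fin d)).image (fun i => t.f (C (D.a₁ (D.x i))))) :
        Finset T) : Set T)).minimalPrimes := by
    rw [← hs]
    exact ⟨⟨hm, le_rfl⟩, fun q hq _ => hq.2⟩
  refine (Ideal.height_le_card_of_mem_minimalPrimes_span_finset h2).trans ?_
  have h3 := Finset.card_image_le (s := (Finset.univ : Finset (Fin d)))
    (f := fun i => t.f (C (D.a₁ (D.x i))))
  rw [Finset.card_univ, Fintype.card_fin] at h3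
  exact_mod_cast h3

theorem TD.height_m : t.m.height = d := by
  have hm := t.m_prime
  refine le_antisymm t.height_m_le ?_
  have h2 := t.ht t.m hm
  rw [t.comap_m] at h2
  have hp : ((maximalIdeal Γ).map (C : Γ →+* MvPolynomial (Fin d × Fin d) Γ)).IsPrime := by
    rw [← t.comap_m]
    exact Ideal.IsPrime.comap _
  have h4 : (2 * d + 1 : ℕ) ≤ ((maximalIdeal Γ).map
      (C : Γ →+* MvPolynomial (Fin d × Fin d) Γ)).height := by
    have h5 := height_comap_le_of_flat (R := Γ) (S := MvPolynomial (Fin d × Fin d) Γ)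
      ((maximalIdeal Γ).map C)
    have h6 : ((maximalIdeal Γ).map C).comap (algebraMap Γ (MvPolynomial (Fin d × Fin d) Γ)) =
        maximalIdeal Γ := by
      apply le_antisymm
      · apply le_maximalIdeal
        exact Ideal.comap_ne_top _ hp.ne_top
      · exact Ideal.le_comap_map
    rw [h6] at h5
    have h7 : ((maximalIdeal Γ).height : WithBot ℕ∞) = ((2 * d + 1 : ℕ) : WithBot ℕ∞) := by
      rw [IsLocalRing.maximalIdeal_height_eq_ringKrullDim, D.dimΓ]
    have h8 : (maximalIdeal Γ).height = ((2 * d + 1 : ℕ) : ℕ∞) := WithBot.coe_injective h7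
    rwa [h8] at h5
  have h5 := h4.trans h2
  have hfin : t.m.height ≠ ⊤ := Ideal.height_ne_top_of_isPrime
  obtain ⟨s, hs⟩ := ENat.ne_top_iff_exists.1 hfin
  rw [← hs] at h5 ⊢
  have h6 : 2 * d + 1 ≤ s + (d + 1) := by exact_mod_cast h5
  exact_mod_cast (by omega : d ≤ s)

theorem TD.sub_mem_m (r : B ⧸ Ideal.span {D.G}) : t.i₂ r - t.i₁ r ∈ t.m := by
  obtain ⟨b, rfl⟩ := Ideal.Quotient.mk_surjective r
  rw [t.i₁_mk, t.i₂_mk, ← map_sub, ← map_sub]
  have h1 : Ideal.span (Set.range fun i => D.a₂ (D.x i) - D.a₁ (D.x i)) ≤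
      t.m.comap (t.f.comp C) := by
    rw [Ideal.span_le]
    rintro _ ⟨i, rfl⟩
    exact t.h_mem_m i
  exact h1 (D.diag b)

theorem TD.comap_m₁ [IsLocalRing (B ⧸ Ideal.span {D.G})]
    (h : Ideal.ofList D.xs = maximalIdeal (B ⧸ Ideal.span {D.G})) :
    t.m.comap t.i₁ = maximalIdeal (B ⧸ Ideal.span {D.G}) := by
  have hm := t.m_prime
  have hp : (t.m.comap t.i₁).IsPrime := Ideal.IsPrime.comap _
  refine le_antisymm (le_maximalIdeal hp.ne_top) ?_
  rw [← Ideal.map_le_iff_le_comap, ← h, Ideal.map_ofList]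
  rfl

theorem TD.comap_m₂ [IsLocalRing (B ⧸ Ideal.span {D.G})]
    (h : Ideal.ofList D.xs = maximalIdeal (B ⧸ Ideal.span {D.G})) :
    t.m.comap t.i₂ = maximalIdeal (B ⧸ Ideal.span {D.G}) := by
  rw [← t.comap_m₁ h]
  ext r
  rw [Ideal.mem_comap, Ideal.mem_comap]
  have h1 := t.sub_mem_m r
  constructor
  · intro h2
    have := Ideal.sub_mem _ h2 h1
    rwa [sub_sub_cancel] at this
  · intro h2
    have := Ideal.add_mem _ h1 h2
    rwa [sub_add_cancel] at this

/-- A prime containing the polar forms and the extensions of two ideals whose sum is primary to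
the maximal ideal contains `mT`. -/
theorem TD.m_le_of_u_mem [IsLocalRing (B ⧸ Ideal.span {D.G})]
    (h : Ideal.ofList D.xs = maximalIdeal (B ⧸ Ideal.span {D.G}))
    (I J : Ideal (B ⧸ Ideal.span {D.G}))
    (hIJ : maximalIdeal (B ⧸ Ideal.span {D.G}) ≤ (I ⊔ J).radical)
    (Q : Ideal T) [hQ : Q.IsPrime] (h₁ : I.map t.i₁ ≤ Q) (h₂ : J.map t.i₂ ≤ Q)
    (hu : ∀ j, t.f (C (D.u j)) ∈ Q) : t.m ≤ Q := by
  have hJ : J ≤ Q.comap t.i₁ := by
    intro r hr
    have h1 : t.i₂ r ∈ Q := h₂ (Ideal.mem_map_of_mem _ hr)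
    have h2 := t.sub_mem_of_u_mem Q hu r
    have := Ideal.sub_mem _ h1 h2
    rwa [sub_sub_cancel] at this
  have hI : I ≤ Q.comap t.i₁ := Ideal.map_le_iff_le_comap.1 h₁
  have hle : maximalIdeal (B ⧸ Ideal.span {D.G}) ≤ Q.comap t.i₁ := by
    refine hIJ.trans ?_
    rw [← (hQ.comap t.i₁).radical]
    exact Ideal.radical_mono (sup_le hI hJ)
  rw [← h, ← Ideal.map_le_iff_le_comap, Ideal.map_ofList] at hle
  exact hle

end TD

end QData

end Vale.Agent.P177
end

section

/-!
Transversality of the tangent cones to a linear subspace.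
-/

namespace Vale.Agent.P177

open TensorProduct IsLocalRing MvPolynomial

universe u

/-- The tangent cones of `I` and `J` meet the linear subspace `U` only in the origin. -/
def TransTo {R : Type u} [CommRing R] [IsLocalRing R] (I J U : Ideal R) : Prop :=
  ∃ n : ℕ, maximalIdeal R ^ (n + 1) ≤ (I ⊓ maximalIdeal R ^ (n + 1)) ⊔
    (J ⊓ maximalIdeal R ^ (n + 1)) ⊔ U * maximalIdeal R ^ n

theorem TransTo.mono {R : Type u} [CommRing R] [IsLocalRing R] {I J U I' J' U' : Ideal R}
    (h : TransTo I J U) (h1 : I ≤ I') (h2 : J ≤ J') (h3 : U ≤ U') : TransTo I' J' U' := by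
  obtain ⟨n, hn⟩ := h
  exact ⟨n, hn.trans (sup_le_sup (sup_le_sup (inf_le_inf_right _ h1) (inf_le_inf_right _ h2))
    (Ideal.mul_mono_left h3))⟩

theorem TransTo.symm {R : Type u} [CommRing R] [IsLocalRing R] {I J U : Ideal R}
    (h : TransTo I J U) : TransTo J I U := by
  obtain ⟨n, hn⟩ := h
  refine ⟨n, hn.trans ?_⟩
  rw [sup_comm (I ⊓ _)]

/-- Only the classes modulo the square of the maximal ideal matter. -/
theorem TransTo.of_sup {R : Type u} [CommRing R] [IsLocalRing R] [IsNoetherianRing R]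
    {I J U : Ideal R} (h : TransTo I J (U ⊔ maximalIdeal R ^ 2)) : TransTo I J U := by
  obtain ⟨n, hn⟩ := h
  refine ⟨n, ?_⟩
  have h1 : maximalIdeal R ^ (n + 1) ≤ ((I ⊓ maximalIdeal R ^ (n + 1)) ⊔
      (J ⊓ maximalIdeal R ^ (n + 1)) ⊔ U * maximalIdeal R ^ n) ⊔
        maximalIdeal R • maximalIdeal R ^ (n + 1) := by
    refine hn.trans ?_
    rw [Ideal.sup_mul, ← sup_assoc]
    refine sup_le_sup_left ?_ _
    rw [smul_eq_mul, ← pow_succ', ← pow_add]
    exact Ideal.pow_le_pow_right (by omega)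
  refine Submodule.le_of_le_smul_of_le_jacobson_bot (N' := maximalIdeal R ^ (n + 1))
    (I := maximalIdeal R) ?_ ?_ h1
  · exact IsNoetherian.noetherian _
  · exact (IsLocalRing.maximalIdeal_le_jacobson _)

/-- Extension of a transversality condition along a flat local map with trivial fibre. -/
theorem TransTo.map {R C : Type u} [CommRing R] [IsLocalRing R] [CommRing C] [IsLocalRing C]
    (φ : R →+* C) (hφ : (maximalIdeal R).map φ = maximalIdeal C) {I J U : Ideal R}
    (h : TransTo I J U) : TransTo (I.map φ) (J.map φ) (U.map φ) := by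
  obtain ⟨n, hn⟩ := h
  refine ⟨n, ?_⟩
  have h1 := Ideal.map_mono (f := φ) hn
  rw [Ideal.map_pow, hφ] at h1
  refine h1.trans ?_
  rw [Ideal.map_sup, Ideal.map_sup, Ideal.map_mul, Ideal.map_pow, hφ]
  refine sup_le_sup_right (sup_le_sup ?_ ?_) _
  · refine (Ideal.map_inf_le φ).trans ?_
    rw [Ideal.map_pow, hφ]
  · refine (Ideal.map_inf_le φ).trans ?_
    rw [Ideal.map_pow, hφ]

theorem X_mem_of_transTo {R : Type u} [CommRing R] [IsRegularLocalRing R] {d : ℕ}
    (hd : ringKrullDim R = d) {x : Fin d → R} (hx : Ideal.span (Set.range x) = maximalIdeal R)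
    (I J : Ideal R) {ι : Type} [Fintype ι] (U : ι → Fin d → R)
    (h : TransTo I J (Ideal.span (Set.range fun l => ∑ m, U l m * x m)))
    {P : Type*} [CommRing P] (j : MvPolynomial (Fin d) (ResidueField R) →+* P) (z : Ideal P)
    [z.IsPrime]
    (hI : ∀ (N : ℕ) (F : MvPolynomial (Fin d) R), F.IsHomogeneous N → eval x F ∈ I →
      j (F.map (residue R)) ∈ z)
    (hJ : ∀ (N : ℕ) (F : MvPolynomial (Fin d) R), F.IsHomogeneous N → eval x F ∈ J →
      j (F.map (residue R)) ∈ z)
    (hU : ∀ l, ∑ m, j (C (residue R (U l m))) * j (X m) ∈ z) (i : Fin d) : j (X i) ∈ z := by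
  classical
  obtain ⟨n, hn⟩ := h
  have h1 : x i ^ (n + 1) ∈ maximalIdeal R ^ (n + 1) := by
    refine Ideal.pow_mem_pow ?_ _
    rw [← hx]
    exact Ideal.subset_span ⟨i, rfl⟩
  obtain ⟨y, hy, w, hw, hyw⟩ := Submodule.mem_sup.1 (hn h1)
  obtain ⟨f, hf, g, hg, hfg⟩ := Submodule.mem_sup.1 hy
  obtain ⟨hf1, hf2⟩ := hf
  obtain ⟨hg1, hg2⟩ := hg
  rw [SetLike.mem_coe, ← hx, Ideal.mem_span_pow_iff_exists_isHomogeneous] at hf2 hg2
  obtain ⟨F, hF, hFf⟩ := hf2
  obtain ⟨G, hG, hGg⟩ := hg2
  -- the last term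
  have hw' : ∃ V : ι → MvPolynomial (Fin d) R, (∀ l, (V l).IsHomogeneous n) ∧
      w = ∑ l, (∑ m, U l m * x m) * eval x (V l) := by
    have h2 : ∃ v : ι → R, (∀ l, v l ∈ maximalIdeal R ^ n) ∧
        w = ∑ l, (∑ m, U l m * x m) * v l := by
      refine Submodule.mul_induction_on hw ?_ ?_
      · intro a ha b hb
        obtain ⟨c, hc⟩ := Ideal.mem_span_range_iff_exists_fun.1 ha
        refine ⟨fun l => c l * b, fun l => Ideal.mul_mem_left _ _ hb, ?_⟩
        rw [← hc, Finset.sum_mul]
        refine Finset.sum_congr rfl fun l _ => ?_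
        ring
      · rintro a b ⟨v, hv, rfl⟩ ⟨v', hv', rfl⟩
        refine ⟨fun l => v l + v' l, fun l => Ideal.add_mem _ (hv l) (hv' l), ?_⟩
        rw [← Finset.sum_add_distrib]
        refine Finset.sum_congr rfl fun l _ => ?_
        ring
    obtain ⟨v, hv, rfl⟩ := h2
    have h3 : ∀ l, ∃ V : MvPolynomial (Fin d) R, V.IsHomogeneous n ∧ eval x V = v l := by
      intro l
      have h4 := hv l
      rwa [← hx, Ideal.mem_span_pow_iff_exists_isHomogeneous] at h4
    choose V hV1 hV2 using h3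
    exact ⟨V, hV1, by simp only [hV2]⟩
  obtain ⟨V, hV, rfl⟩ := hw'
  let L : ι → MvPolynomial (Fin d) R := fun l => ∑ m, C (U l m) * X m
  have hL : ∀ l, (L l).IsHomogeneous 1 := by
    intro l
    refine IsHomogeneous.sum _ _ _ fun m _ => ?_
    have := (isHomogeneous_C (Fin d) (U l m)).mul (isHomogeneous_X R m)
    rwa [zero_add] at this
  have hLe : ∀ l, eval x (L l) = ∑ m, U l m * x m := by
    intro l
    simp [L]
  let Q : MvPolynomial (Fin d) R := X i ^ (n + 1) - F - G - ∑ l, L l * V l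
  have hQ : Q.IsHomogeneous (n + 1) := by
    refine ((isHomogeneous_X_pow i (n + 1)).sub hF).sub hG |>.sub ?_
    refine IsHomogeneous.sum _ _ _ fun l _ => ?_
    have := (hL l).mul (hV l)
    rwa [add_comm] at this
  have hQ0 : eval x Q ∈ maximalIdeal R ^ (n + 1 + 1) := by
    have : eval x Q = 0 := by
      simp only [Q, map_sub, map_pow, eval_X, map_sum, map_mul, hLe, hFf, hGg]
      rw [← hyw, ← hfg]
      ring
    rw [this]
    exact zero_mem _
  have h5 := map_residue_eq_zero hd hx Q (n + 1) hQ hQ0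
  have h6 : (X i : MvPolynomial (Fin d) (ResidueField R)) ^ (n + 1) =
      F.map (residue R) + G.map (residue R) + ∑ l, (L l).map (residue R) *
        (V l).map (residue R) := by
    have h7 : (Q.map (residue R)) = X i ^ (n + 1) - F.map (residue R) - G.map (residue R) -
        ∑ l, (L l).map (residue R) * (V l).map (residue R) := by
      simp only [Q, map_sub, map_pow, map_X, map_sum, map_mul]
    rw [h5] at h7
    linear_combination -h7
  have h8 : j (X i) ^ (n + 1) ∈ z := by
    rw [← map_pow, h6, map_add, map_add, map_sum]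
    refine Ideal.add_mem _ (Ideal.add_mem _ (hI (n + 1) F hF ?_) (hJ (n + 1) G hG ?_)) ?_
    · rw [hFf]
      exact hf1
    · rw [hGg]
      exact hg1
    · refine Ideal.sum_mem _ fun l _ => ?_
      rw [map_mul]
      refine Ideal.mul_mem_right _ _ ?_
      have : j ((L l).map (residue R)) = ∑ m, j (C (residue R (U l m))) * j (X m) := by
        simp only [L, map_sum, map_mul, map_C, map_X]
      rw [this]
      exact hU l
  exact Ideal.IsPrime.mem_of_pow_mem ‹_› _ h8

end Vale.Agent.P177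
end

section

/-!
The height inequality at the prime `mT`, in the form needed for the local theorem.
-/

namespace Vale.Agent.P177

open TensorProduct IsLocalRing MvPolynomial RingTheory.Sequence

universe u

/-- The map of polynomial rings over the residue fields induced by a linear relation. -/
noncomputable def jHom {R A : Type u} [CommRing R] [CommRing A] [IsLocalRing R] [IsLocalRing A]
    (j : R →+* A) [IsLocalHom j] {d : ℕ} (θ : Fin d → Fin d → A) :
    MvPolynomial (Fin d) (ResidueField R) →+* MvPolynomial (Fin d) (ResidueField A) :=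
  eval₂Hom (C.comp (ResidueField.map j)) (fun i => ∑ l, C (residue A (θ i l)) * X l)

theorem jHom_C {R A : Type u} [CommRing R] [CommRing A] [IsLocalRing R] [IsLocalRing A]
    (j : R →+* A) [IsLocalHom j] {d : ℕ} (θ : Fin d → Fin d → A) (r : ResidueField R) :
    jHom j θ (C r) = C (ResidueField.map j r) := by
  simp [jHom]

theorem jHom_X {R A : Type u} [CommRing R] [CommRing A] [IsLocalRing R] [IsLocalRing A]
    (j : R →+* A) [IsLocalHom j] {d : ℕ} (θ : Fin d → Fin d → A) (i : Fin d) :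
    jHom j θ (X i) = ∑ l, C (residue A (θ i l)) * X l := by
  simp [jHom]

/-- The identity matrix. -/
def idMat {A : Type u} [CommRing A] (d : ℕ) : Fin d → Fin d → A :=
  fun i l => if i = l then 1 else 0

theorem jHom_id_X {R A : Type u} [CommRing R] [CommRing A] [IsLocalRing R] [IsLocalRing A]
    (j : R →+* A) [IsLocalHom j] {d : ℕ} (i : Fin d) :
    jHom j (idMat d) (X i) = X i := by
  rw [jHom_X, Finset.sum_eq_single i]
  · simp [idMat]
  · intro l _ hl
    simp [idMat, Ne.symm hl]
  · simp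

/-- The local theorem: positivity along two maps of regular local rings of the same dimension
with the same maximal ideals, given a height inequality on the tangent space. -/
def LocStmt : Prop :=
  ∀ (R₁ R₂ W : Type u) [CommRing R₁] [CommRing R₂] [CommRing W] [IsRegularLocalRing R₁]
    [IsRegularLocalRing R₂] [IsRegularLocalRing W] (j₁ : R₁ →+* W) (j₂ : R₂ →+* W)
    [IsLocalHom j₁] [IsLocalHom j₂], j₁.Flat → j₂.Flat → Infinite (ResidueField W) →
    ∀ (d : ℕ), ringKrullDim R₁ = d → ringKrullDim R₂ = d → ringKrullDim W = d →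
    ∀ (x₁ : Fin d → R₁) (x₂ : Fin d → R₂), Ideal.span (Set.range x₁) = maximalIdeal R₁ →
    Ideal.span (Set.range x₂) = maximalIdeal R₂ → (maximalIdeal R₁).map j₁ = maximalIdeal W →
    (maximalIdeal R₂).map j₂ = maximalIdeal W →
    ∀ (θ : Fin d → Fin d → W), (∀ i, j₂ (x₂ i) = ∑ l, θ i l * j₁ (x₁ l)) →
    ∀ (E G : Type u) [AddCommGroup E] [Module R₁ E] [Module.Finite R₁ E] [AddCommGroup G]
      [Module R₂ G] [Module.Finite R₂ G],
    (∀ (z : Ideal (MvPolynomial (Fin d) (ResidueField W))) [z.IsPrime],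
      (∀ f ∈ z, ∀ n, homogeneousComponent n f ∈ z) → (∃ i, X i ∉ z) →
      (∀ (n : ℕ) (F : MvPolynomial (Fin d) R₁), F.IsHomogeneous n →
        eval x₁ F ∈ Module.annihilator R₁ E → jHom j₁ (idMat d) (F.map (residue R₁)) ∈ z) →
      (∀ (n : ℕ) (F : MvPolynomial (Fin d) R₂), F.IsHomogeneous n →
        eval x₂ F ∈ Module.annihilator R₂ G → jHom j₂ θ (F.map (residue R₂)) ∈ z) →
      (z.comap (jHom j₁ (idMat d))).height + (z.comap (jHom j₂ θ)).height ≤ z.height + 1) →
    maximalIdeal W ≤ ((Module.annihilator R₁ E).map j₁ ⊔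
      (Module.annihilator R₂ G).map j₂).radical →
    (∀ e g : ℕ, (e : WithBot ℕ∞) ≤ Module.supportDim R₁ E →
      (g : WithBot ℕ∞) ≤ Module.supportDim R₂ G → e + g ≤ d) →
    PosAlong j₁ j₂ d E G

namespace QData

variable {d : ℕ} {B Γ : Type u} [CommRing B] [IsRegularLocalRing B] [CommRing Γ]
  [IsRegularLocalRing Γ] {D : QData d B Γ}

/-- The polar forms in `B/G`. -/
noncomputable def polar (D : QData d B Γ) : Ideal (B ⧸ Ideal.span {D.G}) :=
  Ideal.span (Set.range fun l : Fin d => ∑ m, Ideal.Quotient.mk _ (D.μ (D.β l m)) *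
    Ideal.Quotient.mk (Ideal.span {D.G}) (D.x m))

section TD

variable {T : Type u} [CommRing T] [IsRegularLocalRing T] (t : D.TD T)

theorem TD.m_eq_span₂ : t.m = Ideal.ofList (D.xs.map t.i₂) := by
  obtain ⟨η, hη1, hη2, -⟩ := t.exists_η
  have hη : ∀ i m, η i m ∈ maximalIdeal T := by
    intro i m
    rw [hη2]
    exact Ideal.sum_mem _ fun l _ => Ideal.mul_mem_right _ _
      (Ideal.sub_mem _ (t.X_mem _) (t.X_mem _))
  have h1 : t.m = Ideal.span (Set.range fun i => t.f (C (D.a₁ (D.x i)))) := by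
    rw [TD.m, t.ofList_i₁]
  rw [t.ofList_i₂]
  refine le_antisymm ?_ ?_
  · refine Submodule.le_of_le_smul_of_le_jacobson_bot (I := maximalIdeal T)
      (IsNoetherian.noetherian _) (IsLocalRing.maximalIdeal_le_jacobson _) ?_
    conv_lhs => rw [h1]
    rw [Ideal.span_le]
    rintro _ ⟨i, rfl⟩
    have h2 : t.f (C (D.a₁ (D.x i))) = t.f (C (D.a₂ (D.x i))) -
        ∑ m, η i m * t.f (C (D.a₁ (D.x m))) := by
      rw [← hη1, t.a₂_eq, add_sub_cancel_right]
    simp only [SetLike.mem_coe]
    rw [h2]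
    refine Ideal.sub_mem _ (Ideal.mem_sup_left (Ideal.subset_span ⟨i, rfl⟩))
      (Ideal.mem_sup_right ?_)
    exact Ideal.sum_mem _ fun m _ => Ideal.mul_mem_mul (hη i m) (t.x_mem m)
  · rw [Ideal.span_le]
    rintro _ ⟨i, rfl⟩
    simp only [SetLike.mem_coe, t.a₂_eq]
    exact Ideal.add_mem _ (t.x_mem i) (t.h_mem_m i)

theorem TD.infinite_residue [t.m.IsPrime] (hd : 0 < d) :
    Infinite (ResidueField (Localization.AtPrime t.m)) := by
  let κ : T →+* ResidueField (Localization.AtPrime t.m) :=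
    (residue _).comp (algebraMap T (Localization.AtPrime t.m))
  have hκ : ∀ y, κ y = 0 ↔ y ∈ t.m := by
    intro y
    change residue _ _ = 0 ↔ _
    rw [residue_eq_zero_iff]
    exact IsLocalization.AtPrime.to_map_mem_maximal_iff _ t.m y
  let p : Fin d × Fin d := (⟨0, hd⟩, ⟨0, hd⟩)
  refine Infinite.of_injective (fun n : ℕ => κ (t.f (X p ^ n))) ?_
  intro n m hnm
  by_contra hne
  simp only at hnm
  rw [← sub_eq_zero, ← map_sub, ← map_sub, hκ] at hnm
  have h1 : (X p ^ n - X p ^ m : MvPolynomial (Fin d × Fin d) Γ) ∈ t.m.comap t.f := hnm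
  rw [t.comap_m, MvPolynomial.mem_map_C_iff] at h1
  have h2 := h1 (Finsupp.single p n)
  rw [coeff_sub, coeff_X_pow, coeff_X_pow, if_pos rfl, if_neg, sub_zero] at h2
  · exact (Ideal.ne_top_iff_one _).1 (maximalIdeal.isMaximal Γ).ne_top h2
  · intro h3
    apply hne
    have := congrArg (fun s => s p) h3
    simpa using this.symm

theorem TD.pos_at (hLOC : LocStmt.{u}) [hm : t.m.IsPrime]
    [hR : IsRegularLocalRing (B ⧸ Ideal.span {D.G})]
    (hxs : Ideal.ofList D.xs = maximalIdeal (B ⧸ Ideal.span {D.G}))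
    (hdR : ringKrullDim (B ⧸ Ideal.span {D.G}) = (d : WithBot ℕ∞)) (hd0 : 0 < d)
    (N M : Type u) [AddCommGroup N] [Module (B ⧸ Ideal.span {D.G}) N]
    [Module.Finite (B ⧸ Ideal.span {D.G}) N] [AddCommGroup M]
    [Module (B ⧸ Ideal.span {D.G}) M] [Module.Finite (B ⧸ Ideal.span {D.G}) M]
    (htr : TransTo (Module.annihilator (B ⧸ Ideal.span {D.G}) N)
      (Module.annihilator (B ⧸ Ideal.span {D.G}) M) D.polar)
    (hFP : maximalIdeal (Localization.AtPrime t.m) ≤
      ((Module.annihilator (B ⧸ Ideal.span {D.G}) N).map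
        ((algebraMap T (Localization.AtPrime t.m)).comp t.i₁) ⊔
      (Module.annihilator (B ⧸ Ideal.span {D.G}) M).map
        ((algebraMap T (Localization.AtPrime t.m)).comp t.i₂)).radical)
    (hdims : ∀ e g : ℕ, (e : WithBot ℕ∞) ≤ Module.supportDim (B ⧸ Ideal.span {D.G}) N →
      (g : WithBot ℕ∞) ≤ Module.supportDim (B ⧸ Ideal.span {D.G}) M → e + g ≤ d) :
    PosAlong ((algebraMap T (Localization.AtPrime t.m)).comp t.i₁)
      ((algebraMap T (Localization.AtPrime t.m)).comp t.i₂) d N M := by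
  classical
  let R := B ⧸ Ideal.span {D.G}
  let W := Localization.AtPrime t.m
  have hWreg : IsRegularLocalRing W := isRegularLocalRing_localization T t.m W
  let j₁ : R →+* W := (algebraMap T W).comp t.i₁
  let j₂ : R →+* W := (algebraMap T W).comp t.i₂
  have hc₁ : (maximalIdeal W).comap j₁ = maximalIdeal R := by
    rw [← Ideal.comap_comap, ← t.comap_m₁ hxs]
    exact congrArg (Ideal.comap t.i₁) Localization.AtPrime.under_maximalIdeal
  have hc₂ : (maximalIdeal W).comap j₂ = maximalIdeal R := by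
    rw [← Ideal.comap_comap, ← t.comap_m₂ hxs]
    exact congrArg (Ideal.comap t.i₂) Localization.AtPrime.under_maximalIdeal
  have hl₁ : IsLocalHom j₁ := ((IsLocalRing.local_hom_TFAE j₁).out 0 4).mpr hc₁
  have hl₂ : IsLocalHom j₂ := ((IsLocalRing.local_hom_TFAE j₂).out 0 4).mpr hc₂
  have hfW : (algebraMap T W).Flat := by
    rw [RingHom.flat_algebraMap_iff]
    exact IsLocalization.flat W t.m.primeCompl
  let x : Fin d → R := fun i => Ideal.Quotient.mk _ (D.x i)
  have hx : Ideal.span (Set.range x) = maximalIdeal R := by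
    rw [← hxs, Ideal.ofList]
    congr 1
    ext y
    simp only [x, xs, List.mem_ofFn, Set.mem_range]
    exact Iff.rfl
  have hmW : ∀ y, algebraMap T W y ∈ maximalIdeal W ↔ y ∈ t.m := fun y =>
    IsLocalization.AtPrime.to_map_mem_maximal_iff _ t.m y
  have hmax₁ : (maximalIdeal R).map j₁ = maximalIdeal W := by
    rw [← Ideal.map_map, ← hxs, Ideal.map_ofList]
    exact Localization.AtPrime.map_eq_maximalIdeal
  have hmax₂ : (maximalIdeal R).map j₂ = maximalIdeal W := by
    rw [← Ideal.map_map, ← hxs, Ideal.map_ofList, ← t.m_eq_span₂]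
    exact Localization.AtPrime.map_eq_maximalIdeal
  obtain ⟨η, hη1, hη2, ω, hω⟩ := t.exists_η
  let θ : Fin d → Fin d → W := fun i l => (if i = l then 1 else 0) + algebraMap T W (η i l)
  have hθ : ∀ i, j₂ (x i) = ∑ l, θ i l * j₁ (x l) := by
    intro i
    change algebraMap T W (t.i₂ (Ideal.Quotient.mk _ (D.x i))) =
      ∑ l, θ i l * algebraMap T W (t.i₁ (Ideal.Quotient.mk _ (D.x l)))
    simp only [t.i₁_mk, t.i₂_mk, θ, add_mul, Finset.sum_add_distrib, ite_mul, one_mul, zero_mul,
      Finset.sum_ite_eq, Finset.mem_univ, if_true]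
    rw [t.a₂_eq, map_add, hη1, map_sum]
    simp only [map_mul]
  -- residues
  let κ : T →+* ResidueField W := (residue W).comp (algebraMap T W)
  have hκ : RingHom.ker κ = t.m := by
    ext y
    rw [RingHom.mem_ker]
    change residue W (algebraMap T W y) = 0 ↔ _
    rw [residue_eq_zero_iff, hmW]
  have hκ12 : ∀ r : R, κ (t.i₂ r) = κ (t.i₁ r) := by
    intro r
    rw [← sub_eq_zero, ← map_sub, ← RingHom.mem_ker, hκ]
    exact t.sub_mem_m r
  have hκC : ∀ y : Γ, κ (t.f (C y)) = κ (t.i₁ (Ideal.Quotient.mk _ (D.μ y))) := by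
    intro y
    rw [← sub_eq_zero, ← map_sub, ← RingHom.mem_ker, hκ]
    exact t.fC_sub_mem y
  have hres : ResidueField.map j₂ = ResidueField.map j₁ := by
    apply RingHom.ext
    intro a
    obtain ⟨r, rfl⟩ := residue_surjective a
    rw [ResidueField.map_residue, ResidueField.map_residue]
    exact hκ12 r
  refine hLOC R R W j₁ j₂ (t.flat₁.comp hfW) (t.flat₂.comp hfW) (t.infinite_residue hd0) d hdR hdR
    (by
      rw [IsLocalization.AtPrime.ringKrullDim_eq_height t.m W, t.height_m]
      rfl) x x hx hx hmax₁ hmax₂ θ hθ N M ?_ hFP hdims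
  intro z hz hhom hXz hzN hzM
  -- some polar form is not in `z`
  have hpol : ∃ l, ∑ m, C (κ (t.f (C (D.β l m)))) *
      (X m : MvPolynomial (Fin d) (ResidueField W)) ∉ z := by
    by_contra hcon
    push Not at hcon
    obtain ⟨i, hi⟩ := hXz
    apply hi
    rw [← jHom_id_X j₁ i]
    refine X_mem_of_transTo hdR hx _ _ (fun l m => Ideal.Quotient.mk _ (D.μ (D.β l m))) htr
      (jHom j₁ (idMat d)) z hzN ?_ ?_ i
    · intro n F hF hFM
      have h1 := hzM n F hF hFM
      have h2 : (Ideal.Quotient.mk z).comp (jHom j₂ θ) =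
          (Ideal.Quotient.mk z).comp (jHom j₁ (idMat d)) := by
        apply MvPolynomial.ringHom_ext
        · intro a
          rw [RingHom.comp_apply, RingHom.comp_apply, jHom_C, jHom_C, hres]
        · intro i
          rw [RingHom.comp_apply, RingHom.comp_apply, Ideal.Quotient.eq, jHom_id_X, jHom_X]
          have h3 : (∑ l, C (residue W (θ i l)) * X l - X i :
              MvPolynomial (Fin d) (ResidueField W)) =
              ∑ s, C (κ (ω i s)) * ∑ l, C (κ (t.f (C (D.β s l)))) * X l := by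
            have h4 : ∀ l, residue W (θ i l) = (if i = l then 1 else 0) + κ (η i l) := by
              intro l
              change residue W ((if i = l then 1 else 0) + algebraMap T W (η i l)) = _
              rw [map_add]
              congr 1
              split_ifs <;> simp
            simp only [h4, map_add, add_mul, Finset.sum_add_distrib]
            have h5 : ∑ l, C (if i = l then (1 : ResidueField W) else 0) *
                (X l : MvPolynomial (Fin d) (ResidueField W)) = X i := by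
              rw [Finset.sum_eq_single i]
              · simp
              · intro l _ hl
                simp [Ne.symm hl]
              · simp
            rw [h5, add_sub_cancel_left]
            simp only [hω, map_sum, map_mul, Finset.sum_mul, Finset.mul_sum]
            rw [Finset.sum_comm]
            refine Finset.sum_congr rfl fun s _ => Finset.sum_congr rfl fun l _ => ?_
            ring
          rw [h3]
          exact Ideal.sum_mem _ fun s _ => Ideal.mul_mem_left _ _ (hcon s)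
      have h3 := RingHom.congr_fun h2 (F.map (residue R))
      rw [RingHom.comp_apply, RingHom.comp_apply, Ideal.Quotient.eq] at h3
      have := Ideal.sub_mem _ h1 h3
      rwa [sub_sub_cancel] at this
    · intro l
      have h1 := hcon l
      have h2 : ∑ m, jHom j₁ (idMat d) (C (residue R (Ideal.Quotient.mk _ (D.μ (D.β l m))))) *
          jHom j₁ (idMat d) (X m) = ∑ m, C (κ (t.f (C (D.β l m)))) *
          (X m : MvPolynomial (Fin d) (ResidueField W)) := by
        refine Finset.sum_congr rfl fun m _ => ?_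
        rw [jHom_C, jHom_id_X, hκC]
        rfl
      rw [h2]
      exact h1
  -- the height inequality
  let _ : Algebra (ResidueField R) (ResidueField W) := (ResidueField.map j₁).toAlgebra
  have hK := t.height_K (k := ResidueField R) (K := ResidueField W) κ hκ (residue R)
    residue_surjective (fun r => ResidueField.map_residue j₁ r) η hη2
    (fun i m => residue W (θ i m)) (by
      intro i m
      change residue W ((if i = m then 1 else 0) + algebraMap T W (η i m)) = _
      rw [map_add]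
      congr 1
      split_ifs <;> simp) z hpol
  have e₁ : z.comap (aeval X : MvPolynomial (Fin d) (ResidueField R) →ₐ[ResidueField R]
      MvPolynomial (Fin d) (ResidueField W)) = z.comap (jHom j₁ (idMat d)) := by
    have : ((aeval X : MvPolynomial (Fin d) (ResidueField R) →ₐ[ResidueField R]
      MvPolynomial (Fin d) (ResidueField W)) : _ →+* _) = jHom j₁ (idMat d) := by
      apply MvPolynomial.ringHom_ext
      · intro a
        rw [jHom_C]
        exact aeval_C _ _
      · intro i
        rw [jHom_id_X]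
        exact aeval_X _ _
    rw [← this]
    rfl
  have e₂ : z.comap (aeval (fun i => ∑ l, C (residue W (θ i l)) * X l) :
      MvPolynomial (Fin d) (ResidueField R) →ₐ[ResidueField R]
      MvPolynomial (Fin d) (ResidueField W)) = z.comap (jHom j₂ θ) := by
    have : ((aeval (fun i => ∑ l, C (residue W (θ i l)) * X l) :
      MvPolynomial (Fin d) (ResidueField R) →ₐ[ResidueField R]
      MvPolynomial (Fin d) (ResidueField W)) : _ →+* _) = jHom j₂ θ := by
      apply MvPolynomial.ringHom_ext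
      · intro a
        rw [jHom_C, hres]
        exact aeval_C _ _
      · intro i
        rw [jHom_X]
        exact aeval_X _ _
    rw [← this]
    rfl
  rw [e₁, e₂] at hK
  exact hK

end TD

end QData

end Vale.Agent.P177
end

section

/-!
The dimension inequality over a regular hypersurface.
-/

namespace Vale.Agent.P177

open CategoryTheory TensorProduct Function IsLocalRing

universe u

theorem dimension_inequality_hypersurface {B A : Type u} [CommRing B] [IsRegularLocalRing B]
    [CommRing A] [IsRegularLocalRing A] [Algebra B A] {f : B} (H : IsHypersurface B A f) (d : ℕ)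
    (hdB : ringKrullDim B = ((d + 1 : ℕ) : WithBot ℕ∞))
    (hdA : ringKrullDim A = (d : WithBot ℕ∞)) (hS : SerreAll B (d + 1))
    (M N : Type u) [AddCommGroup M] [Module A M] [Module.Finite A M]
    [AddCommGroup N] [Module A N] [Module.Finite A N]
    (hlen : Module.length A (M ⊗[A] N) ≠ ⊤) (a b : ℕ)
    (ha : (a : WithBot ℕ∞) ≤ Module.supportDim A M)
    (hb : (b : WithBot ℕ∞) ≤ Module.supportDim A N) : a + b ≤ d := by
  let _ : Module B M := Module.compHom M (algebraMap B A)
  let _ : Module B N := Module.compHom N (algebraMap B A)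
  have tM : IsScalarTower B A M := ⟨fun x y z => by
    rw [Algebra.smul_def, mul_smul]
    rfl⟩
  have tN : IsScalarTower B A N := ⟨fun x y z => by
    rw [Algebra.smul_def, mul_smul]
    rfl⟩
  have fA : Module.Finite B A := Module.Finite.of_surjective (Algebra.linearMap B A) H.surj
  have fM : Module.Finite B M := Module.Finite.trans A M
  have fN : Module.Finite B N := Module.Finite.trans A N
  have hlenB : Module.length B (M ⊗[B] N) ≠ ⊤ := by
    rw [length_tensor_baseChange H.surj (isBaseChange_id_of_surjective H.surj M) N]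
    exact hlen
  obtain ⟨-, h2⟩ := hS M N hlenB
  rw [← supportDim_eq_of_surjective H.surj M] at ha
  rw [← supportDim_eq_of_surjective H.surj N] at hb
  obtain ⟨h3, h4⟩ := h2 a b ha hb
  by_contra hcon
  have h5 := h4 (by omega)
  have hBv : Module.length B (TorM B (d + 1 + 1) M N) = 0 := by
    have := regular_tor_vanish B (d + 1) hdB M N (d + 1 + 1) le_rfl
    exact Module.length_eq_zero
  have h6 := H.eulerTor_eq M N (fun n => tor_length_ne_top n M N hlen) (d + 1) hBv
  have h7 : Module.length A (TorM A (d + 1) M N) = 0 := by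
    have := regular_tor_vanish A d hdA M N (d + 1) le_rfl
    exact Module.length_eq_zero
  have h8 : Module.length A (TorM A (d + 1 + 1) M N) = 0 := by
    have := regular_tor_vanish A d hdA M N (d + 1 + 1) (by omega)
    exact Module.length_eq_zero
  rw [h7, h8, sub_self, mul_zero] at h6
  rw [h6] at h5
  exact lt_irrefl _ h5

end Vale.Agent.P177
end

section

/-!
Serre's statements for a pair of modules over a quadratic hypersurface.
-/

namespace Vale.Agent.P177

open TensorProduct IsLocalRing MvPolynomial RingTheory.Sequence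

universe u

/-- Serre's statements for a pair of modules over a ring of dimension `d`. -/
def SerrePair (R : Type u) [CommRing R] (d : ℕ) (M N : Type u) [AddCommGroup M] [Module R M]
    [AddCommGroup N] [Module R N] : Prop :=
  0 ≤ eulerTor R (d + 1) M N ∧ ∀ m n : ℕ, (m : WithBot ℕ∞) ≤ Module.supportDim R M →
      (n : WithBot ℕ∞) ≤ Module.supportDim R N →
      (m + n ≤ d) ∧ (d ≤ m + n → 0 < eulerTor R (d + 1) M N)

theorem length_tensor_ne_top_of_le {R : Type u} [CommRing R] [IsLocalRing R] [IsNoetherianRing R]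
    (M M' N N' : Type u) [AddCommGroup M] [Module R M] [AddCommGroup M'] [Module R M']
    [AddCommGroup N] [Module R N] [AddCommGroup N'] [Module R N'] [Module.Finite R M]
    [Module.Finite R M'] [Module.Finite R N] [Module.Finite R N']
    (h : Module.length R (M ⊗[R] N) ≠ ⊤)
    (hle : Module.annihilator R M ≤ Module.annihilator R M')
    (hle' : Module.annihilator R N ≤ Module.annihilator R N') :
    Module.length R (M' ⊗[R] N') ≠ ⊤ := by
  have h1 := length_tensor_ne_top_of_annihilator_le M M' N h hle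
  rw [(TensorProduct.comm R M' N).length_eq] at h1
  have h2 := length_tensor_ne_top_of_annihilator_le N N' M' h1 hle'
  rwa [(TensorProduct.comm R N' M').length_eq] at h2

namespace QData

variable {d : ℕ} {B Γ : Type u} [CommRing B] [IsRegularLocalRing B] [CommRing Γ]
  [IsRegularLocalRing Γ]

theorem isHypersurface (D : QData d B Γ)
    (hdR : ringKrullDim (B ⧸ Ideal.span {D.G}) = (d : WithBot ℕ∞)) :
    IsHypersurface B (B ⧸ Ideal.span {D.G}) D.G := by
  have hdom : IsDomain B := regular_isDomain B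
  have hne : D.G ≠ 0 := by
    intro h0
    have h1 : Function.Injective (Ideal.Quotient.mk (Ideal.span {D.G})) := by
      rw [RingHom.injective_iff_ker_eq_bot, Ideal.mk_ker, h0]
      exact Ideal.span_singleton_eq_bot.2 rfl
    have e : B ≃+* B ⧸ Ideal.span {D.G} :=
      RingEquiv.ofBijective _ ⟨h1, Ideal.Quotient.mk_surjective⟩
    have h2 := ringKrullDim_eq_of_ringEquiv e
    rw [hdR, D.dimB] at h2
    have h3 : d + 1 = d := by exact_mod_cast h2
    omega
  refine ⟨?_, Ideal.Quotient.mk_surjective, Ideal.mk_ker⟩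
  intro a b hab
  exact mul_left_cancel₀ hne hab

theorem serrePair (hLOC : LocStmt.{u}) (D : QData d B Γ) (hB : SerreAll B (d + 1)) (hd0 : 0 < d)
    (M N : Type u) [AddCommGroup M] [Module (B ⧸ Ideal.span {D.G}) M]
    [Module.Finite (B ⧸ Ideal.span {D.G}) M] [AddCommGroup N]
    [Module (B ⧸ Ideal.span {D.G}) N] [Module.Finite (B ⧸ Ideal.span {D.G}) N]
    (hlen : Module.length (B ⧸ Ideal.span {D.G}) (M ⊗[B ⧸ Ideal.span {D.G}] N) ≠ ⊤)
    (htr : ∀ _ : IsLocalRing (B ⧸ Ideal.span {D.G}),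
      TransTo (Module.annihilator (B ⧸ Ideal.span {D.G}) M)
      (Module.annihilator (B ⧸ Ideal.span {D.G}) N) D.polar) :
    SerrePair (B ⧸ Ideal.span {D.G}) d M N := by
  obtain ⟨hR, hxs, hdR⟩ := D.quot_regular
  obtain ⟨T, _, _, ⟨t⟩⟩ := D.exists_TD
  have hm := t.m_prime
  have H := D.isHypersurface hdR
  refine global_pos_at_hom t.i₁ t.i₂ t.flat₁ t.flat₂ t.ν t.ν_i₁ t.z t.ker_ν t.z_regular
    (RingEquiv.refl _) (fun s => t.ν_i₂ s) d hdR M N t.m (t.comap_m₁ hxs) (t.comap_m₂ hxs)
    ?_ ?_ ?_ (fun s t => rfl) hlen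
  · rw [IsLocalization.AtPrime.ringKrullDim_eq_height t.m, t.height_m]
    rfl
  · intro Q hQ h1 h2
    by_cases hu : ∀ j, t.f (C (D.u j)) ∈ Q
    · left
      obtain ⟨k, hk⟩ := exists_pow_le_sup_annihilator M N hlen
      refine t.m_le_of_u_mem hxs (Module.annihilator _ N) (Module.annihilator _ M) ?_ Q h1 h2 hu
      intro a ha
      refine ⟨k, ?_⟩
      rw [sup_comm]
      exact hk (Ideal.pow_mem_pow ha k)
    · right
      push Not at hu
      obtain ⟨j, hj⟩ := hu
      intro r₁ r₂ q hr₁ hr₂ hq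
      have := t.height_le Q j hj r₁ r₂ q hr₁ hr₂ hq
      omega
  · intro N' M' _ _ _ _ _ _ hN' hM' hFP
    refine t.pos_at hLOC hxs hdR hd0 N' M' ((htr inferInstance).symm.mono hN' hM' le_rfl) hFP ?_
    intro e g he hg
    have hlen' := length_tensor_ne_top_of_le M M' N N' hlen hM' hN'
    have := dimension_inequality_hypersurface H d D.dimB hdR hB M' N' hlen' g e hg he
    omega

end QData

end Vale.Agent.P177
end

section

/-!
The data attached to a quadratic hypersurface in a power series ring over a discrete valuation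
ring.
-/

namespace Vale.Agent.P177

open TensorProduct IsLocalRing RingTheory.Sequence Function

universe u

theorem exists_polar {B Γ : Type*} [CommRing B] [CommRing Γ] {d : ℕ} (a₁ a₂ : B →+* Γ)
    (x : Fin d → B) (c : Fin d → Fin d → B)
    (diag : ∀ b, a₂ b - a₁ b ∈ Ideal.span (Set.range fun i => a₂ (x i) - a₁ (x i))) :
    ∃ w : Fin d → Fin d → Γ, (∀ l m, w l m ∈ Ideal.span (Set.range fun i => a₁ (x i))) ∧
      a₂ (∑ i, ∑ j, x i * c i j * x j) - a₁ (∑ i, ∑ j, x i * c i j * x j) =
        ∑ l, (a₂ (x l) - a₁ (x l)) * (∑ m, (a₂ (c l m) + a₂ (c m l) + w l m) * a₁ (x m) +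
          ∑ m, a₂ (c l m) * (a₂ (x m) - a₁ (x m))) := by
  have h1 : ∀ i j, ∃ e : Fin d → Γ, ∑ l, e l * (a₂ (x l) - a₁ (x l)) =
      a₂ (c i j) - a₁ (c i j) := fun i j =>
    (Ideal.mem_span_range_iff_exists_fun).1 (diag (c i j))
  choose e he using h1
  refine ⟨fun l m => ∑ i, a₁ (x i) * e i m l, ?_, ?_⟩
  · intro l m
    exact Ideal.sum_mem _ fun i _ => Ideal.mul_mem_right _ _ (Ideal.subset_span ⟨i, rfl⟩)
  · simp only [map_sum, map_mul]
    set X : Fin d → Γ := fun i => a₁ (x i) with hX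
    set Y : Fin d → Γ := fun i => a₂ (x i) with hY
    have hXi : ∀ i, a₁ (x i) = X i := fun i => rfl
    have hYi : ∀ i, a₂ (x i) = Y i := fun i => rfl
    simp only [hXi, hYi] at he ⊢
    have e1 : ∀ i j, Y i * a₂ (c i j) * Y j - X i * a₁ (c i j) * X j =
        (Y i - X i) * a₂ (c i j) * X j + X i * a₂ (c i j) * (Y j - X j) +
        (Y i - X i) * a₂ (c i j) * (Y j - X j) +
          ∑ l, X i * e i j l * (Y l - X l) * X j := by
      intro i j
      have h2 : ∑ l, X i * e i j l * (Y l - X l) * X j =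
          X i * (a₂ (c i j) - a₁ (c i j)) * X j := by
        rw [← he, Finset.mul_sum, Finset.sum_mul]
        refine Finset.sum_congr rfl fun l _ => ?_
        ring
      rw [h2]
      ring
    have e2 : ∑ i, ∑ j, Y i * a₂ (c i j) * Y j - ∑ i, ∑ j, X i * a₁ (c i j) * X j =
        ∑ i, ∑ j, (Y i - X i) * a₂ (c i j) * X j + ∑ i, ∑ j, X i * a₂ (c i j) * (Y j - X j) +
        ∑ i, ∑ j, (Y i - X i) * a₂ (c i j) * (Y j - X j) +
          ∑ i, ∑ j, ∑ l, X i * e i j l * (Y l - X l) * X j := by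
      simp only [← Finset.sum_sub_distrib, ← Finset.sum_add_distrib]
      exact Finset.sum_congr rfl fun i _ => Finset.sum_congr rfl fun j _ => e1 i j
    rw [e2]
    have e3 : ∑ l, (Y l - X l) * (∑ m, (a₂ (c l m) + a₂ (c m l) + ∑ i, X i * e i m l) * X m +
        ∑ m, a₂ (c l m) * (Y m - X m)) =
        ∑ l, ∑ m, (Y l - X l) * a₂ (c l m) * X m + ∑ l, ∑ m, (Y l - X l) * a₂ (c m l) * X m +
        ∑ l, ∑ m, (Y l - X l) * a₂ (c l m) * (Y m - X m) +
          ∑ l, ∑ m, ∑ i, X i * e i m l * (Y l - X l) * X m := by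
      simp only [← Finset.sum_add_distrib]
      refine Finset.sum_congr rfl fun l _ => ?_
      rw [Finset.mul_sum]
      refine Finset.sum_congr rfl fun m _ => ?_
      have h2 : ∑ i, X i * e i m l * (Y l - X l) * X m =
          (Y l - X l) * (∑ i, X i * e i m l) * X m := by
        rw [Finset.mul_sum, Finset.sum_mul]
        refine Finset.sum_congr rfl fun i _ => ?_
        ring
      rw [h2]
      ring
    rw [e3]
    congr 1
    · congr 1
      congr 1
      rw [Finset.sum_comm]
      refine Finset.sum_congr rfl fun l _ => Finset.sum_congr rfl fun m _ => ?_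
      ring
    · symm
      calc ∑ l, ∑ m, ∑ i, X i * e i m l * (Y l - X l) * X m =
          ∑ m, ∑ l, ∑ i, X i * e i m l * (Y l - X l) * X m := Finset.sum_comm
        _ = ∑ m, ∑ i, ∑ l, X i * e i m l * (Y l - X l) * X m :=
          Finset.sum_congr rfl fun m _ => Finset.sum_comm
        _ = _ := Finset.sum_comm

theorem ker_rename_elim (A : Type*) [CommRing A] [IsRegularLocalRing A] (n : ℕ) :
    RingHom.ker (MvPowerSeries.rename (R := A)
      (Sum.elim id id : Fin n ⊕ Fin n → Fin n)).toRingHom = Ideal.ofList (diagListGen A n) := by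
  obtain ⟨a', ha'⟩ := QData.exists_nat_ringKrullDim A
  obtain ⟨hregT, hdimT⟩ :=
    mvPowerSeries_regular (A := A) (n + n) (finSumFinEquiv (m := n) (n := n)) ha'
  have hcomp : IsAdicComplete (Ideal.span (Set.range MvPowerSeries.X) :
    Ideal (MvPowerSeries (Fin n) A)) (MvPowerSeries (Fin n) A) := inferInstance
  refine ker_le_of_retraction_ideal (Ideal.span (Set.range MvPowerSeries.X))
    (MvPowerSeries.rename (R := A) (Embedding.inl : Fin n ↪ Fin n ⊕ Fin n)).toRingHom
    _ ?_ (Ideal.ofList (diagListGen A n)) (Ideal.span (Set.range MvPowerSeries.X)) ?_ ?_ ?_ ?_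
  · ext1 p
    change MvPowerSeries.rename (Sum.elim id id) (MvPowerSeries.rename
      (Function.Embedding.inl : Fin n ↪ Fin n ⊕ Fin n) p) = p
    rw [MvPowerSeries.rename_rename]
    exact MvPowerSeries.rename_id_apply p
  · rw [ofList_diagListGen, Ideal.span_le]
    rintro _ ⟨j, rfl⟩
    change MvPowerSeries.rename (Sum.elim id id) _ = 0
    rw [map_sub, MvPowerSeries.rename_X, MvPowerSeries.rename_X]
    simp
  · rw [mvPowerSeries_maximalIdeal_gen]
    exact le_sup_right
  · rw [map_idealX_rename, idealX_eq_sup']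
    rfl
  · intro b
    refine ⟨MvPowerSeries.C (MvPowerSeries.constantCoeff b), ?_⟩
    have h1 : (MvPowerSeries.rename (R := A)
        (Function.Embedding.inl : Fin n ↪ Fin n ⊕ Fin n)).toRingHom
        (MvPowerSeries.C (MvPowerSeries.constantCoeff b)) =
        MvPowerSeries.C (MvPowerSeries.constantCoeff b) := MvPowerSeries.rename_C _ _
    rw [h1]
    exact sub_C_mem_gen A _ b

section mk

variable (V : Type u) [CommRing V] [IsRegularLocalRing V] (ϖ : V)
  (hϖ : maximalIdeal V = Ideal.span {ϖ}) (hV : ringKrullDim V = (1 : ℕ)) (d : ℕ)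
  (c : Fin d → Fin d → MvPowerSeries (Fin d) V)

/-- The equation `ϖ - ∑ x_i c_ij x_j`. -/
noncomputable def quadEq : MvPowerSeries (Fin d) V :=
  MvPowerSeries.C ϖ - ∑ i, ∑ j, MvPowerSeries.X i * c i j * MvPowerSeries.X j

/-- The polar matrix. -/
noncomputable def polarMatrix : Matrix (Fin d) (Fin d) (MvPowerSeries (Fin d) V) :=
  fun i j => c i j + c j i

include hϖ hV in
theorem exists_QData :
    ∃ (_ : IsRegularLocalRing (MvPowerSeries (Fin d) V))
      (_ : IsRegularLocalRing (MvPowerSeries (Fin d ⊕ Fin d) V))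
      (D : QData d (MvPowerSeries (Fin d) V) (MvPowerSeries (Fin d ⊕ Fin d) V)),
      D.G = quadEq V ϖ d c ∧ D.x = MvPowerSeries.X ∧
      ∀ l m, D.μ (D.β l m) - polarMatrix V d c l m ∈
        maximalIdeal (MvPowerSeries (Fin d) V) := by
  obtain ⟨hregB, hdimB⟩ := mvPowerSeries_regular (A := V) d (Equiv.refl (Fin d)) hV
  obtain ⟨hregΓ, hdimΓ⟩ :=
    mvPowerSeries_regular (A := V) (d + d) (finSumFinEquiv (m := d) (n := d)) hV
  let a₁ : MvPowerSeries (Fin d) V →+* MvPowerSeries (Fin d ⊕ Fin d) V :=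
    (MvPowerSeries.rename (R := V) (Embedding.inl : Fin d ↪ Fin d ⊕ Fin d)).toRingHom
  let a₂ : MvPowerSeries (Fin d) V →+* MvPowerSeries (Fin d ⊕ Fin d) V :=
    (MvPowerSeries.rename (R := V) (Embedding.inr : Fin d ↪ Fin d ⊕ Fin d)).toRingHom
  let μ : MvPowerSeries (Fin d ⊕ Fin d) V →+* MvPowerSeries (Fin d) V :=
    (MvPowerSeries.rename (R := V) (Sum.elim id id : Fin d ⊕ Fin d → Fin d)).toRingHom
  have hμ₁ : ∀ b, μ (a₁ b) = b := by
    intro p
    change MvPowerSeries.rename (Sum.elim id id) (MvPowerSeries.rename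
      (Function.Embedding.inl : Fin d ↪ Fin d ⊕ Fin d) p) = p
    rw [MvPowerSeries.rename_rename]
    exact MvPowerSeries.rename_id_apply p
  have hμ₂ : ∀ b, μ (a₂ b) = b := by
    intro p
    change MvPowerSeries.rename (Sum.elim id id) (MvPowerSeries.rename
      (Function.Embedding.inr : Fin d ↪ Fin d ⊕ Fin d) p) = p
    rw [MvPowerSeries.rename_rename]
    exact MvPowerSeries.rename_id_apply p
  have hX₁ : ∀ i, a₁ (MvPowerSeries.X i) = MvPowerSeries.X (Sum.inl i) := fun i =>
    MvPowerSeries.rename_X _ _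
  have hX₂ : ∀ i, a₂ (MvPowerSeries.X i) = MvPowerSeries.X (Sum.inr i) := fun i =>
    MvPowerSeries.rename_X _ _
  have hC₁ : ∀ v, a₁ (MvPowerSeries.C v) = MvPowerSeries.C v := fun v =>
    MvPowerSeries.rename_C _ _
  have hC₂ : ∀ v, a₂ (MvPowerSeries.C v) = MvPowerSeries.C v := fun v =>
    MvPowerSeries.rename_C _ _
  have hdiag : ∀ b, a₂ b - a₁ b ∈ Ideal.span (Set.range fun i =>
      a₂ (MvPowerSeries.X i) - a₁ (MvPowerSeries.X i)) := by
    intro b
    have h1 : a₂ b - a₁ b ∈ RingHom.ker μ := by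
      rw [RingHom.mem_ker, map_sub, hμ₁, hμ₂, sub_self]
    rw [ker_rename_elim, ofList_diagListGen] at h1
    have h2 : Ideal.span (Set.range (fun j : Fin d =>
        (MvPowerSeries.X (Sum.inl j) - MvPowerSeries.X (Sum.inr j) :
        MvPowerSeries (Fin d ⊕ Fin d) V))) ≤ Ideal.span (Set.range fun i =>
          a₂ (MvPowerSeries.X i) - a₁ (MvPowerSeries.X i)) := by
      rw [Ideal.span_le]
      rintro _ ⟨i, rfl⟩
      rw [SetLike.mem_coe, ← neg_mem_iff, neg_sub, ← hX₁, ← hX₂]
      exact Ideal.subset_span ⟨i, rfl⟩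
    exact h2 h1
  obtain ⟨w, hw1, hw2⟩ := exists_polar a₁ a₂ MvPowerSeries.X c hdiag
  have hmaxB : maximalIdeal (MvPowerSeries (Fin d) V) = Ideal.span {MvPowerSeries.C ϖ} ⊔
      Ideal.span (Set.range MvPowerSeries.X) := by
    rw [mvPowerSeries_maximalIdeal_gen, hϖ, Ideal.map_span, Set.image_singleton]
  have hgX : ∑ i, ∑ j, MvPowerSeries.X i * c i j * MvPowerSeries.X j ∈
      (Ideal.span (Set.range MvPowerSeries.X) : Ideal (MvPowerSeries (Fin d) V)) :=
    Ideal.sum_mem _ fun i _ => Ideal.sum_mem _ fun j _ =>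
      Ideal.mul_mem_left _ _ (Ideal.subset_span ⟨j, rfl⟩)
  let β : Matrix (Fin d) (Fin d) (MvPowerSeries (Fin d ⊕ Fin d) V) := fun l m =>
    a₂ (c l m) + a₂ (c m l) + w l m
  have hβ : ∀ l m, μ (β l m) - polarMatrix V d c l m ∈
      maximalIdeal (MvPowerSeries (Fin d) V) := by
    intro l m
    have h1 : μ (β l m) - polarMatrix V d c l m = μ (w l m) := by
      change μ (a₂ (c l m) + a₂ (c m l) + w l m) - (c l m + c m l) = _
      rw [map_add μ, map_add μ, hμ₂, hμ₂]
      ring
    rw [h1, hmaxB]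
    apply Ideal.mem_sup_right
    have h3 : Ideal.span (Set.range fun i => a₁ (MvPowerSeries.X i)) ≤
        (Ideal.span (Set.range MvPowerSeries.X) :
          Ideal (MvPowerSeries (Fin d) V)).comap μ := by
      rw [Ideal.span_le]
      rintro _ ⟨i, rfl⟩
      rw [SetLike.mem_coe, Ideal.mem_comap, hμ₁]
      exact Ideal.subset_span ⟨i, rfl⟩
    exact h3 (hw1 l m)
  refine ⟨hregB, hregΓ, {
    a₁ := a₁
    a₂ := a₂
    μ := μ
    μ₁ := hμ₁
    μ₂ := hμ₂
    x := MvPowerSeries.X
    G := quadEq V ϖ d c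
    u := fun l => ∑ m, (a₂ (c l m) + a₂ (c m l) + w l m) * a₁ (MvPowerSeries.X m) +
          ∑ m, a₂ (c l m) * (a₂ (MvPowerSeries.X m) - a₁ (MvPowerSeries.X m))
    β := β
    γ := fun l m => a₂ (c l m)
    dimB := by rw [hdimB]; congr 1; omega
    dimΓ := by rw [hdimΓ]; congr 1; omega
    maxB := ?_
    maxΓ := ?_
    hG := ?_
    hu := fun i => rfl
    diag := hdiag }, rfl, rfl, hβ⟩
  · rw [hmaxB]
    apply le_antisymm
    · refine sup_le ?_ le_sup_right
      rw [Ideal.span_singleton_le_iff_mem]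
      have h1 : MvPowerSeries.C ϖ = quadEq V ϖ d c +
          ∑ i, ∑ j, MvPowerSeries.X i * c i j * MvPowerSeries.X j := by
        rw [quadEq, sub_add_cancel]
      rw [h1]
      exact Ideal.add_mem _ (Ideal.mem_sup_left (Ideal.subset_span rfl))
        (Ideal.mem_sup_right hgX)
    · refine sup_le ?_ le_sup_right
      rw [Ideal.span_singleton_le_iff_mem, quadEq]
      exact Ideal.sub_mem _ (Ideal.mem_sup_left (Ideal.subset_span rfl))
        (Ideal.mem_sup_right hgX)
  · have hg₁ : a₁ (∑ i, ∑ j, MvPowerSeries.X i * c i j * MvPowerSeries.X j) ∈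
        Ideal.span (Set.range fun i => a₁ (MvPowerSeries.X i)) := by
      rw [map_sum]
      refine Ideal.sum_mem _ fun i _ => ?_
      rw [map_sum]
      refine Ideal.sum_mem _ fun j _ => ?_
      rw [map_mul]
      exact Ideal.mul_mem_left _ _ (Ideal.subset_span ⟨j, rfl⟩)
    rw [mvPowerSeries_maximalIdeal_gen, hϖ, Ideal.map_span, Set.image_singleton]
    apply le_antisymm
    · refine sup_le ?_ ?_
      · rw [Ideal.span_singleton_le_iff_mem]
        have h1 : MvPowerSeries.C ϖ = a₁ (quadEq V ϖ d c) +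
            a₁ (∑ i, ∑ j, MvPowerSeries.X i * c i j * MvPowerSeries.X j) := by
          rw [← map_add, quadEq, sub_add_cancel, hC₁]
        rw [h1]
        exact Ideal.mem_sup_left (Ideal.add_mem _ (Ideal.mem_sup_left (Ideal.subset_span rfl))
          (Ideal.mem_sup_right hg₁))
      · rw [Ideal.span_le]
        rintro _ ⟨i | i, rfl⟩
        · rw [SetLike.mem_coe, ← hX₁]
          exact Ideal.mem_sup_left (Ideal.mem_sup_right (Ideal.subset_span ⟨i, rfl⟩))
        · rw [SetLike.mem_coe, ← hX₂]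
          have h1 : a₂ (MvPowerSeries.X i) = a₁ (MvPowerSeries.X i) +
              (a₂ (MvPowerSeries.X i) - a₁ (MvPowerSeries.X i)) := by ring
          rw [h1]
          exact Ideal.add_mem _
            (Ideal.mem_sup_left (Ideal.mem_sup_right (Ideal.subset_span ⟨i, rfl⟩)))
            (Ideal.mem_sup_right (Ideal.subset_span ⟨i, rfl⟩))
    · have hle : Ideal.span (Set.range fun i => a₁ (MvPowerSeries.X i)) ≤
          (Ideal.span {MvPowerSeries.C ϖ} ⊔ Ideal.span (Set.range MvPowerSeries.X) :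
            Ideal (MvPowerSeries (Fin d ⊕ Fin d) V)) := by
        rw [Ideal.span_le]
        rintro _ ⟨i, rfl⟩
        simp only [hX₁]
        exact Ideal.mem_sup_right (Ideal.subset_span ⟨_, rfl⟩)
      refine sup_le (sup_le ?_ hle) ?_
      · rw [Ideal.span_singleton_le_iff_mem, quadEq, map_sub, hC₁]
        exact Ideal.sub_mem _ (Ideal.mem_sup_left (Ideal.subset_span rfl)) (hle hg₁)
      · rw [Ideal.span_le]
        rintro _ ⟨i, rfl⟩
        simp only [hX₁, hX₂]
        exact Ideal.sub_mem _ (Ideal.mem_sup_right (Ideal.subset_span ⟨_, rfl⟩))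
          (Ideal.mem_sup_right (Ideal.subset_span ⟨_, rfl⟩))
  · rw [quadEq, map_sub, map_sub, hC₁, hC₂]
    rw [← hw2]
    ring

end mk

end Vale.Agent.P177
end

section

/-!
Change of coordinates in the data of a quadratic hypersurface with fixed parameters.
-/

namespace Vale.Agent.P177

open TensorProduct IsLocalRing RingTheory.Sequence Function

universe u

theorem exists_polar' {ι : Type*} [Fintype ι] {B Γ : Type*} [CommRing B] [CommRing Γ]
    (a₁ a₂ : B →+* Γ)
    (x : ι → B) (c : ι → ι → B)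
    (diag : ∀ b, a₂ b - a₁ b ∈ Ideal.span (Set.range fun i => a₂ (x i) - a₁ (x i))) :
    ∃ w : ι → ι → Γ, (∀ l m, w l m ∈ Ideal.span (Set.range fun i => a₁ (x i))) ∧
      a₂ (∑ i, ∑ j, x i * c i j * x j) - a₁ (∑ i, ∑ j, x i * c i j * x j) =
        ∑ l, (a₂ (x l) - a₁ (x l)) * (∑ m, (a₂ (c l m) + a₂ (c m l) + w l m) * a₁ (x m) +
          ∑ m, a₂ (c l m) * (a₂ (x m) - a₁ (x m))) := by
  have h1 : ∀ i j, ∃ e : ι → Γ, ∑ l, e l * (a₂ (x l) - a₁ (x l)) =
      a₂ (c i j) - a₁ (c i j) := fun i j =>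
    (Ideal.mem_span_range_iff_exists_fun).1 (diag (c i j))
  choose e he using h1
  refine ⟨fun l m => ∑ i, a₁ (x i) * e i m l, ?_, ?_⟩
  · intro l m
    exact Ideal.sum_mem _ fun i _ => Ideal.mul_mem_right _ _ (Ideal.subset_span ⟨i, rfl⟩)
  · simp only [map_sum, map_mul]
    set X : ι → Γ := fun i => a₁ (x i) with hX
    set Y : ι → Γ := fun i => a₂ (x i) with hY
    have hXi : ∀ i, a₁ (x i) = X i := fun i => rfl
    have hYi : ∀ i, a₂ (x i) = Y i := fun i => rfl
    simp only [hXi, hYi] at he ⊢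
    have e1 : ∀ i j, Y i * a₂ (c i j) * Y j - X i * a₁ (c i j) * X j =
        (Y i - X i) * a₂ (c i j) * X j + X i * a₂ (c i j) * (Y j - X j) +
        (Y i - X i) * a₂ (c i j) * (Y j - X j) +
          ∑ l, X i * e i j l * (Y l - X l) * X j := by
      intro i j
      have h2 : ∑ l, X i * e i j l * (Y l - X l) * X j =
          X i * (a₂ (c i j) - a₁ (c i j)) * X j := by
        rw [← he, Finset.mul_sum, Finset.sum_mul]
        refine Finset.sum_congr rfl fun l _ => ?_
        ring
      rw [h2]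
      ring
    have e2 : ∑ i, ∑ j, Y i * a₂ (c i j) * Y j - ∑ i, ∑ j, X i * a₁ (c i j) * X j =
        ∑ i, ∑ j, (Y i - X i) * a₂ (c i j) * X j + ∑ i, ∑ j, X i * a₂ (c i j) * (Y j - X j) +
        ∑ i, ∑ j, (Y i - X i) * a₂ (c i j) * (Y j - X j) +
          ∑ i, ∑ j, ∑ l, X i * e i j l * (Y l - X l) * X j := by
      simp only [← Finset.sum_sub_distrib, ← Finset.sum_add_distrib]
      exact Finset.sum_congr rfl fun i _ => Finset.sum_congr rfl fun j _ => e1 i j
    rw [e2]
    have e3 : ∑ l, (Y l - X l) * (∑ m, (a₂ (c l m) + a₂ (c m l) + ∑ i, X i * e i m l) * X m +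
        ∑ m, a₂ (c l m) * (Y m - X m)) =
        ∑ l, ∑ m, (Y l - X l) * a₂ (c l m) * X m + ∑ l, ∑ m, (Y l - X l) * a₂ (c m l) * X m +
        ∑ l, ∑ m, (Y l - X l) * a₂ (c l m) * (Y m - X m) +
          ∑ l, ∑ m, ∑ i, X i * e i m l * (Y l - X l) * X m := by
      simp only [← Finset.sum_add_distrib]
      refine Finset.sum_congr rfl fun l _ => ?_
      rw [Finset.mul_sum]
      refine Finset.sum_congr rfl fun m _ => ?_
      have h2 : ∑ i, X i * e i m l * (Y l - X l) * X m =
          (Y l - X l) * (∑ i, X i * e i m l) * X m := by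
        rw [Finset.mul_sum, Finset.sum_mul]
        refine Finset.sum_congr rfl fun i _ => ?_
        ring
      rw [h2]
      ring
    rw [e3]
    congr 1
    · congr 1
      congr 1
      rw [Finset.sum_comm]
      refine Finset.sum_congr rfl fun l _ => Finset.sum_congr rfl fun m _ => ?_
      ring
    · symm
      calc ∑ l, ∑ m, ∑ i, X i * e i m l * (Y l - X l) * X m =
          ∑ m, ∑ l, ∑ i, X i * e i m l * (Y l - X l) * X m := Finset.sum_comm
        _ = ∑ m, ∑ i, ∑ l, X i * e i m l * (Y l - X l) * X m :=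
          Finset.sum_congr rfl fun m _ => Finset.sum_comm
        _ = _ := Finset.sum_comm

theorem span_range_eq_of_mul_eq {R : Type*} [CommRing R] {n : ℕ} (M : Matrix (Fin n) (Fin n) R)
    (hM : IsUnit M.det) (h h' : Fin n → R) (e : ∀ l, h' l = ∑ m, M l m * h m) :
    (∀ m, h m = ∑ k, M⁻¹ m k * h' k) ∧
      Ideal.span (Set.range h') = Ideal.span (Set.range h) := by
  have h1 : ∀ m, h m = ∑ k, M⁻¹ m k * h' k := by
    intro m
    simp only [e, Finset.mul_sum]
    rw [Finset.sum_comm]
    have h2 := Matrix.nonsing_inv_mul M hM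
    rw [Finset.sum_eq_single m]
    · have h3 := congrFun (congrFun h2 m) m
      rw [Matrix.mul_apply, Matrix.one_apply_eq] at h3
      simp only [← mul_assoc, ← Finset.sum_mul]
      rw [h3, one_mul]
    · intro k _ hk
      have h3 := congrFun (congrFun h2 m) k
      rw [Matrix.mul_apply, Matrix.one_apply_ne (Ne.symm hk)] at h3
      simp only [← mul_assoc, ← Finset.sum_mul]
      rw [h3, zero_mul]
    · simp
  refine ⟨h1, le_antisymm ?_ ?_⟩
  · rw [Ideal.span_le]
    rintro _ ⟨l, rfl⟩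
    rw [SetLike.mem_coe, e]
    exact Ideal.sum_mem _ fun m _ => Ideal.mul_mem_left _ _ (Ideal.subset_span ⟨m, rfl⟩)
  · rw [Ideal.span_le]
    rintro _ ⟨l, rfl⟩
    rw [SetLike.mem_coe, h1]
    exact Ideal.sum_mem _ fun m _ => Ideal.mul_mem_left _ _ (Ideal.subset_span ⟨m, rfl⟩)

theorem exists_change {s d : ℕ} {B Γ : Type u} [CommRing B] [IsRegularLocalRing B] [CommRing Γ]
    [IsRegularLocalRing Γ] (a₁ a₂ : B →+* Γ) (μ : Γ →+* B) (μ₁ : ∀ b, μ (a₁ b) = b)
    (μ₂ : ∀ b, μ (a₂ b) = b) (y : Fin s → B) (hy : ∀ i, a₂ (y i) = a₁ (y i)) (x : Fin d → B)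
    (G : B) (u : Fin d → Γ) (β γ : Matrix (Fin d) (Fin d) Γ) (δ : Fin d → Γ)
    (dimB : ringKrullDim B = ((s + d + 1 : ℕ) : WithBot ℕ∞))
    (dimΓ : ringKrullDim Γ = ((s + 2 * d + 1 : ℕ) : WithBot ℕ∞))
    (maxB : maximalIdeal B = Ideal.span {G} ⊔ (Ideal.span (Set.range y) ⊔
      Ideal.span (Set.range x)))
    (maxΓ : maximalIdeal Γ = Ideal.span {a₁ G} ⊔ (Ideal.span (Set.range fun i => a₁ (y i)) ⊔
      Ideal.span (Set.range fun i => a₁ (x i))) ⊔
      Ideal.span (Set.range fun i => a₂ (x i) - a₁ (x i)))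
    (hG : a₂ G = a₁ G - ∑ i, (a₂ (x i) - a₁ (x i)) * u i)
    (hu : ∀ i, u i = ∑ m, β i m * a₁ (x m) + δ i + ∑ m, γ i m * (a₂ (x m) - a₁ (x m)))
    (hδ : ∀ i, δ i ∈ Ideal.span (Set.range fun i => a₁ (y i)))
    (diag : ∀ b, a₂ b - a₁ b ∈ Ideal.span (Set.range fun i => a₂ (x i) - a₁ (x i)))
    (hker : RingHom.ker μ ≤ Ideal.span (Set.range fun i => a₂ (x i) - a₁ (x i)))
    (hdet : IsUnit (Matrix.det (Matrix.of fun l m => μ (β l m)))) :
    ∃ D : RData s d B Γ, D.G = G ∧ D.y = y ∧
      IsUnit (Matrix.det (Matrix.of fun l m => D.μ (D.β l m))) := by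
  let A : Matrix (Fin d) (Fin d) B := Matrix.of fun l m => μ (β l m)
  let x' : Fin d → B := fun l => μ (u l)
  let h : Fin d → Γ := fun i => a₂ (x i) - a₁ (x i)
  have hh : ∀ i, a₂ (x i) - a₁ (x i) = h i := fun i => rfl
  have hx' : ∀ l, x' l = ∑ m, A l m * x m + μ (δ l) := by
    intro l
    change μ (u l) = _
    rw [hu, map_add, map_add, map_sum, map_sum]
    have h1 : ∑ m, μ (γ l m * (a₂ (x m) - a₁ (x m))) = 0 := by
      refine Finset.sum_eq_zero fun m _ => ?_
      rw [map_mul, map_sub, μ₁, μ₂, sub_self, mul_zero]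
    rw [h1, add_zero]
    congr 1
    refine Finset.sum_congr rfl fun m _ => ?_
    rw [map_mul, μ₁]
    rfl
  have hδ' : ∀ l, μ (δ l) ∈ Ideal.span (Set.range y) := by
    intro l
    have h1 : Ideal.span (Set.range fun i => a₁ (y i)) ≤ (Ideal.span (Set.range y)).comap μ := by
      rw [Ideal.span_le]
      rintro _ ⟨i, rfl⟩
      rw [SetLike.mem_coe, Ideal.mem_comap, μ₁]
      exact Ideal.subset_span ⟨i, rfl⟩
    exact h1 (hδ l)
  have hxx : Ideal.span (Set.range y) ⊔ Ideal.span (Set.range x') =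
      Ideal.span (Set.range y) ⊔ Ideal.span (Set.range x) := by
    apply le_antisymm
    · refine sup_le le_sup_left ?_
      rw [Ideal.span_le]
      rintro _ ⟨l, rfl⟩
      rw [SetLike.mem_coe, hx']
      exact Ideal.add_mem _ (Ideal.mem_sup_right (Ideal.sum_mem _ fun m _ =>
        Ideal.mul_mem_left _ _ (Ideal.subset_span ⟨m, rfl⟩))) (Ideal.mem_sup_left (hδ' l))
    · refine sup_le le_sup_left ?_
      have h1 := (span_range_eq_of_mul_eq A hdet x (fun l => x' l - μ (δ l)) (fun l => by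
        rw [hx', add_sub_cancel_right])).2
      rw [← h1, Ideal.span_le]
      rintro _ ⟨l, rfl⟩
      exact Ideal.sub_mem _ (Ideal.mem_sup_right (Ideal.subset_span ⟨l, rfl⟩))
        (Ideal.mem_sup_left (hδ' l))
  have hxm : ∀ m, a₁ (x m) ∈ maximalIdeal Γ := fun m => by
    rw [maxΓ]
    exact Ideal.mem_sup_left (Ideal.mem_sup_right (Ideal.mem_sup_right
      (Ideal.subset_span ⟨m, rfl⟩)))
  have hym : ∀ m, a₁ (y m) ∈ maximalIdeal Γ := fun m => by
    rw [maxΓ]
    exact Ideal.mem_sup_left (Ideal.mem_sup_right (Ideal.mem_sup_left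
      (Ideal.subset_span ⟨m, rfl⟩)))
  have hE : ∀ l, ∃ E : Fin d → Γ, (∀ k, E k ∈ maximalIdeal Γ) ∧
      ∑ k, E k * h k = a₂ (x' l) - a₁ (x' l) - ∑ m, a₂ (A l m) * h m := by
    intro l
    obtain ⟨e, he⟩ := (Ideal.mem_span_range_iff_exists_fun).1 (hδ' l)
    have h1 : a₂ (x' l) - a₁ (x' l) - ∑ m, a₂ (A l m) * h m =
        ∑ m, a₁ (x m) * (a₂ (A l m) - a₁ (A l m)) + ∑ j, a₁ (y j) * (a₂ (e j) - a₁ (e j)) := by
      rw [hx', ← he]
      simp only [map_add, map_sum, map_mul, hy]
      have h2 : ∑ m, a₁ (x m) * (a₂ (A l m) - a₁ (A l m)) =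
          ∑ m, a₂ (A l m) * a₂ (x m) - ∑ m, a₁ (A l m) * a₁ (x m) - ∑ m, a₂ (A l m) * h m := by
        simp only [← Finset.sum_sub_distrib]
        refine Finset.sum_congr rfl fun m _ => ?_
        simp only [← hh]
        ring
      have h3 : ∑ j, a₁ (y j) * (a₂ (e j) - a₁ (e j)) =
          ∑ j, a₂ (e j) * a₁ (y j) - ∑ j, a₁ (e j) * a₁ (y j) := by
        simp only [← Finset.sum_sub_distrib]
        refine Finset.sum_congr rfl fun m _ => ?_
        ring
      rw [h2, h3]
      ring
    have h2 : a₂ (x' l) - a₁ (x' l) - ∑ m, a₂ (A l m) * h m ∈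
        maximalIdeal Γ • Ideal.span (Set.range h) := by
      rw [h1, smul_eq_mul]
      exact Ideal.add_mem _ (Ideal.sum_mem _ fun m _ => Ideal.mul_mem_mul (hxm m) (diag _))
        (Ideal.sum_mem _ fun m _ => Ideal.mul_mem_mul (hym m) (diag _))
    obtain ⟨a, ha, hsum⟩ := (Submodule.mem_ideal_smul_span_iff_exists_sum _ _ _).1 h2
    refine ⟨a, ha, ?_⟩
    rw [← hsum]
    exact (Finsupp.sum_fintype a (fun i c => c • h i) (fun i => zero_smul _ _)).symm
  choose E hEm hEs using hE
  let M : Matrix (Fin d) (Fin d) Γ := Matrix.of fun l m => a₂ (A l m) + E l m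
  have hM : ∀ l, a₂ (x' l) - a₁ (x' l) = ∑ m, M l m * h m := by
    intro l
    have h1 : ∑ m, M l m * h m = ∑ m, a₂ (A l m) * h m + ∑ m, E l m * h m := by
      rw [← Finset.sum_add_distrib]
      exact Finset.sum_congr rfl fun m _ => add_mul _ _ _
    rw [h1, hEs]
    ring
  have hMdet : IsUnit M.det := by
    have h1 : residue Γ M.det = residue Γ (a₂ A.det) := by
      rw [RingHom.map_det, RingHom.map_det, RingHom.map_det]
      congr 1
      ext l m
      simp only [RingHom.mapMatrix_apply, Matrix.map_apply]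
      change residue Γ (a₂ (A l m) + E l m) = _
      rw [map_add, (residue_eq_zero_iff _).2 (hEm l m), add_zero]
    rw [← isUnit_map_iff (residue Γ), h1]
    exact (hdet.map a₂).map _
  obtain ⟨hinv, hspan⟩ := span_range_eq_of_mul_eq M hMdet h (fun l => a₂ (x' l) - a₁ (x' l)) hM
  have hN : ∀ i, ∃ N : Fin d → Γ, ∑ k, N k * (a₂ (x' k) - a₁ (x' k)) = u i - a₁ (x' i) := by
    intro i
    refine (Ideal.mem_span_range_iff_exists_fun).1 ?_
    rw [hspan]
    refine hker ?_
    rw [RingHom.mem_ker, map_sub, μ₁, sub_self]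
  choose N hN using hN
  have hux : ∀ i, u i = a₁ (x' i) + ∑ m, N i m * (a₂ (x' m) - a₁ (x' m)) := fun i => by
    rw [hN]
    ring
  have hB' : Ideal.span {G} ⊔ (Ideal.span (Set.range y) ⊔ Ideal.span (Set.range x')) =
      maximalIdeal B := by
    rw [hxx, maxB]
  refine ⟨{
    a₁ := a₁
    a₂ := a₂
    μ := μ
    μ₁ := μ₁
    μ₂ := μ₂
    y := y
    hy := hy
    x := x'
    G := G
    u := fun k => ∑ i, M⁻¹ i k * u i
    β := fun k i => M⁻¹ i k
    γ := fun k m => ∑ i, M⁻¹ i k * N i m
    dimB := dimB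
    dimΓ := dimΓ
    maxB := hB'.symm
    maxΓ := ?_
    hG := ?_
    hu := ?_
    diag := ?_ }, rfl, rfl, ?_⟩
  · have h1 : Ideal.span (Set.range fun i => a₁ (y i)) ⊔ Ideal.span (Set.range fun i => a₁ (x' i)) =
        Ideal.span (Set.range fun i => a₁ (y i)) ⊔ Ideal.span (Set.range fun i => a₁ (x i)) := by
      have h2 : ∀ {n : ℕ} (z : Fin n → B), Ideal.span (Set.range fun i => a₁ (z i)) =
          (Ideal.span (Set.range z)).map a₁ := by
        intro n z
        rw [Ideal.map_span, ← Set.range_comp]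
        rfl
      rw [h2, h2, h2, ← Ideal.map_sup, ← Ideal.map_sup, hxx]
    rw [h1, hspan]
    exact maxΓ
  · rw [hG]
    congr 1
    simp only [hh]
    have h1 : ∀ i, h i * u i = ∑ k, (a₂ (x' k) - a₁ (x' k)) * (M⁻¹ i k * u i) := by
      intro i
      rw [hinv i, Finset.sum_mul]
      refine Finset.sum_congr rfl fun k _ => ?_
      ring
    simp only [h1]
    rw [Finset.sum_comm]
    refine Finset.sum_congr rfl fun k _ => ?_
    rw [Finset.mul_sum]
  · intro k
    have h1 : ∀ i, M⁻¹ i k * u i = M⁻¹ i k * a₁ (x' i) +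
        ∑ m, M⁻¹ i k * N i m * (a₂ (x' m) - a₁ (x' m)) := by
      intro i
      conv_lhs => rw [hux i]
      rw [mul_add, Finset.mul_sum]
      congr 1
      refine Finset.sum_congr rfl fun m _ => ?_
      ring
    simp only [h1]
    rw [Finset.sum_add_distrib, Finset.sum_comm (f := fun i m =>
      M⁻¹ i k * N i m * (a₂ (x' m) - a₁ (x' m)))]
    congr 1
    refine Finset.sum_congr rfl fun m _ => ?_
    rw [Finset.sum_mul]
  · intro b
    rw [hspan]
    exact diag b
  · have h1 : (Matrix.of fun l m => μ (M⁻¹ m l)) = Matrix.transpose (μ.mapMatrix M⁻¹) := by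
      ext l m
      rfl
    change IsUnit (Matrix.det (Matrix.of fun l m => μ (M⁻¹ m l)))
    rw [h1, Matrix.det_transpose, ← RingHom.map_det]
    exact ((Matrix.isUnit_nonsing_inv_det_iff).2 hMdet).map μ

end Vale.Agent.P177
end

section

/-!
The data attached to a quadratic hypersurface in a power series ring over a regular local ring,
with parameters.
-/

namespace Vale.Agent.P177

open TensorProduct IsLocalRing RingTheory.Sequence Function

universe u

section mk

variable (L : Type u) [CommRing L] (f : L) {s : ℕ} (t : Fin s → L) (r : ℕ)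
  (c : Fin r ⊕ Fin s → Fin r ⊕ Fin s → MvPowerSeries (Fin r) L)

/-- The parameters `x_1, …, x_r, t_1, …, t_s` of `L[[x]]`. -/
noncomputable def parZ : Fin r ⊕ Fin s → MvPowerSeries (Fin r) L :=
  Sum.elim MvPowerSeries.X fun i => MvPowerSeries.C (t i)

/-- The equation `f - ∑ z_i c_ij z_j`, where `z = (x, t)`. -/
noncomputable def parEq : MvPowerSeries (Fin r) L :=
  MvPowerSeries.C f - ∑ i, ∑ j, parZ L t r i * c i j * parZ L t r j

theorem exists_RData' [IsRegularLocalRing L]
    (hf : maximalIdeal L = Ideal.span {f} ⊔ Ideal.span (Set.range t))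
    (hL : ringKrullDim L = ((s + 1 : ℕ) : WithBot ℕ∞))
    (hc : IsUnit (Matrix.det (Matrix.of fun l m =>
      c (Sum.inl l) (Sum.inl m) + c (Sum.inl m) (Sum.inl l)))) :
    ∃ (_ : IsRegularLocalRing (MvPowerSeries (Fin r) L))
      (_ : IsRegularLocalRing (MvPowerSeries (Fin r ⊕ Fin r) L))
      (D : RData s r (MvPowerSeries (Fin r) L) (MvPowerSeries (Fin r ⊕ Fin r) L)),
      D.G = parEq L f t r c ∧ (D.y = fun i => MvPowerSeries.C (t i)) ∧
      IsUnit (Matrix.det (Matrix.of fun l m => D.μ (D.β l m))) := by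
  obtain ⟨hregB, hdimB⟩ := mvPowerSeries_regular (A := L) r (Equiv.refl (Fin r)) hL
  obtain ⟨hregΓ, hdimΓ⟩ :=
    mvPowerSeries_regular (A := L) (r + r) (finSumFinEquiv (m := r) (n := r)) hL
  let a₁ : MvPowerSeries (Fin r) L →+* MvPowerSeries (Fin r ⊕ Fin r) L :=
    (MvPowerSeries.rename (R := L) (Embedding.inl : Fin r ↪ Fin r ⊕ Fin r)).toRingHom
  let a₂ : MvPowerSeries (Fin r) L →+* MvPowerSeries (Fin r ⊕ Fin r) L :=
    (MvPowerSeries.rename (R := L) (Embedding.inr : Fin r ↪ Fin r ⊕ Fin r)).toRingHom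
  let μ : MvPowerSeries (Fin r ⊕ Fin r) L →+* MvPowerSeries (Fin r) L :=
    (MvPowerSeries.rename (R := L) (Sum.elim id id : Fin r ⊕ Fin r → Fin r)).toRingHom
  have hμ₁ : ∀ b, μ (a₁ b) = b := by
    intro p
    change MvPowerSeries.rename (Sum.elim id id) (MvPowerSeries.rename
      (Function.Embedding.inl : Fin r ↪ Fin r ⊕ Fin r) p) = p
    rw [MvPowerSeries.rename_rename]
    exact MvPowerSeries.rename_id_apply p
  have hμ₂ : ∀ b, μ (a₂ b) = b := by
    intro p
    change MvPowerSeries.rename (Sum.elim id id) (MvPowerSeries.rename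
      (Function.Embedding.inr : Fin r ↪ Fin r ⊕ Fin r) p) = p
    rw [MvPowerSeries.rename_rename]
    exact MvPowerSeries.rename_id_apply p
  have hX₁ : ∀ i, a₁ (MvPowerSeries.X i) = MvPowerSeries.X (Sum.inl i) := fun i =>
    MvPowerSeries.rename_X _ _
  have hX₂ : ∀ i, a₂ (MvPowerSeries.X i) = MvPowerSeries.X (Sum.inr i) := fun i =>
    MvPowerSeries.rename_X _ _
  have hC₁ : ∀ v, a₁ (MvPowerSeries.C v) = MvPowerSeries.C v := fun v =>
    MvPowerSeries.rename_C _ _
  have hC₂ : ∀ v, a₂ (MvPowerSeries.C v) = MvPowerSeries.C v := fun v =>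
    MvPowerSeries.rename_C _ _
  let y : Fin s → MvPowerSeries (Fin r) L := fun i => MvPowerSeries.C (t i)
  have hy : ∀ i, a₂ (y i) = a₁ (y i) := fun i => by
    change a₂ (MvPowerSeries.C (t i)) = a₁ (MvPowerSeries.C (t i))
    rw [hC₁, hC₂]
  have hspanle : Ideal.span (Set.range (fun j : Fin r =>
        (MvPowerSeries.X (Sum.inl j) - MvPowerSeries.X (Sum.inr j) :
        MvPowerSeries (Fin r ⊕ Fin r) L))) ≤ Ideal.span (Set.range fun i =>
          a₂ (MvPowerSeries.X i) - a₁ (MvPowerSeries.X i)) := by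
    rw [Ideal.span_le]
    rintro _ ⟨i, rfl⟩
    rw [SetLike.mem_coe, ← neg_mem_iff, neg_sub, ← hX₁, ← hX₂]
    exact Ideal.subset_span ⟨i, rfl⟩
  have hker : RingHom.ker μ ≤ Ideal.span (Set.range fun i =>
      a₂ (MvPowerSeries.X i) - a₁ (MvPowerSeries.X i)) := by
    rw [ker_rename_elim, ofList_diagListGen]
    exact hspanle
  have hdiag : ∀ b, a₂ b - a₁ b ∈ Ideal.span (Set.range fun i =>
      a₂ (MvPowerSeries.X i) - a₁ (MvPowerSeries.X i)) := by
    intro b
    refine hker ?_
    rw [RingHom.mem_ker, map_sub, hμ₁, hμ₂, sub_self]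
  let z : Fin r ⊕ Fin s → MvPowerSeries (Fin r) L := parZ L t r
  have hzl : ∀ i, z (Sum.inl i) = MvPowerSeries.X i := fun i => rfl
  have hzr : ∀ i, z (Sum.inr i) = y i := fun i => rfl
  have hdiagz : ∀ b, a₂ b - a₁ b ∈ Ideal.span (Set.range fun i => a₂ (z i) - a₁ (z i)) := by
    intro b
    refine Ideal.span_mono ?_ (hdiag b)
    rintro _ ⟨i, rfl⟩
    exact ⟨Sum.inl i, rfl⟩
  obtain ⟨w, hw1, hw2⟩ := exists_polar' a₁ a₂ z c hdiagz
  -- the maximal ideals
  have hzspan : Ideal.span (Set.range z) = Ideal.span (Set.range y) ⊔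
      Ideal.span (Set.range MvPowerSeries.X) := by
    apply le_antisymm
    · rw [Ideal.span_le]
      rintro _ ⟨i | i, rfl⟩
      · exact Ideal.mem_sup_right (Ideal.subset_span ⟨i, rfl⟩)
      · exact Ideal.mem_sup_left (Ideal.subset_span ⟨i, rfl⟩)
    · refine sup_le ?_ ?_
      · rw [Ideal.span_le]
        rintro _ ⟨i, rfl⟩
        exact Ideal.subset_span ⟨Sum.inr i, rfl⟩
      · rw [Ideal.span_le]
        rintro _ ⟨i, rfl⟩
        exact Ideal.subset_span ⟨Sum.inl i, rfl⟩
  have hmaxB0 : maximalIdeal (MvPowerSeries (Fin r) L) = Ideal.span {MvPowerSeries.C f} ⊔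
      (Ideal.span (Set.range y) ⊔ Ideal.span (Set.range MvPowerSeries.X)) := by
    rw [mvPowerSeries_maximalIdeal_gen, hf, Ideal.map_sup, Ideal.map_span, Set.image_singleton,
      Ideal.map_span, ← Set.range_comp, sup_assoc]
    rfl
  have hq : ∑ i, ∑ j, z i * c i j * z j ∈ Ideal.span (Set.range z) :=
    Ideal.sum_mem _ fun i _ => Ideal.sum_mem _ fun j _ =>
      Ideal.mul_mem_left _ _ (Ideal.subset_span ⟨j, rfl⟩)
  have hGeq : parEq L f t r c = MvPowerSeries.C f - ∑ i, ∑ j, z i * c i j * z j := rfl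
  have hmaxB : maximalIdeal (MvPowerSeries (Fin r) L) = Ideal.span {parEq L f t r c} ⊔
      (Ideal.span (Set.range y) ⊔ Ideal.span (Set.range MvPowerSeries.X)) := by
    rw [hmaxB0, ← hzspan]
    apply le_antisymm
    · refine sup_le ?_ le_sup_right
      rw [Ideal.span_singleton_le_iff_mem]
      have h1 : MvPowerSeries.C f = parEq L f t r c + ∑ i, ∑ j, z i * c i j * z j := by
        rw [hGeq, sub_add_cancel]
      rw [h1]
      exact Ideal.add_mem _ (Ideal.mem_sup_left (Ideal.subset_span rfl))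
        (Ideal.mem_sup_right hq)
    · refine sup_le ?_ le_sup_right
      rw [Ideal.span_singleton_le_iff_mem, hGeq]
      exact Ideal.sub_mem _ (Ideal.mem_sup_left (Ideal.subset_span rfl))
        (Ideal.mem_sup_right hq)
  have hzm : ∀ i, z i ∈ maximalIdeal (MvPowerSeries (Fin r) L) := fun i => by
    rw [hmaxB0, ← hzspan]
    exact Ideal.mem_sup_right (Ideal.subset_span ⟨i, rfl⟩)
  have hwm : ∀ l m, μ (w l m) ∈ maximalIdeal (MvPowerSeries (Fin r) L) := by
    intro l m
    have h1 : Ideal.span (Set.range fun i => a₁ (z i)) ≤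
        (maximalIdeal (MvPowerSeries (Fin r) L)).comap μ := by
      rw [Ideal.span_le]
      rintro _ ⟨i, rfl⟩
      rw [SetLike.mem_coe, Ideal.mem_comap, hμ₁]
      exact hzm i
    exact h1 (hw1 l m)
  let β : Fin r ⊕ Fin s → Fin r ⊕ Fin s → MvPowerSeries (Fin r ⊕ Fin r) L := fun l m =>
    a₂ (c l m) + a₂ (c m l) + w l m
  refine ⟨hregB, hregΓ, exists_change a₁ a₂ μ hμ₁ hμ₂ y hy MvPowerSeries.X (parEq L f t r c)
    (fun l => ∑ m, β (Sum.inl l) m * a₁ (z m) +
      ∑ m, a₂ (c (Sum.inl l) m) * (a₂ (z m) - a₁ (z m)))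
    (fun l m => β (Sum.inl l) (Sum.inl m)) (fun l m => a₂ (c (Sum.inl l) (Sum.inl m)))
    (fun l => ∑ m : Fin s, β (Sum.inl l) (Sum.inr m) * a₁ (y m))
    (by rw [hdimB]; congr 1; omega) (by rw [hdimΓ]; congr 1; omega) hmaxB ?_ ?_ ?_ ?_ hdiag
    hker ?_⟩
  · have hg₁ : a₁ (∑ i, ∑ j, z i * c i j * z j) ∈
        (Ideal.span (Set.range fun i => a₁ (y i)) ⊔
          Ideal.span (Set.range fun i => a₁ (MvPowerSeries.X i)) :
          Ideal (MvPowerSeries (Fin r ⊕ Fin r) L)) := by
      have h1 : (Ideal.span (Set.range z)).map a₁ =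
          Ideal.span (Set.range fun i => a₁ (y i)) ⊔
          Ideal.span (Set.range fun i => a₁ (MvPowerSeries.X i)) := by
        rw [hzspan, Ideal.map_sup, Ideal.map_span, Ideal.map_span, ← Set.range_comp,
          ← Set.range_comp]
        rfl
      rw [← h1]
      exact Ideal.mem_map_of_mem _ hq
    have hyC : ∀ i, a₁ (y i) = MvPowerSeries.C (t i) := fun i => hC₁ _
    rw [mvPowerSeries_maximalIdeal_gen, hf, Ideal.map_sup, Ideal.map_span, Set.image_singleton,
      Ideal.map_span, ← Set.range_comp]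
    have hyr : Ideal.span (Set.range (MvPowerSeries.C ∘ t : Fin s →
        MvPowerSeries (Fin r ⊕ Fin r) L)) = Ideal.span (Set.range fun i => a₁ (y i)) := by
      congr 2
      funext i
      exact (hyC i).symm
    rw [hyr]
    apply le_antisymm
    · refine sup_le (sup_le ?_ ?_) ?_
      · rw [Ideal.span_singleton_le_iff_mem]
        have h1 : MvPowerSeries.C f = a₁ (parEq L f t r c) +
            a₁ (∑ i, ∑ j, z i * c i j * z j) := by
          rw [← map_add, hGeq, sub_add_cancel, hC₁]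
        rw [h1]
        exact Ideal.mem_sup_left (Ideal.add_mem _ (Ideal.mem_sup_left (Ideal.subset_span rfl))
          (Ideal.mem_sup_right hg₁))
      · exact (le_sup_left.trans le_sup_right).trans le_sup_left
      · rw [Ideal.span_le]
        rintro _ ⟨i | i, rfl⟩
        · rw [SetLike.mem_coe, ← hX₁]
          exact Ideal.mem_sup_left (Ideal.mem_sup_right (Ideal.mem_sup_right
            (Ideal.subset_span ⟨i, rfl⟩)))
        · rw [SetLike.mem_coe, ← hX₂]
          have h1 : a₂ (MvPowerSeries.X i) = a₁ (MvPowerSeries.X i) +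
              (a₂ (MvPowerSeries.X i) - a₁ (MvPowerSeries.X i)) := by ring
          rw [h1]
          exact Ideal.add_mem _
            (Ideal.mem_sup_left (Ideal.mem_sup_right (Ideal.mem_sup_right
              (Ideal.subset_span ⟨i, rfl⟩))))
            (Ideal.mem_sup_right (Ideal.subset_span ⟨i, rfl⟩))
    · have hle : Ideal.span (Set.range fun i => a₁ (MvPowerSeries.X i)) ≤
          (Ideal.span {MvPowerSeries.C f} ⊔ Ideal.span (Set.range fun i => a₁ (y i)) ⊔
            Ideal.span (Set.range MvPowerSeries.X) :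
            Ideal (MvPowerSeries (Fin r ⊕ Fin r) L)) := by
        rw [Ideal.span_le]
        rintro _ ⟨i, rfl⟩
        simp only [hX₁]
        exact Ideal.mem_sup_right (Ideal.subset_span ⟨_, rfl⟩)
      refine sup_le (sup_le ?_ (sup_le ?_ hle)) ?_
      · rw [Ideal.span_singleton_le_iff_mem, hGeq, map_sub, hC₁]
        exact Ideal.sub_mem _ (Ideal.mem_sup_left (Ideal.mem_sup_left (Ideal.subset_span rfl)))
          ((sup_le (le_sup_right.trans le_sup_left) hle) hg₁)
      · exact le_sup_right.trans le_sup_left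
      · rw [Ideal.span_le]
        rintro _ ⟨i, rfl⟩
        simp only [hX₁, hX₂]
        exact Ideal.sub_mem _ (Ideal.mem_sup_right (Ideal.subset_span ⟨_, rfl⟩))
          (Ideal.mem_sup_right (Ideal.subset_span ⟨_, rfl⟩))
  · rw [hGeq, map_sub, map_sub, hC₁, hC₂]
    have h1 : a₂ (∑ i, ∑ j, z i * c i j * z j) = a₁ (∑ i, ∑ j, z i * c i j * z j) +
        ∑ l, (a₂ (MvPowerSeries.X l) - a₁ (MvPowerSeries.X l)) *
          (∑ m, β (Sum.inl l) m * a₁ (z m) +
            ∑ m, a₂ (c (Sum.inl l) m) * (a₂ (z m) - a₁ (z m))) := by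
      rw [← sub_eq_iff_eq_add', hw2, Fintype.sum_sum_type]
      have h2 : ∑ l : Fin s, (a₂ (z (Sum.inr l)) - a₁ (z (Sum.inr l))) *
          (∑ m, (a₂ (c (Sum.inr l) m) + a₂ (c m (Sum.inr l)) + w (Sum.inr l) m) * a₁ (z m) +
            ∑ m, a₂ (c (Sum.inr l) m) * (a₂ (z m) - a₁ (z m))) = 0 := by
        refine Finset.sum_eq_zero fun l _ => ?_
        rw [hzr, hy, sub_self, zero_mul]
      rw [h2, add_zero]
      rfl
    rw [h1]
    ring
  · intro l
    rw [Fintype.sum_sum_type, Fintype.sum_sum_type]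
    have h2 : ∑ m : Fin s, a₂ (c (Sum.inl l) (Sum.inr m)) *
        (a₂ (z (Sum.inr m)) - a₁ (z (Sum.inr m))) = 0 := by
      refine Finset.sum_eq_zero fun m _ => ?_
      rw [hzr, hy, sub_self, mul_zero]
    rw [h2, add_zero]
    rfl
  · intro l
    exact Ideal.sum_mem _ fun m _ => Ideal.mul_mem_left _ _ (Ideal.subset_span ⟨m, rfl⟩)
  · have h3 : residue _ (Matrix.det (Matrix.of fun l m => μ (β (Sum.inl l) (Sum.inl m)))) =
        residue _ (Matrix.det (Matrix.of fun l m =>
          c (Sum.inl l) (Sum.inl m) + c (Sum.inl m) (Sum.inl l))) := by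
      rw [RingHom.map_det, RingHom.map_det]
      congr 1
      ext l m
      rw [RingHom.mapMatrix_apply, RingHom.mapMatrix_apply, Matrix.map_apply, Matrix.map_apply,
        ← sub_eq_zero, ← map_sub, residue_eq_zero_iff]
      have h1 : μ (β (Sum.inl l) (Sum.inl m)) -
          (c (Sum.inl l) (Sum.inl m) + c (Sum.inl m) (Sum.inl l)) =
          μ (w (Sum.inl l) (Sum.inl m)) := by
        change μ (a₂ (c (Sum.inl l) (Sum.inl m)) + a₂ (c (Sum.inl m) (Sum.inl l)) +
          w (Sum.inl l) (Sum.inl m)) - _ = _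
        rw [map_add μ, map_add μ, hμ₂, hμ₂]
        ring
      change μ (β (Sum.inl l) (Sum.inl m)) -
          (c (Sum.inl l) (Sum.inl m) + c (Sum.inl m) (Sum.inl l)) ∈ _
      rw [h1]
      exact hwm _ _
    rw [← isUnit_map_iff (residue (MvPowerSeries (Fin r) L)), h3]
    exact hc.map _

end mk

end Vale.Agent.P177
end

section

/-!
Serre's statements over a hypersurface in a power series ring over a discrete valuation ring.
-/

namespace Vale.Agent.P177

open TensorProduct IsLocalRing RingTheory.Sequence Function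

universe u

/-- The quotient ring. -/
abbrev QuadRing (V : Type u) [CommRing V] (ϖ : V) (d : ℕ)
    (c : Fin d → Fin d → MvPowerSeries (Fin d) V) : Type u :=
  MvPowerSeries (Fin d) V ⧸ Ideal.span {quadEq V ϖ d c}

/-- The ideal generated by the polar forms. -/
noncomputable def polarIdeal (V : Type u) [CommRing V] (ϖ : V) (d : ℕ)
    (c : Fin d → Fin d → MvPowerSeries (Fin d) V) : Ideal (QuadRing V ϖ d c) :=
  Ideal.span (Set.range fun l : Fin d =>
    ∑ m, Ideal.Quotient.mk (Ideal.span {quadEq V ϖ d c})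
      ((c l m + c m l) * MvPowerSeries.X m))

theorem quadRing_regular (V : Type u) [CommRing V] [IsRegularLocalRing V] (ϖ : V)
    (hϖ : maximalIdeal V = Ideal.span {ϖ}) (hV : ringKrullDim V = (1 : ℕ)) (d : ℕ)
    (c : Fin d → Fin d → MvPowerSeries (Fin d) V) :
    ∃ (_ : IsRegularLocalRing (QuadRing V ϖ d c)),
    Ideal.span (Set.range (fun i => (Ideal.Quotient.mk _ (MvPowerSeries.X i) :
      QuadRing V ϖ d c))) = maximalIdeal (QuadRing V ϖ d c) ∧
    ringKrullDim (QuadRing V ϖ d c) = (d : WithBot ℕ∞) := by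
  obtain ⟨h1, h2, D, hG, hx, -⟩ := exists_QData V ϖ hϖ hV d c
  have key : ∀ (g : MvPowerSeries (Fin d) V) (x : Fin d → MvPowerSeries (Fin d) V), D.G = g →
      D.x = x → ∃ (_ : IsRegularLocalRing (MvPowerSeries (Fin d) V ⧸ Ideal.span {g})),
      Ideal.span (Set.range (fun i => (Ideal.Quotient.mk (Ideal.span {g}) (x i)))) =
        maximalIdeal (MvPowerSeries (Fin d) V ⧸ Ideal.span {g}) ∧
      ringKrullDim (MvPowerSeries (Fin d) V ⧸ Ideal.span {g}) = (d : WithBot ℕ∞) := by
    rintro g x rfl rfl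
    obtain ⟨k1, k2, k3⟩ := D.quot_regular
    refine ⟨k1, ?_, k3⟩
    rw [← k2, Ideal.ofList]
    congr 1
    ext y
    simp only [QData.xs, List.mem_ofFn, Set.mem_range]
    exact Iff.rfl
  exact key _ _ hG hx

theorem serrePair_quadRing (hLOC : LocStmt.{u}) (V : Type u) [CommRing V] [IsRegularLocalRing V]
    (ϖ : V) (hϖ : maximalIdeal V = Ideal.span {ϖ}) (hV : ringKrullDim V = (1 : ℕ)) (d : ℕ)
    (c : Fin d → Fin d → MvPowerSeries (Fin d) V) [hR : IsLocalRing (QuadRing V ϖ d c)]
    (M N : Type u) [AddCommGroup M] [Module (QuadRing V ϖ d c) M]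
    [Module.Finite (QuadRing V ϖ d c) M] [AddCommGroup N] [Module (QuadRing V ϖ d c) N]
    [Module.Finite (QuadRing V ϖ d c) N]
    (hlen : Module.length (QuadRing V ϖ d c) (M ⊗[QuadRing V ϖ d c] N) ≠ ⊤)
    (htr : TransTo (Module.annihilator (QuadRing V ϖ d c) M)
      (Module.annihilator (QuadRing V ϖ d c) N) (polarIdeal V ϖ d c)) :
    SerrePair (QuadRing V ϖ d c) d M N := by
  by_cases hd0 : 0 < d
  · obtain ⟨h1, h2, D, hG, hx, hβ⟩ := exists_QData V ϖ hϖ hV d c
    have hB : SerreAll (MvPowerSeries (Fin d) V) (d + 1) :=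
      serreAll_powerSeries 4 locPos_four V (by rw [hV]; norm_num) d (d + 1) D.dimB
    have key : ∀ (g : MvPowerSeries (Fin d) V) (x : Fin d → MvPowerSeries (Fin d) V), D.G = g →
        D.x = x → ∀ [IsLocalRing (MvPowerSeries (Fin d) V ⧸ Ideal.span {g})] (M N : Type u)
        [AddCommGroup M] [Module (MvPowerSeries (Fin d) V ⧸ Ideal.span {g}) M]
        [Module.Finite (MvPowerSeries (Fin d) V ⧸ Ideal.span {g}) M] [AddCommGroup N]
        [Module (MvPowerSeries (Fin d) V ⧸ Ideal.span {g}) N]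
        [Module.Finite (MvPowerSeries (Fin d) V ⧸ Ideal.span {g}) N]
        (_ : Module.length (MvPowerSeries (Fin d) V ⧸ Ideal.span {g})
          (M ⊗[MvPowerSeries (Fin d) V ⧸ Ideal.span {g}] N) ≠ ⊤)
        (_ : TransTo (Module.annihilator (MvPowerSeries (Fin d) V ⧸ Ideal.span {g}) M)
          (Module.annihilator (MvPowerSeries (Fin d) V ⧸ Ideal.span {g}) N)
          (Ideal.span (Set.range fun l : Fin d => ∑ m, Ideal.Quotient.mk (Ideal.span {g})
            ((c l m + c m l) * x m)))),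
        SerrePair (MvPowerSeries (Fin d) V ⧸ Ideal.span {g}) d M N := by
      rintro g x rfl rfl _ M N _ _ _ _ _ _ hlen htr
      refine D.serrePair hLOC hB hd0 M N hlen fun _ => ?_
      have hmB : (maximalIdeal (MvPowerSeries (Fin d) V)).map
          (Ideal.Quotient.mk (Ideal.span {D.G})) =
          maximalIdeal (MvPowerSeries (Fin d) V ⧸ Ideal.span {D.G}) :=
        map_maximalIdeal_of_surjective _ Ideal.Quotient.mk_surjective
      refine TransTo.of_sup (htr.mono le_rfl le_rfl ?_)
      rw [Ideal.span_le]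
      rintro _ ⟨l, rfl⟩
      have e1 : ∑ m, Ideal.Quotient.mk (Ideal.span {D.G}) ((c l m + c m l) * D.x m) =
          ∑ m, Ideal.Quotient.mk _ (D.μ (D.β l m)) *
            Ideal.Quotient.mk (Ideal.span {D.G}) (D.x m) -
          ∑ m, Ideal.Quotient.mk (Ideal.span {D.G}) (D.μ (D.β l m) - polarMatrix V d c l m) *
            Ideal.Quotient.mk (Ideal.span {D.G}) (D.x m) := by
        rw [← Finset.sum_sub_distrib]
        refine Finset.sum_congr rfl fun m _ => ?_
        rw [← map_mul, ← map_mul, ← map_sub]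
        congr 1
        simp only [polarMatrix]
        ring
      simp only [SetLike.mem_coe]
      rw [e1]
      refine Ideal.sub_mem _ (Ideal.mem_sup_left (Ideal.subset_span ⟨l, rfl⟩))
        (Ideal.mem_sup_right (Ideal.sum_mem _ fun m _ => ?_))
      rw [pow_two]
      refine Ideal.mul_mem_mul ?_ ?_
      · rw [← hmB]
        exact Ideal.mem_map_of_mem _ (hβ l m)
      · rw [← hmB]
        refine Ideal.mem_map_of_mem _ ?_
        rw [D.maxB]
        exact Ideal.mem_sup_right (Ideal.subset_span ⟨m, rfl⟩)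
    exact key _ _ hG hx M N hlen htr
  · obtain ⟨k1, -, k3⟩ := quadRing_regular V ϖ hϖ hV d c
    exact serreAll_essSmooth 4 locPos_four (QuadRing V ϖ d c) (QuadRing V ϖ d c)
      (by rw [k3]; exact_mod_cast (by omega : d ≤ 4)) d k3 M N hlen

/-- The polar ideal is the maximal ideal when the polar matrix is invertible. -/
theorem transTo_of_isUnit_det (V : Type u) [CommRing V] [IsRegularLocalRing V]
    (ϖ : V) (hϖ : maximalIdeal V = Ideal.span {ϖ}) (hV : ringKrullDim V = (1 : ℕ)) (d : ℕ)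
    (c : Fin d → Fin d → MvPowerSeries (Fin d) V) (hc : IsUnit (polarMatrix V d c).det)
    [hR : IsLocalRing (QuadRing V ϖ d c)] (I J : Ideal (QuadRing V ϖ d c)) :
    TransTo I J (polarIdeal V ϖ d c) := by
  obtain ⟨k1, k2, -⟩ := quadRing_regular V ϖ hϖ hV d c
  refine ⟨0, ?_⟩
  rw [zero_add, pow_zero, mul_one, pow_one]
  refine le_sup_of_le_right ?_
  rw [← k2, Ideal.span_le]
  rintro _ ⟨i, rfl⟩
  have h4 := Matrix.nonsing_inv_mul (polarMatrix V d c) hc
  have h5 : (MvPowerSeries.X i : MvPowerSeries (Fin d) V) = ∑ l, (polarMatrix V d c)⁻¹ i l *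
      ∑ m, (c l m + c m l) * MvPowerSeries.X m := by
    simp only [Finset.mul_sum]
    rw [Finset.sum_comm]
    rw [Finset.sum_eq_single i]
    · have h6 := congrFun (congrFun h4 i) i
      rw [Matrix.mul_apply, Matrix.one_apply_eq] at h6
      simp only [← mul_assoc, ← Finset.sum_mul]
      change MvPowerSeries.X i = (∑ l, (polarMatrix V d c)⁻¹ i l * polarMatrix V d c l i) *
        MvPowerSeries.X i
      rw [h6, one_mul]
    · intro m _ hm
      have h6 := congrFun (congrFun h4 i) m
      rw [Matrix.mul_apply, Matrix.one_apply_ne (Ne.symm hm)] at h6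
      simp only [← mul_assoc, ← Finset.sum_mul]
      change (∑ l, (polarMatrix V d c)⁻¹ i l * polarMatrix V d c l m) *
        MvPowerSeries.X m = 0
      rw [h6, zero_mul]
    · simp
  simp only [SetLike.mem_coe]
  rw [h5, map_sum]
  refine Ideal.sum_mem _ fun l _ => ?_
  rw [map_mul]
  refine Ideal.mul_mem_left _ _ ?_
  rw [map_sum]
  exact Ideal.subset_span ⟨l, rfl⟩

section descend

variable {R C : Type u} [CommRing R] [CommRing C] [IsLocalRing R] [IsNoetherianRing R]
  [IsLocalRing C] [IsNoetherianRing C] [Algebra R C] [Module.Flat R C]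

theorem SerrePair.descend (hloc : (maximalIdeal R).map (algebraMap R C) = maximalIdeal C) {d : ℕ}
    (M N : Type u) [AddCommGroup M] [Module R M] [Module.Finite R M]
    [AddCommGroup N] [Module R N] [Module.Finite R N]
    (h : SerrePair C d (C ⊗[R] M) (C ⊗[R] N)) : SerrePair R d M N := by
  obtain ⟨h1, h2⟩ := h
  have heq : eulerTor C (d + 1) (C ⊗[R] M) (C ⊗[R] N) = eulerTor R (d + 1) M N := by
    unfold eulerTor
    refine Finset.sum_congr rfl fun j _ => ?_
    rw [length_tor_bc₂ (A := R) (C := C) hloc j (TensorProduct.isBaseChange R M C)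
      (TensorProduct.isBaseChange R N C)]
  rw [heq] at h1 h2
  exact ⟨h1, fun m n hm hn => h2 m n (hm.trans (supportDim_le_baseChange R C hloc M))
    (hn.trans (supportDim_le_baseChange R C hloc N))⟩

end descend

end Vale.Agent.P177
end

section

/-!
Existence of a good chart.
-/

namespace Vale.Agent.P177

open IsLocalRing Function

universe u

section cond

variable {R₁ R₂ A : Type u} [CommRing R₁] [CommRing R₂] [CommRing A]
  [IsRegularLocalRing R₁] [IsRegularLocalRing R₂] [IsRegularLocalRing A]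
  [Algebra R₁ A] [Algebra R₂ A]
  [IsLocalHom (algebraMap R₁ A)] [IsLocalHom (algebraMap R₂ A)] {d : ℕ}

/-- The initial forms of the elements of an ideal, over the residue field of `A`. -/
def inSet {R A : Type u} [CommRing R] [CommRing A] [IsLocalRing A] [Algebra R A]
    {d : ℕ} (x' : Fin d → R) (θ : Fin d → Fin d → A) (I : Ideal R) :
    Set (MvPolynomial (Fin d) (ResidueField A)) :=
  {f | ∃ (n : ℕ) (F : MvPolynomial (Fin d) R), F.IsHomogeneous n ∧ MvPolynomial.eval x' F ∈ I ∧
    f = (tMap R θ F).map (residue A)}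

theorem inForm_of_le {R A : Type u} [CommRing R] [CommRing A] [IsLocalRing R] [IsLocalRing A]
    [Algebra R A] [IsLocalHom (algebraMap R A)] {d : ℕ} {x' : Fin d → R}
    {θ : Fin d → Fin d → A} {I : Ideal R} {z : Ideal (MvPolynomial (Fin d) (ResidueField A))}
    (h : inSet x' θ I ⊆ z) : InForm x' I (z.comap (jMap R θ)) := by
  intro n F hF hFI
  change jMap R θ (F.map (residue R)) ∈ z
  rw [← map_tMap]
  exact h ⟨n, F, hF, hFI, rfl⟩

theorem exists_linear [Infinite (ResidueField A)] (hd₁ : ringKrullDim R₁ = d)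
    (hd₂ : ringKrullDim R₂ = d) {x₁ : Fin d → R₁} {x₂ : Fin d → R₂}
    (hx₁ : Ideal.span (Set.range x₁) = maximalIdeal R₁)
    (hx₂ : Ideal.span (Set.range x₂) = maximalIdeal R₂) (θ₁ θ₂ : Fin d → Fin d → A)
    (I : Ideal R₁) (J : Ideal R₂)
    (hK : ∀ (z : Ideal (MvPolynomial (Fin d) (ResidueField A))) [z.IsPrime],
      (∀ f ∈ z, ∀ n, MvPolynomial.homogeneousComponent n f ∈ z) →
      (∃ i, MvPolynomial.X i ∉ z) →
      InForm x₁ I (z.comap (jMap R₁ θ₁)) →
      InForm x₂ J (z.comap (jMap R₂ θ₂)) →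
      (z.comap (jMap R₁ θ₁)).height + (z.comap (jMap R₂ θ₂)).height ≤ z.height + 1)
    (hH : ∀ P₁ : Ideal R₁, P₁.IsPrime → I ≤ P₁ → ∀ P₂ : Ideal R₂, P₂.IsPrime → J ≤ P₂ →
      (d : ℕ∞) ≤ P₁.height + P₂.height) :
    ∃ (c : Fin d → A) (n : ℕ), (Ideal.span (Set.range MvPolynomial.X)) ^ (n + 1) ≤
      Ideal.span (inSet x₁ θ₁ I ∪ inSet x₂ θ₂ J ∪
        {∑ i, MvPolynomial.C (residue A (c i)) * MvPolynomial.X i}) := by
  obtain ⟨c', hc'⟩ := exists_generic (Ideal.span (inSet x₁ θ₁ I ∪ inSet x₂ θ₂ J))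
  choose c hc using fun i => residue_surjective (c' i)
  obtain rfl : (fun i => residue A (c i)) = c' := funext hc
  have hs : ∀ f ∈ inSet x₁ θ₁ I ∪ inSet x₂ θ₂ J, ∃ n : ℕ, f.IsHomogeneous n := by
    rintro f (⟨n, F, hF, -, rfl⟩ | ⟨n, F, hF, -, rfl⟩)
    · exact ⟨n, (tMap_isHomogeneous θ₁ hF).map _⟩
    · exact ⟨n, (tMap_isHomogeneous θ₂ hF).map _⟩
  have hs' : ∀ f ∈ inSet x₁ θ₁ I ∪ inSet x₂ θ₂ J ∪
        {∑ i, MvPolynomial.C (residue A (c i)) * MvPolynomial.X i}, ∃ n : ℕ,
        f.IsHomogeneous n := by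
    rintro f (hf | rfl)
    · exact hs f hf
    · refine ⟨1, MvPolynomial.IsHomogeneous.sum _ _ _ fun l _ => ?_⟩
      exact MvPolynomial.IsHomogeneous.C_mul (MvPolynomial.isHomogeneous_X _ _) _
  have key : Ideal.span (Set.range MvPolynomial.X) ≤ (Ideal.span (inSet x₁ θ₁ I ∪
      inSet x₂ θ₂ J ∪ {∑ i, MvPolynomial.C (residue A (c i)) * MvPolynomial.X i})).radical := by
    rw [← Ideal.sInf_minimalPrimes]
    refine le_sInf fun z' hz' => ?_
    rw [Ideal.span_le]
    by_contra hcon
    rw [Set.range_subset_iff] at hcon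
    push Not at hcon
    obtain ⟨i, hi⟩ := hcon
    have hz'p : z'.IsPrime := hz'.1.1
    have hz'h : HomId z' := minimal_homId _ hs' rfl hz'
    have hle : Ideal.span (inSet x₁ θ₁ I ∪ inSet x₂ θ₂ J) ≤ z' :=
      (Ideal.span_mono Set.subset_union_left).trans hz'.1.2
    obtain ⟨z, hz, hzz'⟩ := Ideal.exists_minimalPrimes_le hle
    have hzp : z.IsPrime := hz.1.1
    have hzh : HomId z := minimal_homId _ hs rfl hz
    have hiz : MvPolynomial.X i ∉ z := fun h => hi (hzz' h)
    have hξ := hc' z hz ⟨i, hiz⟩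
    have hlt : z < z' := by
      refine lt_of_le_of_ne hzz' ?_
      rintro rfl
      exact hξ (hz'.1.2 (Ideal.subset_span (Or.inr rfl)))
    have h1 := Ideal.height_add_one_le_of_lt_of_isPrime hlt
    have h2 := height_lt_of_homogeneous z' hz'h ⟨i, hi⟩
    have hin₁ : InForm x₁ I (z.comap (jMap R₁ θ₁)) := inForm_of_le fun f hf =>
      hz.1.2 (Ideal.subset_span (Or.inl hf))
    have hin₂ : InForm x₂ J (z.comap (jMap R₂ θ₂)) := inForm_of_le fun f hf =>
      hz.1.2 (Ideal.subset_span (Or.inr hf))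
    have h3 := hK z hzh ⟨i, hiz⟩ hin₁ hin₂
    obtain ⟨P₁, hP₁, hIP₁, hht₁⟩ := exists_prime_height_le (I := I) hd₁ hx₁
      (z.comap (jMap R₁ θ₁)) (eStar_le hx₁ _ hin₁)
    obtain ⟨P₂, hP₂, hJP₂, hht₂⟩ := exists_prime_height_le (I := J) hd₂ hx₂
      (z.comap (jMap R₂ θ₂)) (eStar_le hx₂ _ hin₂)
    have h4 : (d : ℕ∞) ≤ z.height + 1 :=
      (hH P₁ hP₁ hIP₁ P₂ hP₂ hJP₂).trans ((add_le_add hht₁ hht₂).trans h3)
    have h5 : z.height + 1 + 1 ≤ d := (add_le_add h1 le_rfl).trans h2
    have h6 : z.height + 1 + 1 ≤ z.height + 1 := h5.trans h4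
    have h7 : z.height ≠ ⊤ := by
      intro h8
      rw [h8] at h5
      exact absurd (top_le_iff.1 h5) (by simp)
    obtain ⟨m, hm⟩ := ENat.ne_top_iff_exists.1 h7
    rw [← hm] at h6
    have h8 : m + 1 + 1 ≤ m + 1 := by exact_mod_cast h6
    omega
  obtain ⟨n, hn⟩ := Ideal.exists_pow_le_of_le_radical_of_fg key (IsNoetherian.noetherian _)
  exact ⟨c, n, (Ideal.pow_le_pow_right (Nat.le_succ n)).trans hn⟩

/-- Existence of a chart satisfying the generation condition. -/
theorem exists_chart [Infinite (ResidueField A)] (hd₁ : ringKrullDim R₁ = d)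
    (hd₂ : ringKrullDim R₂ = d) {x₁ : Fin d → R₁} {x₂ : Fin d → R₂} {x : Fin d → A}
    (hx₁ : Ideal.span (Set.range x₁) = maximalIdeal R₁)
    (hx₂ : Ideal.span (Set.range x₂) = maximalIdeal R₂)
    (hx : Ideal.span (Set.range x) = maximalIdeal A) (θ₁ θ₂ : Fin d → Fin d → A)
    (hθ₁ : ∀ i, algebraMap R₁ A (x₁ i) = ∑ l, θ₁ i l * x l)
    (hθ₂ : ∀ i, algebraMap R₂ A (x₂ i) = ∑ l, θ₂ i l * x l)
    (I : Ideal R₁) (J : Ideal R₂)
    (hK : ∀ (z : Ideal (MvPolynomial (Fin d) (ResidueField A))) [z.IsPrime],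
      (∀ f ∈ z, ∀ n, MvPolynomial.homogeneousComponent n f ∈ z) →
      (∃ i, MvPolynomial.X i ∉ z) →
      InForm x₁ I (z.comap (jMap R₁ θ₁)) →
      InForm x₂ J (z.comap (jMap R₂ θ₂)) →
      (z.comap (jMap R₁ θ₁)).height + (z.comap (jMap R₂ θ₂)).height ≤ z.height + 1)
    (hH : ∀ P₁ : Ideal R₁, P₁.IsPrime → I ≤ P₁ → ∀ P₂ : Ideal R₂, P₂.IsPrime → J ≤ P₂ →
      (d : ℕ∞) ≤ P₁.height + P₂.height) :
    ∃ (c : Fin d → A) (n₀ : ℕ), maximalIdeal A ^ (n₀ + 1) ≤
      (I.map (algebraMap R₁ A) ⊓ maximalIdeal A ^ (n₀ + 1)) ⊔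
      (J.map (algebraMap R₂ A) ⊓ maximalIdeal A ^ (n₀ + 1)) ⊔
      Ideal.span {x0 x c} * maximalIdeal A ^ n₀ := by
  obtain ⟨c, n₀, hc⟩ := exists_linear hd₁ hd₂ hx₁ hx₂ θ₁ θ₂ I J hK hH
  refine ⟨c, n₀, ?_⟩
  refine pow_le_of_liftable hx (W := fun n => (I.map (algebraMap R₁ A) ⊓ maximalIdeal A ^ n) ⊔
      (J.map (algebraMap R₂ A) ⊓ maximalIdeal A ^ n) ⊔
      Ideal.span {x0 x c} * maximalIdeal A ^ (n - 1)) ?_ (n₀ + 1) hc
  rintro f ((⟨n, F, hF, hFI, rfl⟩ | ⟨n, F, hF, hFI, rfl⟩) | rfl)
  · refine ⟨n, tMap R₁ θ₁ F, tMap_isHomogeneous θ₁ hF, rfl, fun j b hb => ?_⟩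
    have h1 := eval_mem_pow hx (tMap_isHomogeneous θ₁ hF)
    refine Submodule.mem_sup_left (Submodule.mem_sup_left ⟨?_, ?_⟩)
    · rw [eval_tMap θ₁ hθ₁]
      exact Ideal.mul_mem_left _ _ (Ideal.mem_map_of_mem _ hFI)
    · rw [pow_add]
      exact Ideal.mul_mem_mul hb h1
  · refine ⟨n, tMap R₂ θ₂ F, tMap_isHomogeneous θ₂ hF, rfl, fun j b hb => ?_⟩
    have h1 := eval_mem_pow hx (tMap_isHomogeneous θ₂ hF)
    refine Submodule.mem_sup_left (Submodule.mem_sup_right ⟨?_, ?_⟩)
    · rw [eval_tMap θ₂ hθ₂]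
      exact Ideal.mul_mem_left _ _ (Ideal.mem_map_of_mem _ hFI)
    · rw [pow_add]
      exact Ideal.mul_mem_mul hb h1
  · refine ⟨1, ∑ i, MvPolynomial.C (c i) * MvPolynomial.X i, ?_, ?_, fun j b hb => ?_⟩
    · refine MvPolynomial.IsHomogeneous.sum _ _ _ fun l _ => ?_
      exact MvPolynomial.IsHomogeneous.C_mul (MvPolynomial.isHomogeneous_X _ _) _
    · rw [map_sum]
      refine Finset.sum_congr rfl fun i _ => ?_
      rw [map_mul, MvPolynomial.map_C, MvPolynomial.map_X]
    · refine Submodule.mem_sup_right ?_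
      have h1 : MvPolynomial.eval x (∑ i, MvPolynomial.C (c i) * MvPolynomial.X i) = x0 x c := by
        rw [map_sum]
        unfold x0
        refine Finset.sum_congr rfl fun i _ => ?_
        rw [map_mul, MvPolynomial.eval_C, MvPolynomial.eval_X]
      rw [h1, mul_comm b, Nat.add_sub_cancel]
      exact Ideal.mul_mem_mul (Ideal.mem_span_singleton_self _) hb

end cond

end Vale.Agent.P177
end

section

/-!
The local positivity theorem for a pair of flat local maps with transversality of tangent cones.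
-/

namespace Vale.Agent.P177

open IsLocalRing Function TensorProduct

universe u

theorem map_smul_eq_zero {R A : Type u} [CommRing R] [CommRing A] [Algebra R A] (M : Type u)
    [AddCommGroup M] [Module R M] (c : A)
    (hc : c ∈ (Module.annihilator R M).map (algebraMap R A)) (v : A ⊗[R] M) : c • v = 0 := by
  have h1 : (Module.annihilator R M).map (algebraMap R A) ≤ Module.annihilator A (A ⊗[R] M) := by
    rw [Ideal.map_le_iff_le_comap]
    intro r hr
    change algebraMap R A r ∈ Module.annihilator A (A ⊗[R] M)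
    rw [Module.mem_annihilator]
    intro w
    induction w with
    | zero => rw [smul_zero]
    | add y z hy hz => rw [smul_add, hy, hz, add_zero]
    | tmul s m =>
      rw [algebraMap_smul, ← TensorProduct.tmul_smul, Module.mem_annihilator.1 hr,
        TensorProduct.tmul_zero]
  exact Module.mem_annihilator.1 (h1 hc) v

section pos

variable {R₁ R₂ A : Type u} [CommRing R₁] [CommRing R₂] [CommRing A]
  [IsRegularLocalRing R₁] [IsRegularLocalRing R₂] [IsRegularLocalRing A]
  [Algebra R₁ A] [Algebra R₂ A] [Module.Flat R₁ A] [Module.Flat R₂ A]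
  [IsLocalHom (algebraMap R₁ A)] [IsLocalHom (algebraMap R₂ A)] {d : ℕ}

/-- The local positivity theorem, with general changes of parameters. -/
theorem loc_pos_aux [Infinite (ResidueField A)] (hd₁ : ringKrullDim R₁ = d)
    (hd₂ : ringKrullDim R₂ = d) (hd : ringKrullDim A = d) {x₁ : Fin d → R₁} {x₂ : Fin d → R₂}
    {x : Fin d → A} (hx₁ : Ideal.span (Set.range x₁) = maximalIdeal R₁)
    (hx₂ : Ideal.span (Set.range x₂) = maximalIdeal R₂)
    (hx : Ideal.span (Set.range x) = maximalIdeal A)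
    (hxA : (maximalIdeal R₁).map (algebraMap R₁ A) = maximalIdeal A)
    (hyA : (maximalIdeal R₂).map (algebraMap R₂ A) = maximalIdeal A)
    (θ₁ θ₂ : Fin d → Fin d → A)
    (hθ₁ : ∀ i, algebraMap R₁ A (x₁ i) = ∑ l, θ₁ i l * x l)
    (hθ₂ : ∀ i, algebraMap R₂ A (x₂ i) = ∑ l, θ₂ i l * x l)
    (hf₁ : (eMap θ₁ hθ₁).Flat) (hf₂ : (eMap θ₂ hθ₂).Flat)
    (M N : Type u) [AddCommGroup M] [Module R₁ M] [Module.Finite R₁ M]
    [AddCommGroup N] [Module R₂ N] [Module.Finite R₂ N]
    (hK : ∀ (z : Ideal (MvPolynomial (Fin d) (ResidueField A))) [z.IsPrime],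
      (∀ f ∈ z, ∀ n, MvPolynomial.homogeneousComponent n f ∈ z) →
      (∃ i, MvPolynomial.X i ∉ z) →
      InForm x₁ (Module.annihilator R₁ M) (z.comap (jMap R₁ θ₁)) →
      InForm x₂ (Module.annihilator R₂ N) (z.comap (jMap R₂ θ₂)) →
      (z.comap (jMap R₁ θ₁)).height + (z.comap (jMap R₂ θ₂)).height ≤ z.height + 1)
    (hFP : FP R₁ R₂ A M N)
    (hdim : ∀ e g : ℕ, (e : WithBot ℕ∞) ≤ Module.supportDim R₁ M →
      (g : WithBot ℕ∞) ≤ Module.supportDim R₂ N → e + g ≤ d) :
    0 ≤ eulerTor A (d + 1) (A ⊗[R₁] M) (A ⊗[R₂] N) ∧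
    (∀ e g : ℕ, (e : WithBot ℕ∞) ≤ Module.supportDim R₁ M →
      (g : WithBot ℕ∞) ≤ Module.supportDim R₂ N → d ≤ e + g →
      0 < eulerTor A (d + 1) (A ⊗[R₁] M) (A ⊗[R₂] N)) := by
  rcases subsingleton_or_nontrivial M with hM | hM
  · have hM' : Subsingleton (A ⊗[R₁] M) := inferInstance
    refine ⟨(eulerTor_left_zero _ _ _ hM').ge, fun e g he _ _ => ?_⟩
    rw [Module.supportDim_eq_bot_of_subsingleton] at he
    exact absurd (le_bot_iff.1 he) (WithBot.coe_ne_bot)
  rcases subsingleton_or_nontrivial N with hN | hN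
  · have hN' : Subsingleton (A ⊗[R₂] N) := inferInstance
    refine ⟨(eulerTor_right_zero _ _ _ hN').ge, fun e g _ hg _ => ?_⟩
    rw [Module.supportDim_eq_bot_of_subsingleton] at hg
    exact absurd (le_bot_iff.1 hg) (WithBot.coe_ne_bot)
  have hff₁ : Module.FaithfullyFlat R₁ A := Module.FaithfullyFlat.of_flat_of_isLocalHom
  have hff₂ : Module.FaithfullyFlat R₂ A := Module.FaithfullyFlat.of_flat_of_isLocalHom
  have hM' : Nontrivial (A ⊗[R₁] M) := inferInstance
  have hN' : Nontrivial (A ⊗[R₂] N) := inferInstance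
  obtain ⟨c, n₀, hc⟩ := exists_chart hd₁ hd₂ hx₁ hx₂ hx θ₁ θ₂ hθ₁ hθ₂
    (Module.annihilator R₁ M) (Module.annihilator R₂ N) hK
    (fun P₁ hP₁ hI P₂ hP₂ hJ => height_ge_of_supportDim hd₁ hd₂ M N hdim P₁ hP₁ hI P₂ hP₂ hJ)
  have hS := chart_isStrict hd hx c
  have hx0 := x0_mem hx c
  obtain ⟨f, hf⟩ := exists_chart_away x c (Localization.Away (x0 x c))
      (IsLocalization.Away.algebraMap_isUnit (x0 x c))
  obtain ⟨p₁, p₂⟩ := pos_of_chart (A := A) (S := Chart x c) hd (M := A ⊗[R₁] M)
    (N := A ⊗[R₂] N) (fun i => hFP.length_ne_top i) hx0 (n₀ := n₀)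
    (I₁ := (Module.annihilator R₁ M).map (algebraMap R₁ A))
    (J₁ := (Module.annihilator R₂ N).map (algebraMap R₂ A))
    (map_smul_eq_zero M) (map_smul_eq_zero N) hc hS
    (stMap_isStrict (M := A ⊗[R₁] M) hS hx0 f hf)
    (stMap_isStrict (M := A ⊗[R₂] N) hS hx0 f hf)
    (fun m hm hlen => chart_local_nonneg hd₁ hd₂ hd hx₁ hx₂ hx θ₁ θ₂ hθ₁ hθ₂ hf₁ hf₂ c
      m.asIdeal hm M N hK (hlen 0 (Nat.succ_pos d)))
  refine ⟨p₁, fun e g he hg hle => p₂ e g ?_ ?_ hle⟩
  · exact he.trans (supportDim_le_baseChange R₁ A hxA M)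
  · exact hg.trans (supportDim_le_baseChange R₂ A hyA N)

/-- The local positivity theorem for a pair of flat local maps. -/
theorem loc_pos [Infinite (ResidueField A)] (hd₁ : ringKrullDim R₁ = d)
    (hd₂ : ringKrullDim R₂ = d) (hd : ringKrullDim A = d) {x₁ : Fin d → R₁} {x₂ : Fin d → R₂}
    (hx₁ : Ideal.span (Set.range x₁) = maximalIdeal R₁)
    (hx₂ : Ideal.span (Set.range x₂) = maximalIdeal R₂)
    (hxA : (maximalIdeal R₁).map (algebraMap R₁ A) = maximalIdeal A)
    (hyA : (maximalIdeal R₂).map (algebraMap R₂ A) = maximalIdeal A)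
    (θ : Fin d → Fin d → A)
    (hθ : ∀ i, algebraMap R₂ A (x₂ i) = ∑ l, θ i l * algebraMap R₁ A (x₁ l))
    (M N : Type u) [AddCommGroup M] [Module R₁ M] [Module.Finite R₁ M]
    [AddCommGroup N] [Module R₂ N] [Module.Finite R₂ N]
    (hK : ∀ (z : Ideal (MvPolynomial (Fin d) (ResidueField A))) [z.IsPrime],
      (∀ f ∈ z, ∀ n, MvPolynomial.homogeneousComponent n f ∈ z) →
      (∃ i, MvPolynomial.X i ∉ z) →
      InForm x₁ (Module.annihilator R₁ M)
        (z.comap (MvPolynomial.map (ResidueField.map (algebraMap R₁ A)))) →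
      InForm x₂ (Module.annihilator R₂ N) (z.comap (jMap R₂ θ)) →
      (z.comap (MvPolynomial.map (ResidueField.map (algebraMap R₁ A)))).height +
        (z.comap (jMap R₂ θ)).height ≤ z.height + 1)
    (hFP : FP R₁ R₂ A M N)
    (hdim : ∀ e g : ℕ, (e : WithBot ℕ∞) ≤ Module.supportDim R₁ M →
      (g : WithBot ℕ∞) ≤ Module.supportDim R₂ N → e + g ≤ d) :
    0 ≤ eulerTor A (d + 1) (A ⊗[R₁] M) (A ⊗[R₂] N) ∧
    (∀ e g : ℕ, (e : WithBot ℕ∞) ≤ Module.supportDim R₁ M →
      (g : WithBot ℕ∞) ≤ Module.supportDim R₂ N → d ≤ e + g →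
      0 < eulerTor A (d + 1) (A ⊗[R₁] M) (A ⊗[R₂] N)) := by
  have hx : Ideal.span (Set.range fun l => algebraMap R₁ A (x₁ l)) = maximalIdeal A := by
    rw [← hxA, ← hx₁, Ideal.map_span, ← Set.range_comp]
    rfl
  have hy : Ideal.span (Set.range fun l => algebraMap R₂ A (x₂ l)) = maximalIdeal A := by
    rw [← hyA, ← hx₂, Ideal.map_span, ← Set.range_comp]
    rfl
  let θ₁ : Fin d → Fin d → A := fun i l => if i = l then 1 else 0
  have hθ₁ : ∀ i, algebraMap R₁ A (x₁ i) = ∑ l, θ₁ i l * algebraMap R₁ A (x₁ l) := fun i =>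
    (sum_ite_mul i fun l => algebraMap R₁ A (x₁ l)).symm
  have hone : ∀ i l, ∑ m, θ₁ i m * θ₁ m l = if i = l then 1 else 0 := fun i l =>
    sum_ite_mul i fun m => θ₁ m l
  have hf₁ : (eMap (x' := x₁) (x := fun l => algebraMap R₁ A (x₁ l)) θ₁ hθ₁).Flat :=
    eMap_flat θ₁ hθ₁ θ₁ hθ₁ hone hone
  obtain ⟨θ', h1, h2, h3⟩ := exists_inverse hd hx hy θ hθ
  have hf₂ : (eMap (x' := x₂) (x := fun l => algebraMap R₁ A (x₁ l)) θ hθ).Flat :=
    eMap_flat θ hθ θ' h1 h2 h3
  refine loc_pos_aux hd₁ hd₂ hd hx₁ hx₂ hx hxA hyA θ₁ θ hθ₁ hθ hf₁ hf₂ M N ?_ hFP hdim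
  have hj : jMap R₁ θ₁ = MvPolynomial.map (ResidueField.map (algebraMap R₁ A)) := jMap_one
  rw [hj]
  exact hK

end pos

end Vale.Agent.P177
end

section

/-!
The theorem on ramified hypersurface rings.
-/

namespace Vale.Agent.P177

open TensorProduct IsLocalRing RingTheory.Sequence Function

universe u

theorem locStmt : LocStmt.{u} := by
  intro R₁ R₂ W _ _ _ _ _ _ j₁ j₂ hl₁ hl₂ hf₁ hf₂ hinf d hd₁ hd₂ hd x₁ x₂ hx₁ hx₂ hm₁ hm₂ θ hθ
    E G _ _ _ _ _ _ hK hFP hdim
  let _ : Algebra R₁ W := j₁.toAlgebra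
  let _ : Algebra R₂ W := j₂.toAlgebra
  have i1 : Module.Flat R₁ W := hf₁
  have i2 : Module.Flat R₂ W := hf₂
  have i3 : IsLocalHom (algebraMap R₁ W) := hl₁
  have i4 : IsLocalHom (algebraMap R₂ W) := hl₂
  have e₁ : jHom j₁ (idMat d) = MvPolynomial.map (ResidueField.map (algebraMap R₁ W)) :=
    jMap_one (R := R₁) (A := W)
  have e₂ : jHom j₂ θ = jMap R₂ θ := rfl
  obtain ⟨h1, h2⟩ := loc_pos hd₁ hd₂ hd hx₁ hx₂ hm₁ hm₂ θ hθ E G (fun z hz hhom hX hI hJ => by
    have := hK z hhom hX (fun n F hF hFI => by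
      rw [e₁]
      exact hI n F hF hFI) (fun n F hF hFJ => by
      rw [e₂]
      exact hJ n F hF hFJ)
    rwa [e₁, e₂] at this) hFP hdim
  exact ⟨hdim, h1, h2⟩

/-- Serre's statements for a pair of modules over an arbitrary regular local ring
`V[[x_1, …, x_d]]/(ϖ - ∑ x_i c_ij x_j)`, when the tangent cones meet the radical of the polar form
only at the origin. -/
theorem serrePair_of_transTo (V : Type u) [CommRing V] [IsRegularLocalRing V]
    (ϖ : V) (hϖ : maximalIdeal V = Ideal.span {ϖ}) (hV : ringKrullDim V = (1 : ℕ)) (d : ℕ)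
    (c : Fin d → Fin d → MvPowerSeries (Fin d) V) [IsLocalRing (QuadRing V ϖ d c)]
    (M N : Type u) [AddCommGroup M] [Module (QuadRing V ϖ d c) M]
    [Module.Finite (QuadRing V ϖ d c) M] [AddCommGroup N] [Module (QuadRing V ϖ d c) N]
    [Module.Finite (QuadRing V ϖ d c) N]
    (hlen : Module.length (QuadRing V ϖ d c) (M ⊗[QuadRing V ϖ d c] N) ≠ ⊤)
    (htr : TransTo (Module.annihilator (QuadRing V ϖ d c) M)
      (Module.annihilator (QuadRing V ϖ d c) N) (polarIdeal V ϖ d c)) :
    SerrePair (QuadRing V ϖ d c) d M N :=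
  serrePair_quadRing locStmt V ϖ hϖ hV d c M N hlen htr

/-- Serre's positivity conjecture for ramified regular local rings with nondegenerate quadratic
part. -/
theorem serreAll_of_nondegenerate (V : Type u) [CommRing V] [IsRegularLocalRing V]
    (ϖ : V) (hϖ : maximalIdeal V = Ideal.span {ϖ}) (hV : ringKrullDim V = (1 : ℕ)) (d : ℕ)
    (c : Fin d → Fin d → MvPowerSeries (Fin d) V) (hc : IsUnit (polarMatrix V d c).det) :
    SerreAll (QuadRing V ϖ d c) d := by
  intro M N _ _ _ _ _ _ hlen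
  obtain ⟨h1, -, -⟩ := quadRing_regular V ϖ hϖ hV d c
  exact serrePair_of_transTo V ϖ hϖ hV d c M N hlen (transTo_of_isUnit_det V ϖ hϖ hV d c hc _ _)

end Vale.Agent.P177
end

section

/-!
Finite local subalgebras of an algebraically closed field with a prescribed maximal ideal, and
adjunction of roots to the residue field.
-/

namespace Vale.Agent.P177

open IsLocalRing Function

universe u

section mA

variable {R : Type u} [CommRing R] {Ω : Type u} [Field Ω] [Algebra R Ω] {d : ℕ}
  (x : Fin d → R)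

/-- The elements of the ideal generated by the elements `x` in a subalgebra. -/
def InM (A : Subalgebra R Ω) (y : Ω) : Prop :=
  ∃ a : Fin d → Ω, (∀ i, a i ∈ A) ∧ y = ∑ i, algebraMap R Ω (x i) * a i

variable {x}

theorem InM.mono {A B : Subalgebra R Ω} (h : A ≤ B) {y : Ω} (hy : InM x A y) : InM x B y := by
  obtain ⟨a, ha, hy⟩ := hy
  exact ⟨a, fun i => h (ha i), hy⟩

variable (x)

/-- Finite subalgebras in which the elements `x` generate a maximal ideal. -/
structure FinMax (A : Subalgebra R Ω) : Prop where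
  finite : Module.Finite R A
  inv : ∀ y ∈ A, ¬ InM x A y → ∃ z ∈ A, InM x A (y * z - 1)

/-- Directed unions of such subalgebras. -/
def LocUnion (A : Subalgebra R Ω) : Prop :=
  ∀ F : Finset Ω, (∀ y ∈ F, y ∈ A) → ∃ A₀ : Subalgebra R Ω, A₀ ≤ A ∧ (∀ y ∈ F, y ∈ A₀) ∧ FinMax x A₀

variable {x}

theorem mem_map_iff [IsLocalRing R] (hx : Ideal.span (Set.range x) = maximalIdeal R)
    (A : Subalgebra R Ω) (y : A) :
    y ∈ (maximalIdeal R).map (algebraMap R A) ↔ InM x A (y : Ω) := by
  have h1 : (maximalIdeal R).map (algebraMap R A) =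
      Ideal.span (Set.range fun i => algebraMap R A (x i)) := by
    rw [← hx, Ideal.map_span, ← Set.range_comp]
    rfl
  rw [h1, Ideal.mem_span_range_iff_exists_fun]
  constructor
  · rintro ⟨c, hc⟩
    refine ⟨fun i => (c i : Ω), fun i => (c i).2, ?_⟩
    rw [← hc, AddSubmonoidClass.coe_finsetSum]
    refine Finset.sum_congr rfl fun i _ => ?_
    rw [mul_comm]
    rfl
  · rintro ⟨a, ha, hy⟩
    refine ⟨fun i => ⟨a i, ha i⟩, ?_⟩
    apply Subtype.ext
    rw [hy, AddSubmonoidClass.coe_finsetSum]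
    refine Finset.sum_congr rfl fun i _ => ?_
    rw [mul_comm]
    rfl

theorem not_inM_one [IsLocalRing R] (hx : Ideal.span (Set.range x) = maximalIdeal R)
    (A : Subalgebra R Ω) (hA : Module.Finite R A) : ¬ InM x A 1 := by
  intro h
  have h1 : (1 : A) ∈ (maximalIdeal R).map (algebraMap R A) := (mem_map_iff hx A 1).2 h
  have h2 : (⊤ : Submodule R A) ≤ maximalIdeal R • ⊤ := by
    rw [Ideal.smul_top_eq_map]
    intro y _
    have h3 : (maximalIdeal R).map (algebraMap R A) = ⊤ := (Ideal.eq_top_iff_one _).2 h1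
    change y ∈ (maximalIdeal R).map (algebraMap R A)
    rw [h3]
    exact Submodule.mem_top
  have h4 : (⊤ : Submodule R A) = ⊥ :=
    Submodule.eq_bot_of_le_smul_of_le_jacobson_bot (maximalIdeal R) ⊤ Module.Finite.fg_top h2
      (IsLocalRing.maximalIdeal_le_jacobson ⊥)
  have h5 : (1 : A) ∈ (⊤ : Submodule R A) := Submodule.mem_top
  rw [h4, Submodule.mem_bot] at h5
  exact one_ne_zero h5

theorem isMaximal_iff_inv [IsLocalRing R] (hx : Ideal.span (Set.range x) = maximalIdeal R)
    (A : Subalgebra R Ω) : ((maximalIdeal R).map (algebraMap R A)).IsMaximal ↔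
      ¬ InM x A 1 ∧ ∀ y ∈ A, ¬ InM x A y → ∃ z ∈ A, InM x A (y * z - 1) := by
  constructor
  · intro h
    refine ⟨fun h1 => ?_, fun y hy hy' => ?_⟩
    · exact h.ne_top ((Ideal.eq_top_iff_one _).2 ((mem_map_iff hx A 1).2 h1))
    · obtain ⟨z, i, hi, hz⟩ := h.exists_inv (x := (⟨y, hy⟩ : A))
        (fun h2 => hy' ((mem_map_iff hx A _).1 h2))
      refine ⟨z, z.2, ?_⟩
      have h3 : (⟨y, hy⟩ : A) * z - 1 = - i := by
        rw [← hz]
        ring
      have h4 : (⟨y, hy⟩ : A) * z - 1 ∈ (maximalIdeal R).map (algebraMap R A) := by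
        rw [h3]
        exact neg_mem hi
      exact (mem_map_iff hx A _).1 h4
  · rintro ⟨h1, h2⟩
    rw [Ideal.isMaximal_iff]
    refine ⟨fun h3 => h1 ((mem_map_iff hx A 1).1 h3), fun J y hJ hy hyJ => ?_⟩
    obtain ⟨z, hz, h3⟩ := h2 y y.2 (fun h4 => hy ((mem_map_iff hx A _).2 h4))
    have h4 : y * ⟨z, hz⟩ - 1 ∈ J := hJ ((mem_map_iff hx A (y * ⟨z, hz⟩ - 1)).2 h3)
    have h5 : (1 : A) = y * ⟨z, hz⟩ - (y * ⟨z, hz⟩ - 1) := by ring
    rw [h5]
    exact J.sub_mem (J.mul_mem_right _ hyJ) h4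

theorem FinMax.isMaximal [IsLocalRing R] (hx : Ideal.span (Set.range x) = maximalIdeal R)
    {A : Subalgebra R Ω} (hA : FinMax x A) :
    ((maximalIdeal R).map (algebraMap R A)).IsMaximal :=
  (isMaximal_iff_inv hx A).2 ⟨not_inM_one hx A hA.finite, hA.inv⟩

theorem finMax_bot [IsLocalRing R] (hx : Ideal.span (Set.range x) = maximalIdeal R) :
    FinMax x (⊥ : Subalgebra R Ω) := by
  refine ⟨inferInstance, fun y hy hy' => ?_⟩
  obtain ⟨r, rfl⟩ := Algebra.mem_bot.1 hy
  have hr : r ∉ maximalIdeal R := by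
    intro hr
    rw [← hx, Ideal.mem_span_range_iff_exists_fun] at hr
    obtain ⟨c, rfl⟩ := hr
    apply hy'
    refine ⟨fun i => algebraMap R Ω (c i), fun i => Algebra.mem_bot.2 ⟨c i, rfl⟩, ?_⟩
    rw [map_sum]
    refine Finset.sum_congr rfl fun i _ => ?_
    rw [map_mul, mul_comm]
  rw [mem_maximalIdeal, mem_nonunits_iff, not_not] at hr
  obtain ⟨s, hs⟩ := hr.exists_right_inv
  refine ⟨algebraMap R Ω s, Algebra.mem_bot.2 ⟨s, rfl⟩, ?_⟩
  rw [← map_mul, hs, map_one, sub_self]
  exact ⟨fun _ => 0, fun _ => zero_mem _, by simp⟩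

theorem locUnion_bot [IsLocalRing R] (hx : Ideal.span (Set.range x) = maximalIdeal R) :
    LocUnion x (⊥ : Subalgebra R Ω) :=
  fun _ hF => ⟨⊥, le_rfl, hF, finMax_bot hx⟩

theorem LocUnion.exists_inM {A : Subalgebra R Ω} (hA : LocUnion x A) {y : Ω} (hy : InM x A y)
    (F : Finset Ω) (hF : ∀ y ∈ F, y ∈ A) :
    ∃ A₀ : Subalgebra R Ω, A₀ ≤ A ∧ (∀ y ∈ F, y ∈ A₀) ∧ FinMax x A₀ ∧ InM x A₀ y := by
  classical
  obtain ⟨a, ha, hy⟩ := hy
  obtain ⟨A₀, h1, h2, h3⟩ := hA (F ∪ Finset.univ.image a) (by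
    intro z hz
    rw [Finset.mem_union] at hz
    rcases hz with hz | hz
    · exact hF z hz
    · rw [Finset.mem_image] at hz
      obtain ⟨i, -, rfl⟩ := hz
      exact ha i)
  refine ⟨A₀, h1, fun z hz => h2 z (Finset.mem_union_left _ hz), h3, a, fun i => ?_, hy⟩
  exact h2 _ (Finset.mem_union_right _ (Finset.mem_image_of_mem a (Finset.mem_univ i)))

theorem LocUnion.isMaximal [IsLocalRing R] (hx : Ideal.span (Set.range x) = maximalIdeal R)
    {A : Subalgebra R Ω} (hA : LocUnion x A) :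
    ((maximalIdeal R).map (algebraMap R A)).IsMaximal := by
  rw [isMaximal_iff_inv hx A]
  constructor
  · intro h
    obtain ⟨A₀, -, -, h3, h4⟩ := hA.exists_inM h ∅ (by simp)
    exact not_inM_one hx A₀ h3.finite h4
  · intro y hy hy'
    obtain ⟨A₀, h1, h2, h3⟩ := hA {y} (by simpa using hy)
    obtain ⟨z, hz, h4⟩ := h3.inv y (h2 y (Finset.mem_singleton_self y))
      (fun h => hy' (h.mono h1))
    exact ⟨z, h1 hz, h4.mono h1⟩

theorem isField_quotient_of_surjective {K B : Type u} [Field K] [CommRing B] [Nontrivial B]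
    (ψ : Polynomial K →+* B) (hψ : Surjective ψ) (f : Polynomial K) (hf : Irreducible f)
    (h0 : ψ f = 0) : IsField B := by
  have h1 : (Ideal.span {f}).IsMaximal := PrincipalIdealRing.isMaximal_of_irreducible hf
  have h2 : Ideal.span {f} = RingHom.ker ψ := h1.eq_of_le (RingHom.ker_ne_top ψ) (by
    rw [Ideal.span_singleton_le_iff_mem]
    exact h0)
  rw [h2] at h1
  exact (RingHom.quotientKerEquivOfSurjective hψ).symm.toMulEquiv.isField
    ((Ideal.Quotient.maximal_ideal_iff_isField_quotient _).1 h1)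

theorem FinMax.adjoin [IsLocalRing R] (hx : Ideal.span (Set.range x) = maximalIdeal R)
    {A : Subalgebra R Ω} (hA : FinMax x A) (p : ℕ) (hp : p.Prime) (a β : Ω) (ha : a ∈ A)
    (hβ : β ^ p = a) (hr : ∀ b ∈ A, ¬ InM x A (b ^ p - a)) :
    FinMax x (A ⊔ Algebra.adjoin R {β}) := by
  have hAf : Module.Finite R A := hA.finite
  have hAint : Algebra.IsIntegral R A := inferInstance
  have hai : IsIntegral R a := by
    have := Algebra.IsIntegral.isIntegral (R := R) (⟨a, ha⟩ : A)
    exact this.map A.val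
  have hβi : IsIntegral R β := by
    apply IsIntegral.of_pow hp.pos
    rw [hβ]
    exact hai
  have hadj : Module.Finite R (Algebra.adjoin R {β}) :=
    Module.Finite.iff_fg.2 hβi.fg_adjoin_singleton
  have hfin : Module.Finite R ↥(A ⊔ Algebra.adjoin R {β}) :=
    Subalgebra.finite_sup A (Algebra.adjoin R {β})
  refine ⟨hfin, ?_⟩
  set B := A ⊔ Algebra.adjoin R {β} with hB
  have hβB : β ∈ B := (le_sup_right : Algebra.adjoin R {β} ≤ B)
    (Algebra.subset_adjoin (Set.mem_singleton β))
  have hAB : A ≤ B := le_sup_left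
  let 𝔫 : Ideal A := (maximalIdeal R).map (algebraMap R A)
  let 𝔫' : Ideal B := (maximalIdeal R).map (algebraMap R B)
  have hmax : 𝔫.IsMaximal := hA.isMaximal hx
  have hne : 𝔫' ≠ ⊤ := by
    intro h
    exact not_inM_one hx B hfin ((mem_map_iff hx B 1).1 ((Ideal.eq_top_iff_one _).1 h))
  have hle : 𝔫 ≤ 𝔫'.comap (Subalgebra.inclusion hAB : A →+* B) := by
    rw [← Ideal.map_le_iff_le_comap, Ideal.map_map]
    exact le_of_eq rfl
  let K := A ⧸ 𝔫
  let _ : Field K := Ideal.Quotient.field 𝔫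
  have hnt : Nontrivial (B ⧸ 𝔫') := Ideal.Quotient.nontrivial_iff.2 hne
  let f₀ : K →+* B ⧸ 𝔫' := Ideal.quotientMap 𝔫' (Subalgebra.inclusion hAB : A →+* B) hle
  let ψ : Polynomial K →+* B ⧸ 𝔫' := Polynomial.eval₂RingHom f₀ (Ideal.Quotient.mk 𝔫' ⟨β, hβB⟩)
  have hψC : ∀ y : A, ψ (Polynomial.C (Ideal.Quotient.mk 𝔫 y)) =
      Ideal.Quotient.mk 𝔫' ⟨y, hAB y.2⟩ := fun y => by
    simp only [ψ, Polynomial.coe_eval₂RingHom, Polynomial.eval₂_C]
    rfl
  have hψX : ψ Polynomial.X = Ideal.Quotient.mk 𝔫' ⟨β, hβB⟩ := by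
    simp only [ψ, Polynomial.coe_eval₂RingHom, Polynomial.eval₂_X]
  have hsurj : Surjective ψ := by
    let T : Subalgebra R B :=
      { carrier := {y | Ideal.Quotient.mk 𝔫' y ∈ ψ.range}
        mul_mem' := fun {a b} ha hb => by
          simp only [Set.mem_ofPred_eq, map_mul] at ha hb ⊢
          exact mul_mem ha hb
        add_mem' := fun {a b} ha hb => by
          simp only [Set.mem_ofPred_eq, map_add] at ha hb ⊢
          exact add_mem ha hb
        algebraMap_mem' := fun r => by
          refine ⟨Polynomial.C (Ideal.Quotient.mk 𝔫 (algebraMap R A r)), ?_⟩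
          rw [hψC]
          rfl }
    have hT : B ≤ T.map B.val := by
      refine sup_le ?_ ?_
      · intro y hy
        exact ⟨⟨y, hAB hy⟩, ⟨_, hψC ⟨y, hy⟩⟩, rfl⟩
      · rw [Algebra.adjoin_le_iff]
        rintro _ rfl
        exact ⟨⟨_, hβB⟩, ⟨_, hψX⟩, rfl⟩
    intro y
    obtain ⟨y, rfl⟩ := Ideal.Quotient.mk_surjective y
    obtain ⟨z, hz, hzy⟩ := hT y.2
    have : z = y := Subtype.ext hzy
    rw [← this]
    exact hz
  have hirr : Irreducible (Polynomial.X ^ p - Polynomial.C (Ideal.Quotient.mk 𝔫 ⟨a, ha⟩) :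
      Polynomial K) := by
    apply X_pow_sub_C_irreducible_of_prime hp
    intro b
    obtain ⟨b, rfl⟩ := Ideal.Quotient.mk_surjective b
    rw [← map_pow, Ne, Ideal.Quotient.mk_eq_mk_iff_sub_mem]
    intro h
    exact hr b b.2 ((mem_map_iff hx A _).1 h)
  have hF : IsField (B ⧸ 𝔫') := by
    refine isField_quotient_of_surjective ψ hsurj _ hirr ?_
    rw [map_sub, map_pow, hψX, hψC, ← map_pow, ← map_sub]
    have : (⟨β, hβB⟩ : B) ^ p - ⟨a, hAB ha⟩ = 0 := by
      apply Subtype.ext
      change β ^ p - a = 0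
      rw [hβ, sub_self]
    rw [this, map_zero]
  have hmax' : 𝔫'.IsMaximal := Ideal.Quotient.maximal_of_isField _ hF
  exact ((isMaximal_iff_inv hx B).1 hmax').2

theorem exists_finset_sup (A : Subalgebra R Ω) (β y : Ω) (hy : y ∈ A ⊔ Algebra.adjoin R {β}) :
    ∃ F : Finset Ω, (∀ z ∈ F, z ∈ A) ∧ ∀ A₀ : Subalgebra R Ω, (∀ z ∈ F, z ∈ A₀) →
      y ∈ A₀ ⊔ Algebra.adjoin R {β} := by
  classical
  let T : Subalgebra R Ω :=
    { carrier := {y | ∃ F : Finset Ω, (∀ z ∈ F, z ∈ A) ∧
        ∀ A₀ : Subalgebra R Ω, (∀ z ∈ F, z ∈ A₀) → y ∈ A₀ ⊔ Algebra.adjoin R {β}}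
      mul_mem' := by
        rintro a b ⟨F, hF, h1⟩ ⟨G, hG, h2⟩
        refine ⟨F ∪ G, fun z hz => ?_, fun A₀ hA₀ => ?_⟩
        · rcases Finset.mem_union.1 hz with h | h
          · exact hF z h
          · exact hG z h
        · exact mul_mem (h1 A₀ fun z hz => hA₀ z (Finset.mem_union_left _ hz))
            (h2 A₀ fun z hz => hA₀ z (Finset.mem_union_right _ hz))
      add_mem' := by
        rintro a b ⟨F, hF, h1⟩ ⟨G, hG, h2⟩
        refine ⟨F ∪ G, fun z hz => ?_, fun A₀ hA₀ => ?_⟩
        · rcases Finset.mem_union.1 hz with h | h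
          · exact hF z h
          · exact hG z h
        · exact add_mem (h1 A₀ fun z hz => hA₀ z (Finset.mem_union_left _ hz))
            (h2 A₀ fun z hz => hA₀ z (Finset.mem_union_right _ hz))
      algebraMap_mem' := fun r => ⟨∅, by simp, fun A₀ _ => Subalgebra.algebraMap_mem _ r⟩ }
  have hT : A ⊔ Algebra.adjoin R {β} ≤ T := by
    refine sup_le ?_ ?_
    · intro z hz
      exact ⟨{z}, by simpa using hz, fun A₀ hA₀ =>
        (le_sup_left : A₀ ≤ A₀ ⊔ _) (hA₀ z (Finset.mem_singleton_self z))⟩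
    · rw [Algebra.adjoin_le_iff]
      rintro _ rfl
      exact ⟨∅, by simp, fun A₀ _ => (le_sup_right : Algebra.adjoin R _ ≤ A₀ ⊔ _)
        (Algebra.subset_adjoin (Set.mem_singleton _))⟩
  exact hT hy

theorem LocUnion.adjoin [IsLocalRing R] (hx : Ideal.span (Set.range x) = maximalIdeal R)
    {A : Subalgebra R Ω} (hA : LocUnion x A) (p : ℕ) (hp : p.Prime) (a β : Ω) (ha : a ∈ A)
    (hβ : β ^ p = a) (hr : ∀ b ∈ A, ¬ InM x A (b ^ p - a)) :
    LocUnion x (A ⊔ Algebra.adjoin R {β}) := by
  classical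
  intro F hF
  have h1 : ∀ y : F, ∃ G : Finset Ω, (∀ z ∈ G, z ∈ A) ∧ ∀ A₀ : Subalgebra R Ω,
      (∀ z ∈ G, z ∈ A₀) → (y : Ω) ∈ A₀ ⊔ Algebra.adjoin R {β} := fun y =>
    exists_finset_sup A β y (hF y y.2)
  choose G hG hG' using h1
  obtain ⟨A₀, h2, h3, h4⟩ := hA (insert a (Finset.univ.biUnion G)) (by
    intro y hy
    rw [Finset.mem_insert, Finset.mem_biUnion] at hy
    rcases hy with rfl | ⟨z, -, hz⟩
    · exact ha
    · exact hG z y hz)
  refine ⟨A₀ ⊔ Algebra.adjoin R {β}, sup_le_sup_right h2 _, fun y hy => ?_, ?_⟩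
  · refine hG' ⟨y, hy⟩ A₀ fun z hz => h3 z ?_
    rw [Finset.mem_insert, Finset.mem_biUnion]
    exact Or.inr ⟨_, Finset.mem_univ _, hz⟩
  · exact h4.adjoin hx p hp a β (h3 a (Finset.mem_insert_self _ _)) hβ fun b hb h =>
      hr b (h2 hb) (h.mono h2)

theorem locUnion_sSup (c : Set (Subalgebra R Ω)) (hc : ∀ A ∈ c, LocUnion x A)
    (hch : IsChain (· ≤ ·) c) (hne : c.Nonempty) : LocUnion x (sSup c) := by
  classical
  intro F hF
  have hdir : DirectedOn (· ≤ ·) c := hch.directedOn
  have h1 : ∃ A ∈ c, ∀ y ∈ F, y ∈ A := by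
    induction F using Finset.induction with
    | empty =>
      obtain ⟨A, hA⟩ := hne
      exact ⟨A, hA, by simp⟩
    | insert z F _ ih =>
      obtain ⟨A, hA, h2⟩ := ih fun y hy => hF y (Finset.mem_insert_of_mem hy)
      have hne' : Nonempty c := hne.to_subtype
      have h4 : z ∈ ⨆ B : c, (B : Subalgebra R Ω) := by
        rw [← sSup_eq_iSup']
        exact hF z (Finset.mem_insert_self _ _)
      rw [← SetLike.mem_coe, Subalgebra.coe_iSup_of_directed hdir.directed_val,
        Set.mem_iUnion] at h4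
      obtain ⟨⟨B, hB⟩, h3⟩ := h4
      obtain ⟨C, hC, hAC, hBC⟩ := hdir A hA B hB
      refine ⟨C, hC, fun y hy => ?_⟩
      rcases Finset.mem_insert.1 hy with rfl | hy
      · exact hBC h3
      · exact hAC (h2 y hy)
  obtain ⟨A, hA, h2⟩ := h1
  obtain ⟨A₀, h3, h4, h5⟩ := hc A hA F h2
  exact ⟨A₀, h3.trans (le_sSup hA), h4, h5⟩

/-- A maximal directed union has a perfect residue ring. -/
theorem exists_locUnion_perfect [IsLocalRing R] [IsAlgClosed Ω]
    (hx : Ideal.span (Set.range x) = maximalIdeal R) (p : ℕ) (hp : p.Prime) :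
    ∃ A : Subalgebra R Ω, LocUnion x A ∧ ∀ a ∈ A, ∃ b ∈ A, InM x A (b ^ p - a) := by
  obtain ⟨A, -, hA⟩ := zorn_le_nonempty₀ {A : Subalgebra R Ω | LocUnion x A} (fun c hc hch y hy =>
    ⟨sSup c, locUnion_sSup c hc hch ⟨y, hy⟩, fun z hz => le_sSup hz⟩) ⊥ (locUnion_bot hx)
  refine ⟨A, hA.prop, fun a ha => ?_⟩
  by_contra hcon
  push Not at hcon
  obtain ⟨β, hβ⟩ := IsAlgClosed.exists_pow_nat_eq a hp.pos
  have h1 : LocUnion x (A ⊔ Algebra.adjoin R {β}) := LocUnion.adjoin hx hA.prop p hp a β ha hβ hcon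
  have h2 : A ⊔ Algebra.adjoin R {β} ≤ A := hA.le_of_ge h1 le_sup_left
  have h3 : β ∈ A := h2 ((le_sup_right : Algebra.adjoin R {β} ≤ A ⊔ _)
    (Algebra.subset_adjoin (Set.mem_singleton β)))
  apply hcon β h3
  rw [hβ, sub_self]
  exact ⟨fun _ => 0, fun _ => zero_mem _, by simp⟩

end mA

end Vale.Agent.P177
end

section

/-!
Flatness of the directed unions of finite local subalgebras.
-/

namespace Vale.Agent.P177

open IsLocalRing Function RingTheory.Sequence

universe u

theorem isLocalRing_of_integral_map {R A : Type u} [CommRing R] [IsLocalRing R] [CommRing A]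
    [Algebra R A] [Algebra.IsIntegral R A]
    (h : ((maximalIdeal R).map (algebraMap R A)).IsMaximal) :
    ∃ _ : IsLocalRing A, (maximalIdeal R).map (algebraMap R A) = maximalIdeal A := by
  have h1 : IsLocalRing A := IsLocalRing.of_unique_max_ideal
    ⟨(maximalIdeal R).map (algebraMap R A), h, fun M hM => by
      have h2 : (M.comap (algebraMap R A)).IsMaximal :=
        Ideal.isMaximal_comap_of_isIntegral_of_isMaximal M
      have h3 : M.comap (algebraMap R A) = maximalIdeal R := IsLocalRing.eq_maximalIdeal h2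
      have h4 : (maximalIdeal R).map (algebraMap R A) ≤ M := by
        rw [Ideal.map_le_iff_le_comap, h3]
      exact (h.eq_of_le hM.ne_top h4).symm⟩
  exact ⟨h1, IsLocalRing.eq_maximalIdeal h⟩

theorem ringKrullDim_le_of_integral {R A : Type u} [CommRing R] [CommRing A]
    [Algebra R A] [Algebra.IsIntegral R A] (hinj : Injective (algebraMap R A)) :
    ringKrullDim R ≤ ringKrullDim A := by
  refine iSup_le fun l => ?_
  obtain ⟨P, hP⟩ := (algebraMap_isIntegral_iff.2 ‹Algebra.IsIntegral R A›).comap_surjective hinj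
    l.head
  have hlo : P.asIdeal.LiesOver l.head.asIdeal := ⟨by rw [← hP]; rfl⟩
  obtain ⟨L, hL, -⟩ := Ideal.exists_ltSeries_of_hasGoingUp l P.asIdeal
  rw [← hL]
  exact Order.LTSeries.length_le_krullDim L

section flat

variable {R : Type u} [CommRing R] [IsRegularLocalRing R] {Ω : Type u} [Field Ω] [Algebra R Ω]
  {d : ℕ} {x : Fin d → R} (hx : Ideal.span (Set.range x) = maximalIdeal R)
  (hd : ringKrullDim R = d) (hinj : Injective (algebraMap R Ω))

include hx hd hinj in
theorem FinMax.flat {A : Subalgebra R Ω} (hA : FinMax x A) : Module.Flat R A := by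
  have hfin : Module.Finite R A := hA.finite
  obtain ⟨hloc, hm⟩ := isLocalRing_of_integral_map (hA.isMaximal hx)
  have hN : IsNoetherianRing A := by
    have : IsNoetherian R A := isNoetherian_of_isNoetherianRing_of_finite R A
    exact isNoetherian_of_tower R this
  have hinj' : Injective (algebraMap R A) := fun a b hab => hinj (by
    have := congrArg (Subtype.val : A → Ω) hab
    exact this)
  have hdim : ringKrullDim R ≤ ringKrullDim A := ringKrullDim_le_of_integral hinj'
  let rs : List R := List.ofFn x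
  have hrs : Ideal.ofList rs = maximalIdeal R := by
    rw [← hx, Ideal.ofList]
    congr 1
    ext y
    simp [rs, List.mem_ofFn]
  have hrl : rs.length = d := by simp [rs]
  have hrsA : Ideal.ofList (rs.map (algebraMap R A)) = maximalIdeal A := by
    rw [← Ideal.map_ofList, hrs, hm]
  obtain ⟨hreg, hdA⟩ := isRegularLocalRing_of_list (rs.map (algebraMap R A)) hrsA (by
    rw [List.length_map, hrl, ← hd]
    exact hdim)
  have hl : IsLocalHom (algebraMap R A) :=
    ((IsLocalRing.local_hom_TFAE (algebraMap R A)).out 0 2).2 hm.le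
  refine flat_of_weaklyRegular rs hrs
    (isRegular_of_ofList_eq_maximalIdeal R rs hrs (by rw [hd, hrl])).toIsWeaklyRegular
    (isRegular_of_ofList_eq_maximalIdeal A (rs.map (algebraMap R A)) hrsA
      hdA.symm).toIsWeaklyRegular

include hx hd hinj in
theorem LocUnion.flat {A : Subalgebra R Ω} (hA : LocUnion x A) : Module.Flat R A := by
  classical
  apply Module.Flat.of_forall_isTrivialRelation
  intro l f y h
  obtain ⟨A₀, h1, h2, h3⟩ := hA (Finset.univ.image fun i => (y i : Ω)) (by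
    intro z hz
    obtain ⟨i, -, rfl⟩ := Finset.mem_image.1 hz
    exact (y i).2)
  have h4 : ∀ i, (y i : Ω) ∈ A₀ := fun i =>
    h2 _ (Finset.mem_image_of_mem _ (Finset.mem_univ i))
  have hfl : Module.Flat R A₀ := h3.flat hx hd hinj
  have h5 : ∑ i, f i • (⟨y i, h4 i⟩ : A₀) = 0 := by
    apply Subtype.ext
    have h6 := congrArg (Subtype.val : A → Ω) h
    rw [AddSubmonoidClass.coe_finsetSum] at h6 ⊢
    exact h6
  obtain ⟨k, a, z, h6, h7⟩ := Module.Flat.isTrivialRelation_of_sum_smul_eq_zero h5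
  refine ⟨k, a, fun j => ⟨z j, h1 (z j).2⟩, fun i => ?_, h7⟩
  apply Subtype.ext
  have h8 := congrArg (Subtype.val : A₀ → Ω) (h6 i)
  rw [AddSubmonoidClass.coe_finsetSum] at h8 ⊢
  exact h8

omit [IsRegularLocalRing R] in
theorem LocUnion.isIntegral {A : Subalgebra R Ω} (hA : LocUnion x A) : Algebra.IsIntegral R A := by
  refine ⟨fun y => ?_⟩
  obtain ⟨A₀, h1, h2, h3⟩ := hA {(y : Ω)} (by simp)
  have hfin : Module.Finite R A₀ := h3.finite
  have h4 := Algebra.IsIntegral.isIntegral (R := R)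
    (⟨y, h2 _ (Finset.mem_singleton_self _)⟩ : A₀)
  have h5 := h4.map (Subalgebra.inclusion h1)
  exact h5

end flat

end Vale.Agent.P177
end

section

/-!
A condition on valuations, and vertical components of tangent cones.
-/

namespace Vale.Agent.P177

open IsLocalRing Function

universe u

/-- A local domain is dominated by a valuation ring. -/
theorem exists_valuation_dominating (D : Type u) [CommRing D] [IsLocalRing D] [IsDomain D] :
    ∃ (O : Type u) (_ : CommRing O) (_ : IsDomain O) (_ : ValuationRing O)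
      (Φ : D →+* O), Injective Φ ∧ IsLocalHom Φ := by
  let K := FractionRing D
  obtain ⟨A, h, hA⟩ := IsLocalRing.exists_factor_valuationRing (R := D) (algebraMap D K)
  let A' : Type u := A
  let _ : CommRing A' := inferInstanceAs (CommRing A)
  let Φ₀ : D →+* A' := (algebraMap D K).codRestrict A.toSubring h
  have hdom : IsDomain A' := inferInstanceAs (IsDomain A)
  have hval : ValuationRing A' := inferInstanceAs (ValuationRing A)
  refine ⟨A', inferInstance, hdom, hval, Φ₀, ?_, hA⟩
  intro a b hab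
  have h1 : algebraMap D K a = algebraMap D K b := congrArg Subtype.val hab
  exact IsFractionRing.injective D K h1

/-- A prime is the centre of a valuation ring of the residue field of a smaller prime. -/
theorem exists_valuation {B : Type u} [CommRing B] (𝔎 𝔓 : Ideal B) [𝔎.IsPrime] [𝔓.IsPrime]
    (hle : 𝔎 ≤ 𝔓) : ∃ (O : Type u) (_ : CommRing O) (_ : IsDomain O) (_ : ValuationRing O)
      (Φ : B →+* O), RingHom.ker Φ = 𝔎 ∧ (maximalIdeal O).comap Φ = 𝔓 := by
  let L := Localization.AtPrime 𝔓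
  let 𝔎' : Ideal L := 𝔎.map (algebraMap B L)
  have hdisj : Disjoint (𝔓.primeCompl : Set B) 𝔎 := by
    rw [Set.disjoint_left]
    intro a ha ha'
    exact ha (hle ha')
  have h𝔎' : 𝔎'.IsPrime :=
    IsLocalization.isPrime_of_isPrime_disjoint 𝔓.primeCompl _ _ inferInstance hdisj
  have hc : 𝔎'.comap (algebraMap B L) = 𝔎 :=
    IsLocalization.under_map_of_isPrime_disjoint 𝔓.primeCompl L inferInstance hdisj
  let D := L ⧸ 𝔎'
  have hl1 : IsLocalHom (Ideal.Quotient.mk 𝔎') :=
    IsLocalHom.of_surjective _ Ideal.Quotient.mk_surjective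
  have hDl : IsLocalRing D :=
    IsLocalRing.of_surjective' (Ideal.Quotient.mk 𝔎') Ideal.Quotient.mk_surjective
  obtain ⟨O, _, _, _, Φ₀, hinj, hloc⟩ := exists_valuation_dominating D
  let Φ₁ : L →+* O := Φ₀.comp (Ideal.Quotient.mk 𝔎')
  refine ⟨O, inferInstance, inferInstance, inferInstance, Φ₁.comp (algebraMap B L), ?_, ?_⟩
  · ext b
    rw [← hc]
    change Φ₀ (Ideal.Quotient.mk 𝔎' (algebraMap B L b)) = 0 ↔ algebraMap B L b ∈ 𝔎'
    rw [map_eq_zero_iff Φ₀ hinj, Ideal.Quotient.eq_zero_iff_mem]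
  · have h1 : IsLocalHom Φ₁ := RingHom.isLocalHom_comp _ _
    have h2 : (maximalIdeal O).comap Φ₁ = maximalIdeal L :=
      ((IsLocalRing.local_hom_TFAE Φ₁).out 0 4).mp h1
    rw [← Ideal.comap_comap, h2]
    exact Localization.AtPrime.under_maximalIdeal

/-- Condition on valuations: the values of the `x_j` of minimal value are multiples of the value
of `y`, for the valuations centred at vertical components of large dimension. -/
def VCond {R : Type u} [CommRing R] [IsLocalRing R] {r : ℕ} (y : R) (x : Fin r → R)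
    (I : Ideal R) (h : ℕ) : Prop :=
  ∀ (O : Type u) [CommRing O] [IsDomain O] [ValuationRing O] (φ : R →+* O) [IsLocalHom φ]
    (j : Fin r) (z : Ideal (MvPolynomial (Fin r) (ResidueField R))) [z.IsPrime],
    I ≤ RingHom.ker φ → φ y ≠ 0 → φ (x j) ≠ 0 → (∀ i, φ (x j) ∣ φ (x i)) →
    (∀ (n : ℕ) (F : MvPolynomial (Fin r) R), F.IsHomogeneous n →
      (F.map (residue R) ∈ z ↔ ∃ m ∈ maximalIdeal O,
        φ (MvPolynomial.eval x F) = φ (x j) ^ n * m)) →
    z.height + 1 ≤ h → ∃ c : ℕ, Associated (φ (x j)) (φ y ^ c)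

/-- The ideal `z` of `k[X_0, …, X_r]` restricted to `k[X_1, …, X_r]`. -/
noncomputable def resX {k : Type u} [Field k] {r : ℕ} (z : Ideal (MvPolynomial (Fin (r + 1)) k)) :
    Ideal (MvPolynomial (Fin r) k) :=
  z.comap (MvPolynomial.rename (R := k) Fin.succ)

instance {k : Type u} [Field k] {r : ℕ} (z : Ideal (MvPolynomial (Fin (r + 1)) k)) [z.IsPrime] :
    (resX z).IsPrime := Ideal.IsPrime.comap _

theorem height_C_add_one_le {S : Type u} [CommRing S] (z : Ideal (Polynomial S)) [hz : z.IsPrime]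
    (h0 : Polynomial.X ∈ z) : (z.comap (Polynomial.C : S →+* Polynomial S)).height + 1 ≤
      z.height := by
  let a : Ideal S := z.comap (Polynomial.C : S →+* Polynomial S)
  have ha : a.IsPrime := Ideal.IsPrime.comap _
  let b : Ideal (Polynomial S) := a.map (Polynomial.C : S →+* Polynomial S)
  have hb : b.IsPrime := Ideal.isPrime_map_C_of_isPrime
  have hlt : b < z := by
    refine lt_of_le_of_ne Ideal.map_comap_le ?_
    intro h
    rw [← h, Ideal.mem_map_C_iff] at h0
    have h1 := h0 1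
    rw [Polynomial.coeff_X_one] at h1
    exact ha.ne_top ((Ideal.eq_top_iff_one a).2 h1)
  have h2 : b.under S = a := by
    ext s
    change Polynomial.C s ∈ b ↔ s ∈ a
    rw [Ideal.mem_map_C_iff]
    refine ⟨fun h => by simpa using h 0, fun h n => ?_⟩
    rw [Polynomial.coeff_C]
    split_ifs
    · exact h
    · exact zero_mem _
  have h3 := height_under_le (R := S) b
  rw [h2] at h3
  exact (add_le_add_left h3 1).trans (Ideal.height_add_one_le_of_lt_of_isPrime hlt)

/-- Adding the variable `X_0` increases the height. -/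
theorem height_resX_add_one_le {k : Type u} [Field k] {r : ℕ}
    (z : Ideal (MvPolynomial (Fin (r + 1)) k)) [hz : z.IsPrime] (h0 : MvPolynomial.X 0 ∈ z) :
    (resX z).height + 1 ≤ z.height := by
  let e := MvPolynomial.finSuccEquiv k r
  let z' : Ideal (Polynomial (MvPolynomial (Fin r) k)) :=
    z.comap (e.symm : Polynomial (MvPolynomial (Fin r) k) →+* MvPolynomial (Fin (r + 1)) k)
  have hz' : z'.IsPrime := Ideal.IsPrime.comap _
  have h1 := height_C_add_one_le z' (by
    change e.symm Polynomial.X ∈ z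
    rw [← MvPolynomial.finSuccEquiv_X_zero, AlgEquiv.symm_apply_apply]
    exact h0)
  have h2 : z'.comap (Polynomial.C : MvPolynomial (Fin r) k →+* _) = resX z := by
    ext F
    change e.symm (Polynomial.C F) ∈ z ↔ MvPolynomial.rename Fin.succ F ∈ z
    have h3 : e (MvPolynomial.rename Fin.succ F) = Polynomial.C F := by
      induction F using MvPolynomial.induction_on with
      | C a =>
        rw [MvPolynomial.rename_C, MvPolynomial.finSuccEquiv_apply]
        simp
      | add p q hp hq => rw [map_add, map_add, map_add, hp, hq]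
      | mul_X p i hp =>
        rw [map_mul, map_mul, map_mul, hp, MvPolynomial.rename_X]
        congr 1
        exact MvPolynomial.finSuccEquiv_X_succ
    rw [← h3, AlgEquiv.symm_apply_apply]
  have h3 : z'.height = z.height := by
    exact RingEquiv.height_comap e.symm.toRingEquiv z
  rw [h2, h3] at h1
  exact h1

section laurent

open LaurentPolynomial

theorem mem_map_C_of_coeff {R : Type u} [CommRing R] {I : Ideal R} (z : LaurentPolynomial R)
    (h : ∀ n, z.coeff n ∈ I) : z ∈ I.map (C : R →+* LaurentPolynomial R) := by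
  rw [← AddMonoidAlgebra.sum_coeff_single z, Finsupp.sum]
  refine Ideal.sum_mem _ fun n _ => ?_
  rw [single_eq_C_mul_T]
  exact Ideal.mul_mem_right _ _ (Ideal.mem_map_of_mem _ (h n))

theorem mem_map_C_of_mul {R : Type u} [CommRing R] {I : Ideal R} {a : R}
    (ha : ∀ b, a * b ∈ I → b ∈ I) (z : LaurentPolynomial R)
    (h : C a * z ∈ I.map (C : R →+* LaurentPolynomial R)) :
    z ∈ I.map (C : R →+* LaurentPolynomial R) := by
  refine mem_map_C_of_coeff z fun n => ha _ ?_
  have h1 := coeff_mem_of_mem_map h n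
  have h2 : (C a * z : LaurentPolynomial R).coeff n = a * z.coeff n :=
    AddMonoidAlgebra.coeff_single_zero_mul _ _ _
  rwa [h2] at h1

end laurent

theorem span_tail {R : Type u} [CommRing R] {r : ℕ} (x : Fin (r + 1) → R) : Ideal.span {x 0} ⊔
    Ideal.span (Set.range fun i : Fin r => x i.succ) = Ideal.span (Set.range x) := by
  rw [← Ideal.span_union]
  congr 1
  ext a
  simp only [Set.singleton_union, Set.mem_insert_iff, Set.mem_range]
  constructor
  · rintro (rfl | ⟨i, rfl⟩)
    · exact ⟨0, rfl⟩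
    · exact ⟨_, rfl⟩
  · rintro ⟨i, rfl⟩
    refine Fin.cases (Or.inl rfl) (fun i => Or.inr ⟨i, rfl⟩) i

section crit

variable {R : Type u} [CommRing R] [IsLocalRing R] {r : ℕ} {x : Fin (r + 1) → R}

/-- Vertical components of the tangent cone have small dimension. -/
theorem VCond.height_le (hx : Ideal.span (Set.range x) = maximalIdeal R) {I : Ideal R} {h : ℕ}
    (hV : VCond (x 0) (fun i : Fin r => x i.succ) I h) (hreg : ∀ a, x 0 * a ∈ I → a ∈ I)
    (z : Ideal (MvPolynomial (Fin (r + 1)) (ResidueField R))) [hz : z.IsPrime]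
    (h0 : MvPolynomial.X 0 ∈ z) (hX : ∃ i, MvPolynomial.X i ∉ z)
    (hin : InForm x I z) : (h : ℕ∞) + 1 ≤ z.height := by
  by_contra hcon
  rw [not_le, ENat.lt_add_one_iff (by simp)] at hcon
  let 𝔓 : Ideal (ERees x) := z.comap (eRes hx)
  have h𝔓 : 𝔓.IsPrime := Ideal.IsPrime.comap _
  have hstar : eStar x I ≤ 𝔓 := eStar_le hx z hin
  obtain ⟨𝔎, h𝔎, hle⟩ := Ideal.exists_minimalPrimes_le hstar
  have h𝔎p : 𝔎.IsPrime := h𝔎.1.1
  have hx0 : algebraMap R (ERees x) (x 0) ∉ 𝔎 := by
    intro hmem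
    obtain ⟨y, hy, hxy⟩ := Ideal.exists_mul_mem_of_mem_minimalPrimes h𝔎 hmem
    apply hy
    rw [mem_eStar] at hxy ⊢
    rw [map_mul, ePsi_algebraMap] at hxy
    exact mem_map_C_of_mul hreg _ hxy
  obtain ⟨O, _, _, _, Φ, hker, hcomap⟩ := exists_valuation 𝔎 𝔓 hle
  let φ : R →+* O := Φ.comp (algebraMap R (ERees x))
  have hmem : ∀ F, Φ F ∈ maximalIdeal O ↔ eRes hx F ∈ z := fun F => by
    rw [← Ideal.mem_comap, hcomap]
    rfl
  have hunit : ∀ F, IsUnit (Φ F) ↔ eRes hx F ∉ z := fun F => by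
    rw [← hmem, mem_maximalIdeal, mem_nonunits_iff, not_not]
  have hφ : IsLocalHom φ := by
    refine ⟨fun a ha => ?_⟩
    have h1 : eRes hx (algebraMap R _ a) ∉ z := (hunit _).1 ha
    rw [eRes_algebraMap] at h1
    by_contra h2
    apply h1
    rw [(residue_eq_zero_iff a).2 h2, map_zero]
    exact zero_mem _
  obtain ⟨j, hj⟩ : ∃ j : Fin r, MvPolynomial.X j.succ ∉ z := by
    obtain ⟨i, hi⟩ := hX
    induction i using Fin.cases with
    | zero => exact absurd h0 hi
    | succ i => exact ⟨i, hi⟩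
  have huj : IsUnit (Φ (eY x j.succ)) := by
    rw [hunit, eRes_eY]
    exact hj
  obtain ⟨v, hv⟩ := huj
  have hφx : ∀ i, φ (x i) = Φ (eT x) * Φ (eY x i) := fun i => by
    change Φ (algebraMap R _ (x i)) = _
    rw [algebraMap_rees, map_mul]
  have hφ0 : φ (x 0) ≠ 0 := by
    intro h1
    apply hx0
    rw [← hker]
    exact h1
  have hT : Φ (eT x) ≠ 0 := by
    intro h1
    apply hφ0
    rw [hφx, h1, zero_mul]
  have hφj : φ (x j.succ) = Φ (eT x) * v := by rw [hφx, hv]
  have hvv : (v : O) * (v⁻¹ : Oˣ) = 1 := Units.mul_inv v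
  obtain ⟨c, hc⟩ := hV O φ j (resX z) (by
      intro a ha
      change Φ (algebraMap R _ a) = 0
      rw [← RingHom.mem_ker, hker]
      apply h𝔎.1.2
      rw [mem_eStar, ePsi_algebraMap]
      exact Ideal.mem_map_of_mem _ ha) hφ0 (by
      rw [hφj]
      exact mul_ne_zero hT v.ne_zero) (by
      intro i
      refine ⟨(v⁻¹ : Oˣ) * Φ (eY x i.succ), ?_⟩
      rw [hφj, hφx]
      calc Φ (eT x) * Φ (eY x i.succ) = Φ (eT x) * ((v : O) * (v⁻¹ : Oˣ)) * Φ (eY x i.succ) := by
            rw [hvv, mul_one]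
        _ = _ := by ring) (by
      intro n F hF
      have h1 : φ (MvPolynomial.eval (fun i : Fin r => x i.succ) F) =
          Φ (eT x) ^ n * Φ (MvPolynomial.aeval (eY x) (MvPolynomial.rename Fin.succ F)) := by
        have h2 := algebraMap_eval_of_isHomogeneous (x := x) (MvPolynomial.rename Fin.succ F) n
          hF.rename_isHomogeneous
        rw [MvPolynomial.eval_rename] at h2
        change Φ (algebraMap R _ (MvPolynomial.eval (x ∘ Fin.succ) F)) = _
        rw [h2, map_mul, map_pow]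
      have h2 : (F.map (residue R)) ∈ resX z ↔
          Φ (MvPolynomial.aeval (eY x) (MvPolynomial.rename Fin.succ F)) ∈ maximalIdeal O := by
        rw [hmem, eRes_aeval, MvPolynomial.map_rename]
        rfl
      rw [h2, h1, hφj]
      constructor
      · intro h3
        refine ⟨(v⁻¹ : Oˣ) ^ n * Φ (MvPolynomial.aeval (eY x) (MvPolynomial.rename Fin.succ F)),
          Ideal.mul_mem_left _ _ h3, ?_⟩
        calc Φ (eT x) ^ n * Φ (MvPolynomial.aeval (eY x) (MvPolynomial.rename Fin.succ F))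
            = Φ (eT x) ^ n * ((v : O) * (v⁻¹ : Oˣ)) ^ n *
              Φ (MvPolynomial.aeval (eY x) (MvPolynomial.rename Fin.succ F)) := by
              rw [hvv, one_pow, mul_one]
          _ = _ := by ring
      · rintro ⟨m, hm, h3⟩
        rw [mul_pow, mul_assoc] at h3
        have h4 := mul_left_cancel₀ (pow_ne_zero n hT) h3
        rw [h4]
        exact Ideal.mul_mem_left _ _ hm) ((height_resX_add_one_le z h0).trans hcon)
  have h0m : Φ (eY x 0) ∈ maximalIdeal O := by
    rw [hmem, eRes_eY]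
    exact h0
  obtain ⟨w, hw⟩ := hc
  rw [hφj, hφx] at hw
  rcases c with _ | c
  · rw [pow_zero] at hw
    have h1 : IsUnit (Φ (eT x)) := by
      rw [mul_assoc] at hw
      exact IsUnit.of_mul_eq_one _ hw
    rw [hunit, eRes_eT] at h1
    exact h1 (zero_mem _)
  · have h1 : Φ (eT x) * ((v : O) * w) = Φ (eT x) * (Φ (eY x 0) * (Φ (eT x) * Φ (eY x 0)) ^ c) := by
      rw [← mul_assoc, hw]
      ring
    have h2 := mul_left_cancel₀ hT h1
    have h3 : ((v : O) * w) ∈ maximalIdeal O := by
      rw [h2]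
      exact Ideal.mul_mem_right _ _ h0m
    exact ((mem_maximalIdeal _).1 h3) (v.isUnit.mul w.isUnit)

end crit

end Vale.Agent.P177
end

section

/-!
The point `X_1 = ⋯ = X_r = 0` of the exceptional divisor.
-/

namespace Vale.Agent.P177

open IsLocalRing Function

universe u

section height

theorem height_resX_le {k : Type u} [Field k] {r : ℕ}
    (z : Ideal (MvPolynomial (Fin (r + 1)) k)) [hz : z.IsPrime] :
    (resX z).height ≤ z.height := by
  let e := MvPolynomial.finSuccEquiv k r
  let z' : Ideal (Polynomial (MvPolynomial (Fin r) k)) :=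
    z.comap (e.symm : Polynomial (MvPolynomial (Fin r) k) →+* MvPolynomial (Fin (r + 1)) k)
  have hz' : z'.IsPrime := Ideal.IsPrime.comap _
  have h1 := height_under_le (R := MvPolynomial (Fin r) k) z'
  have h2 : z'.under (MvPolynomial (Fin r) k) = resX z := by
    ext F
    change e.symm (Polynomial.C F) ∈ z ↔ MvPolynomial.rename Fin.succ F ∈ z
    have h3 : e (MvPolynomial.rename Fin.succ F) = Polynomial.C F := by
      induction F using MvPolynomial.induction_on with
      | C a =>
        rw [MvPolynomial.rename_C, MvPolynomial.finSuccEquiv_apply]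
        simp
      | add p q hp hq => rw [map_add, map_add, map_add, hp, hq]
      | mul_X p i hp =>
        rw [map_mul, map_mul, map_mul, hp, MvPolynomial.rename_X]
        congr 1
        exact MvPolynomial.finSuccEquiv_X_succ
    rw [← h3, AlgEquiv.symm_apply_apply]
  have h3 : z'.height = z.height := by
    exact RingEquiv.height_comap e.symm.toRingEquiv z
  rw [h2, h3] at h1
  exact h1

theorem le_height_of_X_mem {k : Type u} [Field k] (r : ℕ) :
    ∀ (z : Ideal (MvPolynomial (Fin r) k)) [z.IsPrime], (∀ i, MvPolynomial.X i ∈ z) →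
      (r : ℕ∞) ≤ z.height := by
  induction r with
  | zero => intro z _ _; simp
  | succ r ih =>
    intro z hz hX
    have h1 := height_resX_add_one_le z (hX 0)
    have h2 := ih (resX z) (fun i => by
      change MvPolynomial.rename Fin.succ (MvPolynomial.X i) ∈ z
      rw [MvPolynomial.rename_X]
      exact hX _)
    push_cast
    exact (add_le_add_left h2 1).trans h1

end height

section bad

variable (k : Type u) [Field k] (r : ℕ)

/-- Evaluation at `X_1 = ⋯ = X_r = 0`. -/
noncomputable def badHom : MvPolynomial (Fin (r + 1)) k →+* Polynomial k :=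
  MvPolynomial.eval₂Hom Polynomial.C (Fin.cons Polynomial.X fun _ => 0)

@[simp]
theorem badHom_C (a : k) : badHom k r (MvPolynomial.C a) = Polynomial.C a := by
  simp [badHom]

@[simp]
theorem badHom_X_zero : badHom k r (MvPolynomial.X 0) = Polynomial.X := by
  simp [badHom]

@[simp]
theorem badHom_X_succ (i : Fin r) : badHom k r (MvPolynomial.X i.succ) = 0 := by
  simp [badHom]

/-- The ideal `(X_1, …, X_r)`. -/
noncomputable def zBad : Ideal (MvPolynomial (Fin (r + 1)) k) := RingHom.ker (badHom k r)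

instance : (zBad k r).IsPrime := RingHom.ker_isPrime _

variable {k r}

theorem mem_zBad {f : MvPolynomial (Fin (r + 1)) k} : f ∈ zBad k r ↔ badHom k r f = 0 := Iff.rfl

theorem X_succ_mem_zBad (i : Fin r) : MvPolynomial.X i.succ ∈ zBad k r := by
  rw [mem_zBad, badHom_X_succ]

theorem sub_badHom_mem (q : Ideal (MvPolynomial (Fin (r + 1)) k))
    (h : ∀ i : Fin r, MvPolynomial.X i.succ ∈ q) (f : MvPolynomial (Fin (r + 1)) k) :
    f - Polynomial.eval₂ MvPolynomial.C (MvPolynomial.X 0) (badHom k r f) ∈ q := by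
  induction f using MvPolynomial.induction_on with
  | C a => simp
  | add f g hf hg =>
    have h1 := q.add_mem hf hg
    rw [map_add, Polynomial.eval₂_add]
    convert h1 using 1
    ring
  | mul_X f i hf =>
    rw [map_mul, Polynomial.eval₂_mul]
    refine Fin.cases ?_ (fun i => ?_) i
    · rw [badHom_X_zero, Polynomial.eval₂_X, ← sub_mul]
      exact Ideal.mul_mem_right _ _ hf
    · rw [badHom_X_succ, Polynomial.eval₂_zero, mul_zero, sub_zero]
      exact Ideal.mul_mem_left _ _ (h i)

/-- A homogeneous prime containing `X_1, …, X_r` but not `X_0`. -/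
theorem eq_zBad (q : Ideal (MvPolynomial (Fin (r + 1)) k)) [hq : q.IsPrime]
    (hhom : ∀ f ∈ q, ∀ n, MvPolynomial.homogeneousComponent n f ∈ q)
    (h0 : MvPolynomial.X 0 ∉ q) (h : ∀ i : Fin r, MvPolynomial.X i.succ ∈ q) :
    q = zBad k r := by
  refine le_antisymm ?_ ?_
  · intro f hf
    rw [mem_zBad]
    have h1 := q.sub_mem hf (sub_badHom_mem q h f)
    rw [sub_sub_cancel] at h1
    set g := badHom k r f with hg
    ext n
    rw [Polynomial.coeff_zero]
    by_contra hn
    have h2 := hhom _ h1 n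
    have h3 : MvPolynomial.homogeneousComponent n (Polynomial.eval₂ MvPolynomial.C
        (MvPolynomial.X (0 : Fin (r + 1))) g) =
        MvPolynomial.C (g.coeff n) * MvPolynomial.X (0 : Fin (r + 1)) ^ n := by
      rw [Polynomial.eval₂_eq_sum_range, map_sum]
      have h4 : ∀ i, MvPolynomial.homogeneousComponent n (MvPolynomial.C (g.coeff i) *
          (MvPolynomial.X (0 : Fin (r + 1)) : MvPolynomial (Fin (r + 1)) k) ^ i) =
          if n = i then MvPolynomial.C (g.coeff i) * MvPolynomial.X (0 : Fin (r + 1)) ^ i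
          else 0 := by
        intro i
        have h5 : (MvPolynomial.C (g.coeff i) *
          (MvPolynomial.X (0 : Fin (r + 1)) : MvPolynomial (Fin (r + 1)) k) ^ i).IsHomogeneous
            i := by
          have := (MvPolynomial.isHomogeneous_C (Fin (r + 1)) (g.coeff i)).mul
            (MvPolynomial.isHomogeneous_X_pow (R := k) (0 : Fin (r + 1)) i)
          rwa [zero_add] at this
        exact MvPolynomial.homogeneousComponent_of_mem ((MvPolynomial.mem_homogeneousSubmodule _ _).2 h5)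
      rw [Finset.sum_congr rfl fun i _ => h4 i, Finset.sum_ite_eq]
      split_ifs with hmem
      · rfl
      · rw [Finset.mem_range, not_lt] at hmem
        rw [Polynomial.coeff_eq_zero_of_natDegree_lt (by omega)]
        simp
    rw [h3] at h2
    rcases hq.mem_or_mem h2 with h4 | h4
    · exact hq.ne_top (Ideal.eq_top_of_isUnit_mem _ h4
        ((IsUnit.mk0 _ hn).map MvPolynomial.C))
    · exact h0 (hq.mem_of_pow_mem n h4)
  · intro f hf
    have h1 := sub_badHom_mem q h f
    rw [mem_zBad.1 hf, Polynomial.eval₂_zero, sub_zero] at h1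
    exact h1

theorem zBad_eq_span : zBad k r = Ideal.span (Set.range fun i : Fin r =>
    (MvPolynomial.X i.succ : MvPolynomial (Fin (r + 1)) k)) := by
  refine le_antisymm ?_ ?_
  · intro f hf
    have h1 := sub_badHom_mem (Ideal.span (Set.range fun i : Fin r =>
      (MvPolynomial.X i.succ : MvPolynomial (Fin (r + 1)) k)))
      (fun i => Ideal.subset_span ⟨i, rfl⟩) f
    rwa [mem_zBad.1 hf, Polynomial.eval₂_zero, sub_zero] at h1
  · rw [Ideal.span_le]
    rintro _ ⟨i, rfl⟩
    exact X_succ_mem_zBad i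

theorem height_zBad : (zBad k r).height = r := by
  refine le_antisymm ?_ ?_
  · have h1 := Ideal.height_le_spanFinrank (zBad k r) (Ideal.IsPrime.ne_top inferInstance)
    refine h1.trans ?_
    rw [zBad_eq_span]
    have h2 := Submodule.spanFinrank_span_le_ncard_of_finite (R := MvPolynomial (Fin (r + 1)) k)
      (Set.finite_range fun i : Fin r => (MvPolynomial.X i.succ : MvPolynomial (Fin (r + 1)) k))
    have h3 : (Set.range fun i : Fin r =>
        (MvPolynomial.X i.succ : MvPolynomial (Fin (r + 1)) k)).ncard ≤ r := by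
      have := Set.ncard_image_le (s := (Set.univ : Set (Fin r)))
        (f := fun i : Fin r => (MvPolynomial.X i.succ : MvPolynomial (Fin (r + 1)) k))
        Set.finite_univ
      rwa [Set.image_univ, Set.ncard_univ, Nat.card_fin] at this
    exact_mod_cast h2.trans h3
  · refine le_trans ?_ (height_resX_le _)
    refine le_height_of_X_mem r _ fun i => ?_
    change MvPolynomial.rename Fin.succ (MvPolynomial.X i) ∈ zBad k r
    rw [MvPolynomial.rename_X]
    exact X_succ_mem_zBad i

end bad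

end Vale.Agent.P177
end

section

/-!
Extension of generic orthogonal transformations by a parameter.
-/

namespace Vale.Agent.P177

open IsLocalRing Function

universe u

section ext

variable {k K k' K' : Type u} [Field k] [Field K] [Field k'] [Field K'] {r : ℕ}

theorem exists_denominator (σ : Polynomial k →+* k')
    (hs : ∀ a : k', ∃ g s : Polynomial k, σ s ≠ 0 ∧ a * σ s = σ g) {ι : Type}
    (p : MvPolynomial ι k') : ∃ (s : Polynomial k) (p₁ : MvPolynomial ι (Polynomial k)),
      σ s ≠ 0 ∧ MvPolynomial.C (σ s) * p = MvPolynomial.map σ p₁ := by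
  induction p using MvPolynomial.induction_on with
  | C a =>
    obtain ⟨g, s, hs0, h⟩ := hs a
    refine ⟨s, MvPolynomial.C g, hs0, ?_⟩
    rw [MvPolynomial.map_C, ← h, ← map_mul, mul_comm]
  | add p q hp hq =>
    obtain ⟨s, p₁, hs0, h⟩ := hp
    obtain ⟨s', q₁, hs0', h'⟩ := hq
    refine ⟨s * s', MvPolynomial.C s' * p₁ + MvPolynomial.C s * q₁, ?_, ?_⟩
    · rw [map_mul]
      exact mul_ne_zero hs0 hs0'
    · rw [map_add, map_mul, map_mul, map_mul (MvPolynomial.map σ), map_mul (MvPolynomial.map σ),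
        ← h, ← h', MvPolynomial.map_C, MvPolynomial.map_C]
      ring
  | mul_X p i hp =>
    obtain ⟨s, p₁, hs0, h⟩ := hp
    refine ⟨s, p₁ * MvPolynomial.X i, hs0, ?_⟩
    rw [map_mul, MvPolynomial.map_X, ← h, mul_assoc]

theorem injective_coeff (κ : k →+* K) {ι : Type} (α : ι → K)
    (hα : Injective (MvPolynomial.eval₂Hom κ α)) :
    Injective (MvPolynomial.eval₂Hom (Polynomial.mapRingHom κ) (fun i => Polynomial.C (α i)) :
      MvPolynomial ι (Polynomial k) →+* Polynomial K) := by
  classical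
  rw [injective_iff_map_eq_zero]
  intro p hp
  have key : ∀ n : ℕ, MvPolynomial.eval₂Hom κ α
      (∑ m ∈ p.support, MvPolynomial.monomial m ((p.coeff m).coeff n)) =
      (MvPolynomial.eval₂Hom (Polynomial.mapRingHom κ) (fun i => Polynomial.C (α i)) p).coeff n := by
    intro n
    rw [map_sum, MvPolynomial.coe_eval₂Hom, MvPolynomial.coe_eval₂Hom, MvPolynomial.eval₂_eq,
      Polynomial.finsetSum_coeff]
    refine Finset.sum_congr rfl fun m _ => ?_
    rw [MvPolynomial.eval₂_monomial, Finsupp.prod]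
    have h1 : ∏ i ∈ m.support, Polynomial.C (α i) ^ m i =
        Polynomial.C (∏ i ∈ m.support, α i ^ m i) := by
      rw [map_prod]
      exact Finset.prod_congr rfl fun i _ => (map_pow _ _ _).symm
    rw [h1, Polynomial.coeff_mul_C]
    congr 1
    simp
  ext m n
  rw [MvPolynomial.coeff_zero, Polynomial.coeff_zero]
  have h1 := key n
  rw [hp, Polynomial.coeff_zero] at h1
  have h2 := (injective_iff_map_eq_zero _).1 hα _ h1
  have h3 := congrArg (MvPolynomial.coeff m) h2
  rw [MvPolynomial.coeff_sum, MvPolynomial.coeff_zero] at h3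
  by_cases hm : m ∈ p.support
  · rw [Finset.sum_eq_single m] at h3
    · simpa using h3
    · intro b _ hb
      rw [MvPolynomial.coeff_monomial, if_neg hb]
    · intro h
      exact absurd hm h
  · rw [MvPolynomial.notMem_support_iff.1 hm, Polynomial.coeff_zero]

/-- Generic orthogonal transformations remain generic after adjoining a parameter. -/
theorem OrthData.ext {κ : k →+* K} {θ : Fin r → Fin r → K} (h : OrthData κ θ)
    (κ' : k' →+* K') (σ : Polynomial k →+* k') (σ' : Polynomial K →+* K') (hσ' : Injective σ')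
    (hcomp : κ'.comp σ = σ'.comp (Polynomial.mapRingHom κ))
    (hs : ∀ a : k', ∃ g s : Polynomial k, σ s ≠ 0 ∧ a * σ s = σ g) :
    OrthData κ' (fun i l => σ' (Polynomial.C (θ i l))) := by
  classical
  obtain ⟨α, b, c, hα, hb, hθ⟩ := h
  have hC : ∀ a : k, κ' (σ (Polynomial.C a)) = σ' (Polynomial.C (κ a)) := by
    intro a
    have := RingHom.congr_fun hcomp (Polynomial.C a)
    simpa using this
  refine ⟨fun p => σ' (Polynomial.C (α p)), fun i l => σ (Polynomial.C (b i l)),
    fun i l => σ (Polynomial.C (c i l)), ?_, ?_, ?_⟩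
  · rw [injective_iff_map_eq_zero]
    intro p hp
    obtain ⟨s, p₁, hs0, h1⟩ := exists_denominator σ hs p
    have h2 : MvPolynomial.eval₂Hom κ' (fun p => σ' (Polynomial.C (α p)))
        (MvPolynomial.map σ p₁) = σ' (MvPolynomial.eval₂Hom (Polynomial.mapRingHom κ)
          (fun i => Polynomial.C (α i)) p₁) := by
      rw [MvPolynomial.coe_eval₂Hom, MvPolynomial.eval₂_map, hcomp]
      rw [MvPolynomial.coe_eval₂Hom, MvPolynomial.eval₂_comp_left σ']
      rfl
    rw [← h1, map_mul, hp, mul_zero] at h2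
    have h3 := (injective_iff_map_eq_zero _).1 hσ' _ h2.symm
    have h4 := (injective_iff_map_eq_zero _).1 (injective_coeff κ α hα) _ h3
    rw [h4, map_zero] at h1
    rcases mul_eq_zero.1 h1 with h5 | h5
    · exact absurd (by simpa using h5) hs0
    · exact h5
  · have h1 : Matrix.of (fun i l => σ (Polynomial.C (b i l))) =
        (σ.comp Polynomial.C).mapMatrix (Matrix.of b) := by
      ext i l
      rfl
    rw [h1, ← RingHom.map_det]
    exact hb.map _
  · intro i m
    have h1 : σ' (Polynomial.C (θ i m)) - (if i = m then 1 else 0) =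
        σ' (Polynomial.C (θ i m - (if i = m then 1 else 0))) := by
      rw [map_sub, map_sub]
      congr 1
      split_ifs <;> simp
    have h2 : ∀ j m, σ' (Polynomial.C (θ j m)) - (if j = m then 1 else 0) =
        σ' (Polynomial.C (θ j m - (if j = m then 1 else 0))) := by
      intro j m
      rw [map_sub, map_sub]
      congr 1
      split_ifs <;> simp
    simp only [h2]
    rw [hθ, map_sum, map_sum]
    refine Finset.sum_congr rfl fun l _ => ?_
    rw [map_mul, map_mul, map_sub, map_sub, map_add, map_add, map_sum, map_sum, hC]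
    congr 2
    refine Finset.sum_congr rfl fun j _ => ?_
    rw [map_mul, map_mul, hC]

end ext

end Vale.Agent.P177
end

section

/-!
Heights of the centres of valuations of monomial type.
-/

namespace Vale.Agent.P177

open IsLocalRing Function

universe u

theorem height_map_C_add_one_le {S : Type u} [CommRing S] (z : Ideal (Polynomial S))
    [hz : z.IsPrime]
    (h0 : (z.comap (Polynomial.C : S →+* Polynomial S)).map
      (Polynomial.C : S →+* Polynomial S) ≠ z) :
    (z.comap (Polynomial.C : S →+* Polynomial S)).height + 1 ≤ z.height := by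
  let a : Ideal S := z.comap (Polynomial.C : S →+* Polynomial S)
  have ha : a.IsPrime := Ideal.IsPrime.comap _
  let b : Ideal (Polynomial S) := a.map (Polynomial.C : S →+* Polynomial S)
  have hb : b.IsPrime := Ideal.isPrime_map_C_of_isPrime
  have hlt : b < z := lt_of_le_of_ne Ideal.map_comap_le h0
  have h2 : b.under S = a := by
    ext s
    change Polynomial.C s ∈ b ↔ s ∈ a
    rw [Ideal.mem_map_C_iff]
    refine ⟨fun h => by simpa using h 0, fun h n => ?_⟩
    rw [Polynomial.coeff_C]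
    split_ifs
    · exact h
    · exact zero_mem _
  have h3 := height_under_le (R := S) b
  rw [h2] at h3
  exact (add_le_add_left h3 1).trans (Ideal.height_add_one_le_of_lt_of_isPrime hlt)

theorem height_linear {S : Type u} [CommRing S] (r : ℕ) (z : Ideal (MvPolynomial (Fin r) S))
    [hz : z.IsPrime] (a : S) (ha : MvPolynomial.C a ∉ z)
    (h : ∀ i, ∃ b : S, MvPolynomial.C a * MvPolynomial.X i - MvPolynomial.C b ∈ z) :
    (z.comap (MvPolynomial.C : S →+* MvPolynomial (Fin r) S)).height + r ≤ z.height := by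
  induction r with
  | zero =>
    rw [Nat.cast_zero, add_zero]
    have h1 := RingEquiv.height_comap (MvPolynomial.isEmptyRingEquiv S (Fin 0)).symm z
    refine le_of_eq ?_
    rw [← h1]
    congr 1
  | succ r ih =>
    let e := MvPolynomial.finSuccEquiv S r
    let z' : Ideal (Polynomial (MvPolynomial (Fin r) S)) :=
      z.comap (e.symm : Polynomial (MvPolynomial (Fin r) S) →+* MvPolynomial (Fin (r + 1)) S)
    have hz' : z'.IsPrime := Ideal.IsPrime.comap _
    have hmem : ∀ F, e F ∈ z' ↔ F ∈ z := fun F => by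
      change e.symm (e F) ∈ z ↔ _
      rw [AlgEquiv.symm_apply_apply]
    let z'' : Ideal (MvPolynomial (Fin r) S) :=
      z'.comap (Polynomial.C : MvPolynomial (Fin r) S →+* _)
    have hz'' : z''.IsPrime := Ideal.IsPrime.comap _
    have hren : ∀ F : MvPolynomial (Fin r) S, F ∈ z'' ↔ MvPolynomial.rename Fin.succ F ∈ z := by
      intro F
      rw [← hmem]
      have h3 : e (MvPolynomial.rename Fin.succ F) = Polynomial.C F := by
        induction F using MvPolynomial.induction_on with
        | C a =>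
          rw [MvPolynomial.rename_C, MvPolynomial.finSuccEquiv_apply]
          simp
        | add p q hp hq => rw [map_add, map_add, map_add, hp, hq]
        | mul_X p i hp =>
          rw [map_mul, map_mul, map_mul, hp, MvPolynomial.rename_X]
          congr 1
          exact MvPolynomial.finSuccEquiv_X_succ
      rw [h3]
      rfl
    have h1 := ih z'' (by
      rw [hren, MvPolynomial.rename_C]
      exact ha) (by
      intro i
      obtain ⟨b, hb⟩ := h i.succ
      refine ⟨b, ?_⟩
      rw [hren, map_sub, map_mul, MvPolynomial.rename_C, MvPolynomial.rename_C,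
        MvPolynomial.rename_X]
      exact hb)
    have h2 := height_map_C_add_one_le z' (by
      intro hcon
      obtain ⟨b, hb⟩ := h 0
      rw [← hmem, ← hcon, Ideal.mem_map_C_iff] at hb
      have h3 := hb 1
      have h4 : e (MvPolynomial.C a * MvPolynomial.X 0 - MvPolynomial.C b) =
          Polynomial.C (MvPolynomial.C a) * Polynomial.X - Polynomial.C (MvPolynomial.C b) := by
        have heC : ∀ s : S, e (MvPolynomial.C s) = Polynomial.C (MvPolynomial.C s) := fun s => by
          rw [MvPolynomial.finSuccEquiv_apply]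
          simp
        rw [map_sub, map_mul, MvPolynomial.finSuccEquiv_X_zero, heC, heC]
      rw [h4, Polynomial.coeff_sub, Polynomial.coeff_C_mul, Polynomial.coeff_X_one, mul_one,
        Polynomial.coeff_C_succ, sub_zero] at h3
      apply ha
      have h5 : MvPolynomial.C a ∈ z'' := h3
      rw [hren, MvPolynomial.rename_C] at h5
      exact h5)
    have h3 : z'.height = z.height := RingEquiv.height_comap e.symm.toRingEquiv z
    have h4 : z''.comap (MvPolynomial.C : S →+* MvPolynomial (Fin r) S) =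
        z.comap (MvPolynomial.C : S →+* MvPolynomial (Fin (r + 1)) S) := by
      ext s
      rw [Ideal.mem_comap, hren, MvPolynomial.rename_C]
      rfl
    rw [h4] at h1
    rw [h3] at h2
    push_cast
    rw [← add_assoc]
    exact (add_le_add_left h1 1).trans h2

theorem height_le_residue {R : Type u} [CommRing R] [IsLocalRing R] [IsNoetherianRing R] {r : ℕ}
    (𝔠 : Ideal (MvPolynomial (Fin r) R)) [𝔠.IsPrime]
    (𝔞 : Ideal (MvPolynomial (Fin r) (ResidueField R))) [𝔞.IsPrime]
    (h : 𝔠 = 𝔞.comap (MvPolynomial.map (residue R))) :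
    𝔠.height ≤ (maximalIdeal R).height + 𝔞.height := by
  have hq : Surjective (MvPolynomial.map (σ := Fin r) (residue R)) :=
    MvPolynomial.map_surjective _ residue_surjective
  let I : Ideal (MvPolynomial (Fin r) R) :=
    (maximalIdeal R).map (algebraMap R (MvPolynomial (Fin r) R))
  have hI : RingHom.ker (MvPolynomial.map (σ := Fin r) (residue R)) = I := by
    rw [MvPolynomial.ker_map, ker_residue]
    rfl
  have hlies : 𝔠.LiesOver (maximalIdeal R) := by
    refine ⟨?_⟩
    rw [h]
    ext a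
    change a ∈ maximalIdeal R ↔ MvPolynomial.map (residue R) (MvPolynomial.C a) ∈ 𝔞
    rw [MvPolynomial.map_C]
    constructor
    · intro ha
      rw [(residue_eq_zero_iff a).2 ha, map_zero]
      exact zero_mem _
    · intro ha
      by_contra h2
      have h3 : IsUnit (residue R a) := by
        rw [isUnit_iff_ne_zero, Ne, residue_eq_zero_iff]
        exact h2
      exact (inferInstance : 𝔞.IsPrime).ne_top (Ideal.eq_top_of_isUnit_mem _ ha
        (h3.map MvPolynomial.C))
  have h1 := Ideal.height_le_height_add_of_liesOver (maximalIdeal R) 𝔠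
  let f : MvPolynomial (Fin r) R ⧸ I →+* MvPolynomial (Fin r) (ResidueField R) :=
    Ideal.Quotient.lift I (MvPolynomial.map (residue R)) (fun a ha => by
      rw [← hI] at ha
      exact ha)
  have hf : Bijective f := by
    constructor
    · rw [injective_iff_map_eq_zero]
      intro a ha
      obtain ⟨a, rfl⟩ := Ideal.Quotient.mk_surjective a
      rw [Ideal.Quotient.eq_zero_iff_mem, ← hI]
      exact ha
    · exact Ideal.Quotient.lift_surjective_of_surjective _ _ hq
  let e := RingEquiv.ofBijective f hf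
  have h2 : 𝔠.map (Ideal.Quotient.mk I) = 𝔞.comap (e : _ →+* _) := by
    have h3 : 𝔠 = (𝔞.comap (e : _ →+* _)).comap (Ideal.Quotient.mk I) := by
      rw [h, Ideal.comap_comap]
      rfl
    rw [h3, Ideal.map_comap_of_surjective _ Ideal.Quotient.mk_surjective]
  have h3 : (𝔠.map (Ideal.Quotient.mk I)).height = 𝔞.height := by
    rw [h2]
    exact RingEquiv.height_comap e 𝔞
  rw [← h3]
  exact h1

section hom

variable {k : Type u} [CommRing k] {r : ℕ} (j : Fin (r + 1))

/-- The values of the variables under dehomogenization. -/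
noncomputable def eJ : Fin (r + 1) → MvPolynomial (Fin r) k :=
  Fin.insertNth j 1 MvPolynomial.X

@[simp] theorem eJ_same : eJ (k := k) j j = 1 := Fin.insertNth_apply_same _ _ _

@[simp] theorem eJ_succAbove (i : Fin r) : eJ (k := k) j (j.succAbove i) = MvPolynomial.X i :=
  Fin.insertNth_apply_succAbove _ _ _ _

/-- The graded dehomogenization. -/
noncomputable def muJ : MvPolynomial (Fin (r + 1)) k →ₐ[k] Polynomial (MvPolynomial (Fin r) k) :=
  MvPolynomial.aeval (fun i => Polynomial.X * Polynomial.C (eJ j i))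

theorem muJ_hom (F : MvPolynomial (Fin (r + 1)) k) (n : ℕ) (hF : F.IsHomogeneous n) :
    muJ j F = Polynomial.X ^ n * Polynomial.C (MvPolynomial.aeval (eJ j) F) := by
  unfold muJ
  rw [aeval_mul_of_isHomogeneous _ _ F n hF]
  congr 1
  exact MvPolynomial.aeval_algebraMap_apply (Polynomial (MvPolynomial (Fin r) k)) (eJ j) F

theorem aeval_eJ_rename (G : MvPolynomial (Fin r) k) :
    MvPolynomial.aeval (eJ j) (MvPolynomial.rename j.succAbove G) = G := by
  rw [MvPolynomial.aeval_rename]
  have : (eJ (k := k) j ∘ j.succAbove) = MvPolynomial.X := by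
    funext i
    exact eJ_succAbove j i
  rw [this, MvPolynomial.aeval_X_left_apply]

/-- The homogeneous prime attached to a prime of the affine ring. -/
noncomputable def hJ (𝔭 : Ideal (MvPolynomial (Fin r) k)) : Ideal (MvPolynomial (Fin (r + 1)) k) :=
  (𝔭.map (Polynomial.C : MvPolynomial (Fin r) k →+* _)).comap (muJ j)

instance (𝔭 : Ideal (MvPolynomial (Fin r) k)) [𝔭.IsPrime] : (hJ j 𝔭).IsPrime := by
  have hb : (𝔭.map (Polynomial.C : MvPolynomial (Fin r) k →+* _)).IsPrime :=
    Ideal.isPrime_map_C_of_isPrime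
  exact Ideal.IsPrime.comap _

theorem hJ_strictMono {𝔭 𝔮 : Ideal (MvPolynomial (Fin r) k)} (h : 𝔭 < 𝔮) : hJ j 𝔭 < hJ j 𝔮 := by
  refine lt_of_le_not_ge (Ideal.comap_mono (Ideal.map_mono h.le)) ?_
  intro hcon
  obtain ⟨G, hG, hG'⟩ := SetLike.exists_of_lt h
  let N := G.totalDegree
  let G' : MvPolynomial (Fin (r + 1)) k := ∑ n ∈ Finset.range (N + 1),
    MvPolynomial.rename j.succAbove (MvPolynomial.homogeneousComponent n G) *
      MvPolynomial.X j ^ (N - n)
  have h1 : muJ j G' = Polynomial.X ^ N * Polynomial.C G := by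
    have h2 : ∀ n ∈ Finset.range (N + 1), muJ j
        (MvPolynomial.rename j.succAbove (MvPolynomial.homogeneousComponent n G) *
          MvPolynomial.X j ^ (N - n)) =
        Polynomial.X ^ N * Polynomial.C (MvPolynomial.homogeneousComponent n G) := by
      intro n hn
      rw [Finset.mem_range] at hn
      rw [map_mul, map_pow, muJ_hom j _ n
        (MvPolynomial.homogeneousComponent_isHomogeneous n G).rename_isHomogeneous,
        aeval_eJ_rename]
      have h3 : muJ j (MvPolynomial.X j : MvPolynomial (Fin (r + 1)) k) = Polynomial.X := by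
        unfold muJ
        rw [MvPolynomial.aeval_X, eJ_same, map_one, mul_one]
      rw [h3]
      have h4 : (Polynomial.X : Polynomial (MvPolynomial (Fin r) k)) ^ N =
          Polynomial.X ^ n * Polynomial.X ^ (N - n) := by
        rw [← pow_add]
        congr 1
        omega
      rw [h4]
      ring
    rw [map_sum, Finset.sum_congr rfl h2, ← Finset.mul_sum, ← map_sum,
      MvPolynomial.sum_homogeneousComponent]
  have h2 : G' ∈ hJ j 𝔮 := by
    change muJ j G' ∈ 𝔮.map (Polynomial.C : MvPolynomial (Fin r) k →+* _)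
    rw [h1]
    exact Ideal.mul_mem_left _ _ (Ideal.mem_map_of_mem _ hG)
  have h3 : muJ j G' ∈ 𝔭.map (Polynomial.C : MvPolynomial (Fin r) k →+* _) := hcon h2
  rw [h1, Ideal.mem_map_C_iff] at h3
  have h4 := h3 N
  rw [Polynomial.coeff_mul_C, Polynomial.coeff_X_pow, if_pos rfl, one_mul] at h4
  exact hG' h4

theorem height_le_hJ (𝔭 : Ideal (MvPolynomial (Fin r) k)) [h𝔭 : 𝔭.IsPrime] :
    𝔭.height ≤ (hJ j 𝔭).height := by
  let f : PrimeSpectrum (MvPolynomial (Fin r) k) → PrimeSpectrum (MvPolynomial (Fin (r + 1)) k) :=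
    fun p => ⟨hJ j p.asIdeal, inferInstance⟩
  have hf : StrictMono f := fun p q hpq => hJ_strictMono j hpq
  have h1 := Order.height_le_height_apply_of_strictMono f hf ⟨𝔭, h𝔭⟩
  rw [← PrimeSpectrum.height_eq_orderHeight, ← PrimeSpectrum.height_eq_orderHeight] at h1
  exact h1

theorem height_le_of_dehom (z : Ideal (MvPolynomial (Fin (r + 1)) k)) [z.IsPrime]
    (𝔞 : Ideal (MvPolynomial (Fin r) k)) [𝔞.IsPrime]
    (h : ∀ (n : ℕ) (F : MvPolynomial (Fin (r + 1)) k), F.IsHomogeneous n →
      MvPolynomial.aeval (eJ j) F ∈ 𝔞 → F ∈ z) : 𝔞.height ≤ z.height := by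
  refine (height_le_hJ j 𝔞).trans (Ideal.height_mono ?_)
  intro F hF
  have hF' : muJ j F ∈ 𝔞.map (Polynomial.C : MvPolynomial (Fin r) k →+* _) := hF
  rw [Ideal.mem_map_C_iff] at hF'
  rw [← MvPolynomial.sum_homogeneousComponent F]
  refine Ideal.sum_mem _ fun n hn => ?_
  refine h n _ (MvPolynomial.homogeneousComponent_isHomogeneous n F) ?_
  have h1 := hF' n
  rw [← MvPolynomial.sum_homogeneousComponent F, map_sum, Polynomial.finsetSum_coeff] at h1
  have h2 : ∀ m ∈ Finset.range (F.totalDegree + 1),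
      (muJ j (MvPolynomial.homogeneousComponent m F)).coeff n =
      if m = n then MvPolynomial.aeval (eJ j) (MvPolynomial.homogeneousComponent m F) else 0 := by
    intro m _
    rw [muJ_hom j _ m (MvPolynomial.homogeneousComponent_isHomogeneous m F),
      Polynomial.coeff_mul_C, Polynomial.coeff_X_pow]
    split_ifs with h3 h4 h4
    · rw [one_mul]
    · exact absurd h3.symm h4
    · exact absurd h4.symm h3
    · rw [zero_mul]
  rw [Finset.sum_congr rfl h2, Finset.sum_ite_eq' _ _ _, if_pos hn] at h1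
  exact h1

end hom

end Vale.Agent.P177
end

section

/-!
The condition on valuations, up to a power.
-/

namespace Vale.Agent.P177

open IsLocalRing Function

universe u

/-- Weak form of the condition on valuations, with an exponent. -/
def VCondW {R : Type u} [CommRing R] [IsLocalRing R] {r : ℕ} (y : R) (x : Fin r → R)
    (I : Ideal R) (h w : ℕ) : Prop :=
  ∀ (O : Type u) [CommRing O] [IsDomain O] [ValuationRing O] (φ : R →+* O) [IsLocalHom φ]
    (j : Fin r) (z : Ideal (MvPolynomial (Fin r) (ResidueField R))) [z.IsPrime],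
    I ≤ RingHom.ker φ → φ y ≠ 0 → φ (x j) ≠ 0 → (∀ i, φ (x j) ∣ φ (x i)) →
    (∀ (n : ℕ) (F : MvPolynomial (Fin r) R), F.IsHomogeneous n →
      (F.map (residue R) ∈ z ↔ ∃ m ∈ maximalIdeal O,
        φ (MvPolynomial.eval x F) = φ (x j) ^ n * m)) →
    z.height + 1 ≤ h → ∃ c : ℕ, Associated (φ (x j) ^ w) (φ y ^ c)

section

variable {R O : Type u} [CommRing R] [IsRegularLocalRing R] [CommRing O] [IsDomain O]
    [ValuationRing O] (φ : R →+* O) [IsLocalHom φ] {r : ℕ} (x : Fin (r + 1) → R)
    (j : Fin (r + 1)) (u : Fin (r + 1) → O) (hu : ∀ i, φ (x i) = φ (x j) * u i)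
    (hxj : φ (x j) ≠ 0)

/-- The map defined by the quotients of the values. -/
noncomputable def phiU : MvPolynomial (Fin r) R →+* O :=
  MvPolynomial.eval₂Hom φ (fun i => u (j.succAbove i))

omit [IsRegularLocalRing R] [IsDomain O] [ValuationRing O] [IsLocalHom φ] in
@[simp] theorem phiU_C (a : R) : phiU φ j u (MvPolynomial.C a) = φ a :=
  MvPolynomial.eval₂_C _ _ _

omit [IsRegularLocalRing R] [IsDomain O] [ValuationRing O] [IsLocalHom φ] in
@[simp] theorem phiU_X (i : Fin r) : phiU φ j u (MvPolynomial.X i) = u (j.succAbove i) :=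
  MvPolynomial.eval₂_X _ _ _

/-- The map modulo the maximal ideals. -/
noncomputable def phiR : MvPolynomial (Fin r) (ResidueField R) →+* ResidueField O :=
  MvPolynomial.eval₂Hom (ResidueField.map φ) (fun i => residue O (u (j.succAbove i)))

theorem comap_phiU : (maximalIdeal O).comap (phiU φ j u) =
    (RingHom.ker (phiR φ j u)).comap (MvPolynomial.map (residue R)) := by
  have h : (residue O).comp (phiU φ j u) =
      (phiR φ j u).comp (MvPolynomial.map (residue R)) := by
    apply MvPolynomial.ringHom_ext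
    · intro a
      simp [phiR]
    · intro i
      simp [phiR]
  ext F
  change phiU φ j u F ∈ maximalIdeal O ↔ phiR φ j u (MvPolynomial.map (residue R) F) = 0
  rw [← residue_eq_zero_iff]
  change (residue O).comp (phiU φ j u) F = 0 ↔ _
  rw [h]
  rfl

omit [IsRegularLocalRing R] [ValuationRing O] [IsLocalHom φ] in
include hu hxj in
theorem u_same : u j = 1 := by
  have h := hu j
  exact (mul_left_cancel₀ hxj (by rw [mul_one]; exact h)).symm

include hu hxj in
theorem height_ker_phiR (z : Ideal (MvPolynomial (Fin (r + 1)) (ResidueField R))) [z.IsPrime]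
    (hz : ∀ (n : ℕ) (F : MvPolynomial (Fin (r + 1)) R), F.IsHomogeneous n →
      (F.map (residue R) ∈ z ↔ ∃ m ∈ maximalIdeal O,
        φ (MvPolynomial.eval x F) = φ (x j) ^ n * m)) :
    (RingHom.ker (phiR φ j u)).height ≤ z.height := by
  have hp : (RingHom.ker (phiR φ j u)).IsPrime := RingHom.ker_isPrime _
  refine height_le_of_dehom j z _ fun n F' hF' hmem => ?_
  obtain ⟨F₀, hF₀⟩ := MvPolynomial.map_surjective (σ := Fin (r + 1)) (residue R)
    residue_surjective F'
  let F := MvPolynomial.homogeneousComponent n F₀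
  have hF : F.IsHomogeneous n := MvPolynomial.homogeneousComponent_isHomogeneous n F₀
  have hFF : MvPolynomial.map (residue R) F = F' := by
    ext m
    rw [MvPolynomial.coeff_map, MvPolynomial.coeff_homogeneousComponent]
    split_ifs with hm
    · rw [← MvPolynomial.coeff_map, hF₀]
    · rw [map_zero]
      by_contra hne
      exact hm (hF'.degree_eq_sum_deg_support (MvPolynomial.mem_support_iff.2 (Ne.symm hne))).symm
  rw [← hFF, hz n F hF]
  have h1 : φ (MvPolynomial.eval x F) = φ (x j) ^ n * MvPolynomial.eval₂ φ u F := by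
    let _ : Algebra R O := φ.toAlgebra
    have h2 := aeval_mul_of_isHomogeneous (A := R) (φ (x j)) u F n hF
    have h3 : MvPolynomial.aeval (R := R) (fun i => φ (x j) * u i) F =
        φ (MvPolynomial.eval x F) := by
      have : (fun i => φ (x j) * u i) = fun i => algebraMap R O (x i) := by
        funext i
        exact (hu i).symm
      rw [this]
      exact MvPolynomial.aeval_algebraMap_apply O x F
    rw [h3] at h2
    exact h2
  refine ⟨MvPolynomial.eval₂ φ u F, ?_, h1⟩
  rw [← residue_eq_zero_iff]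
  have h2 : ∀ G : MvPolynomial (Fin (r + 1)) R, residue O (MvPolynomial.eval₂ φ u G) =
      phiR φ j u (MvPolynomial.aeval (eJ j) (MvPolynomial.map (residue R) G)) := by
    intro G
    have h3 : (residue O).comp (MvPolynomial.eval₂Hom φ u) = ((phiR φ j u).comp
        ((MvPolynomial.aeval (eJ j) : MvPolynomial (Fin (r + 1)) (ResidueField R) →ₐ[ResidueField R]
          MvPolynomial (Fin r) (ResidueField R)) : _ →+* _)).comp
        (MvPolynomial.map (residue R)) := by
      apply MvPolynomial.ringHom_ext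
      · intro a
        simp [phiR]
      · intro i
        refine Fin.succAboveCases j ?_ (fun i => ?_) i
        · simp [phiR, u_same φ x j u hu hxj]
        · simp [phiR]
    exact RingHom.congr_fun h3 G
  rw [h2, hFF]
  exact hmem

omit [IsRegularLocalRing R] [ValuationRing O] [IsLocalHom φ] in
include hu hxj in
theorem height_ker_phiU : (RingHom.ker φ).height + r ≤ (RingHom.ker (phiU φ j u)).height := by
  have hp : (RingHom.ker (phiU φ j u)).IsPrime := RingHom.ker_isPrime _
  have h := height_linear r (RingHom.ker (phiU φ j u)) (x j) (by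
    rw [RingHom.mem_ker, phiU_C]
    exact hxj) (fun i => ⟨x (j.succAbove i), by
      rw [RingHom.mem_ker, map_sub, map_mul, phiU_C, phiU_C, phiU_X, hu (j.succAbove i), sub_self]⟩)
  refine le_trans (le_of_eq ?_) h
  congr 2
  ext a
  change φ a = 0 ↔ phiU φ j u (MvPolynomial.C a) = 0
  rw [phiU_C]

end

theorem exists_VCondW {R : Type u} [CommRing R] [IsRegularLocalRing R] (r : ℕ)
    (hd : ringKrullDim R = ((r + 1 : ℕ) : WithBot ℕ∞)) (y : R) (x : Fin r → R)
    (hy : y ∈ maximalIdeal R) (hx : ∀ i, x i ∈ maximalIdeal R)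
    (P : Ideal R) [P.IsPrime] (hyP : y ∉ P) (h : ℕ) (hh : P.height = h) :
    ∃ w, 1 ≤ w ∧ VCondW y x P h w := by
  classical
  rcases r with _ | r
  · exact ⟨1, le_rfl, fun O _ _ _ φ _ j => j.elim0⟩
  have hmain : ∀ j : Fin (r + 1), ∃ w, 1 ≤ w ∧ ∀ (O : Type u) [CommRing O] [IsDomain O]
      [ValuationRing O] (φ : R →+* O) [IsLocalHom φ]
      (z : Ideal (MvPolynomial (Fin (r + 1)) (ResidueField R))) [z.IsPrime],
      P ≤ RingHom.ker φ → φ y ≠ 0 → φ (x j) ≠ 0 → (∀ i, φ (x j) ∣ φ (x i)) →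
      (∀ (n : ℕ) (F : MvPolynomial (Fin (r + 1)) R), F.IsHomogeneous n →
        (F.map (residue R) ∈ z ↔ ∃ m ∈ maximalIdeal O,
          φ (MvPolynomial.eval x F) = φ (x j) ^ n * m)) →
      z.height + 1 ≤ h → ∃ c : ℕ, Associated (φ (x j) ^ w) (φ y ^ c) := by
    intro j
    by_cases hjP : x j ∈ P
    · refine ⟨1, le_rfl, ?_⟩
      intro O _ _ _ φ _ z _ hker _ hxj
      exact absurd (hker hjP) hxj
    let K := FractionRing (R ⧸ P)
    let ι₀ : R →+* K := (algebraMap (R ⧸ P) K).comp (Ideal.Quotient.mk P)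
    have hι₀ : ∀ a, ι₀ a = 0 ↔ a ∈ P := fun a => by
      change algebraMap (R ⧸ P) K (Ideal.Quotient.mk P a) = 0 ↔ a ∈ P
      rw [map_eq_zero_iff _ (IsFractionRing.injective (R ⧸ P) K), Ideal.Quotient.eq_zero_iff_mem]
    let ψ : MvPolynomial (Fin r) R →+* K :=
      MvPolynomial.eval₂Hom ι₀ (fun i => ι₀ (x (j.succAbove i)) / ι₀ (x j))
    have hψC : ∀ a, ψ (MvPolynomial.C a) = ι₀ a := fun a => MvPolynomial.eval₂_C _ _ _
    have hψX : ∀ i, ψ (MvPolynomial.X i) = ι₀ (x (j.succAbove i)) / ι₀ (x j) := fun i =>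
      MvPolynomial.eval₂_X _ _ _
    have hKp : (RingHom.ker ψ).IsPrime := RingHom.ker_isPrime _
    obtain ⟨w, hw, hW⟩ := exists_weight (RingHom.ker ψ) (MvPolynomial.C (x j))
      (MvPolynomial.C y) (by
        rw [RingHom.mem_ker, hψC, hι₀]
        exact hjP) (by
        rw [RingHom.mem_ker, hψC, hι₀]
        exact hyP)
    refine ⟨w, hw, ?_⟩
    intro O _ _ _ φ _ z _ hker hφy hxj hdiv hz hzh
    choose u hu using hdiv
    have hkp : (RingHom.ker φ).IsPrime := RingHom.ker_isPrime _
    have hkUp : (RingHom.ker (phiU φ j u)).IsPrime := RingHom.ker_isPrime _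
    have hkRp : (RingHom.ker (phiR φ j u)).IsPrime := RingHom.ker_isPrime _
    have hcp : ((maximalIdeal O).comap (phiU φ j u)).IsPrime := Ideal.IsPrime.comap _
    have e1 := height_ker_phiR φ x j u hu hxj z hz
    have e2 := height_le_residue _ _ (comap_phiU φ j u)
    have e3 := height_ker_phiU φ x j u hu hxj
    have hφm : ∀ a ∈ maximalIdeal R, φ a ∈ maximalIdeal O := fun a ha => by
      have hloc : IsLocalHom φ := inferInstance
      have h2 := ((IsLocalRing.local_hom_TFAE φ).out 0 2).mp hloc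
      exact h2 (Ideal.mem_map_of_mem _ ha)
    have hleU : RingHom.ker (phiU φ j u) ≤ (maximalIdeal O).comap (phiU φ j u) := by
      intro F hF
      change phiU φ j u F ∈ maximalIdeal O
      rw [RingHom.mem_ker.1 hF]
      exact zero_mem _
    have hlt : RingHom.ker (phiU φ j u) < (maximalIdeal O).comap (phiU φ j u) := by
      refine lt_of_le_of_ne hleU ?_
      intro hcon
      have h1 : (MvPolynomial.C y : MvPolynomial (Fin r) R) ∈
          (maximalIdeal O).comap (phiU φ j u) := by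
        change phiU φ j u (MvPolynomial.C y) ∈ maximalIdeal O
        rw [phiU_C]
        exact hφm y hy
      rw [← hcon, RingHom.mem_ker, phiU_C] at h1
      exact hφy h1
    have e4 := Ideal.height_add_one_le_of_lt_of_isPrime hlt
    have hmR : (maximalIdeal R).height = ((r + 2 : ℕ) : ℕ∞) := by
      have h1 := IsLocalRing.maximalIdeal_height_eq_ringKrullDim (R := R)
      rw [hd] at h1
      exact_mod_cast h1
    rw [hmR] at e2
    have e5 : ((maximalIdeal O).comap (phiU φ j u)).height ≤ ((r + 1 + h : ℕ) : ℕ∞) := by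
      refine e2.trans ?_
      have h1 : (((r + 2 : ℕ) : ℕ∞) + (RingHom.ker (phiR φ j u)).height) ≤
          ((r + 1 : ℕ) : ℕ∞) + (z.height + 1) := by
        have : ((r + 2 : ℕ) : ℕ∞) = ((r + 1 : ℕ) : ℕ∞) + 1 := by push_cast; ring
        rw [this, add_assoc, add_comm (1 : ℕ∞)]
        gcongr
      refine h1.trans ?_
      rw [Nat.cast_add (r + 1) h]
      gcongr
    have hPle : P.height ≤ (RingHom.ker φ).height := Ideal.height_mono hker
    rw [hh] at hPle
    have hP'fin : (RingHom.ker φ).height ≠ ⊤ := Ideal.height_ne_top_of_isPrime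
    obtain ⟨p', hp'⟩ := ENat.ne_top_iff_exists.1 hP'fin
    have hUfin : (RingHom.ker (phiU φ j u)).height ≠ ⊤ := Ideal.height_ne_top_of_isPrime
    obtain ⟨v, hv⟩ := ENat.ne_top_iff_exists.1 hUfin
    rw [← hp', ← hv] at e3
    rw [← hv] at e4
    rw [← hp'] at hPle
    have f1 : p' + r ≤ v := by exact_mod_cast e3
    have f2 : v + 1 ≤ r + 1 + h := by exact_mod_cast e4.trans e5
    have f3 : h ≤ p' := by exact_mod_cast hPle
    have hPeq : P = RingHom.ker φ := by
      by_contra hne
      have h1 := Ideal.height_add_one_le_of_lt_of_isPrime (lt_of_le_of_ne hker hne)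
      rw [hh, ← hp'] at h1
      have h2 : h + 1 ≤ p' := by exact_mod_cast h1
      omega
    have hkereq : RingHom.ker (phiU φ j u) = RingHom.ker ψ := by
      let L := FractionRing O
      let φ₁ : R ⧸ P →+* O := Ideal.Quotient.lift P φ fun a ha => hker ha
      have hφ₁ : Injective φ₁ := by
        rw [injective_iff_map_eq_zero]
        intro a ha
        obtain ⟨a, rfl⟩ := Ideal.Quotient.mk_surjective a
        rw [Ideal.Quotient.eq_zero_iff_mem, hPeq]
        exact ha
      have hinj : Injective ((algebraMap O L).comp φ₁) := (IsFractionRing.injective O L).comp hφ₁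
      let ι₁ : K →+* L := IsFractionRing.lift hinj
      have hι₁ : ∀ a, ι₁ (ι₀ a) = algebraMap O L (φ a) := fun a =>
        IsFractionRing.lift_algebraMap hinj (Ideal.Quotient.mk P a)
      have hcomp : (algebraMap O L).comp (phiU φ j u) = ι₁.comp ψ := by
        apply MvPolynomial.ringHom_ext
        · intro a
          rw [RingHom.comp_apply, RingHom.comp_apply, phiU_C, hψC, hι₁]
        · intro i
          rw [RingHom.comp_apply, RingHom.comp_apply, phiU_X, hψX, map_div₀, hι₁, hι₁,
            hu (j.succAbove i), map_mul]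
          have h1 : algebraMap O L (φ (x j)) ≠ 0 := by
            rw [Ne, map_eq_zero_iff _ (IsFractionRing.injective O L)]
            exact hxj
          exact (mul_div_cancel_left₀ _ h1).symm
      ext F
      rw [RingHom.mem_ker, RingHom.mem_ker, ← map_eq_zero_iff _ (IsFractionRing.injective O L),
        ← RingHom.comp_apply, hcomp, RingHom.comp_apply, map_eq_zero_iff _ ι₁.injective]
    obtain ⟨c, hc⟩ := hW O (phiU φ j u) hkereq (by
        change phiU φ j u (MvPolynomial.C (x j)) ∈ maximalIdeal O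
        rw [phiU_C]
        exact hφm _ (hx j)) (by
        change phiU φ j u (MvPolynomial.C y) ∈ maximalIdeal O
        rw [phiU_C]
        exact hφm y hy) (by
        intro q hq h1 h2
        rw [← hkereq] at h1 ⊢
        by_contra hcon
        push Not at hcon
        have h3 := Ideal.height_add_one_le_of_lt_of_isPrime (lt_of_le_of_ne h1 (Ne.symm hcon.1))
        have h4 := Ideal.height_add_one_le_of_lt_of_isPrime (lt_of_le_of_ne h2 hcon.2)
        have h5 := ((add_le_add_left h3 1).trans h4).trans e5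
        rw [← hv] at h5
        have h6 : v + 1 + 1 ≤ r + 1 + h := by exact_mod_cast h5
        omega)
    rw [phiU_C, phiU_C] at hc
    exact ⟨c, hc⟩
  choose w hw hW using hmain
  refine ⟨∏ j, w j, Nat.succ_le_of_lt (Finset.prod_pos fun j _ => hw j), ?_⟩
  intro O _ _ _ φ _ j z _ hker hφy hxj hdiv hz hzh
  obtain ⟨c, hc⟩ := hW j O φ z hker hφy hxj hdiv hz hzh
  obtain ⟨m, hm⟩ := Finset.dvd_prod_of_mem w (Finset.mem_univ j)
  refine ⟨c * m, ?_⟩
  rw [hm, pow_mul, pow_mul]
  exact hc.pow_pow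

end Vale.Agent.P177
end

section

/-!
Minimal primes of `I₁ ⊗ R₂ + R₁ ⊗ I₂` contract to minimal primes in the fibre.
-/

namespace Vale.Agent.P177

open Function IsLocalRing TensorProduct

universe u

section

variable {A R₁ R₂ : Type u} [CommRing A] [CommRing R₁] [CommRing R₂] [Algebra A R₁]
  [Algebra A R₂]

theorem mem_fiber_iff {R S : Type u} [CommRing R] [CommRing S] [Algebra R S] (p : PrimeSpectrum R)
    (P : PrimeSpectrum (p.asIdeal.Fiber S)) (x : S) :
    x ∈ (((PrimeSpectrum.preimageOrderIsoFiber R S p).symm P).1).asIdeal ↔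
      ((1 : p.asIdeal.ResidueField) ⊗ₜ x) ∈ P.asIdeal := Iff.rfl

theorem comap_mem_minimalPrimes (I₁ : Ideal R₁) (I₂ : Ideal R₂) (Q : Ideal (R₁ ⊗[A] R₂))
    [Q.IsPrime] (hQ : Q ∈ (I₁.map (algebraMap R₁ (R₁ ⊗[A] R₂)) ⊔
      I₂.map (Algebra.TensorProduct.includeRight : R₂ →ₐ[A] R₁ ⊗[A] R₂)).minimalPrimes) :
    Q.comap (Algebra.TensorProduct.includeRight : R₂ →ₐ[A] R₁ ⊗[A] R₂) ∈
      (I₂ ⊔ (Q.comap (algebraMap A (R₁ ⊗[A] R₂))).map (algebraMap A R₂)).minimalPrimes := by
  let P₁ : PrimeSpectrum R₁ := ⟨Q.comap (algebraMap R₁ (R₁ ⊗[A] R₂)), Ideal.IsPrime.comap _⟩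
  let P₂ : PrimeSpectrum R₂ :=
    ⟨Q.comap (Algebra.TensorProduct.includeRight : R₂ →ₐ[A] R₁ ⊗[A] R₂), Ideal.IsPrime.comap _⟩
  let q : PrimeSpectrum A := ⟨Q.comap (algebraMap A (R₁ ⊗[A] R₂)), Ideal.IsPrime.comap _⟩
  have hP₁ : q = PrimeSpectrum.comap (algebraMap A R₁) P₁ := by
    apply PrimeSpectrum.ext
    change Q.comap _ = (Q.comap _).comap _
    rw [Ideal.comap_comap, ← IsScalarTower.algebraMap_eq]
  have hP₂ : q = PrimeSpectrum.comap (algebraMap A R₂) P₂ := by
    apply PrimeSpectrum.ext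
    ext x
    change algebraMap A (R₁ ⊗[A] R₂) x ∈ Q ↔
      (Algebra.TensorProduct.includeRight : R₂ →ₐ[A] R₁ ⊗[A] R₂) (algebraMap A R₂ x) ∈ Q
    rw [AlgHom.commutes]
  let φ₀ : q.asIdeal.ResidueField →ₐ[A] P₁.asIdeal.ResidueField :=
    Ideal.ResidueField.mapₐ q.asIdeal P₁.asIdeal (Algebra.ofId _ _)
      (congrArg PrimeSpectrum.asIdeal hP₁)
  let _ : Algebra q.asIdeal.ResidueField P₁.asIdeal.ResidueField := φ₀.toRingHom.toAlgebra
  have htow : IsScalarTower A q.asIdeal.ResidueField P₁.asIdeal.ResidueField :=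
    IsScalarTower.of_algebraMap_eq fun x => (φ₀.commutes x).symm
  obtain ⟨φ, hφflat, hφ⟩ := exists_flat_map A R₁ R₂ q.asIdeal.ResidueField
    P₁.asIdeal.ResidueField
  let _ : Algebra (q.asIdeal.Fiber R₂) (P₁.asIdeal.Fiber (R₁ ⊗[A] R₂)) := φ.toAlgebra
  have : Module.Flat (q.asIdeal.Fiber R₂) (P₁.asIdeal.Fiber (R₁ ⊗[A] R₂)) := hφflat
  have : Algebra.HasGoingDown (q.asIdeal.Fiber R₂) (P₁.asIdeal.Fiber (R₁ ⊗[A] R₂)) :=
    Algebra.HasGoingDown.of_flat
  have m₂ : P₂ ∈ PrimeSpectrum.comap (algebraMap A R₂) ⁻¹' {q} := hP₂.symm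
  have m₁ : (⟨Q, inferInstance⟩ : PrimeSpectrum (R₁ ⊗[A] R₂)) ∈
      PrimeSpectrum.comap (algebraMap R₁ (R₁ ⊗[A] R₂)) ⁻¹' {P₁} := rfl
  refine ⟨⟨P₂.isPrime, ?_⟩, ?_⟩
  · refine sup_le ?_ ?_
    · have h1 := le_sup_right.trans hQ.1.2
      rwa [Ideal.map_le_iff_le_comap] at h1
    · rw [Ideal.map_le_iff_le_comap]
      exact (congrArg PrimeSpectrum.asIdeal hP₂).le
  · rintro P' ⟨hP'p, hP'⟩ hle
    have m' : (⟨P', hP'p⟩ : PrimeSpectrum R₂) ∈ PrimeSpectrum.comap (algebraMap A R₂) ⁻¹' {q} := by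
      simp only [Set.mem_preimage, Set.mem_singleton_iff]
      apply PrimeSpectrum.ext
      apply le_antisymm
      · refine (Ideal.comap_mono hle).trans ?_
        exact (congrArg PrimeSpectrum.asIdeal hP₂).ge
      · rw [PrimeSpectrum.comap_asIdeal, ← Ideal.map_le_iff_le_comap]
        exact le_sup_right.trans hP'
    let PF := PrimeSpectrum.preimageOrderIsoFiber A R₂ q ⟨P₂, m₂⟩
    let PF' := PrimeSpectrum.preimageOrderIsoFiber A R₂ q ⟨_, m'⟩
    let QG := PrimeSpectrum.preimageOrderIsoFiber R₁ (R₁ ⊗[A] R₂) P₁ ⟨_, m₁⟩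
    have hPF : PF' ≤ PF := (PrimeSpectrum.preimageOrderIsoFiber A R₂ q).monotone hle
    have hsQG : ((PrimeSpectrum.preimageOrderIsoFiber R₁ (R₁ ⊗[A] R₂) P₁).symm QG) = ⟨_, m₁⟩ :=
      OrderIso.symm_apply_apply _ _
    have hcom : PrimeSpectrum.comap φ QG = PF := by
      apply (PrimeSpectrum.preimageOrderIsoFiber A R₂ q).symm.injective
      rw [OrderIso.symm_apply_apply]
      apply Subtype.ext
      apply PrimeSpectrum.ext
      ext r
      have h1 : r ∈ (((PrimeSpectrum.preimageOrderIsoFiber A R₂ q).symm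
          (PrimeSpectrum.comap φ QG)).1).asIdeal ↔ φ (1 ⊗ₜ r) ∈ QG.asIdeal := Iff.rfl
      have h3 : ∀ x : R₁ ⊗[A] R₂, x ∈ Q ↔ ((1 : P₁.asIdeal.ResidueField) ⊗ₜ x) ∈ QG.asIdeal := by
        intro x
        have h4 := mem_fiber_iff P₁ QG x
        rw [hsQG] at h4
        exact h4
      rw [h1, hφ, ← h3]
      rfl
    have i3 : QG.asIdeal.LiesOver PF.asIdeal := ⟨(congrArg PrimeSpectrum.asIdeal hcom).symm⟩
    have hPF2 : PF'.asIdeal ≤ PF.asIdeal := hPF
    obtain ⟨Q'', hQ''le, hQ''p, hQ''l⟩ := Ideal.exists_ideal_le_liesOver_of_le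
      (S := P₁.asIdeal.Fiber (R₁ ⊗[A] R₂)) QG.asIdeal hPF2
    let X := (PrimeSpectrum.preimageOrderIsoFiber R₁ (R₁ ⊗[A] R₂) P₁).symm ⟨Q'', hQ''p⟩
    have hX1 : X.1.asIdeal ≤ Q := by
      have h5 : X ≤ (PrimeSpectrum.preimageOrderIsoFiber R₁ (R₁ ⊗[A] R₂) P₁).symm QG :=
        (PrimeSpectrum.preimageOrderIsoFiber R₁ (R₁ ⊗[A] R₂) P₁).symm.monotone hQ''le
      rw [hsQG] at h5
      exact h5
    have hX2 : ∀ r : R₂, (Algebra.TensorProduct.includeRight : R₂ →ₐ[A] R₁ ⊗[A] R₂) r ∈
        X.1.asIdeal ↔ r ∈ P' := by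
      intro r
      have h1 : (Algebra.TensorProduct.includeRight : R₂ →ₐ[A] R₁ ⊗[A] R₂) r ∈
        X.1.asIdeal ↔ ((1 : P₁.asIdeal.ResidueField) ⊗ₜ ((1 : R₁) ⊗ₜ r)) ∈ Q'' := Iff.rfl
      rw [h1, ← hφ]
      have h2 : φ (1 ⊗ₜ r) ∈ Q'' ↔ (1 ⊗ₜ r) ∈ PF'.asIdeal := by
        rw [hQ''l.over]
        rfl
      rw [h2]
      have h3 := mem_fiber_iff q PF' r
      have h4 : (PrimeSpectrum.preimageOrderIsoFiber A R₂ q).symm PF' = ⟨_, m'⟩ :=
        OrderIso.symm_apply_apply _ _
      rw [h4] at h3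
      exact h3.symm
    have hX3 : PrimeSpectrum.comap (algebraMap R₁ (R₁ ⊗[A] R₂)) X.1 = P₁ := X.2
    have hX4 : I₁.map (algebraMap R₁ (R₁ ⊗[A] R₂)) ⊔
        I₂.map (Algebra.TensorProduct.includeRight : R₂ →ₐ[A] R₁ ⊗[A] R₂) ≤ X.1.asIdeal := by
      refine sup_le ?_ ?_
      · rw [Ideal.map_le_iff_le_comap]
        have h1 := le_sup_left.trans hQ.1.2
        rw [Ideal.map_le_iff_le_comap] at h1
        exact h1.trans (congrArg PrimeSpectrum.asIdeal hX3).ge
      · rw [Ideal.map_le_iff_le_comap]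
        intro r hr
        exact (hX2 r).2 (hP' (Ideal.mem_sup_left hr))
    have hX5 : Q ≤ X.1.asIdeal := hQ.2 ⟨X.1.isPrime, hX4⟩ hX1
    intro r hr
    exact (hX2 r).1 (hX5 hr)

end

end Vale.Agent.P177
end

section

namespace Vale.Agent.P177

open CategoryTheory IsLocalRing TensorProduct

universe u

theorem exists_nat_of_sum_eq (x y : WithBot ℕ∞) (d : ℕ) (h : x + y = (d : WithBot ℕ∞)) :
    ∃ a b : ℕ, x = (a : WithBot ℕ∞) ∧ y = (b : WithBot ℕ∞) ∧ a + b = d := by
  induction x using WithBot.recBotCoe with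
  | bot => simp at h
  | coe x =>
    induction y using WithBot.recBotCoe with
    | bot => simp at h
    | coe y =>
      have h1 : x + y = (d : ℕ∞) := by exact_mod_cast h
      have hx : x ≠ ⊤ := by
        rintro rfl
        rw [top_add] at h1
        exact absurd h1.symm (ENat.natCast_ne_top d)
      have hy : y ≠ ⊤ := by
        rintro rfl
        rw [add_top] at h1
        exact absurd h1.symm (ENat.natCast_ne_top d)
      lift x to ℕ using hx
      lift y to ℕ using hy
      exact ⟨x, y, rfl, rfl, by exact_mod_cast h1⟩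

end Vale.Agent.P177
end
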