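import Mathlib
import Vale.Agent.P177.Bd3.B3
import Vale.Agent.P177.Bd3.B5
import Vale.Agent.P177.Bd3.B1
import Vale.Agent.P177.Bd3.B2
import Vale.Agent.P177.HDefs2
import Vale.Agent.P177.Bd3.B4
attribute [-instance] ProperSMul.toContinuousSMul IsTopologicalTorsor.toContinuousSMul IdemSemiring.toCanonicallyOrderedAdd IdemSemiring.toMulLeftMono IdemSemiring.toMulRightMono AddQuantale.instAddLeftMono AddQuantale.instAddRightMono Quantale.instMulLeftMono Quantale.instMulRightMono FiniteDimensional.rclike_to_real IsScalarTower.complexToReal FiniteDimensional.complexToReal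

set_option linter.all false

section

/-!
Relative version: positivity at the prime generated by the parameters.
-/

namespace Vale.Agent.P177

open TensorProduct IsLocalRing MvPolynomial RingTheory.Sequence

universe u

namespace RData

variable {s d : ℕ} {B Γ : Type u} [CommRing B] [IsRegularLocalRing B] [CommRing Γ]
  [IsRegularLocalRing Γ] {D : RData s d B Γ}

section TD

variable {T : Type u} [CommRing T] [IsRegularLocalRing T] (t : D.TD T)

theorem TD.injective_eval {k K : Type u} [Field k] [Field K] (ι : k →+* K) (κ : T →+* K)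
    (hκ : RingHom.ker κ = t.m) (ρ : B ⧸ Ideal.span {D.G} →+* k) (hρs : Function.Surjective ρ)
    (hρ : ∀ r, ι (ρ r) = κ (t.i₁ r)) :
    Function.Injective (eval₂Hom ι (fun p => κ (t.f (X p))) :
      MvPolynomial (Fin d × Fin d) k →+* K) := by
  have hκm : ∀ y ∈ t.m, κ y = 0 := fun y hy => by
    rw [← hκ] at hy
    exact hy
  let τ : Γ →+* k := (ρ.comp (Ideal.Quotient.mk _)).comp D.μ
  have hκC : ∀ y : Γ, κ (t.f (C y)) = ι (τ y) := by
    intro y
    have h1 := hκm _ (t.fC_sub_mem y)
    rw [map_sub, sub_eq_zero] at h1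
    rw [h1, ← hρ]
    rfl
  have hτs : Function.Surjective τ := by
    intro a
    obtain ⟨r, rfl⟩ := hρs a
    obtain ⟨b, rfl⟩ := Ideal.Quotient.mk_surjective r
    exact ⟨D.a₁ b, by simp [τ, D.μ₁]⟩
  rw [injective_iff_map_eq_zero]
  intro p hp
  obtain ⟨q, rfl⟩ := MvPolynomial.map_surjective τ hτs p
  have h1 : κ (t.f q) = 0 := by
    have h2 : (κ.comp t.f) = (eval₂Hom ι (fun p => κ (t.f (X p))) :
        MvPolynomial (Fin d × Fin d) k →+* K).comp (MvPolynomial.map τ) := by
      apply MvPolynomial.ringHom_ext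
      · intro y
        simp [hκC]
      · intro p
        simp
    have h3 := RingHom.congr_fun h2 q
    rw [RingHom.comp_apply] at h3
    rw [h3]
    exact hp
  have h2 : q ∈ t.m.comap t.f := by
    rw [Ideal.mem_comap, ← hκ]
    exact h1
  rw [t.comap_m, MvPolynomial.mem_map_C_iff] at h2
  ext m
  rw [MvPolynomial.coeff_map, MvPolynomial.coeff_zero]
  have h3 := h2 m
  by_contra hne
  -- `τ` kills the maximal ideal
  have h5 : ¬ IsUnit (coeff m q) := (mem_maximalIdeal _).1 h3
  apply h5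
  have hμ : IsUnit (D.μ (coeff m q)) := by
    by_contra hcon
    apply hne
    have h6 : D.μ (coeff m q) ∈ maximalIdeal B := (mem_maximalIdeal _).2 hcon
    have hkerρ : RingHom.ker (ρ.comp (Ideal.Quotient.mk (Ideal.span {D.G}))) =
        maximalIdeal B := by
      apply IsLocalRing.eq_maximalIdeal
      exact RingHom.ker_isMaximal_of_surjective _
        (hρs.comp Ideal.Quotient.mk_surjective)
    have h7 : D.μ (coeff m q) ∈ RingHom.ker (ρ.comp (Ideal.Quotient.mk (Ideal.span {D.G}))) := by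
      rw [hkerρ]
      exact h6
    exact h7
  have hloc : IsLocalHom D.μ :=
    IsLocalHom.of_surjective D.μ (fun b => ⟨D.a₁ b, D.μ₁ b⟩)
  exact isUnit_of_map_unit D.μ _ hμ

end TD

section one

variable {D : RData 1 d B Γ} {T : Type u} [CommRing T] [IsRegularLocalRing T] (t : D.TD T)

theorem TD.pos_at (hLOC : LocStmtRel.{u}) [hm : t.m.IsPrime]
    [hR : IsRegularLocalRing (B ⧸ Ideal.span {D.G})]
    (hxs : Ideal.ofList D.xs = maximalIdeal (B ⧸ Ideal.span {D.G}))
    (hdR : ringKrullDim (B ⧸ Ideal.span {D.G}) = ((1 + d : ℕ) : WithBot ℕ∞))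
    (hdet : IsUnit (Matrix.det (Matrix.of fun l m => D.μ (D.β l m))))
    (P Q : Ideal (B ⧸ Ideal.span {D.G})) [P.IsPrime] [Q.IsPrime]
    (hyP : Ideal.Quotient.mk _ (D.y 0) ∉ P) (hyQ : Ideal.Quotient.mk _ (D.y 0) ∉ Q)
    (hFP : maximalIdeal (Localization.AtPrime t.m) ≤
      (P.map ((algebraMap T (Localization.AtPrime t.m)).comp t.i₁) ⊔
      Q.map ((algebraMap T (Localization.AtPrime t.m)).comp t.i₂)).radical)
    (hdims : ∀ e g : ℕ, (e : WithBot ℕ∞) ≤ Module.supportDim (B ⧸ Ideal.span {D.G})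
        ((B ⧸ Ideal.span {D.G}) ⧸ P) →
      (g : WithBot ℕ∞) ≤ Module.supportDim (B ⧸ Ideal.span {D.G})
        ((B ⧸ Ideal.span {D.G}) ⧸ Q) → e + g ≤ d + 1) :
    PosAlong ((algebraMap T (Localization.AtPrime t.m)).comp t.i₁)
      ((algebraMap T (Localization.AtPrime t.m)).comp t.i₂) (d + 1)
      ((B ⧸ Ideal.span {D.G}) ⧸ P) ((B ⧸ Ideal.span {D.G}) ⧸ Q) := by
  classical
  let R := B ⧸ Ideal.span {D.G}
  let W := Localization.AtPrime t.m
  have hWreg : IsRegularLocalRing W := isRegularLocalRing_localization T t.m W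
  let j₁ : R →+* W := (algebraMap T W).comp t.i₁
  let j₂ : R →+* W := (algebraMap T W).comp t.i₂
  have hc₁ : (maximalIdeal W).comap j₁ = maximalIdeal R := by
    rw [← Ideal.comap_comap, ← t.comap_m₁ hxs]
    exact congrArg (Ideal.comap t.i₁) Localization.AtPrime.under_maximalIdeal
  have hc₂ : (maximalIdeal W).comap j₂ = maximalIdeal R := by
    rw [← Ideal.comap_comap, ← t.comap_m₂ hxs]
    exact congrArg (Ideal.comap t.i₂) Localization.AtPrime.under_maximalIdeal
  have hl₁ : IsLocalHom j₁ := ((IsLocalRing.local_hom_TFAE j₁).out 0 4).mpr hc₁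
  have hl₂ : IsLocalHom j₂ := ((IsLocalRing.local_hom_TFAE j₂).out 0 4).mpr hc₂
  have hfW : (algebraMap T W).Flat := by
    rw [RingHom.flat_algebraMap_iff]
    exact IsLocalization.flat W t.m.primeCompl
  let x : Fin d → R := fun i => Ideal.Quotient.mk _ (D.x i)
  have hx : Ideal.span {(Ideal.Quotient.mk _ (D.y 0) : R)} ⊔ Ideal.span (Set.range x) =
      maximalIdeal R := by
    rw [← hxs, D.ofList_xs]
    congr 2
    ext r
    constructor
    · rintro rfl
      exact ⟨0, rfl⟩
    · rintro ⟨i, rfl⟩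
      rw [Subsingleton.elim i 0]
      rfl
  have hmW : ∀ y, algebraMap T W y ∈ maximalIdeal W ↔ y ∈ t.m := fun y =>
    IsLocalization.AtPrime.to_map_mem_maximal_iff _ t.m y
  have hmax₁ : (maximalIdeal R).map j₁ = maximalIdeal W := by
    rw [← Ideal.map_map, ← hxs, Ideal.map_ofList]
    exact Localization.AtPrime.map_eq_maximalIdeal
  have hmax₂ : (maximalIdeal R).map j₂ = maximalIdeal W := by
    rw [← Ideal.map_map, ← hxs, Ideal.map_ofList, ← t.m_eq_span₂]
    exact Localization.AtPrime.map_eq_maximalIdeal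
  obtain ⟨η, hη1, hη2⟩ := t.exists_η
  let θ : Fin d → Fin d → W := fun i l => (if i = l then 1 else 0) + algebraMap T W (η i l)
  have hθ : ∀ i, j₂ (x i) = ∑ l, θ i l * j₁ (x l) := by
    intro i
    change algebraMap T W (t.i₂ (Ideal.Quotient.mk _ (D.x i))) =
      ∑ l, θ i l * algebraMap T W (t.i₁ (Ideal.Quotient.mk _ (D.x l)))
    simp only [t.i₁_mk, t.i₂_mk, θ, add_mul, Finset.sum_add_distrib, ite_mul, one_mul, zero_mul,
      Finset.sum_ite_eq, Finset.mem_univ, if_true]
    rw [t.a₂_eq, map_add, hη1, map_sum]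
    simp only [map_mul]
  -- residues
  let κ : T →+* ResidueField W := (residue W).comp (algebraMap T W)
  have hκ : RingHom.ker κ = t.m := by
    ext y
    rw [RingHom.mem_ker]
    change residue W (algebraMap T W y) = 0 ↔ _
    rw [residue_eq_zero_iff, hmW]
  have hκ12 : ∀ r : R, κ (t.i₂ r) = κ (t.i₁ r) := by
    intro r
    rw [← sub_eq_zero, ← map_sub, ← RingHom.mem_ker, hκ]
    exact t.sub_mem_m r
  have hκC : ∀ y : Γ, κ (t.f (C y)) = κ (t.i₁ (Ideal.Quotient.mk _ (D.μ y))) := by
    intro y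
    rw [← sub_eq_zero, ← map_sub, ← RingHom.mem_ker, hκ]
    exact t.fC_sub_mem y
  have hres : ResidueField.map j₁ = ResidueField.map j₂ := by
    apply RingHom.ext
    intro a
    obtain ⟨r, rfl⟩ := residue_surjective a
    rw [ResidueField.map_residue, ResidueField.map_residue]
    exact (hκ12 r).symm
  have hκR : ∀ y : Γ, κ (t.f (C y)) = ResidueField.map j₁
      (residue R (Ideal.Quotient.mk _ (D.μ y))) := by
    intro y
    rw [hκC, ResidueField.map_residue]
    rfl
  have hdR' : ringKrullDim R = ((d + 1 : ℕ) : WithBot ℕ∞) := by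
    rw [hdR, add_comm 1 d]
  refine hLOC R W j₁ j₂ (t.flat₁.comp hfW) (t.flat₂.comp hfW) d hdR'
    (by
      rw [IsLocalization.AtPrime.ringKrullDim_eq_height t.m W, t.height_m, add_comm 1 d]
      rfl) (Ideal.Quotient.mk _ (D.y 0)) x hx hmax₁ hmax₂ ?_ hres θ hθ ?_ P Q hyP hyQ hFP hdims
  · change algebraMap T W (t.i₁ _) = algebraMap T W (t.i₂ _)
    rw [t.i₂_y]
  · refine ⟨fun p => κ (t.f (X p)), fun l m => residue R (Ideal.Quotient.mk _ (D.μ (D.β l m))),
      fun l m => residue R (Ideal.Quotient.mk _ (D.μ (D.γ l m))), ?_, ?_, ?_⟩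
    · exact t.injective_eval (ResidueField.map j₁) κ hκ (residue R) residue_surjective
        (fun r => ResidueField.map_residue j₁ r)
    · have h1 := (hdet.map (Ideal.Quotient.mk (Ideal.span {D.G}))).map (residue R)
      rw [RingHom.map_det, RingHom.map_det] at h1
      exact h1
    · have h1 : ∀ i m, residue W (θ i m) - (if i = m then 1 else 0) = κ (η i m) := by
        intro i m
        change residue W ((if i = m then 1 else 0) + algebraMap T W (η i m)) - _ = _
        rw [map_add]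
        have h2 : residue W (if i = m then (1 : W) else 0) = if i = m then 1 else 0 := by
          split_ifs <;> simp
        rw [h2, add_sub_cancel_left]
        rfl
      intro i m
      simp only [h1]
      rw [hη2, map_sum]
      refine Finset.sum_congr rfl fun l _ => ?_
      rw [map_mul, map_sub, map_add, map_sum, hκR]
      simp only [map_mul, hκR]

end one

end RData

end Vale.Agent.P177
end

section

/-!
Devissage to pairs of prime cyclic modules.
-/

namespace Vale.Agent.P177

open CategoryTheory TensorProduct Function IsLocalRing RingTheory.Sequence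

universe u

/-- Devissage to prime cyclic modules in the first variable. -/
theorem sp_dev {R : Type u} [CommRing R] [IsRegularLocalRing R] {d : ℕ}
    (hd : ringKrullDim R = d) (M N : Type u) [AddCommGroup M] [Module R M] [Module.Finite R M]
    [AddCommGroup N] [Module R N] [Module.Finite R N]
    (hlen : Module.length R (M ⊗[R] N) ≠ ⊤)
    (h : ∀ P : Ideal R, P.IsPrime → Module.annihilator R M ≤ P → SP R d (R ⧸ P) N) :
    SP R d M N := by
  refine IsNoetherianRing.induction_on_isQuotientEquivQuotientPrime R (M := M) inferInstance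
    (motive := fun X => Module.annihilator R M ≤ Module.annihilator R X → SP R d X N)
    ?_ ?_ ?_ le_rfl
  · intro X _ _ _ hX _
    exact SP.of_subsingleton hX
  · intro X _ _ _ q e hle
    refine SP.congr e.symm (LinearEquiv.refl R N) (h q.1 q.2 ?_)
    rw [e.annihilator_eq, Ideal.annihilator_quotient] at hle
    exact hle
  · intro X₁ _ _ _ X₂ _ _ _ X₃ _ _ _ i g hi hg hex h1 h3 hle
    refine SP.of_exact hd i g hi hg hex ?_ (h1 ?_) (h3 ?_)
    · exact length_tensor_ne_top_of_annihilator_le M X₂ N hlen hle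
    · exact hle.trans (LinearMap.annihilator_le_of_injective i hi)
    · exact hle.trans (LinearMap.annihilator_le_of_surjective g hg)

/-- Devissage to prime cyclic modules in both variables. -/
theorem sp_dev₂ {R : Type u} [CommRing R] [IsRegularLocalRing R] {d : ℕ}
    (hd : ringKrullDim R = d) (M N : Type u) [AddCommGroup M] [Module R M] [Module.Finite R M]
    [AddCommGroup N] [Module R N] [Module.Finite R N]
    (hlen : Module.length R (M ⊗[R] N) ≠ ⊤)
    (h : ∀ P Q : Ideal R, P.IsPrime → Q.IsPrime → Module.annihilator R M ≤ P →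
      Module.annihilator R N ≤ Q → Module.length R ((R ⧸ P) ⊗[R] (R ⧸ Q)) ≠ ⊤ →
      SP R d (R ⧸ P) (R ⧸ Q)) :
    SP R d M N := by
  refine sp_dev hd M N hlen fun P hP hle => ?_
  have h1 : Module.length R ((R ⧸ P) ⊗[R] N) ≠ ⊤ :=
    length_tensor_ne_top_of_annihilator_le M (R ⧸ P) N hlen (by
      rw [Ideal.annihilator_quotient]
      exact hle)
  have h2 : Module.length R (N ⊗[R] (R ⧸ P)) ≠ ⊤ := by
    rw [(TensorProduct.comm R N (R ⧸ P)).length_eq]
    exact h1
  refine (sp_dev hd N (R ⧸ P) h2 fun Q hQ hleQ => ?_).symm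
  have h3 : Module.length R ((R ⧸ Q) ⊗[R] (R ⧸ P)) ≠ ⊤ :=
    length_tensor_ne_top_of_annihilator_le N (R ⧸ Q) (R ⧸ P) h2 (by
      rw [Ideal.annihilator_quotient]
      exact hleQ)
  refine (h P Q hP hQ hle hleQ ?_).symm
  rw [(TensorProduct.comm R (R ⧸ P) (R ⧸ Q)).length_eq]
  exact h3

/-- A prime cyclic module killed by the kernel of a surjection to a regular ring on which Serre's
statements hold. -/
theorem sp_of_quotient {R R' : Type u} [CommRing R] [IsRegularLocalRing R] [CommRing R']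
    [IsRegularLocalRing R'] {d d' : ℕ}
    (hd : ringKrullDim R = d) (hd' : ringKrullDim R' = d') (ψ : R →+* R') (hψ : Surjective ψ)
    (hall : SerreAll R' d') (P : Ideal R) (hP : RingHom.ker ψ ≤ P)
    (N : Type u) [AddCommGroup N] [Module R N] [Module.Finite R N]
    (hlen : Module.length R ((R ⧸ P) ⊗[R] N) ≠ ⊤) : SP R d (R ⧸ P) N := by
  let _ : Algebra R R' := ψ.toAlgebra
  let M := R' ⧸ P.map ψ
  have hker' : RingHom.ker ((Ideal.Quotient.mk (P.map ψ)).comp ψ) = P := by
    ext x
    rw [RingHom.mem_ker, RingHom.comp_apply, Ideal.Quotient.eq_zero_iff_mem]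
    constructor
    · intro hx
      obtain ⟨y, hy, hyx⟩ := (Ideal.mem_map_iff_of_surjective ψ hψ).1 hx
      have h1 : x - y ∈ RingHom.ker ψ := by
        rw [RingHom.mem_ker, map_sub, hyx, sub_self]
      have h2 := Ideal.add_mem _ (hP h1) hy
      rwa [sub_add_cancel] at h2
    · intro hx
      exact Ideal.mem_map_of_mem _ hx
  have hlin : LinearMap.ker (Algebra.linearMap R M) = P := by
    ext x
    rw [LinearMap.mem_ker, Algebra.linearMap_apply]
    exact (SetLike.ext_iff.1 hker' x)
  have hsurj : Surjective (Algebra.linearMap R M) :=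
    Ideal.Quotient.mk_surjective.comp hψ
  let e : (R ⧸ P) ≃ₗ[R] M :=
    (Submodule.quotEquivOfEq _ _ hlin.symm) ≪≫ₗ
      (Algebra.linearMap R M).quotKerEquivOfSurjective hsurj
  refine SP.congr e.symm (LinearEquiv.refl R N) ?_
  refine serre_of_regular_quotient hψ hd hd' M (fun N' _ _ _ hl => hall M N' hl) N ?_
  rw [← (TensorProduct.congr e (LinearEquiv.refl R N)).length_eq]
  exact hlen

end Vale.Agent.P177
end

section

/-!
Relative version: Serre's statements for pairs of prime cyclic modules.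
-/

namespace Vale.Agent.P177

open CategoryTheory TensorProduct Function IsLocalRing RingTheory.Sequence Pointwise

universe u

theorem global_pos_primes_aux {R₁ R₂ T : Type u} [CommRing R₁] [CommRing R₂] [CommRing T]
    [IsRegularLocalRing R₁] [IsRegularLocalRing R₂] [IsRegularLocalRing T]
    [Algebra R₁ T] [Algebra R₂ T] [Module.Flat R₁ T] [Module.Flat R₂ T]
    (μ : T →+* R₁) (hμ : ∀ s, μ (algebraMap R₁ T s) = s) (z : List T)
    (hkerμ : RingHom.ker μ = Ideal.ofList z) (hz : IsWeaklyRegular T z)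
    (θ : R₂ ≃+* R₁) (hθ : ∀ s, μ (algebraMap R₂ T s) = θ s)
    (d : ℕ) (hd : ringKrullDim R₁ = d)
    (P : Ideal R₂) [hP : P.IsPrime] (Q : Ideal R₁) [hQp : Q.IsPrime] [Module R₂ (R₁ ⧸ Q)]
    (𝔪 : Ideal T) [𝔪.IsPrime] (h𝔪₁ : 𝔪.comap (algebraMap R₁ T) = maximalIdeal R₁)
    (h𝔪₂ : 𝔪.comap (algebraMap R₂ T) = maximalIdeal R₂)
    (hdW : ringKrullDim (Localization.AtPrime 𝔪) = d)
    (hex : ∀ (Q' : Ideal T) [Q'.IsPrime], Q.map (algebraMap R₁ T) ≤ Q' →
      P.map (algebraMap R₂ T) ≤ Q' → 𝔪 ≤ Q' ∨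
      ∀ (r₁ r₂ q : ℕ), (Q'.comap (algebraMap R₁ T)).height = r₁ →
      (Q'.comap (algebraMap R₂ T)).height = r₂ → Q'.height = q → r₁ + r₂ ≤ q + 4)
    (hW : maximalIdeal (Localization.AtPrime 𝔪) ≤ (Q.map
        ((algebraMap T (Localization.AtPrime 𝔪)).comp (algebraMap R₁ T)) ⊔
        P.map ((algebraMap T (Localization.AtPrime 𝔪)).comp (algebraMap R₂ T))).radical →
      PosAlong ((algebraMap T (Localization.AtPrime 𝔪)).comp (algebraMap R₁ T))
        ((algebraMap T (Localization.AtPrime 𝔪)).comp (algebraMap R₂ T)) d (R₁ ⧸ Q) (R₂ ⧸ P))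
    (hN : ∀ (s : R₂) (t : R₁ ⧸ Q), s • t = θ s • t)
    (hlen : Module.length R₂ ((R₂ ⧸ P) ⊗[R₂] (R₁ ⧸ Q)) ≠ ⊤) :
    0 ≤ eulerTor R₂ (d + 1) (R₂ ⧸ P) (R₁ ⧸ Q) ∧ ∀ m n : ℕ,
      (m : WithBot ℕ∞) ≤ Module.supportDim R₂ (R₂ ⧸ P) →
      (n : WithBot ℕ∞) ≤ Module.supportDim R₁ (R₁ ⧸ Q) →
      (m + n ≤ d) ∧ (d ≤ m + n → 0 < eulerTor R₂ (d + 1) (R₂ ⧸ P) (R₁ ⧸ Q)) := by
  have hd₂ : ringKrullDim R₂ = d := by rw [ringKrullDim_eq_of_ringEquiv θ, hd]
  have hQne := hQp.ne_top
  have hPne := hP.ne_top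
  have key : ∀ (Q' : Ideal T) [Q'.IsPrime], Q' ∈ (Q.map (algebraMap R₁ T) ⊔
      P.map (algebraMap R₂ T)).minimalPrimes →
      LocPosAt (T := T) R₁ R₂ (R₁ ⧸ Q) (R₂ ⧸ P) Q' := by
    intro Q' _ hQ'
    have hQ1 := le_sup_left.trans hQ'.1.2
    have hQ2 := le_sup_right.trans hQ'.1.2
    rcases hex Q' hQ1 hQ2 with h | h
    · have hle : Q.map (algebraMap R₁ T) ⊔ P.map (algebraMap R₂ T) ≤ 𝔪 := by
        refine sup_le ?_ ?_
        · rw [Ideal.map_le_iff_le_comap, h𝔪₁]
          exact le_maximalIdeal hQne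
        · rw [Ideal.map_le_iff_le_comap, h𝔪₂]
          exact le_maximalIdeal hPne
      have heq : Q' = 𝔪 := le_antisymm (hQ'.2 ⟨‹_›, hle⟩ h) h
      subst heq
      refine locPosAt_top' (R₁ ⧸ Q) (R₂ ⧸ P) Q' h𝔪₁ h𝔪₂ d hd hd₂ hdW (hW ?_)
      have h3 := maximalIdeal_le_radical_of_minimal _ Q' hQ'
      rwa [Ideal.map_sup, Ideal.map_map, Ideal.map_map] at h3
    · exact locPosAt_of_locPos 4 locPos_four _ _ Q' h
  refine global_pos_of_loc μ hμ z hkerμ hz θ hθ d hd (R₂ ⧸ P) (R₁ ⧸ Q) ?_ ?_ hN hlen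
  · intro Q' _ hQ'
    rw [Ideal.annihilator_quotient, Ideal.annihilator_quotient] at hQ'
    exact key Q' hQ'
  · intro p₁ p₂ hp₁ hp₂ Q' _ hQ'
    rw [Ideal.annihilator_quotient] at hp₁ hp₂
    have e₁ : p₁.asIdeal = Q := le_antisymm (hp₁.2 ⟨hQp, le_rfl⟩ hp₁.1.2) hp₁.1.2
    have e₂ : p₂.asIdeal = P := le_antisymm (hp₂.2 ⟨hP, le_rfl⟩ hp₂.1.2) hp₂.1.2
    rw [e₁, e₂] at hQ'
    obtain ⟨p₁, hp₁p⟩ := p₁
    obtain ⟨p₂, hp₂p⟩ := p₂
    simp only at e₁ e₂
    subst e₁ e₂
    exact key Q' hQ'

/-- The same with ring homomorphisms. -/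
theorem global_pos_primes {R₁ R₂ T : Type u} [CommRing R₁] [CommRing R₂] [CommRing T]
    [IsRegularLocalRing R₁] [IsRegularLocalRing R₂] [IsRegularLocalRing T]
    (i₁ : R₁ →+* T) (i₂ : R₂ →+* T) (f₁ : i₁.Flat) (f₂ : i₂.Flat)
    (μ : T →+* R₁) (hμ : ∀ s, μ (i₁ s) = s) (z : List T)
    (hkerμ : RingHom.ker μ = Ideal.ofList z) (hz : IsWeaklyRegular T z)
    (θ : R₂ ≃+* R₁) (hθ : ∀ s, μ (i₂ s) = θ s)
    (d : ℕ) (hd : ringKrullDim R₁ = d)
    (P : Ideal R₂) [hP : P.IsPrime] (Q : Ideal R₁) [hQp : Q.IsPrime] [Module R₂ (R₁ ⧸ Q)]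
    (𝔪 : Ideal T) [𝔪.IsPrime] (h𝔪₁ : 𝔪.comap i₁ = maximalIdeal R₁)
    (h𝔪₂ : 𝔪.comap i₂ = maximalIdeal R₂)
    (hdW : ringKrullDim (Localization.AtPrime 𝔪) = d)
    (hex : ∀ (Q' : Ideal T) [Q'.IsPrime], Q.map i₁ ≤ Q' →
      P.map i₂ ≤ Q' → 𝔪 ≤ Q' ∨
      ∀ (r₁ r₂ q : ℕ), (Q'.comap i₁).height = r₁ →
      (Q'.comap i₂).height = r₂ → Q'.height = q → r₁ + r₂ ≤ q + 4)
    (hW : maximalIdeal (Localization.AtPrime 𝔪) ≤ (Q.map
        ((algebraMap T (Localization.AtPrime 𝔪)).comp i₁) ⊔
        P.map ((algebraMap T (Localization.AtPrime 𝔪)).comp i₂)).radical →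
      PosAlong ((algebraMap T (Localization.AtPrime 𝔪)).comp i₁)
        ((algebraMap T (Localization.AtPrime 𝔪)).comp i₂) d (R₁ ⧸ Q) (R₂ ⧸ P))
    (hN : ∀ (s : R₂) (t : R₁ ⧸ Q), s • t = θ s • t)
    (hlen : Module.length R₂ ((R₂ ⧸ P) ⊗[R₂] (R₁ ⧸ Q)) ≠ ⊤) :
    0 ≤ eulerTor R₂ (d + 1) (R₂ ⧸ P) (R₁ ⧸ Q) ∧ ∀ m n : ℕ,
      (m : WithBot ℕ∞) ≤ Module.supportDim R₂ (R₂ ⧸ P) →
      (n : WithBot ℕ∞) ≤ Module.supportDim R₁ (R₁ ⧸ Q) →
      (m + n ≤ d) ∧ (d ≤ m + n → 0 < eulerTor R₂ (d + 1) (R₂ ⧸ P) (R₁ ⧸ Q)) := by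
  let _ : Algebra R₁ T := i₁.toAlgebra
  let _ : Algebra R₂ T := i₂.toAlgebra
  have : Module.Flat R₁ T := f₁
  have : Module.Flat R₂ T := f₂
  exact global_pos_primes_aux μ hμ z hkerμ hz θ hθ d hd P Q 𝔪 h𝔪₁ h𝔪₂ hdW hex hW hN hlen

namespace RData

theorem isHypersurface {s d : ℕ} {B Γ : Type u} [CommRing B] [IsRegularLocalRing B] [CommRing Γ]
    [IsRegularLocalRing Γ] (D : RData s d B Γ)
    (hdR : ringKrullDim (B ⧸ Ideal.span {D.G}) = ((s + d : ℕ) : WithBot ℕ∞)) :
    IsHypersurface B (B ⧸ Ideal.span {D.G}) D.G := by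
  have hdom : IsDomain B := regular_isDomain B
  have hne : D.G ≠ 0 := by
    intro h0
    have h1 : Function.Injective (Ideal.Quotient.mk (Ideal.span {D.G})) := by
      rw [RingHom.injective_iff_ker_eq_bot, Ideal.mk_ker, h0]
      exact Ideal.span_singleton_eq_bot.2 rfl
    have e : B ≃+* B ⧸ Ideal.span {D.G} :=
      RingEquiv.ofBijective _ ⟨h1, Ideal.Quotient.mk_surjective⟩
    have h2 := ringKrullDim_eq_of_ringEquiv e
    rw [hdR, D.dimB] at h2
    have h3 : s + d + 1 = s + d := by exact_mod_cast h2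
    omega
  refine ⟨?_, Ideal.Quotient.mk_surjective, Ideal.mk_ker⟩
  intro a b hab
  exact mul_left_cancel₀ hne hab

variable {d : ℕ} {B Γ : Type u} [CommRing B] [IsRegularLocalRing B] [CommRing Γ]
  [IsRegularLocalRing Γ]

/-- Serre's statements for a pair of primes which do not contain the fixed parameter. -/
theorem sp_primes (hLOC : LocStmtRel.{u}) (D : RData 1 d B Γ) (hB : SerreAll B (1 + d + 1))
    (hdet : IsUnit (Matrix.det (Matrix.of fun l m => D.μ (D.β l m))))
    (P Q : Ideal (B ⧸ Ideal.span {D.G})) [hPp : P.IsPrime] [hQp : Q.IsPrime]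
    (hyP : Ideal.Quotient.mk _ (D.y 0) ∉ P) (hyQ : Ideal.Quotient.mk _ (D.y 0) ∉ Q)
    (hlen : Module.length (B ⧸ Ideal.span {D.G}) (((B ⧸ Ideal.span {D.G}) ⧸ P)
      ⊗[B ⧸ Ideal.span {D.G}] ((B ⧸ Ideal.span {D.G}) ⧸ Q)) ≠ ⊤) :
    SP (B ⧸ Ideal.span {D.G}) (1 + d) ((B ⧸ Ideal.span {D.G}) ⧸ P)
      ((B ⧸ Ideal.span {D.G}) ⧸ Q) := by
  obtain ⟨hR, hxs, hdR⟩ := D.quot_regular
  obtain ⟨T, _, _, ⟨t⟩⟩ := D.exists_TD
  have hm := t.m_prime
  have H := D.isHypersurface hdR
  refine global_pos_primes t.i₁ t.i₂ t.flat₁ t.flat₂ t.ν t.ν_i₁ t.z t.ker_ν t.z_regular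
    (RingEquiv.refl _) (fun s => t.ν_i₂ s) (1 + d) hdR P Q t.m (t.comap_m₁ hxs) (t.comap_m₂ hxs)
    ?_ ?_ ?_ (fun s t => rfl) hlen
  · rw [IsLocalization.AtPrime.ringKrullDim_eq_height t.m, t.height_m]
    rfl
  · intro Q' hQ' h1 h2
    by_cases hu : ∀ j, t.f (MvPolynomial.C (D.u j)) ∈ Q'
    · left
      obtain ⟨k, hk⟩ := exists_pow_le_sup_annihilator _ _ hlen
      rw [Ideal.annihilator_quotient, Ideal.annihilator_quotient] at hk
      refine t.m_le_of_u_mem hxs Q P ?_ Q' h1 h2 hu
      intro a ha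
      refine ⟨k, ?_⟩
      rw [sup_comm]
      exact hk (Ideal.pow_mem_pow ha k)
    · right
      push Not at hu
      obtain ⟨j, hj⟩ := hu
      intro r₁ r₂ q hr₁ hr₂ hq
      have := t.height_le Q' j hj r₁ r₂ q hr₁ hr₂ hq
      omega
  · intro hFP
    have h1 := t.pos_at hLOC hxs hdR hdet Q P hyQ hyP hFP (by
      intro e g he hg
      have := dimension_inequality_hypersurface H (1 + d) D.dimB hdR hB _ _ hlen g e hg he
      omega)
    rw [add_comm 1 d]
    exact h1

end RData

end Vale.Agent.P177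
end

section

/-!
Serre's statements over a quadratic hypersurface with at most one parameter.
-/

namespace Vale.Agent.P177

open CategoryTheory TensorProduct IsLocalRing RingTheory.Sequence Function

universe u

/-- The quotient ring. -/
abbrev ParRing (L : Type u) [CommRing L] (f : L) {s : ℕ} (t : Fin s → L) (r : ℕ)
    (c : Fin r ⊕ Fin s → Fin r ⊕ Fin s → MvPowerSeries (Fin r) L) : Type u :=
  MvPowerSeries (Fin r) L ⧸ Ideal.span {parEq L f t r c}

theorem parRing_regular (L : Type u) [CommRing L] [IsRegularLocalRing L] (f : L) {s : ℕ}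
    (t : Fin s → L) (hf : maximalIdeal L = Ideal.span {f} ⊔ Ideal.span (Set.range t))
    (hL : ringKrullDim L = ((s + 1 : ℕ) : WithBot ℕ∞)) (r : ℕ)
    (c : Fin r ⊕ Fin s → Fin r ⊕ Fin s → MvPowerSeries (Fin r) L)
    (hc : IsUnit (Matrix.det (Matrix.of fun l m =>
      c (Sum.inl l) (Sum.inl m) + c (Sum.inl m) (Sum.inl l)))) :
    ∃ (_ : IsRegularLocalRing (ParRing L f t r c)),
      ringKrullDim (ParRing L f t r c) = ((s + r : ℕ) : WithBot ℕ∞) := by
  obtain ⟨h1, h2, D, hG, -, -⟩ := exists_RData' L f t r c hf hL hc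
  have key : ∀ (g : MvPowerSeries (Fin r) L), D.G = g →
      ∃ (_ : IsRegularLocalRing (MvPowerSeries (Fin r) L ⧸ Ideal.span {g})),
      ringKrullDim (MvPowerSeries (Fin r) L ⧸ Ideal.span {g}) = ((s + r : ℕ) : WithBot ℕ∞) := by
    rintro g rfl
    obtain ⟨k1, k2, k3⟩ := D.quot_regular
    exact ⟨k1, k3⟩
  exact key _ hG

theorem exists_series {r : ℕ} {A : Type u} [CommRing A] (g : (Fin r →₀ ℕ) → A) :
    ∃ p : MvPowerSeries (Fin r) A, ∀ n, MvPowerSeries.coeff n p = g n :=
  ⟨(g : MvPowerSeries (Fin r) A), fun _ => rfl⟩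

theorem map_surjective' {L L' : Type u} [CommRing L] [CommRing L'] (π : L →+* L')
    (hπ : Surjective π) (r : ℕ) : Surjective (MvPowerSeries.map (σ := Fin r) π) := by
  intro p
  choose g hg using hπ
  obtain ⟨q, hq⟩ := exists_series (r := r) fun n => g (MvPowerSeries.coeff n p)
  refine ⟨q, ?_⟩
  ext n
  rw [MvPowerSeries.coeff_map, hq, hg]

/-- The hypersurface over a quotient of the base ring. -/
theorem exists_parRing_map {L L' : Type u} [CommRing L] [CommRing L'] (π : L →+* L')
    (hπ : Surjective π) {s : ℕ} (t : Fin s → L) (hker : RingHom.ker π = Ideal.span (Set.range t))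
    (f : L) (r : ℕ) (c : Fin r ⊕ Fin s → Fin r ⊕ Fin s → MvPowerSeries (Fin r) L) :
    ∃ ψ : ParRing L f t r c →+* QuadRing L' (π f) r (fun i j =>
        MvPowerSeries.map π (c (Sum.inl i) (Sum.inl j))),
      Surjective ψ ∧ RingHom.ker ψ ≤ Ideal.span (Set.range fun i =>
        (Ideal.Quotient.mk _ (MvPowerSeries.C (t i)) : ParRing L f t r c)) := by
  let c' : Fin r → Fin r → MvPowerSeries (Fin r) L' := fun i j =>
    MvPowerSeries.map π (c (Sum.inl i) (Sum.inl j))
  have hz : ∀ i : Fin s, MvPowerSeries.map π (parZ L t r (Sum.inr i)) = 0 := fun i => by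
    have h1 : parZ L t r (Sum.inr i) = MvPowerSeries.C (t i) := rfl
    have h2 : π (t i) = 0 := by
      rw [← RingHom.mem_ker, hker]
      exact Ideal.subset_span ⟨i, rfl⟩
    rw [h1, MvPowerSeries.map_C, h2, map_zero]
  have hz' : ∀ i : Fin r, MvPowerSeries.map π (parZ L t r (Sum.inl i)) =
      MvPowerSeries.X i := fun i => MvPowerSeries.map_X _ _
  have hq : MvPowerSeries.map π (parEq L f t r c) = quadEq L' (π f) r c' := by
    rw [parEq, quadEq, map_sub, MvPowerSeries.map_C, map_sum, Fintype.sum_sum_type]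
    have e1 : ∑ x : Fin s, MvPowerSeries.map π (∑ j, parZ L t r (Sum.inr x) *
        c (Sum.inr x) j * parZ L t r j) = 0 := by
      refine Finset.sum_eq_zero fun x _ => ?_
      rw [map_sum]
      refine Finset.sum_eq_zero fun j _ => ?_
      rw [map_mul, map_mul, hz, zero_mul, zero_mul]
    have e2 : ∀ x : Fin r, MvPowerSeries.map π (∑ j, parZ L t r (Sum.inl x) *
        c (Sum.inl x) j * parZ L t r j) = ∑ j, MvPowerSeries.X x * c' x j *
          MvPowerSeries.X j := by
      intro x
      rw [map_sum, Fintype.sum_sum_type]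
      have e3 : ∑ j : Fin s, MvPowerSeries.map π (parZ L t r (Sum.inl x) *
          c (Sum.inl x) (Sum.inr j) * parZ L t r (Sum.inr j)) = 0 := by
        refine Finset.sum_eq_zero fun j _ => ?_
        rw [map_mul, hz, mul_zero]
      rw [e3, add_zero]
      refine Finset.sum_congr rfl fun j _ => ?_
      rw [map_mul, map_mul, hz', hz']
    rw [e1, add_zero]
    congr 1
    exact Finset.sum_congr rfl fun x _ => e2 x
  have hsurj := map_surjective' π hπ r
  have hle : Ideal.span {parEq L f t r c} ≤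
      (Ideal.span {quadEq L' (π f) r c'}).comap (MvPowerSeries.map π) := by
    rw [Ideal.span_singleton_le_iff_mem, Ideal.mem_comap, hq]
    exact Ideal.subset_span rfl
  refine ⟨Ideal.quotientMap _ (MvPowerSeries.map π) hle,
    Ideal.quotientMap_surjective hsurj, ?_⟩
  intro a ha
  obtain ⟨p, rfl⟩ := Ideal.Quotient.mk_surjective a
  rw [RingHom.mem_ker, Ideal.quotientMap_mk, Ideal.Quotient.eq_zero_iff_mem,
    Ideal.mem_span_singleton'] at ha
  obtain ⟨b', hb'⟩ := ha
  obtain ⟨b, rfl⟩ := hsurj b'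
  rw [← hq, ← map_mul] at hb'
  have h1 : ∀ n, ∃ e : Fin s → L, ∑ i, e i * t i =
      MvPowerSeries.coeff n (p - b * parEq L f t r c) := by
    intro n
    have h2 : MvPowerSeries.coeff n (p - b * parEq L f t r c) ∈ RingHom.ker π := by
      rw [RingHom.mem_ker, ← MvPowerSeries.coeff_map, map_sub, hb', sub_self]
      exact map_zero _
    rw [hker] at h2
    exact (Ideal.mem_span_range_iff_exists_fun).1 h2
  choose e he using h1
  have h2 : ∀ i, ∃ p : MvPowerSeries (Fin r) L, ∀ n, MvPowerSeries.coeff n p = e n i :=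
    fun i => exists_series fun n => e n i
  choose e' he' using h2
  have h3 : p - b * parEq L f t r c = ∑ i, MvPowerSeries.C (t i) * e' i := by
    ext n
    rw [← he, map_sum]
    refine Finset.sum_congr rfl fun i _ => ?_
    rw [MvPowerSeries.coeff_C_mul, he', mul_comm]
  have h4 : (Ideal.Quotient.mk (Ideal.span {parEq L f t r c})) p =
      ∑ i, Ideal.Quotient.mk _ (MvPowerSeries.C (t i)) * Ideal.Quotient.mk _ (e' i) := by
    simp only [← map_mul]
    rw [← map_sum, ← h3, Ideal.Quotient.mk_eq_mk_iff_sub_mem]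
    have h5 : p - (p - b * parEq L f t r c) = b * parEq L f t r c := by ring
    rw [h5]
    exact Ideal.mul_mem_left _ _ (Ideal.subset_span rfl)
  rw [h4]
  exact Ideal.sum_mem _ fun i _ => Ideal.mul_mem_right _ _ (Ideal.subset_span ⟨i, rfl⟩)

theorem exists_base_dim_one (L : Type u) [CommRing L] [IsRegularLocalRing L] (f : L) {s : ℕ}
    (hs : s ≤ 1) (t : Fin s → L)
    (hf : maximalIdeal L = Ideal.span {f} ⊔ Ideal.span (Set.range t))
    (hL : ringKrullDim L = ((s + 1 : ℕ) : WithBot ℕ∞)) :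
    ∃ (V : Type u) (_ : CommRing V) (_ : IsRegularLocalRing V) (π : L →+* V), Surjective π ∧
      RingHom.ker π = Ideal.span (Set.range t) ∧ maximalIdeal V = Ideal.span {π f} ∧
      ringKrullDim V = (1 : ℕ) := by
  obtain rfl | rfl : s = 0 ∨ s = 1 := by omega
  · have h0 : Ideal.span (Set.range t) = ⊥ := by
      rw [Set.range_eq_empty, Ideal.span_empty]
    refine ⟨L, inferInstance, inferInstance, RingHom.id L, fun x => ⟨x, rfl⟩, ?_, ?_, ?_⟩
    · rw [h0, RingHom.ker_eq_bot_iff_eq_zero]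
      exact fun x hx => hx
    · rw [hf, h0, sup_bot_eq]
      rfl
    · rw [hL]
  · have hrange : Ideal.span (Set.range t) = Ideal.span {t 0} := by
      congr 1
      ext x
      simp [Fin.exists_fin_one, eq_comm]
    rw [hrange] at hf ⊢
    have hy : t 0 ∈ maximalIdeal L := by
      rw [hf]
      exact Ideal.mem_sup_right (Ideal.subset_span rfl)
    have hy2 : t 0 ∉ maximalIdeal L ^ 2 := by
      intro h2
      have h3 : maximalIdeal L ≤ Ideal.span {f} ⊔ maximalIdeal L ^ 2 := by
        conv_lhs => rw [hf]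
        refine sup_le le_sup_left ?_
        rw [Ideal.span_singleton_le_iff_mem]
        exact Ideal.mem_sup_right h2
      have h4 : maximalIdeal L ≤ Ideal.span {f} := by
        refine Submodule.le_of_le_smul_of_le_jacobson_bot
          ((maximalIdeal L).fg_of_isNoetherianRing) (IsLocalRing.maximalIdeal_le_jacobson ⊥) ?_
        rw [smul_eq_mul, ← pow_two]
        exact h3
      have h5 : ringKrullDim L ≤ 1 := by
        rw [← IsLocalRing.maximalIdeal_height_eq_ringKrullDim]
        have h6 : (maximalIdeal L).height ≤ 1 := by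
          have h7 : (maximalIdeal L) ∈ (Ideal.span {f}).minimalPrimes := by
            refine ⟨⟨inferInstance, ?_⟩, fun J hJ _ => h4.trans hJ.2⟩
            rw [Ideal.span_singleton_le_iff_mem, hf]
            exact Ideal.mem_sup_left (Ideal.subset_span rfl)
          exact Ideal.height_le_one_of_isPrincipal_of_mem_minimalPrimes _ _ h7
        exact_mod_cast h6
      rw [hL] at h5
      exact absurd h5 (by exact_mod_cast (by omega : ¬ (1 + 1 ≤ 1)))
    obtain ⟨hregV, hdimV⟩ := regular_quotient L (t 0) hy hy2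
    refine ⟨L ⧸ Ideal.span {t 0}, inferInstance, hregV, Ideal.Quotient.mk _,
      Ideal.Quotient.mk_surjective, Ideal.mk_ker, ?_, ?_⟩
    · have h1 : (maximalIdeal L).map (Ideal.Quotient.mk (Ideal.span {t 0})) =
          maximalIdeal (L ⧸ Ideal.span {t 0}) :=
        map_maximalIdeal_of_surjective _ Ideal.Quotient.mk_surjective
      rw [← h1, hf, Ideal.map_sup, Ideal.map_span, Ideal.map_span, Set.image_singleton,
        Set.image_singleton, Ideal.Quotient.mk_singleton_self, Ideal.span_singleton_zero,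
        sup_bot_eq]
    · rw [hL] at hdimV
      obtain ⟨n, hn⟩ := exists_nat_eq_ringKrullDim (L ⧸ Ideal.span {t 0})
      rw [hn] at hdimV ⊢
      have : n + 1 = 1 + 1 := by exact_mod_cast hdimV
      have : n = 1 := by omega
      rw [this]

/-- Serre's positivity conjecture for quadratic hypersurfaces of corank at most one. -/
theorem serreAll_parRing (hLOC : LocStmtRel.{u}) (L : Type u) [CommRing L]
    [IsRegularLocalRing L] (f : L) {s : ℕ} (hs : s ≤ 1) (t : Fin s → L)
    (hf : maximalIdeal L = Ideal.span {f} ⊔ Ideal.span (Set.range t))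
    (hL : ringKrullDim L = ((s + 1 : ℕ) : WithBot ℕ∞)) (r : ℕ)
    (c : Fin r ⊕ Fin s → Fin r ⊕ Fin s → MvPowerSeries (Fin r) L)
    (hc : IsUnit (Matrix.det (Matrix.of fun l m =>
      c (Sum.inl l) (Sum.inl m) + c (Sum.inl m) (Sum.inl l)))) :
    SerreAll (ParRing L f t r c) (s + r) := by
  obtain ⟨hreg, hdim⟩ := parRing_regular L f t hf hL r c hc
  obtain ⟨V, _, hregV, π, hπ, hkerπ, hmV, hV1⟩ := exists_base_dim_one L f hs t hf hL
  obtain ⟨ψ, hψ, hker⟩ := exists_parRing_map π hπ t hkerπ f r c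
  have hdet' : IsUnit (polarMatrix V r (fun i j =>
      MvPowerSeries.map π (c (Sum.inl i) (Sum.inl j)))).det := by
    have h1 : polarMatrix V r (fun i j => MvPowerSeries.map π (c (Sum.inl i) (Sum.inl j))) =
        (MvPowerSeries.map π).mapMatrix (Matrix.of fun l m =>
          c (Sum.inl l) (Sum.inl m) + c (Sum.inl m) (Sum.inl l)) := by
      ext i j : 2
      simp only [polarMatrix, RingHom.mapMatrix_apply, Matrix.map_apply, map_add, Matrix.of_apply]
    rw [h1, ← RingHom.map_det]
    exact hc.map _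
  obtain ⟨hreg', -, hdim'⟩ := quadRing_regular V (π f) hmV hV1 r (fun i j =>
      MvPowerSeries.map π (c (Sum.inl i) (Sum.inl j)))
  have hall := serreAll_of_nondegenerate V (π f) hmV hV1 r (fun i j =>
      MvPowerSeries.map π (c (Sum.inl i) (Sum.inl j))) hdet'
  intro M N _ _ _ _ _ _ hlen
  refine sp_dev₂ hdim M N hlen fun P Q hP hQ _ _ hl => ?_
  by_cases hyP : RingHom.ker ψ ≤ P
  · exact sp_of_quotient hdim hdim' ψ hψ hall P hyP _ hl
  by_cases hyQ : RingHom.ker ψ ≤ Q
  · refine (sp_of_quotient hdim hdim' ψ hψ hall Q hyQ _ ?_).symm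
    rw [(TensorProduct.comm _ (ParRing L f t r c ⧸ Q) (ParRing L f t r c ⧸ P)).length_eq]
    exact hl
  obtain rfl | rfl : s = 0 ∨ s = 1 := by omega
  · refine absurd (hker.trans ?_) hyP
    rw [Set.range_eq_empty, Ideal.span_empty]
    exact bot_le
  have hnot : ∀ P' : Ideal (ParRing L f t r c), ¬ RingHom.ker ψ ≤ P' →
      (Ideal.Quotient.mk _ (MvPowerSeries.C (t 0)) : ParRing L f t r c) ∉ P' := by
    intro P' h1 h2
    refine h1 (hker.trans ?_)
    rw [Ideal.span_le]
    rintro _ ⟨i, rfl⟩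
    have : i = 0 := Subsingleton.elim _ _
    subst this
    exact h2
  obtain ⟨h1, h2, D, hG, hDy, hdet⟩ := exists_RData' L f t r c hf hL hc
  have hB : SerreAll (MvPowerSeries (Fin r) L) (1 + r + 1) :=
    serreAll_powerSeries 4 locPos_four L (by rw [hL]; exact_mod_cast (by omega : 1 + 1 ≤ 4)) r
      (1 + r + 1) D.dimB
  have key : ∀ (g : MvPowerSeries (Fin r) L) (z : Fin 1 → MvPowerSeries (Fin r) L), D.G = g →
      D.y = z → ∀ (P Q : Ideal (MvPowerSeries (Fin r) L ⧸ Ideal.span {g})) [P.IsPrime]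
      [Q.IsPrime], Ideal.Quotient.mk _ (z 0) ∉ P → Ideal.Quotient.mk _ (z 0) ∉ Q →
      Module.length (MvPowerSeries (Fin r) L ⧸ Ideal.span {g})
        (((MvPowerSeries (Fin r) L ⧸ Ideal.span {g}) ⧸ P)
        ⊗[MvPowerSeries (Fin r) L ⧸ Ideal.span {g}]
          ((MvPowerSeries (Fin r) L ⧸ Ideal.span {g}) ⧸ Q)) ≠ ⊤ →
      SP (MvPowerSeries (Fin r) L ⧸ Ideal.span {g}) (1 + r)
        ((MvPowerSeries (Fin r) L ⧸ Ideal.span {g}) ⧸ P)
        ((MvPowerSeries (Fin r) L ⧸ Ideal.span {g}) ⧸ Q) := by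
    rintro g z rfl rfl P Q _ _ hyP hyQ hl
    exact D.sp_primes hLOC hB hdet P Q hyP hyQ hl
  exact key _ _ hG hDy P Q (hnot P hyP) (hnot Q hyQ) hl

end Vale.Agent.P177
end

section

/-!
Flatness of a noetherian completion of a flat algebra.
-/

namespace Vale.Agent.P177

open IsLocalRing Function TensorProduct

universe u

section approx

variable {R A S : Type u} [CommRing R] [IsLocalRing R] [IsNoetherianRing R] [CommRing A]
  [Algebra R A] [Module.Flat R A] [CommRing S] [IsLocalRing S] [IsNoetherianRing S]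
  [Algebra A S] [Algebra R S] [IsScalarTower R A S] {d : ℕ} {x : Fin d → R}

omit [IsNoetherianRing R] in
theorem exists_sum_tmul (hx : ∀ i, x i ∈ maximalIdeal R)
    (hspan : Ideal.span (Set.range x) = maximalIdeal R) (N : Type u) [AddCommGroup N] [Module R N]
    (ξ : N ⊗[R] maximalIdeal R) :
    ∃ s : Fin d → N, ξ = ∑ i, s i ⊗ₜ[R] (⟨x i, hx i⟩ : maximalIdeal R) := by
  induction ξ with
  | zero => exact ⟨0, by simp⟩
  | add a b ha hb =>
    obtain ⟨s, rfl⟩ := ha
    obtain ⟨t, rfl⟩ := hb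
    refine ⟨s + t, ?_⟩
    rw [← Finset.sum_add_distrib]
    exact Finset.sum_congr rfl fun i _ => by rw [Pi.add_apply, add_tmul]
  | tmul n m =>
    have hm : (m : R) ∈ Ideal.span (Set.range x) := by
      rw [hspan]
      exact m.2
    rw [Ideal.mem_span_range_iff_exists_fun] at hm
    obtain ⟨c, hc⟩ := hm
    refine ⟨fun i => c i • n, ?_⟩
    have h1 : m = ∑ i, c i • (⟨x i, hx i⟩ : maximalIdeal R) := by
      apply Subtype.ext
      rw [← hc, AddSubmonoidClass.coe_finsetSum]
      rfl
    calc n ⊗ₜ[R] m = n ⊗ₜ[R] ∑ i, c i • (⟨x i, hx i⟩ : maximalIdeal R) := by rw [← h1]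
      _ = _ := by
        rw [tmul_sum]
        refine Finset.sum_congr rfl fun i _ => ?_
        rw [tmul_smul, smul_tmul']

omit [IsNoetherianRing R] [Module.Flat R A] in
theorem sum_mem_pow_succ (hspan : Ideal.span (Set.range x) = maximalIdeal R) (n : ℕ) (y : A)
    (hy : y ∈ ((maximalIdeal R) ^ (n + 1)).map (algebraMap R A)) :
    ∃ b : Fin d → A, (∀ i, b i ∈ ((maximalIdeal R) ^ n).map (algebraMap R A)) ∧
      y = ∑ i, x i • b i := by
  rw [pow_succ', Ideal.map_mul] at hy
  have h1 : (maximalIdeal R).map (algebraMap R A) =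
      Ideal.span (Set.range fun i => algebraMap R A (x i)) := by
    rw [← hspan, Ideal.map_span, ← Set.range_comp]
    rfl
  rw [h1] at hy
  refine Submodule.mul_induction_on hy ?_ ?_
  · intro a ha b hb
    rw [Ideal.mem_span_range_iff_exists_fun] at ha
    obtain ⟨c, rfl⟩ := ha
    refine ⟨fun i => c i * b, fun i => Ideal.mul_mem_left _ _ hb, ?_⟩
    rw [Finset.sum_mul]
    refine Finset.sum_congr rfl fun i _ => ?_
    rw [Algebra.smul_def]
    ring
  · rintro a b ⟨f, hf, rfl⟩ ⟨g, hg, rfl⟩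
    refine ⟨f + g, fun i => add_mem (hf i) (hg i), ?_⟩
    rw [← Finset.sum_add_distrib]
    exact Finset.sum_congr rfl fun i _ => by rw [Pi.add_apply, smul_add]

theorem flat_of_approx (hspan : Ideal.span (Set.range x) = maximalIdeal R)
    (hm : (maximalIdeal R).map (algebraMap R S) = maximalIdeal S)
    (happ : ∀ (n : ℕ) (s : S), ∃ a : A, s - algebraMap A S a ∈
      ((maximalIdeal R) ^ n).map (algebraMap R S))
    (hcl : ∀ (n : ℕ) (a : A), algebraMap A S a ∈ ((maximalIdeal R) ^ n).map (algebraMap R S) →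
      a ∈ ((maximalIdeal R) ^ n).map (algebraMap R A)) : Module.Flat R S := by
  have hx : ∀ i, x i ∈ maximalIdeal R := fun i => hspan ▸ Ideal.subset_span ⟨i, rfl⟩
  have hl : IsLocalHom (algebraMap R S) :=
    ((IsLocalRing.local_hom_TFAE (algebraMap R S)).out 0 2).2 hm.le
  apply flat_of_tor_residue
  have hex : Exact (maximalIdeal R).subtype (maximalIdeal R).mkQ := by
    intro y
    rw [Submodule.mkQ_apply, Submodule.Quotient.mk_eq_zero]
    simp
  obtain ⟨e1⟩ := tor_one (maximalIdeal R).subtype (maximalIdeal R).mkQ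
    (Submodule.injective_subtype _) (Submodule.mkQ_surjective _) hex S
  obtain ⟨e2⟩ := ker_comm (N := S) (maximalIdeal R).subtype
  have hinj : ∀ ξ : S ⊗[R] maximalIdeal R,
      (maximalIdeal R).subtype.lTensor S ξ = 0 → ξ = 0 := by
    intro ξ hξ
    obtain ⟨s, rfl⟩ := exists_sum_tmul hx hspan S ξ
    have h0 : ∑ i, x i • s i = 0 := by
      have h1 := congrArg (TensorProduct.rid R S) hξ
      rw [map_zero, map_sum, map_sum] at h1
      rw [← h1]
      refine Finset.sum_congr rfl fun i _ => ?_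
      rw [LinearMap.lTensor_tmul, TensorProduct.rid_tmul]
      rfl
    have key : ∀ n : ℕ, (∑ i, s i ⊗ₜ[R] (⟨x i, hx i⟩ : maximalIdeal R)) ∈
        (maximalIdeal S ^ n • ⊤ : Submodule S (S ⊗[R] maximalIdeal R)) := by
      intro n
      choose a ha using fun i => happ n (s i)
      have h1 : algebraMap A S (∑ i, x i • a i) ∈
          ((maximalIdeal R) ^ (n + 1)).map (algebraMap R S) := by
        have h2 : algebraMap A S (∑ i, x i • a i) =
            - ∑ i, algebraMap R S (x i) * (s i - algebraMap A S (a i)) := by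
          have h3 : ∑ i, algebraMap R S (x i) * s i = 0 := by
            rw [← h0]
            exact Finset.sum_congr rfl fun i _ => by rw [Algebra.smul_def]
          simp only [mul_sub, Finset.sum_sub_distrib]
          rw [h3, zero_sub, neg_neg, map_sum]
          refine Finset.sum_congr rfl fun i _ => ?_
          rw [Algebra.smul_def, map_mul, ← IsScalarTower.algebraMap_apply]
        rw [h2]
        refine neg_mem (Ideal.sum_mem _ fun i _ => ?_)
        rw [pow_succ', Ideal.map_mul]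
        exact Ideal.mul_mem_mul (Ideal.mem_map_of_mem _ (hx i)) (ha i)
      obtain ⟨b, hb, h2⟩ := sum_mem_pow_succ hspan n _ (hcl (n + 1) _ h1)
      have h3 : ∑ i, (a i - b i) ⊗ₜ[R] (⟨x i, hx i⟩ : maximalIdeal R) = 0 := by
        have h4 : Injective ((maximalIdeal R).subtype.lTensor A) :=
          Module.Flat.lTensor_preserves_injective_linearMap _ (Submodule.injective_subtype _)
        apply h4
        apply (TensorProduct.rid R A).injective
        rw [map_zero, map_zero, map_sum, map_sum]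
        have h5 : ∑ i, x i • (a i - b i) = 0 := by
          simp only [smul_sub, Finset.sum_sub_distrib]
          rw [h2, sub_self]
        rw [← h5]
        refine Finset.sum_congr rfl fun i _ => ?_
        rw [LinearMap.lTensor_tmul, TensorProduct.rid_tmul]
        rfl
      have h4 : ∑ i, algebraMap A S (a i - b i) ⊗ₜ[R] (⟨x i, hx i⟩ : maximalIdeal R) = 0 := by
        have h5 := congrArg ((Algebra.linearMap A S).restrictScalars R |>.rTensor
          (maximalIdeal R)) h3
        rw [map_zero, map_sum] at h5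
        exact h5
      have h5 : (∑ i, s i ⊗ₜ[R] (⟨x i, hx i⟩ : maximalIdeal R)) =
          ∑ i, (s i - algebraMap A S (a i - b i)) ⊗ₜ[R] (⟨x i, hx i⟩ : maximalIdeal R) := by
        simp only [sub_tmul, Finset.sum_sub_distrib]
        rw [h4, sub_zero]
      rw [h5]
      refine Submodule.sum_mem _ fun i _ => ?_
      have h6 : (s i - algebraMap A S (a i - b i)) ⊗ₜ[R] (⟨x i, hx i⟩ : maximalIdeal R) =
          (s i - algebraMap A S (a i - b i)) •
            ((1 : S) ⊗ₜ[R] (⟨x i, hx i⟩ : maximalIdeal R)) := by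
        rw [smul_tmul', smul_eq_mul, mul_one]
      rw [h6]
      refine Submodule.smul_mem_smul ?_ Submodule.mem_top
      have h7 : s i - algebraMap A S (a i - b i) =
          (s i - algebraMap A S (a i)) + algebraMap A S (b i) := by
        rw [map_sub]
        ring
      rw [h7, ← hm, ← Ideal.map_pow]
      refine add_mem (ha i) ?_
      have h8 := Ideal.mem_map_of_mem (algebraMap A S) (hb i)
      rw [Ideal.map_map, ← IsScalarTower.algebraMap_eq] at h8
      exact h8
    have hfin : Module.Finite S (S ⊗[R] maximalIdeal R) := inferInstance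
    have hH : IsHausdorff (maximalIdeal S) (S ⊗[R] maximalIdeal R) := inferInstance
    apply hH.haus
    intro n
    rw [SModEq.zero]
    exact key n
  have hsub : Subsingleton (LinearMap.ker ((maximalIdeal R).subtype.lTensor S)) := by
    refine ⟨fun u v => ?_⟩
    apply Subtype.ext
    rw [hinj u.1 u.2, hinj v.1 v.2]
  exact (e1 ≪≫ₗ e2).toEquiv.subsingleton

end approx

end Vale.Agent.P177
end

section

/-!
Presentation of a complete regular local ring with perfect residue field as a quotient of a power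
series ring over the Witt vectors.
-/

namespace Vale.Agent.P177

open TensorProduct IsLocalRing RingTheory.Sequence Function

universe u

theorem exists_evalHom_surjective {ι A R : Type*} [Finite ι] [CommRing A] [IsLocalRing A]
    [IsAdicComplete (maximalIdeal A) A] [CommRing R] (σ : R →+* A)
    (hσ : Function.Surjective (fun x => residue A (σ x))) (x : ι → A)
    (hx : Ideal.span (Set.range x) = maximalIdeal A) :
    ∃ φ : MvPowerSeries ι R →+* A, Function.Surjective φ ∧ (∀ r, φ (MvPowerSeries.C r) = σ r) ∧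
      ∀ i, φ (MvPowerSeries.X i) = x i := by
  obtain ⟨φ, hφ⟩ := exists_evalHom (maximalIdeal A) σ x
    (fun i => hx ▸ Ideal.subset_span ⟨i, rfl⟩)
  have hC : ∀ r, φ (MvPowerSeries.C r) = σ r := by
    intro r
    rw [← MvPolynomial.coe_C, hφ]
    simp
  have hX : ∀ i, φ (MvPowerSeries.X i) = x i := by
    intro i
    rw [← MvPolynomial.coe_X, hφ]
    simp
  refine ⟨φ, ?_, hC, hX⟩
  have hmap : (Ideal.span (Set.range MvPowerSeries.X) : Ideal (MvPowerSeries ι R)).map φ =
      maximalIdeal A := by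
    rw [Ideal.map_span, ← Set.range_comp, ← hx]
    congr 2
    ext i
    exact hX i
  have hH : IsHausdorff ((Ideal.span (Set.range MvPowerSeries.X) :
      Ideal (MvPowerSeries ι R)).map φ) A := by
    rw [hmap]
    infer_instance
  apply surjective_of_mk_map_comp_surjective (I := Ideal.span (Set.range MvPowerSeries.X)) φ
  intro y
  obtain ⟨a, rfl⟩ := Ideal.Quotient.mk_surjective y
  obtain ⟨c, hc⟩ := hσ (residue A a)
  refine ⟨MvPowerSeries.C c, ?_⟩
  rw [RingHom.comp_apply, hC]
  rw [Ideal.Quotient.mk_eq_mk_iff_sub_mem, hmap]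
  rw [← Ideal.Quotient.mk_eq_mk_iff_sub_mem]
  exact hc

/-- Presentation over a one-dimensional regular local ring with the same residue field. -/
theorem exists_quadRing_equiv_of_hom {S : Type u} [CommRing S] [IsRegularLocalRing S]
    [IsAdicComplete (maximalIdeal S) S] {d : ℕ} (hd : ringKrullDim S = d) (x : Fin d → S)
    (hx : Ideal.span (Set.range x) = maximalIdeal S) (c : Fin d → Fin d → S)
    (V : Type u) [CommRing V] [IsRegularLocalRing V] (ϖ : V)
    (hϖ : maximalIdeal V = Ideal.span {ϖ}) (hV : ringKrullDim V = (1 : ℕ)) (σ : V →+* S)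
    (hσ : Function.Surjective (fun v => residue S (σ v)))
    (hc : σ ϖ = ∑ i, ∑ j, x i * c i j * x j) :
    ∃ (c' : Fin d → Fin d → MvPowerSeries (Fin d) V) (e : QuadRing V ϖ d c' ≃+* S),
      (∀ i, e (Ideal.Quotient.mk _ (MvPowerSeries.X i)) = x i) ∧
      ∀ i j, e (Ideal.Quotient.mk _ (c' i j)) = c i j := by
  obtain ⟨φ, hφ, hC, hX⟩ := exists_evalHom_surjective σ hσ x hx
  choose g hg using hφ
  let c' : Fin d → Fin d → MvPowerSeries (Fin d) V := fun i j => g (c i j)
  have hq : ∀ a ∈ Ideal.span {quadEq V ϖ d c'}, φ a = 0 := by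
    intro a ha
    have h1 : Ideal.span {quadEq V ϖ d c'} ≤ RingHom.ker φ := by
      rw [Ideal.span_singleton_le_iff_mem, RingHom.mem_ker, quadEq, map_sub, hC, hc, map_sum,
        sub_eq_zero]
      refine Finset.sum_congr rfl fun i _ => ?_
      rw [map_sum]
      refine Finset.sum_congr rfl fun j _ => ?_
      rw [map_mul, map_mul, hX, hX, hg]
    exact h1 ha
  obtain ⟨hR, -, hdR⟩ := quadRing_regular V ϖ hϖ hV d c'
  let ψ : QuadRing V ϖ d c' →+* S := Ideal.Quotient.lift _ φ hq
  have hψ : Surjective ψ := fun s => ⟨Ideal.Quotient.mk _ (g s), hg s⟩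
  have hinj : Injective ψ := by
    rw [RingHom.injective_iff_ker_eq_bot]
    refine ker_eq_bot_of_dim_eq ψ hψ ?_
    rw [hd, hdR]
  exact ⟨c', RingEquiv.ofBijective ψ ⟨hinj, hψ⟩, fun i => hX i, fun i j => hg _⟩

theorem exists_completion_residue (R : Type u) [CommRing R] [IsRegularLocalRing R] {r : ℕ}
    (hr : ringKrullDim R = r) :
    ∃ (S : Type u) (_ : CommRing S) (_ : IsRegularLocalRing S) (_ : Algebra R S),
      Module.Flat R S ∧ (maximalIdeal R).map (algebraMap R S) = maximalIdeal S ∧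
      ringKrullDim S = r ∧ IsAdicComplete (maximalIdeal S) S ∧
      Surjective (fun z => residue S (algebraMap R S z)) := by
  have hN := isNoetherianRing_adicCompletion R
  have hdim := ringKrullDim_adicCompletion R hr
  refine ⟨AdicCompletion (maximalIdeal R) R, inferInstance, ?_, inferInstance, inferInstance,
    AdicCompletion.maximalIdeal_eq_map.symm, hdim, inferInstance, ?_⟩
  · apply IsRegularLocalRing.of_spanFinrank_maximalIdeal_le
    rw [AdicCompletion.spanFinrank_maximalIdeal_eq, IsRegularLocalRing.spanFinrank_maximalIdeal,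
      hr, hdim]
  · intro y
    obtain ⟨z, hz⟩ := (AdicCompletion.residueField_map_bijective R).2 y
    obtain ⟨z, rfl⟩ := residue_surjective z
    exact ⟨z, hz⟩

theorem witt_dim_one (k : Type u) [Field k] (p : ℕ) [Fact p.Prime] [CharP k p]
    [PerfectRing k p] : ∃ _ : IsRegularLocalRing (WittVector p k),
      maximalIdeal (WittVector p k) = Ideal.span {(p : WittVector p k)} ∧
      ringKrullDim (WittVector p k) = (1 : ℕ) := by
  refine ⟨inferInstance, (WittVector.irreducible p).maximalIdeal_eq, ?_⟩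
  rw [IsDiscreteValuationRing.ringKrullDim_eq_one]
  rfl

end Vale.Agent.P177
end

section

/-!
Flat extension of a regular local ring to a complete one with perfect residue field, and the
presentation theorem.
-/

namespace Vale.Agent.P177

open IsLocalRing Function TensorProduct

universe u

section completion

variable {A : Type u} [CommRing A] [IsLocalRing A] (fg : (maximalIdeal A).FG)

include fg in
theorem adic_approx (n : ℕ) (s : AdicCompletion (maximalIdeal A) A) :
    ∃ a : A, s - algebraMap A (AdicCompletion (maximalIdeal A) A) a ∈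
      ((maximalIdeal A) ^ n).map (algebraMap A (AdicCompletion (maximalIdeal A) A)) := by
  obtain ⟨a, ha⟩ := Ideal.Quotient.mk_surjective (s.1 n)
  refine ⟨a, ?_⟩
  rw [← Submodule.restrictScalars_mem A, ← Ideal.smul_top_eq_map,
    AdicCompletion.pow_smul_top_eq_ker_eval fg, LinearMap.mem_ker, map_sub, sub_eq_zero]
  exact ha.symm

include fg in
theorem adic_closed (n : ℕ) (a : A) (ha : algebraMap A (AdicCompletion (maximalIdeal A) A) a ∈
      ((maximalIdeal A) ^ n).map (algebraMap A (AdicCompletion (maximalIdeal A) A))) :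
    a ∈ (maximalIdeal A) ^ n := by
  rw [← Submodule.restrictScalars_mem A, ← Ideal.smul_top_eq_map,
    AdicCompletion.pow_smul_top_eq_ker_eval fg, LinearMap.mem_ker] at ha
  have h1 : (Submodule.Quotient.mk a : A ⧸ (maximalIdeal A ^ n • ⊤ : Submodule A A)) = 0 := ha
  rw [Submodule.Quotient.mk_eq_zero, smul_eq_mul, Ideal.mul_top] at h1
  exact h1

end completion

/-- Every regular local ring with residue characteristic `p` has a flat complete extension, with
the same parameters and with perfect residue field. -/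
theorem exists_gonflement (R : Type u) [CommRing R] [IsRegularLocalRing R] (p : ℕ) [Fact p.Prime]
    [CharP (ResidueField R) p] {d : ℕ} (hd : ringKrullDim R = d) :
    ∃ (S : Type u) (_ : CommRing S) (_ : IsRegularLocalRing S) (_ : Algebra R S),
      Module.Flat R S ∧ (maximalIdeal R).map (algebraMap R S) = maximalIdeal S ∧
      ringKrullDim S = d ∧ IsAdicComplete (maximalIdeal S) S ∧
      CharP (ResidueField S) p ∧ PerfectRing (ResidueField S) p := by
  have hdom : IsDomain R := regular_isDomain R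
  obtain ⟨rs, hrs, hlen⟩ := exists_list_maximalIdeal R
  have hl : rs.length = d := by
    rw [hd] at hlen
    exact_mod_cast hlen
  subst hl
  let x : Fin rs.length → R := fun i => rs.get i
  have hx : Ideal.span (Set.range x) = maximalIdeal R := by
    rw [← hrs, Ideal.ofList]
    congr 1
    ext y
    simp only [x, Set.mem_range, Set.mem_ofPred_eq, List.mem_iff_get]
  let Ω := AlgebraicClosure (FractionRing R)
  have hinj : Injective (algebraMap R Ω) := by
    rw [IsScalarTower.algebraMap_eq R (FractionRing R) Ω]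
    exact (algebraMap (FractionRing R) Ω).injective.comp (IsFractionRing.injective R _)
  obtain ⟨A, hA, hroot⟩ := exists_locUnion_perfect (Ω := Ω) hx p Fact.out
  have hint : Algebra.IsIntegral R A := hA.isIntegral
  have hflat : Module.Flat R A := hA.flat hx hd hinj
  obtain ⟨hloc, hm⟩ := isLocalRing_of_integral_map (hA.isMaximal hx)
  have fg : (maximalIdeal A).FG := by
    rw [← hm]
    exact ((maximalIdeal R).fg_of_isNoetherianRing).map _
  let S := AdicCompletion (maximalIdeal A) A
  have hlS : IsLocalRing S := AdicCompletion.isLocalRing_of_fg fg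
  have hmS : maximalIdeal S = (maximalIdeal A).map (algebraMap A S) :=
    AdicCompletion.maximalIdeal_eq_map_of_fg fg
  have hcS : IsAdicComplete (maximalIdeal S) S := AdicCompletion.isAdicComplete_of_fg fg
  have htow : IsScalarTower R A S := inferInstance
  have hmRS : (maximalIdeal R).map (algebraMap R S) = maximalIdeal S := by
    rw [IsScalarTower.algebraMap_eq R A S, ← Ideal.map_map, hm, hmS]
  have hpow : ∀ n, ((maximalIdeal R) ^ n).map (algebraMap R S) =
      ((maximalIdeal A) ^ n).map (algebraMap A S) := fun n => by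
    rw [IsScalarTower.algebraMap_eq R A S, ← Ideal.map_map, Ideal.map_pow (algebraMap R A), hm]
  have happ : ∀ (n : ℕ) (s : S), ∃ a : A, s - algebraMap A S a ∈
      ((maximalIdeal R) ^ n).map (algebraMap R S) := fun n s => by
    rw [hpow]
    exact adic_approx fg n s
  have hcl : ∀ (n : ℕ) (a : A), algebraMap A S a ∈ ((maximalIdeal R) ^ n).map (algebraMap R S) →
      a ∈ ((maximalIdeal R) ^ n).map (algebraMap R A) := fun n a ha => by
    rw [hpow] at ha
    rw [Ideal.map_pow, hm]
    exact adic_closed fg n a ha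
  let f : ResidueField R →+* ResidueField S := Ideal.quotientMap (maximalIdeal S)
    (algebraMap R S) (Ideal.map_le_iff_le_comap.1 hmRS.le)
  have hch : CharP (ResidueField S) p := charP_of_injective_ringHom f.injective p
  have hpr : PerfectRing (ResidueField S) p := PerfectRing.ofSurjective _ p fun y => by
    obtain ⟨s, rfl⟩ := residue_surjective y
    obtain ⟨a, ha⟩ := happ 1 s
    obtain ⟨b, hb, h1⟩ := hroot a a.2
    have h2 : (⟨b, hb⟩ : A) ^ p - a ∈ maximalIdeal A := by
      rw [← hm]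
      exact (mem_map_iff hx A _).2 h1
    refine ⟨residue S (algebraMap A S ⟨b, hb⟩), ?_⟩
    rw [frobenius_def, ← map_pow, ← sub_eq_zero, ← map_sub, residue_eq_zero_iff]
    have h3 : algebraMap A S ⟨b, hb⟩ ^ p - s =
        algebraMap A S (⟨b, hb⟩ ^ p - a) - (s - algebraMap A S a) := by
      rw [map_sub, map_pow]
      ring
    rw [h3]
    refine sub_mem ?_ ?_
    · rw [hmS]
      exact Ideal.mem_map_of_mem _ h2
    · rw [pow_one, hmRS] at ha
      exact ha
  have hxS : Ideal.span (Set.range fun i => algebraMap R S (x i)) = maximalIdeal S := by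
    rw [← hmRS, ← hx, Ideal.map_span, ← Set.range_comp]
    rfl
  have hNS : IsNoetherianRing S := by
    obtain ⟨σ, hσ⟩ := exists_witt_hom (S := S) p
    obtain ⟨φ, hφ, -⟩ := exists_evalHom_surjective σ (fun y =>
      ⟨WittVector.teichmuller p y, by
        change residue S (σ (WittVector.teichmuller p y)) = y
        rw [hσ, WittVector.teichmuller_coeff_zero]⟩) (fun i => algebraMap R S (x i)) hxS
    exact isNoetherianRing_of_surjective _ _ φ hφ
  have hfS : Module.Flat R S := flat_of_approx hx hmRS happ hcl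
  have hdS : ringKrullDim S = rs.length := by
    rw [ringKrullDim_eq_of_flat hmRS, hd]
  have hrS := (isRegularLocalRing_of_list (B := S) (rs.map (algebraMap R S)) (by
    rw [← Ideal.map_ofList, hrs, hmRS]) (by rw [List.length_map, hdS])).1
  exact ⟨S, inferInstance, hrS, inferInstance, hfS, hmRS, hdS, hcS, hch, hpr⟩

end Vale.Agent.P177
end

section

/-!
Presentation of regular local rings as quadratic hypersurfaces with parameters.
-/

namespace Vale.Agent.P177

open TensorProduct IsLocalRing RingTheory.Sequence Function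

universe u

/-- The parameters. -/
abbrev zElim {R : Type*} {r s : ℕ} (x : Fin r → R) (y : Fin s → R) : Fin r ⊕ Fin s → R :=
  Sum.elim x y

theorem exists_evalHom_surjective' {A L : Type u} [CommRing A] [IsLocalRing A]
    [IsNoetherianRing A] [IsAdicComplete (maximalIdeal A) A] [CommRing L] [IsLocalRing L]
    [IsAdicComplete (maximalIdeal L) L] (σ : L →+* A)
    (hσ : Function.Surjective (fun x => residue A (σ x))) {r s : ℕ} (x : Fin r → A)
    (t : Fin s → L) (ht : ∀ i, t i ∈ maximalIdeal L)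
    (hle : maximalIdeal L ≤ (maximalIdeal A).comap σ)
    (hx : Ideal.span (Set.range fun i => σ (t i)) ⊔ Ideal.span (Set.range x) = maximalIdeal A) :
    ∃ φ : MvPowerSeries (Fin r) L →+* A, Function.Surjective φ ∧
      (∀ v, φ (MvPowerSeries.C v) = σ v) ∧ ∀ i, φ (MvPowerSeries.X i) = x i := by
  have hxm : Ideal.span (Set.range x) ≤ maximalIdeal A := hx ▸ le_sup_right
  obtain ⟨φ, hφ⟩ := exists_evalHom (maximalIdeal A) σ x
    (fun i => hxm (Ideal.subset_span ⟨i, rfl⟩))
  have hC : ∀ r, φ (MvPowerSeries.C r) = σ r := by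
    intro r
    rw [← MvPolynomial.coe_C, hφ]
    simp
  have hX : ∀ i, φ (MvPowerSeries.X i) = x i := by
    intro i
    rw [← MvPolynomial.coe_X, hφ]
    simp
  refine ⟨φ, ?_, hC, hX⟩
  have hmap : (Ideal.span (Set.range MvPowerSeries.X) : Ideal (MvPowerSeries (Fin r) L)).map φ =
      Ideal.span (Set.range x) := by
    rw [Ideal.map_span, ← Set.range_comp]
    congr 2
    ext i
    exact hX i
  -- the base ring surjects onto the quotient
  let A' := A ⧸ Ideal.span (Set.range x)
  have hnt : Nontrivial A' := Ideal.Quotient.nontrivial_iff.2 fun h =>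
    (maximalIdeal.isMaximal A).ne_top (top_le_iff.1 (h ▸ hxm))
  have hlA : IsLocalRing A' := .of_surjective' (Ideal.Quotient.mk _) Ideal.Quotient.mk_surjective
  let q : A →+* A' := Ideal.Quotient.mk _
  have hmA : (maximalIdeal A).map q = maximalIdeal A' :=
    map_maximalIdeal_of_surjective _ Ideal.Quotient.mk_surjective
  have hmL : (maximalIdeal L).map (q.comp σ) ≤ maximalIdeal A' := by
    rw [← Ideal.map_map, ← hmA]
    exact Ideal.map_mono (Ideal.map_le_iff_le_comap.2 hle)
  have hH' : IsHausdorff ((maximalIdeal L).map (q.comp σ)) A' :=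
    IsHausdorff.of_le_jacobson _ _ (hmL.trans (IsLocalRing.maximalIdeal_le_jacobson ⊥))
  have hsurj' : Surjective (q.comp σ) := by
    apply surjective_of_mk_map_comp_surjective (I := maximalIdeal L) (q.comp σ)
    intro y
    obtain ⟨a', rfl⟩ := Ideal.Quotient.mk_surjective y
    obtain ⟨a, rfl⟩ : ∃ a, q a = a' := Ideal.Quotient.mk_surjective a'
    obtain ⟨v, hv⟩ := hσ (residue A a)
    refine ⟨v, ?_⟩
    rw [RingHom.comp_apply, RingHom.comp_apply, Ideal.Quotient.mk_eq_mk_iff_sub_mem, ← map_sub]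
    have h1 : σ v - a ∈ maximalIdeal A := by
      rw [← residue_eq_zero_iff, map_sub, sub_eq_zero]
      exact hv
    rw [← hx] at h1
    have h2 : Ideal.span (Set.range fun i => σ (t i)) ⊔ Ideal.span (Set.range x) ≤
        ((maximalIdeal L).map (q.comp σ)).comap q := by
      refine sup_le ?_ ?_
      · rw [Ideal.span_le]
        rintro _ ⟨i, rfl⟩
        exact Ideal.mem_map_of_mem (q.comp σ) (ht i)
      · rw [Ideal.span_le]
        rintro _ ⟨i, rfl⟩
        rw [SetLike.mem_coe, Ideal.mem_comap]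
        have h3 : q (x i) = 0 := Ideal.Quotient.eq_zero_iff_mem.2 (Ideal.subset_span ⟨i, rfl⟩)
        rw [h3]
        exact Ideal.zero_mem _
    exact h2 h1
  have hH : IsHausdorff ((Ideal.span (Set.range MvPowerSeries.X) :
      Ideal (MvPowerSeries (Fin r) L)).map φ) A := by
    rw [hmap]
    exact IsHausdorff.of_le_jacobson _ _ (hxm.trans (IsLocalRing.maximalIdeal_le_jacobson ⊥))
  apply surjective_of_mk_map_comp_surjective (I := Ideal.span (Set.range MvPowerSeries.X)) φ
  intro y
  obtain ⟨a, rfl⟩ := Ideal.Quotient.mk_surjective y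
  obtain ⟨v, hv⟩ := hsurj' (q a)
  refine ⟨MvPowerSeries.C v, ?_⟩
  rw [RingHom.comp_apply, hC, Ideal.Quotient.mk_eq_mk_iff_sub_mem, hmap]
  rw [← Ideal.Quotient.mk_eq_mk_iff_sub_mem]
  exact hv

/-- Presentation over a regular local ring of dimension `s + 1` with the same residue field. -/
theorem exists_parRing_equiv {S : Type u} [CommRing S] [IsRegularLocalRing S]
    [IsAdicComplete (maximalIdeal S) S] {r s : ℕ}
    (hd : ringKrullDim S = ((s + r : ℕ) : WithBot ℕ∞)) (x : Fin r → S) (y : Fin s → S)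
    (hx : Ideal.span (Set.range y) ⊔ Ideal.span (Set.range x) = maximalIdeal S)
    (c : Fin r ⊕ Fin s → Fin r ⊕ Fin s → S)
    (hc : IsUnit (Matrix.det (Matrix.of fun l m =>
      c (Sum.inl l) (Sum.inl m) + c (Sum.inl m) (Sum.inl l))))
    (L : Type u) [CommRing L] [IsRegularLocalRing L] (f : L) (t : Fin s → L)
    (hf : maximalIdeal L = Ideal.span {f} ⊔ Ideal.span (Set.range t))
    (hL : ringKrullDim L = ((s + 1 : ℕ) : WithBot ℕ∞)) (σ : L →+* S)
    (hσ : Function.Surjective (fun v => residue S (σ v))) (hσt : ∀ i, σ (t i) = y i)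
    (hσf : σ f = ∑ i, ∑ j, zElim x y i * c i j * zElim x y j) :
    ∃ (L' : Type u) (_ : CommRing L') (_ : IsRegularLocalRing L') (f' : L') (t' : Fin s → L')
      (_ : maximalIdeal L' = Ideal.span {f'} ⊔ Ideal.span (Set.range t'))
      (_ : ringKrullDim L' = ((s + 1 : ℕ) : WithBot ℕ∞))
      (c' : Fin r ⊕ Fin s → Fin r ⊕ Fin s → MvPowerSeries (Fin r) L')
      (_ : IsUnit (Matrix.det (Matrix.of fun l m =>
        c' (Sum.inl l) (Sum.inl m) + c' (Sum.inl m) (Sum.inl l)))),
      Nonempty (ParRing L' f' t' r c' ≃+* S) := by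
  have hzm : ∀ i, zElim x y i ∈ maximalIdeal S := by
    rw [← hx]
    rintro (i | i)
    · exact Ideal.mem_sup_right (Ideal.subset_span ⟨i, rfl⟩)
    · exact Ideal.mem_sup_left (Ideal.subset_span ⟨i, rfl⟩)
  have hle : maximalIdeal L ≤ (maximalIdeal S).comap σ := by
    rw [hf]
    refine sup_le ?_ ?_
    · rw [Ideal.span_singleton_le_iff_mem, Ideal.mem_comap, hσf]
      exact Ideal.sum_mem _ fun i _ => Ideal.sum_mem _ fun j _ => Ideal.mul_mem_left _ _ (hzm j)
    · rw [Ideal.span_le]
      rintro _ ⟨i, rfl⟩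
      rw [SetLike.mem_coe, Ideal.mem_comap, hσt]
      exact hzm (Sum.inr i)
  obtain ⟨L', _, _, _, hflat, hloc, hm, hL', hcomp, huniv⟩ := exists_regular_completion L hL
  obtain ⟨g, hg⟩ := huniv S (maximalIdeal S) σ hle
  have hg' : ∀ v, g (algebraMap L L' v) = σ v := fun v => by rw [← hg]; rfl
  have hgres : Function.Surjective (fun v => residue S (g v)) := by
    intro z
    obtain ⟨v, hv⟩ := hσ z
    exact ⟨algebraMap L L' v, by simp only [hg']; exact hv⟩
  let t' : Fin s → L' := fun i => algebraMap L L' (t i)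
  have hm' : maximalIdeal L' = Ideal.span {algebraMap L L' f} ⊔ Ideal.span (Set.range t') := by
    rw [← hm, hf, Ideal.map_sup, Ideal.map_span, Ideal.map_span, Set.image_singleton,
      ← Set.range_comp]
    rfl
  have ht' : ∀ i, t' i ∈ maximalIdeal L' := fun i => by
    rw [hm']
    exact Ideal.mem_sup_right (Ideal.subset_span ⟨i, rfl⟩)
  have hgle : maximalIdeal L' ≤ (maximalIdeal S).comap g := by
    rw [← hm, Ideal.map_le_iff_le_comap, Ideal.comap_comap, hg]
    exact hle
  obtain ⟨φ, hφ, hC, hX⟩ := exists_evalHom_surjective' g hgres x t' ht' hgle (by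
    have h1 : (fun i => g (t' i)) = y := by
      funext i
      rw [← hσt]
      exact hg' _
    rw [h1]
    exact hx)
  choose k hk using hφ
  let c' : Fin r ⊕ Fin s → Fin r ⊕ Fin s → MvPowerSeries (Fin r) L' := fun i j => k (c i j)
  have hz : ∀ i, φ (parZ L' t' r i) = zElim x y i := by
    rintro (i | i)
    · exact hX i
    · change φ (MvPowerSeries.C (t' i)) = y i
      rw [hC, ← hσt]
      exact hg' _
  have hq : ∀ a ∈ Ideal.span {parEq L' (algebraMap L L' f) t' r c'}, φ a = 0 := by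
    intro a ha
    have h1 : Ideal.span {parEq L' (algebraMap L L' f) t' r c'} ≤ RingHom.ker φ := by
      rw [Ideal.span_singleton_le_iff_mem, RingHom.mem_ker, parEq, map_sub, hC, hg', hσf, map_sum,
        sub_eq_zero]
      refine Finset.sum_congr rfl fun i _ => ?_
      rw [map_sum]
      refine Finset.sum_congr rfl fun j _ => ?_
      rw [map_mul, map_mul, hz, hz, hk]
    exact h1 ha
  have hregL := mvPowerSeries_regular (A := L') r (Equiv.refl (Fin r)) hL'
  obtain ⟨hregB, -⟩ := hregL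
  have hc' : IsUnit (Matrix.det (Matrix.of fun l m =>
      c' (Sum.inl l) (Sum.inl m) + c' (Sum.inl m) (Sum.inl l))) := by
    have h4 : IsLocalHom φ := IsLocalHom.of_surjective _ fun z => ⟨k z, hk z⟩
    have h5 : φ (Matrix.det (Matrix.of fun l m =>
        c' (Sum.inl l) (Sum.inl m) + c' (Sum.inl m) (Sum.inl l))) =
        Matrix.det (Matrix.of fun l m =>
          c (Sum.inl l) (Sum.inl m) + c (Sum.inl m) (Sum.inl l)) := by
      rw [RingHom.map_det]
      congr 1
      ext l m
      simp only [RingHom.mapMatrix_apply, Matrix.map_apply, Matrix.of_apply]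
      rw [map_add, hk, hk]
    refine isUnit_of_map_unit φ _ ?_
    rw [h5]
    exact hc
  obtain ⟨hR, hdR⟩ := parRing_regular L' (algebraMap L L' f) t' hm' hL' r c' hc'
  let ψ : ParRing L' (algebraMap L L' f) t' r c' →+* S := Ideal.Quotient.lift _ φ hq
  have hψ : Surjective ψ := fun z => ⟨Ideal.Quotient.mk _ (k z), hk z⟩
  have hinj : Injective ψ := by
    rw [RingHom.injective_iff_ker_eq_bot]
    refine ker_eq_bot_of_dim_eq ψ hψ ?_
    rw [hd, hdR]
  exact ⟨L', inferInstance, inferInstance, _, t', hm', hL', c', hc',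
    ⟨RingEquiv.ofBijective ψ ⟨hinj, hψ⟩⟩⟩

end Vale.Agent.P177
end

section

/-!
Serre's positivity conjecture for regular local rings in which a uniformizing element is given by
a quadratic form of corank at most one.
-/

namespace Vale.Agent.P177

open TensorProduct IsLocalRing RingTheory.Sequence Function

universe u

section base

variable {R S : Type u} [CommRing R] [IsRegularLocalRing R] [CommRing S] [IsRegularLocalRing S]
  [Algebra R S] [Module.Flat R S]

/-- Serre's statements descend along a flat local map with trivial closed fibre. -/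
theorem serreAll_of_flat (hm : (maximalIdeal R).map (algebraMap R S) = maximalIdeal S) {d : ℕ}
    (h : SerreAll S d) : SerreAll R d :=
  SerreAll.descend hm h

/-- Serre's statements and ring isomorphisms. -/
theorem serreAll_of_equiv {R S : Type u} [CommRing R] [IsRegularLocalRing R] [CommRing S]
    [IsRegularLocalRing S] (e : R ≃+* S) {d : ℕ} (h : SerreAll S d) : SerreAll R d := by
  let _ : Algebra R S := (e : R →+* S).toAlgebra
  have : Module.Flat R S := by
    rw [← RingHom.flat_algebraMap_iff]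
    exact RingHom.Flat.of_bijective e.bijective
  exact serreAll_of_flat (S := S) (map_maximalIdeal_of_surjective _ e.surjective) h

end base

end Vale.Agent.P177
end

section

/-!
Bases of dimension `s + 1` attached to an equation `p = u ϖ^a ∏ y_i^(b_i)` with `a` prime to `p`.
-/

namespace Vale.Agent.P177

open TensorProduct IsLocalRing RingTheory.Sequence Function

universe u

/-- A unit which is congruent to `1` is an `a`-th power if `a` is invertible. -/
theorem exists_root_of_one {S : Type u} [CommRing S] [IsLocalRing S]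
    [IsAdicComplete (maximalIdeal S) S] (a : ℕ) (ha : residue S (a : S) ≠ 0) (u : S)
    (hu : u - 1 ∈ maximalIdeal S) : ∃ v : S, v ^ a = u ∧ IsUnit v := by
  have ha0 : a ≠ 0 := by
    rintro rfl
    apply ha
    rw [Nat.cast_zero, map_zero]
  obtain ⟨v, hv, hv1⟩ := HenselianRing.is_henselian (I := maximalIdeal S)
    (Polynomial.X ^ a - Polynomial.C u) (Polynomial.monic_X_pow_sub_C u ha0) 1 (by
      rw [Polynomial.eval_sub, Polynomial.eval_pow, Polynomial.eval_X, Polynomial.eval_C, one_pow,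
        ← neg_mem_iff, neg_sub]
      exact hu) (by
      rw [Polynomial.derivative_sub, Polynomial.derivative_C, sub_zero,
        Polynomial.derivative_X_pow, Polynomial.eval_mul, Polynomial.eval_pow, Polynomial.eval_X,
        one_pow, mul_one, Polynomial.eval_C]
      exact isUnit_iff_ne_zero.2 ha)
  refine ⟨v, ?_, ?_⟩
  · have h1 : Polynomial.eval v (Polynomial.X ^ a - Polynomial.C u) = 0 := hv
    rw [Polynomial.eval_sub, Polynomial.eval_pow, Polynomial.eval_X, Polynomial.eval_C,
      sub_eq_zero] at h1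
    exact h1
  · by_contra hn
    have h2 : (v : S) ∈ maximalIdeal S := (mem_maximalIdeal _).2 hn
    have h3 : (1 : S) ∈ maximalIdeal S := by
      have := Ideal.sub_mem _ h2 hv1
      rwa [sub_sub_cancel] at this
    exact (maximalIdeal.isMaximal S).ne_top ((Ideal.eq_top_iff_one _).2 h3)

theorem exists_base_of_prime {S : Type u} [CommRing S] [IsRegularLocalRing S]
    [IsAdicComplete (maximalIdeal S) S] (p : ℕ) [Fact p.Prime] [CharP (ResidueField S) p]
    [PerfectRing (ResidueField S) p] {s : ℕ} (ϖ : S) (hϖ : ϖ ∈ maximalIdeal S) (y : Fin s → S)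
    (hy : ∀ i, y i ∈ maximalIdeal S) (a : ℕ) (b : Fin s → ℕ) (u : S) (ha : ¬ p ∣ a)
    (hu : IsUnit u) (h : (p : S) = u * ϖ ^ a * ∏ i, y i ^ b i) :
    ∃ (L : Type u) (_ : CommRing L) (_ : IsRegularLocalRing L) (f : L) (t : Fin s → L)
      (σ : L →+* S) (v : S), IsUnit v ∧
      maximalIdeal L = Ideal.span {f} ⊔ Ideal.span (Set.range t) ∧
      ringKrullDim L = ((s + 1 : ℕ) : WithBot ℕ∞) ∧
      Surjective (fun z => residue S (σ z)) ∧ (∀ i, σ (t i) = y i) ∧ σ f = v * ϖ := by
  have hp : p.Prime := Fact.out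
  have ha0 : a ≠ 0 := by
    rintro rfl
    exact ha (dvd_zero p)
  let W := WittVector p (ResidueField S)
  obtain ⟨hV1, hV2, hV3⟩ := witt_dim_one (ResidueField S) p
  obtain ⟨τ, hτ⟩ := exists_witt_hom (S := S) p
  let w : W := WittVector.teichmuller p (residue S u)
  have hw : residue S (τ w) = residue S u := by
    rw [hτ, WittVector.teichmuller_coeff_zero]
  have hwu : IsUnit (τ w) := by
    rw [← isUnit_map_iff (residue S), hw]
    exact hu.map _
  obtain ⟨w', hw'⟩ := hwu
  -- the root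
  have hres : residue S (a : S) ≠ 0 := by
    rw [map_natCast, Ne, CharP.cast_eq_zero_iff (ResidueField S) p a]
    exact ha
  obtain ⟨v, hv, hvu⟩ := exists_root_of_one a hres (u * (↑w'⁻¹ : S)) (by
    rw [← residue_eq_zero_iff, map_sub, map_one, map_mul, sub_eq_zero, ← hw, ← hw', ← map_mul,
      Units.mul_inv, map_one])
  have hvw : τ w * v ^ a = u := by
    rw [hv, ← hw', mul_comm u, Units.mul_inv_cancel_left]
  -- the power series ring
  obtain ⟨hregB, hdimB⟩ := mvPowerSeries_regular (A := W) (s + 1) (Equiv.refl (Fin (s + 1))) hV3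
  let B := MvPowerSeries (Fin (s + 1)) W
  let q : B := MvPowerSeries.C w * MvPowerSeries.X 0 ^ a * ∏ i : Fin s,
    MvPowerSeries.X i.succ ^ b i
  let g : B := MvPowerSeries.C (p : W) - q
  have hmB : maximalIdeal B = Ideal.span {MvPowerSeries.C (p : W)} ⊔
      Ideal.span (Set.range MvPowerSeries.X) := by
    rw [mvPowerSeries_maximalIdeal_gen, hV2, Ideal.map_span, Set.image_singleton]
  have hqX : q ∈ Ideal.span {(MvPowerSeries.X 0 : B)} := by
    refine Ideal.mul_mem_right _ _ (Ideal.mul_mem_left _ _ ?_)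
    obtain ⟨n, rfl⟩ := Nat.exists_eq_succ_of_ne_zero ha0
    rw [pow_succ]
    exact Ideal.mul_mem_left _ _ (Ideal.subset_span rfl)
  have hXle : Ideal.span {(MvPowerSeries.X 0 : B)} ≤ Ideal.span (Set.range MvPowerSeries.X) := by
    rw [Ideal.span_singleton_le_iff_mem]
    exact Ideal.subset_span ⟨0, rfl⟩
  have hg : g ∈ maximalIdeal B := by
    rw [hmB]
    exact Ideal.sub_mem _ (Ideal.mem_sup_left (Ideal.subset_span rfl))
      (Ideal.mem_sup_right (hXle hqX))
  have hcc : (maximalIdeal B).map (MvPowerSeries.constantCoeff (σ := Fin (s + 1)) (R := W)) ≤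
      Ideal.span {(p : W)} := by
    rw [Ideal.map_le_iff_le_comap, hmB]
    refine sup_le ?_ ?_
    · rw [Ideal.span_singleton_le_iff_mem, Ideal.mem_comap, MvPowerSeries.constantCoeff_C]
      exact Ideal.subset_span rfl
    · rw [Ideal.span_le]
      rintro _ ⟨i, rfl⟩
      rw [SetLike.mem_coe, Ideal.mem_comap, MvPowerSeries.constantCoeff_X]
      exact Ideal.zero_mem _
  have hq0 : MvPowerSeries.constantCoeff q = 0 := by
    obtain ⟨e, he⟩ := Ideal.mem_span_singleton'.1 hqX
    rw [← he, map_mul, MvPowerSeries.constantCoeff_X, mul_zero]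
  have hg2 : g ∉ maximalIdeal B ^ 2 := by
    intro h2
    have h3 : MvPowerSeries.constantCoeff g ∈ Ideal.span {(p : W)} ^ 2 := by
      have h4 := Ideal.mem_map_of_mem (MvPowerSeries.constantCoeff (σ := Fin (s + 1)) (R := W)) h2
      rw [Ideal.map_pow] at h4
      exact Ideal.pow_right_mono hcc 2 h4
    rw [map_sub, MvPowerSeries.constantCoeff_C, hq0, sub_zero, ← hV2] at h3
    have h5 : maximalIdeal W ≤ maximalIdeal W ^ 2 := by
      conv_lhs => rw [hV2]
      rw [Ideal.span_singleton_le_iff_mem]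
      exact h3
    have h6 : maximalIdeal W ≤ ⊥ := by
      refine Submodule.le_of_le_smul_of_le_jacobson_bot
        ((maximalIdeal W).fg_of_isNoetherianRing) (IsLocalRing.maximalIdeal_le_jacobson ⊥) ?_
      rw [smul_eq_mul, ← pow_two, bot_sup_eq]
      exact h5
    have h7 : (maximalIdeal W).height = 0 := by
      rw [le_bot_iff.1 h6]
      exact Ideal.height_bot
    have h8 : ringKrullDim W = 0 := by
      rw [← IsLocalRing.maximalIdeal_height_eq_ringKrullDim, h7]
      rfl
    rw [hV3] at h8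
    exact absurd h8 (by norm_num)
  obtain ⟨hregL, hdimL⟩ := regular_quotient B g hg hg2
  obtain ⟨φ, hφ⟩ := exists_evalHom (maximalIdeal S) τ (Fin.cons (v * ϖ) y : Fin (s + 1) → S)
    (fun i => by
      refine Fin.cases ?_ (fun j => ?_) i
      · exact Ideal.mul_mem_left _ _ hϖ
      · exact hy j)
  have hC : ∀ r, φ (MvPowerSeries.C r) = τ r := by
    intro r
    rw [← MvPolynomial.coe_C, hφ]
    simp
  have hX : ∀ i, φ (MvPowerSeries.X i) = (Fin.cons (v * ϖ) y : Fin (s + 1) → S) i := by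
    intro i
    rw [← MvPolynomial.coe_X, hφ]
    simp
  have hφg : ∀ z ∈ Ideal.span {g}, φ z = 0 := by
    intro z hz
    have h1 : Ideal.span {g} ≤ RingHom.ker φ := by
      rw [Ideal.span_singleton_le_iff_mem, RingHom.mem_ker, map_sub, hC, map_natCast, map_mul,
        map_mul, hC, map_pow, hX, map_prod, sub_eq_zero, h]
      have h2 : ∏ i : Fin s, φ (MvPowerSeries.X i.succ ^ b i) = ∏ i, y i ^ b i := by
        refine Finset.prod_congr rfl fun i _ => ?_
        rw [map_pow, hX, Fin.cons_succ]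
      rw [h2, Fin.cons_zero, mul_pow, ← mul_assoc, hvw]
    exact h1 hz
  let σ : B ⧸ Ideal.span {g} →+* S := Ideal.Quotient.lift _ φ hφg
  have hσ : ∀ z, σ (Ideal.Quotient.mk _ z) = φ z := fun z => Ideal.Quotient.lift_mk _ _ _
  refine ⟨B ⧸ Ideal.span {g}, inferInstance, hregL, Ideal.Quotient.mk _ (MvPowerSeries.X 0),
    fun i => Ideal.Quotient.mk _ (MvPowerSeries.X i.succ), σ, v, hvu, ?_, ?_, ?_, ?_, ?_⟩
  · have h1 : (maximalIdeal B).map (Ideal.Quotient.mk (Ideal.span {g})) =
        maximalIdeal (B ⧸ Ideal.span {g}) :=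
      map_maximalIdeal_of_surjective _ Ideal.Quotient.mk_surjective
    have h2 : Ideal.span (Set.range (MvPowerSeries.X : Fin (s + 1) → B)) =
        Ideal.span {(MvPowerSeries.X 0 : B)} ⊔
          Ideal.span (Set.range fun i : Fin s => (MvPowerSeries.X i.succ : B)) := by
      rw [← Ideal.span_union]
      congr 1
      ext z
      simp only [Set.mem_range, Set.mem_union, Set.mem_singleton_iff, Fin.exists_fin_succ]
      exact or_congr eq_comm Iff.rfl
    rw [← h1, hmB, h2, Ideal.map_sup, Ideal.map_sup, Ideal.map_span, Ideal.map_span,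
      Ideal.map_span, Set.image_singleton, Set.image_singleton, ← Set.range_comp]
    apply le_antisymm
    · refine sup_le ?_ le_rfl
      rw [Ideal.span_singleton_le_iff_mem]
      have h3 : (Ideal.Quotient.mk (Ideal.span {g})) (MvPowerSeries.C (p : W)) =
          Ideal.Quotient.mk _ q := by
        rw [Ideal.Quotient.mk_eq_mk_iff_sub_mem]
        exact Ideal.subset_span rfl
      rw [h3]
      obtain ⟨e, he⟩ := Ideal.mem_span_singleton'.1 hqX
      rw [← he, map_mul]
      exact Ideal.mem_sup_left (Ideal.mul_mem_left _ _ (Ideal.subset_span rfl))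
    · exact le_sup_right
  · rw [hdimB] at hdimL
    obtain ⟨n, hn⟩ := exists_nat_eq_ringKrullDim (B ⧸ Ideal.span {g})
    rw [hn] at hdimL ⊢
    have h3 : n + 1 = 1 + (s + 1) := by exact_mod_cast hdimL
    have h4 : n = s + 1 := by omega
    rw [h4]
  · intro z
    refine ⟨Ideal.Quotient.mk _ (MvPowerSeries.C (WittVector.teichmuller p z)), ?_⟩
    simp only [hσ, hC]
    rw [hτ, WittVector.teichmuller_coeff_zero]
  · intro i
    rw [hσ, hX, Fin.cons_succ]
  · rw [hσ, hX, Fin.cons_zero]

end Vale.Agent.P177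
end

section

/-!
Serre's positivity conjecture for regular local rings in which a uniformizing element is given by
a quadratic form of corank at most one.
-/

namespace Vale.Agent.P177

open TensorProduct IsLocalRing RingTheory.Sequence Function Serre

universe u

/-- The ring of a presentation: a flat complete extension `S`, a base `L` and a unit `v`. -/
theorem exists_base_of_uniformizing {R : Type u} [CommRing R] [IsRegularLocalRing R] {d s : ℕ}
    (hd : ringKrullDim R = (d : WithBot ℕ∞)) (ϖ : R) (hϖ : ϖ ∈ maximalIdeal R) (y : Fin s → R)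
    (hy : ∀ i, y i ∈ maximalIdeal R) (h : IsUniformizing ϖ y) :
    ∃ (S : Type u) (_ : CommRing S) (_ : IsRegularLocalRing S) (_ : Algebra R S),
      Module.Flat R S ∧ (maximalIdeal R).map (algebraMap R S) = maximalIdeal S ∧
      ringKrullDim S = (d : WithBot ℕ∞) ∧ IsAdicComplete (maximalIdeal S) S ∧
      ∃ (L : Type u) (_ : CommRing L) (_ : IsRegularLocalRing L) (f : L) (t : Fin s → L)
      (σ : L →+* S) (v : S), IsUnit v ∧
      maximalIdeal L = Ideal.span {f} ⊔ Ideal.span (Set.range t) ∧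
      ringKrullDim L = ((s + 1 : ℕ) : WithBot ℕ∞) ∧
      Surjective (fun z => residue S (σ z)) ∧ (∀ i, σ (t i) = algebraMap R S (y i)) ∧
      σ f = v * algebraMap R S ϖ := by
  rcases h with ⟨p, a, b, u, hp, ha, hu, hpu⟩ |
    ⟨L, _, _, ψ, hL, ⟨f, t, hf, hψf, hψt⟩, hres⟩
  · have : Fact p.Prime := ⟨hp⟩
    have ha0 : a ≠ 0 := by
      rintro rfl
      exact ha (dvd_zero p)
    have : CharP (ResidueField R) p := by
      rw [CharP.charP_iff_prime_eq_zero hp]
      have h1 : residue R (p : R) = 0 := by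
        rw [residue_eq_zero_iff, hpu]
        exact Ideal.mul_mem_right _ _ (Ideal.mul_mem_left _ _ (Ideal.pow_mem_of_mem _ hϖ _
          (Nat.pos_of_ne_zero ha0)))
      rwa [map_natCast] at h1
    obtain ⟨S, _, _, _, hflat, hm, hdS, hcomp, hch, hpr⟩ := exists_gonflement R p hd
    have hmem : ∀ z ∈ maximalIdeal R, algebraMap R S z ∈ maximalIdeal S := fun z hz => by
      rw [← hm]
      exact Ideal.mem_map_of_mem _ hz
    refine ⟨S, inferInstance, inferInstance, inferInstance, hflat, hm, hdS, hcomp, ?_⟩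
    exact exists_base_of_prime p (algebraMap R S ϖ) (hmem _ hϖ) (fun i => algebraMap R S (y i))
      (fun i => hmem _ (hy i)) a b (algebraMap R S u) ha (hu.map _) (by
        rw [← map_natCast (algebraMap R S), hpu, map_mul, map_mul, map_pow, map_prod]
        simp only [map_pow])
  · obtain ⟨S, _, _, _, hflat, hm, hdS, hcomp, hres'⟩ := exists_completion_residue R hd
    refine ⟨S, inferInstance, inferInstance, inferInstance, hflat, hm, hdS, hcomp, L,
      inferInstance, inferInstance, f, t, (algebraMap R S).comp ψ, 1, isUnit_one, hf, hL, ?_,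
      ?_, ?_⟩
    · intro z
      obtain ⟨w, hw⟩ := hres' z
      obtain ⟨v, hv⟩ := hres w
      refine ⟨v, ?_⟩
      simp only
      rw [← hw]
      refine (sub_eq_zero.1 ?_).symm
      rw [← map_sub, residue_eq_zero_iff, RingHom.comp_apply, ← map_sub, ← hm]
      exact Ideal.mem_map_of_mem _ hv
    · intro i
      rw [RingHom.comp_apply, hψt]
    · rw [RingHom.comp_apply, hψf, one_mul]

theorem isUnit_det_smul {S : Type*} [CommRing S] {n : ℕ} (v : S) (hv : IsUnit v)
    (c : Fin n → Fin n → S) (hc : IsUnit (Matrix.det (Matrix.of fun i j => c i j + c j i))) :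
    IsUnit (Matrix.det (Matrix.of fun i j => v * c i j + v * c j i)) := by
  have h1 : (Matrix.of fun i j => v * c i j + v * c j i) =
      v • (Matrix.of fun i j => c i j + c j i) := by
    ext i j
    simp only [Matrix.of_apply, Matrix.smul_apply, smul_eq_mul]
    ring
  rw [h1, Matrix.det_smul]
  exact (hv.pow _).mul hc

/-- **Serre's positivity conjecture for corank at most one.** -/
theorem serreAll_of_uniformizing (hLOC : LocStmtRel.{u}) {R : Type u} [CommRing R]
    [IsRegularLocalRing R] {r s : ℕ} (hs : s ≤ 1)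
    (hd : ringKrullDim R = ((r + s : ℕ) : WithBot ℕ∞)) (z : Fin r ⊕ Fin s → R)
    (c : Fin r ⊕ Fin s → Fin r ⊕ Fin s → R) (hz : Ideal.span (Set.range z) = maximalIdeal R)
    (hu : IsUniformizing (∑ i, ∑ j, z i * c i j * z j) (z ∘ Sum.inr))
    (hc : IsUnit (Matrix.det (Matrix.of fun i j =>
      c (Sum.inl i) (Sum.inl j) + c (Sum.inl j) (Sum.inl i)))) :
    SerreAll R (r + s) := by
  have hzm : ∀ i, z i ∈ maximalIdeal R := fun i => by
    rw [← hz]
    exact Ideal.subset_span ⟨i, rfl⟩
  obtain ⟨S, _, _, _, hflat, hm, hdS, hcomp, L, _, _, f, t, σ, v, hv, hf, hL, hσ, hσt, hσf⟩ :=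
    exists_base_of_uniformizing hd _ (Ideal.sum_mem _ fun i _ => Ideal.sum_mem _ fun j _ =>
      Ideal.mul_mem_left _ _ (hzm j)) (z ∘ Sum.inr) (fun i => hzm _) hu
  rw [add_comm r s] at hdS ⊢
  have hsplit : ∀ {A : Type u} [CommRing A] (w : Fin r ⊕ Fin s → A),
      Ideal.span (Set.range fun i => w (Sum.inr i)) ⊔
        Ideal.span (Set.range fun i => w (Sum.inl i)) = Ideal.span (Set.range w) := by
    intro A _ w
    rw [← Ideal.span_union]
    congr 1
    ext y
    simp only [Set.mem_union, Set.mem_range, Sum.exists]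
    tauto
  have hzS : Ideal.span (Set.range fun i => algebraMap R S (z i)) = maximalIdeal S := by
    rw [← hm, ← hz, Ideal.map_span, ← Set.range_comp]
    rfl
  have helim : ∀ i, zElim (fun i => algebraMap R S (z (Sum.inl i)))
      (fun i => algebraMap R S (z (Sum.inr i))) i = algebraMap R S (z i) := by
    rintro (i | i) <;> rfl
  obtain ⟨L', _, _, f', t', hm', hL', c', hc', ⟨e⟩⟩ := exists_parRing_equiv hdS
    (fun i => algebraMap R S (z (Sum.inl i))) (fun i => algebraMap R S (z (Sum.inr i)))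
    (by
      rw [← hzS]
      exact hsplit fun i => algebraMap R S (z i))
    (fun i j => v * algebraMap R S (c i j)) (by
      refine isUnit_det_smul v hv
        (fun i j => algebraMap R S (c (Sum.inl i) (Sum.inl j))) ?_
      have h1 : (Matrix.of fun l m => algebraMap R S (c (Sum.inl l) (Sum.inl m)) +
          algebraMap R S (c (Sum.inl m) (Sum.inl l))) =
          (algebraMap R S).mapMatrix (Matrix.of fun l m =>
            c (Sum.inl l) (Sum.inl m) + c (Sum.inl m) (Sum.inl l)) := by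
        ext l m
        simp only [RingHom.mapMatrix_apply, Matrix.map_apply, Matrix.of_apply, map_add]
      rw [h1, ← RingHom.map_det]
      exact hc.map _) L f t hf hL σ hσ hσt (by
      rw [hσf, map_sum, Finset.mul_sum]
      refine Finset.sum_congr rfl fun i _ => ?_
      rw [map_sum, Finset.mul_sum]
      refine Finset.sum_congr rfl fun j _ => ?_
      rw [map_mul, map_mul, helim, helim]
      ring)
  obtain ⟨hreg, -⟩ := parRing_regular L' f' t' hm' hL' r c' hc'
  exact serreAll_of_flat hm (serreAll_of_equiv e.symm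
    (serreAll_parRing hLOC L' f' hs t' hm' hL' r c' hc'))

/-- The presentation as a quadric, after a flat local extension with trivial closed fibre. -/
theorem exists_presentation_of_uniformizing {C : Type u} [CommRing C] [IsRegularLocalRing C]
    {d : ℕ} (hd : ringKrullDim C = d) (x : Fin d → C)
    (hx : Ideal.span (Set.range x) = maximalIdeal C) (c : Fin d → Fin d → C)
    (h : IsUniformizing (∑ i, ∑ j, x i * c i j * x j) ![]) :
    ∃ (V : Type u) (_ : CommRing V) (_ : IsRegularLocalRing V) (ϖ : V)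
      (_ : maximalIdeal V = Ideal.span {ϖ}) (_ : ringKrullDim V = (1 : ℕ))
      (c' : Fin d → Fin d → MvPowerSeries (Fin d) V)
      (_ : IsLocalRing (QuadRing V ϖ d c')) (φ : C →+* QuadRing V ϖ d c')
      (v : QuadRing V ϖ d c'), φ.Flat ∧
      (maximalIdeal C).map φ = maximalIdeal (QuadRing V ϖ d c') ∧
      (∀ i, φ (x i) = Ideal.Quotient.mk _ (MvPowerSeries.X i)) ∧ IsUnit v ∧
      ∀ i j, v * φ (c i j) = Ideal.Quotient.mk _ (c' i j) := by
  have hxm : ∀ i, x i ∈ maximalIdeal C := fun i => by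
    rw [← hx]
    exact Ideal.subset_span ⟨i, rfl⟩
  obtain ⟨S, _, _, _, hflat, hm, hdS, hcomp, L, _, _, f, t, σ, v, hv, hf, hL, hσ, hσt, hσf⟩ :=
    exists_base_of_uniformizing hd _ (Ideal.sum_mem _ fun i _ => Ideal.sum_mem _ fun j _ =>
      Ideal.mul_mem_left _ _ (hxm j)) ![] (fun i => i.elim0) h
  have hf' : maximalIdeal L = Ideal.span {f} := by
    rw [hf, Set.range_eq_empty, Ideal.span_empty, sup_bot_eq]
  have hx' : Ideal.span (Set.range (fun i => algebraMap C S (x i))) = maximalIdeal S := by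
    rw [← hm, ← hx, Ideal.map_span, ← Set.range_comp]
    rfl
  obtain ⟨c', e, he1, he2⟩ := exists_quadRing_equiv_of_hom hdS (fun i => algebraMap C S (x i)) hx'
    (fun i j => v * algebraMap C S (c i j)) L f hf' hL σ hσ (by
      rw [hσf, map_sum, Finset.mul_sum]
      refine Finset.sum_congr rfl fun i _ => ?_
      rw [map_sum, Finset.mul_sum]
      refine Finset.sum_congr rfl fun j _ => ?_
      rw [map_mul, map_mul]
      ring)
  obtain ⟨hreg, -, -⟩ := quadRing_regular L f hf' hL d c'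
  refine ⟨L, inferInstance, inferInstance, f, hf', hL, c', inferInstance,
    (e.symm : S →+* QuadRing L f d c').comp (algebraMap C S), e.symm v, ?_, ?_, ?_, ?_, ?_⟩
  · have hflat' : (algebraMap C S).Flat := by
      rw [RingHom.flat_algebraMap_iff]
      exact hflat
    exact hflat'.comp (RingHom.Flat.of_bijective e.symm.bijective)
  · rw [← Ideal.map_map, hm]
    exact map_maximalIdeal_of_surjective _ e.symm.surjective
  · intro i
    rw [RingHom.comp_apply, ← he1]
    exact e.symm_apply_apply _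
  · exact hv.map e.symm
  · intro i j
    rw [← e.symm_apply_apply (Ideal.Quotient.mk _ (c' i j)), he2, RingHom.comp_apply]
    exact (map_mul e.symm _ _).symm

end Vale.Agent.P177
end

section

/-!
Nonnegativity at the points of the chart `X_0 ≠ 0`, with one bad point.
-/

namespace Vale.Agent.P177

open IsLocalRing Function TensorProduct

universe u

/-- Nonnegativity of the Euler characteristic along two maps. -/
def NonnegAlong {R₁ R₂ W : Type u} [CommRing R₁] [CommRing R₂] [CommRing W] (j₁ : R₁ →+* W)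
    (j₂ : R₂ →+* W) (n : ℕ) (N M : Type u) [AddCommGroup N] [Module R₁ N] [AddCommGroup M]
    [Module R₂ M] : Prop :=
  let _ : Algebra R₁ W := j₁.toAlgebra
  let _ : Algebra R₂ W := j₂.toAlgebra
  IsFiniteLength W ((W ⊗[R₁] N) ⊗[W] (W ⊗[R₂] M)) →
    0 ≤ eulerTor W n (W ⊗[R₁] N) (W ⊗[R₂] M)

theorem nonnegAlong_iff {R₁ R₂ W : Type u} [CommRing R₁] [CommRing R₂] [CommRing W]
    [a₁ : Algebra R₁ W] [a₂ : Algebra R₂ W] (j₁ : R₁ →+* W) (j₂ : R₂ →+* W)
    (h₁ : ∀ r, j₁ r = algebraMap R₁ W r) (h₂ : ∀ r, j₂ r = algebraMap R₂ W r) (n : ℕ)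
    (N M : Type u) [AddCommGroup N] [Module R₁ N] [AddCommGroup M] [Module R₂ M] :
    NonnegAlong j₁ j₂ n N M ↔ (IsFiniteLength W ((W ⊗[R₁] N) ⊗[W] (W ⊗[R₂] M)) →
    0 ≤ eulerTor W n (W ⊗[R₁] N) (W ⊗[R₂] M)) := by
  have e₁ : j₁.toAlgebra = a₁ := Algebra.algebra_ext _ _ h₁
  have e₂ : j₂.toAlgebra = a₂ := Algebra.algebra_ext _ _ h₂
  subst e₁ e₂
  rfl

section badRing

variable {R : Type u} [CommRing R] [IsLocalRing R] {r : ℕ} {x : Fin (r + 1) → R}
    (hx : Ideal.span (Set.range x) = maximalIdeal R)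

/-- The prime of the extended Rees algebra at the bad point. -/
noncomputable def badPrime : Ideal (ERees x) := (zBad (ResidueField R) r).comap (eRes hx)

instance : (badPrime hx).IsPrime := Ideal.IsPrime.comap _

/-- The local ring of the extended Rees algebra at the bad point. -/
def BadRing : Type u := Localization.AtPrime (badPrime hx)

noncomputable instance : CommRing (BadRing hx) :=
  inferInstanceAs (CommRing (Localization.AtPrime (badPrime hx)))

noncomputable instance : Algebra (ERees x) (BadRing hx) :=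
  inferInstanceAs (Algebra (ERees x) (Localization.AtPrime (badPrime hx)))

instance : IsLocalization.AtPrime (BadRing hx) (badPrime hx) :=
  inferInstanceAs (IsLocalization.AtPrime (Localization.AtPrime (badPrime hx)) (badPrime hx))

instance : IsLocalRing (BadRing hx) :=
  IsLocalization.AtPrime.isLocalRing (BadRing hx) (badPrime hx)

noncomputable instance : Algebra R (BadRing hx) :=
  ((algebraMap (ERees x) (BadRing hx)).comp (algebraMap R (ERees x))).toAlgebra

end badRing

theorem badRing_regular {R : Type u} [CommRing R] [IsRegularLocalRing R] {r : ℕ}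
    {x : Fin (r + 1) → R} (hd : ringKrullDim R = ((r + 1 : ℕ) : WithBot ℕ∞))
    (hx : Ideal.span (Set.range x) = maximalIdeal R) :
    IsRegularLocalRing (BadRing hx) ∧
      ringKrullDim (BadRing hx) = ((r + 1 : ℕ) : WithBot ℕ∞) := by
  obtain ⟨hreg, hht, -⟩ := eRees_regular_aux hd hx (zBad (ResidueField R) r)
  have h1 : IsRegularLocalRing (Localization.AtPrime (badPrime hx)) := hreg
  refine ⟨IsRegularLocalRing.of_ringEquiv (R := Localization.AtPrime (badPrime hx))
    (R' := BadRing hx) (RingEquiv.refl _), ?_⟩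
  rw [IsLocalization.AtPrime.ringKrullDim_eq_height (badPrime hx) (BadRing hx)]
  have h2 : (badPrime hx).height = ((r + 1 : ℕ) : ℕ∞) := by
    unfold badPrime
    rw [hht, height_zBad]
    push_cast
    rfl
  rw [h2]
  rfl

section bad

variable {R A : Type u} [CommRing R] [CommRing A] [IsLocalRing R] [IsLocalRing A] [Algebra R A]
  [IsLocalHom (algebraMap R A)] {r : ℕ}

/-- The bad point lies over the bad point. -/
theorem zBad_comap_jMap (θ : Fin (r + 1) → Fin (r + 1) → A)
    (h00 : θ 0 0 = 1) (h1 : ∀ i : Fin r, θ i.succ 0 = 0) :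
    (zBad (ResidueField A) r).comap (jMap R θ) = zBad (ResidueField R) r := by
  have h : (badHom (ResidueField A) r).comp (jMap R θ) =
      (Polynomial.mapRingHom (ResidueField.map (algebraMap R A))).comp
        (badHom (ResidueField R) r) := by
    apply MvPolynomial.ringHom_ext
    · intro a
      simp
    · intro i
      rw [RingHom.comp_apply, RingHom.comp_apply, jMap_X, map_sum]
      have h2 : ∀ l : Fin (r + 1), badHom (ResidueField A) r
          (MvPolynomial.C (residue A (θ i l)) * MvPolynomial.X l) =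
          if l = 0 then Polynomial.C (residue A (θ i 0)) * Polynomial.X else 0 := by
        intro l
        rw [map_mul, badHom_C]
        refine Fin.cases ?_ (fun l => ?_) l
        · simp
        · simp
      rw [Finset.sum_congr rfl fun l _ => h2 l, Finset.sum_ite_eq']
      simp only [Finset.mem_univ, if_true]
      refine Fin.cases ?_ (fun i => ?_) i
      · simp [h00]
      · simp [h1]
  ext f
  change badHom _ _ (jMap R θ f) = 0 ↔ badHom _ _ f = 0
  rw [← RingHom.comp_apply, h, RingHom.comp_apply]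
  exact map_eq_zero_iff _ (Polynomial.map_injective _ (RingHom.injective _))

end bad

section side

variable {R : Type u} [CommRing R] [IsRegularLocalRing R] {r : ℕ} {x' : Fin (r + 1) → R}

/-- The map from the local ring at the bad point. -/
theorem exists_bad_side (hx' : Ideal.span (Set.range x') = maximalIdeal R)
    {Ω : Type u} [CommRing Ω] [IsLocalRing Ω] (ρ : ERees x' →+* Ω) (hρ : ρ.Flat)
    (hq : (maximalIdeal Ω).comap ρ = badPrime hx') :
    ∃ k : BadRing hx' →+* Ω, IsLocalHom k ∧ k.Flat ∧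
      ∀ z, k (algebraMap (ERees x') (BadRing hx') z) = ρ z := by
  have hu : ∀ y : (badPrime hx').primeCompl, IsUnit (ρ y) := by
    rintro ⟨y, hy⟩
    by_contra hcon
    apply hy
    change y ∈ badPrime hx'
    rw [← hq]
    exact hcon
  let f : BadRing hx' →+* Ω := IsLocalization.lift hu
  have hf : ∀ z, f (algebraMap _ _ z) = ρ z := fun z => IsLocalization.lift_eq hu z
  have hlocal : IsLocalHom f := by
    refine ⟨fun a ha => ?_⟩
    by_contra hcon
    obtain ⟨⟨z, s⟩, hzs⟩ := IsLocalization.surj (badPrime hx').primeCompl a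
    have hz : z ∈ badPrime hx' := by
      have h1 : algebraMap (ERees x') (BadRing hx') z ∈ maximalIdeal (BadRing hx') := by
        rw [← hzs]
        exact Ideal.mul_mem_right _ _ hcon
      exact (IsLocalization.AtPrime.to_map_mem_maximal_iff (BadRing hx') (badPrime hx') z).1 h1
    have h2 : ρ z ∈ maximalIdeal Ω := by
      have : z ∈ (maximalIdeal Ω).comap ρ := by rw [hq]; exact hz
      exact this
    have h3 : IsUnit (ρ z) := by
      rw [← hf, ← hzs, map_mul]
      refine IsUnit.mul ha ?_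
      rw [hf]
      exact hu s
    exact h2 h3
  refine ⟨f, hlocal, ?_, hf⟩
  let _ : Algebra (BadRing hx') Ω := f.toAlgebra
  let _ : Algebra (ERees x') Ω := ρ.toAlgebra
  have htow : IsScalarTower (ERees x') (BadRing hx') Ω :=
    IsScalarTower.of_algebraMap_eq fun z => (hf z).symm
  have hflat₀ : Module.Flat (ERees x') Ω := RingHom.flat_algebraMap_iff.1 hρ
  have hflat : Module.Flat (BadRing hx') Ω :=
    (Module.flat_iff_of_isLocalization (BadRing hx') (badPrime hx').primeCompl Ω).2 hflat₀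
  exact RingHom.flat_algebraMap_iff.2 hflat

end side

end Vale.Agent.P177
end

section

/-!
Nonnegativity at the points of the chart `X_0 ≠ 0`, with one bad point.
-/

namespace Vale.Agent.P177

open IsLocalRing Function TensorProduct

universe u

section main

variable {R₁ R₂ A : Type u} [CommRing R₁] [CommRing R₂] [CommRing A]
  [IsRegularLocalRing R₁] [IsRegularLocalRing R₂] [IsRegularLocalRing A]
  [Algebra R₁ A] [Algebra R₂ A]
  [IsLocalHom (algebraMap R₁ A)] [IsLocalHom (algebraMap R₂ A)] {r : ℕ}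

omit [IsRegularLocalRing A] in
theorem x0_single (x : Fin (r + 1) → A) : x0 x (Pi.single 0 1) = x 0 := by
  unfold x0
  rw [Finset.sum_eq_single 0]
  · simp
  · intro i _ hi
    simp [hi]
  · intro h
    exact absurd (Finset.mem_univ _) h

/-- Nonnegativity of the local Euler characteristics of strict transforms, given nonnegativity at
the bad point. -/
theorem chart_local_nonneg_rel (hd₁ : ringKrullDim R₁ = ((r + 1 : ℕ) : WithBot ℕ∞))
    (hd₂ : ringKrullDim R₂ = ((r + 1 : ℕ) : WithBot ℕ∞))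
    (hd : ringKrullDim A = ((r + 1 : ℕ) : WithBot ℕ∞))
    {x₁ : Fin (r + 1) → R₁} {x₂ : Fin (r + 1) → R₂} {x : Fin (r + 1) → A}
    (hx₁ : Ideal.span (Set.range x₁) = maximalIdeal R₁)
    (hx₂ : Ideal.span (Set.range x₂) = maximalIdeal R₂)
    (hx : Ideal.span (Set.range x) = maximalIdeal A) (θ₁ θ₂ : Fin (r + 1) → Fin (r + 1) → A)
    (hθ₁ : ∀ i, algebraMap R₁ A (x₁ i) = ∑ l, θ₁ i l * x l)
    (hθ₂ : ∀ i, algebraMap R₂ A (x₂ i) = ∑ l, θ₂ i l * x l)
    (h₁0 : θ₁ 0 0 = 1) (h₁1 : ∀ i : Fin r, θ₁ i.succ 0 = 0)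
    (h₂0 : θ₂ 0 0 = 1) (h₂1 : ∀ i : Fin r, θ₂ i.succ 0 = 0)
    (hf₁ : (eMap θ₁ hθ₁).Flat) (hf₂ : (eMap θ₂ hθ₂).Flat)
    (P : Ideal (Chart x (Pi.single 0 1))) [P.IsMaximal]
    (hmP : ∀ a ∈ maximalIdeal A, algebraMap A (Chart x (Pi.single 0 1)) a ∈ P)
    (M N : Type u) [AddCommGroup M] [Module R₁ M] [Module.Finite R₁ M]
    [AddCommGroup N] [Module R₂ N] [Module.Finite R₂ N]
    (hK : ∀ (z : Ideal (MvPolynomial (Fin (r + 1)) (ResidueField A))) [z.IsPrime],
      (∀ f ∈ z, ∀ n, MvPolynomial.homogeneousComponent n f ∈ z) →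
      MvPolynomial.X 0 ∉ z → (∃ i : Fin r, MvPolynomial.X i.succ ∉ z) →
      (z.comap (jMap R₁ θ₁)).height + (z.comap (jMap R₂ θ₂)).height ≤ z.height + 1)
    (hbad : ∀ (Ω : Type u) [CommRing Ω] [IsRegularLocalRing Ω] (ρ : ERees x →+* Ω), ρ.Flat →
      ringKrullDim Ω = ((r + 1 : ℕ) : WithBot ℕ∞) → (maximalIdeal Ω).comap ρ = badPrime hx →
      (badPrime hx).map ρ = maximalIdeal Ω → ∀ (k₁ : BadRing hx₁ →+* Ω) (k₂ : BadRing hx₂ →+* Ω), IsLocalHom k₁ → IsLocalHom k₂ →
      k₁.Flat → k₂.Flat → (∀ z, k₁ (algebraMap (ERees x₁) _ z) = ρ (eMap θ₁ hθ₁ z)) →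
      (∀ z, k₂ (algebraMap (ERees x₂) _ z) = ρ (eMap θ₂ hθ₂ z)) →
      NonnegAlong k₁ k₂ (r + 1 + 1)
        (St (algebraMap (ERees x₁) (BadRing hx₁) (eT x₁)) (BadRing hx₁ ⊗[R₁] M))
        (St (algebraMap (ERees x₂) (BadRing hx₂) (eT x₂)) (BadRing hx₂ ⊗[R₂] N)))
    (hfin : Module.length (Localization.AtPrime P) (TorM (Localization.AtPrime P) 0
      (Localization.AtPrime P ⊗[Chart x (Pi.single 0 1)]
        StM (S := Chart x (Pi.single 0 1)) (x0 x (Pi.single 0 1)) (A ⊗[R₁] M))
      (Localization.AtPrime P ⊗[Chart x (Pi.single 0 1)]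
        StM (S := Chart x (Pi.single 0 1)) (x0 x (Pi.single 0 1)) (A ⊗[R₂] N))) ≠ ⊤) :
    0 ≤ eulerTor (Localization.AtPrime P) (r + 1 + 1)
      (Localization.AtPrime P ⊗[Chart x (Pi.single 0 1)]
        StM (S := Chart x (Pi.single 0 1)) (x0 x (Pi.single 0 1)) (A ⊗[R₁] M))
      (Localization.AtPrime P ⊗[Chart x (Pi.single 0 1)]
        StM (S := Chart x (Pi.single 0 1)) (x0 x (Pi.single 0 1)) (A ⊗[R₂] N)) := by
  obtain ⟨Ω, _, _, _, _, ρ, q, _, hmax, hdimΩ, hhom, hX, hA, ⟨u, hu⟩, hρflat, hρcomap, hρmap⟩ :=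
    exists_omega' (Pi.single 0 1) hd hx P hmP
  -- the prime `q` does not contain `X_0`
  have hq0 : MvPolynomial.X 0 ∉ q := by
    intro hmem
    have h1 : ρ (eY x 0) ∈ maximalIdeal Ω := by
      have : eY x 0 ∈ (maximalIdeal Ω).comap ρ := by
        rw [hρcomap]
        change eRes hx (eY x 0) ∈ q
        rw [eRes_eY]
        exact hmem
      exact this
    have h2 : ρ (eT x) * (ρ (eY x 0) - u) = 0 := by
      have h3 := hA (x 0)
      rw [x0_single] at hu
      rw [hu, algebraMap_rees, map_mul] at h3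
      rw [mul_sub, ← h3]
      ring
    have h4 : IsSMulRegular (ERees x) (eT x) :=
      isSMulRegular_iff_right_eq_zero_of_smul.2 fun F hF => eT_regular hd hx F hF
    let _ : Algebra (ERees x) Ω := ρ.toAlgebra
    have hfl : Module.Flat (ERees x) Ω := RingHom.flat_algebraMap_iff.1 hρflat
    have h5 : IsSMulRegular Ω (eT x) := h4.of_flat
    have h6 : ρ (eY x 0) = u := h5 (by
      change ρ (eT x) * ρ (eY x 0) = ρ (eT x) * u
      rw [← sub_eq_zero, ← mul_sub]
      exact h2)
    rw [h6] at h1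
    exact h1 u.isUnit
  have hq₁ : (maximalIdeal Ω).comap (ρ.comp (eMap θ₁ hθ₁)) =
      (q.comap (jMap R₁ θ₁)).comap (eRes hx₁) := by
    rw [← Ideal.comap_comap, hρcomap, Ideal.comap_comap, Ideal.comap_comap,
      eRes_eMap θ₁ hθ₁ hx₁ hx]
  have hq₂ : (maximalIdeal Ω).comap (ρ.comp (eMap θ₂ hθ₂)) =
      (q.comap (jMap R₂ θ₂)).comap (eRes hx₂) := by
    rw [← Ideal.comap_comap, hρcomap, Ideal.comap_comap, Ideal.comap_comap,
      eRes_eMap θ₂ hθ₂ hx₂ hx]
  let S := Chart x (Pi.single 0 1)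
  let SP := Localization.AtPrime P
  have hnoeth : IsNoetherianRing SP := inferInstance
  by_cases hgood : ∃ i : Fin r, MvPolynomial.X i.succ ∉ q
  · obtain ⟨Λ₁, _, _, _, _, _, σ₁, hdimΛ₁, hσ₁⟩ := exists_side hd₁ hx₁ (ρ.comp (eMap θ₁ hθ₁))
      (hf₁.comp hρflat) (q.comap (jMap R₁ θ₁)) hq₁
    obtain ⟨Λ₂, _, _, _, _, _, σ₂, hdimΛ₂, hσ₂⟩ := exists_side hd₂ hx₂ (ρ.comp (eMap θ₂ hθ₂))
      (hf₂.comp hρflat) (q.comap (jMap R₂ θ₂)) hq₂
    obtain ⟨h, hh, hdΩ⟩ := nat_of_height q hdimΩ
    obtain ⟨h₁, hh₁, hdΛ₁⟩ := nat_of_height _ hdimΛ₁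
    obtain ⟨h₂, hh₂, hdΛ₂⟩ := nat_of_height _ hdimΛ₂
    have hhd : h + 1 ≤ r + 1 := by
      have := height_lt_of_homogeneous q hhom hX
      rw [hh] at this
      exact_mod_cast this
    -- algebra structures
    let _ : Algebra R₁ Λ₁ := (σ₁.comp (algebraMap R₁ (ERees x₁))).toAlgebra
    let _ : Algebra R₂ Λ₂ := (σ₂.comp (algebraMap R₂ (ERees x₂))).toAlgebra
    let _ : Algebra R₁ Ω := ((algebraMap Λ₁ Ω).comp (algebraMap R₁ Λ₁)).toAlgebra
    let _ : Algebra R₂ Ω := ((algebraMap Λ₂ Ω).comp (algebraMap R₂ Λ₂)).toAlgebra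
    let _ : Algebra A Ω := (ρ.comp (algebraMap A (ERees x))).toAlgebra
    let _ : Algebra S Ω := ((algebraMap SP Ω).comp (algebraMap S SP)).toAlgebra
    have t1 : IsScalarTower R₁ Λ₁ Ω := IsScalarTower.of_algebraMap_eq fun _ => rfl
    have t2 : IsScalarTower R₂ Λ₂ Ω := IsScalarTower.of_algebraMap_eq fun _ => rfl
    have t3 : IsScalarTower R₁ A Ω := by
      refine IsScalarTower.of_algebraMap_eq fun r => ?_
      change algebraMap Λ₁ Ω (σ₁ (algebraMap R₁ (ERees x₁) r)) = ρ (algebraMap A (ERees x) _)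
      rw [hσ₁, RingHom.comp_apply, eMap_algebraMap]
    have t4 : IsScalarTower R₂ A Ω := by
      refine IsScalarTower.of_algebraMap_eq fun r => ?_
      change algebraMap Λ₂ Ω (σ₂ (algebraMap R₂ (ERees x₂) r)) = ρ (algebraMap A (ERees x) _)
      rw [hσ₂, RingHom.comp_apply, eMap_algebraMap]
    have t5 : IsScalarTower S SP Ω := IsScalarTower.of_algebraMap_eq fun _ => rfl
    have t6 : IsScalarTower A S Ω := IsScalarTower.of_algebraMap_eq fun a => (hA a).symm
    have f1 : Module.Flat S Ω := Module.Flat.trans S SP Ω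
    obtain ⟨e₁⟩ := st_compare (R₁ := R₁) (A := A) (S := S) (S' := SP) (Λ := Λ₁) (Ω := Ω)
      (algebraMap A S (x0 x (Pi.single 0 1))) (σ₁ (eT x₁)) u (by
        rw [hσ₁, RingHom.comp_apply, eMap_eT]
        exact hu) M
    obtain ⟨e₂⟩ := st_compare (R₁ := R₂) (A := A) (S := S) (S' := SP) (Λ := Λ₂) (Ω := Ω)
      (algebraMap A S (x0 x (Pi.single 0 1))) (σ₂ (eT x₂)) u (by
        rw [hσ₂, RingHom.comp_apply, eMap_eT]
        exact hu) N
    let E := St (σ₁ (eT x₁)) (Λ₁ ⊗[R₁] M)
    let G := St (σ₂ (eT x₂)) (Λ₂ ⊗[R₂] N)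
    rw [eulerTor_bc (B := SP) (C := Ω) hmax, eulerTor_congr e₁ e₂]
    have hbound : h₁ + h₂ ≤ h + 1 := by
      have := hK q hhom hq0 hgood
      rw [hh, hh₁, hh₂] at this
      exact_mod_cast this
    refine pair_nonneg (R₁ := Λ₁) (R₂ := Λ₂) (T := Ω) hdΛ₁ hdΛ₂ hdΩ (by omega) (r + 1 + 1)
      (by omega) E G ?_
    rw [← Module.length_ne_top_iff]
    have h3 := length_tor_bc₂ (A := SP) (C := Ω) hmax 0
      (TensorProduct.isBaseChange SP (SP ⊗[S] StM (S := S) (x0 x (Pi.single 0 1)) (A ⊗[R₁] M)) Ω)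
      (TensorProduct.isBaseChange SP (SP ⊗[S] StM (S := S) (x0 x (Pi.single 0 1)) (A ⊗[R₂] N)) Ω)
    rw [h3, (torZero _ _).length_eq] at hfin
    have h4 := length_congr₂ e₁ e₂
    exact fun hc => hfin (h4.trans hc)
  · push Not at hgood
    obtain rfl : q = zBad (ResidueField A) r := eq_zBad q hhom hq0 hgood
    have hp₁ : (maximalIdeal Ω).comap (ρ.comp (eMap θ₁ hθ₁)) = badPrime hx₁ := by
      rw [hq₁, zBad_comap_jMap θ₁ h₁0 h₁1]
      rfl
    have hp₂ : (maximalIdeal Ω).comap (ρ.comp (eMap θ₂ hθ₂)) = badPrime hx₂ := by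
      rw [hq₂, zBad_comap_jMap θ₂ h₂0 h₂1]
      rfl
    obtain ⟨k₁, hk₁, hkf₁, hσ₁⟩ := exists_bad_side hx₁ (ρ.comp (eMap θ₁ hθ₁))
      (hf₁.comp hρflat) hp₁
    obtain ⟨k₂, hk₂, hkf₂, hσ₂⟩ := exists_bad_side hx₂ (ρ.comp (eMap θ₂ hθ₂))
      (hf₂.comp hρflat) hp₂
    have hb := hbad Ω ρ hρflat (by
      rw [hdimΩ, height_zBad]
      rfl) hρcomap hρmap k₁ k₂ hk₁ hk₂ hkf₁ hkf₂ hσ₁ hσ₂
    let Λ₁ := BadRing hx₁
    let Λ₂ := BadRing hx₂
    let _ : Algebra Λ₁ Ω := k₁.toAlgebra
    let _ : Algebra Λ₂ Ω := k₂.toAlgebra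
    rw [nonnegAlong_iff k₁ k₂ (fun _ => rfl) (fun _ => rfl)] at hb
    let _ : Algebra R₁ Ω := ((algebraMap Λ₁ Ω).comp (algebraMap R₁ Λ₁)).toAlgebra
    let _ : Algebra R₂ Ω := ((algebraMap Λ₂ Ω).comp (algebraMap R₂ Λ₂)).toAlgebra
    let _ : Algebra A Ω := (ρ.comp (algebraMap A (ERees x))).toAlgebra
    let _ : Algebra S Ω := ((algebraMap SP Ω).comp (algebraMap S SP)).toAlgebra
    have t1 : IsScalarTower R₁ Λ₁ Ω := IsScalarTower.of_algebraMap_eq fun _ => rfl
    have t2 : IsScalarTower R₂ Λ₂ Ω := IsScalarTower.of_algebraMap_eq fun _ => rfl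
    have t3 : IsScalarTower R₁ A Ω := by
      refine IsScalarTower.of_algebraMap_eq fun r => ?_
      change k₁ (algebraMap (ERees x₁) Λ₁ (algebraMap R₁ (ERees x₁) r)) =
        ρ (algebraMap A (ERees x) _)
      rw [hσ₁, RingHom.comp_apply, eMap_algebraMap]
    have t4 : IsScalarTower R₂ A Ω := by
      refine IsScalarTower.of_algebraMap_eq fun r => ?_
      change k₂ (algebraMap (ERees x₂) Λ₂ (algebraMap R₂ (ERees x₂) r)) =
        ρ (algebraMap A (ERees x) _)
      rw [hσ₂, RingHom.comp_apply, eMap_algebraMap]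
    have t5 : IsScalarTower S SP Ω := IsScalarTower.of_algebraMap_eq fun _ => rfl
    have t6 : IsScalarTower A S Ω := IsScalarTower.of_algebraMap_eq fun a => (hA a).symm
    have f1 : Module.Flat S Ω := Module.Flat.trans S SP Ω
    have f2 : Module.Flat Λ₁ Ω := RingHom.flat_algebraMap_iff.1 hkf₁
    have f3 : Module.Flat Λ₂ Ω := RingHom.flat_algebraMap_iff.1 hkf₂
    obtain ⟨e₁⟩ := st_compare (R₁ := R₁) (A := A) (S := S) (S' := SP) (Λ := Λ₁) (Ω := Ω)
      (algebraMap A S (x0 x (Pi.single 0 1))) (algebraMap (ERees x₁) Λ₁ (eT x₁)) u (by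
        change _ = (u : Ω) * k₁ (algebraMap (ERees x₁) Λ₁ (eT x₁))
        rw [hσ₁, RingHom.comp_apply, eMap_eT]
        exact hu) M
    obtain ⟨e₂⟩ := st_compare (R₁ := R₂) (A := A) (S := S) (S' := SP) (Λ := Λ₂) (Ω := Ω)
      (algebraMap A S (x0 x (Pi.single 0 1))) (algebraMap (ERees x₂) Λ₂ (eT x₂)) u (by
        change _ = (u : Ω) * k₂ (algebraMap (ERees x₂) Λ₂ (eT x₂))
        rw [hσ₂, RingHom.comp_apply, eMap_eT]
        exact hu) N
    rw [eulerTor_bc (B := SP) (C := Ω) hmax, eulerTor_congr e₁ e₂]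
    refine hb ?_
    rw [← Module.length_ne_top_iff]
    have h3 := length_tor_bc₂ (A := SP) (C := Ω) hmax 0
      (TensorProduct.isBaseChange SP (SP ⊗[S] StM (S := S) (x0 x (Pi.single 0 1)) (A ⊗[R₁] M)) Ω)
      (TensorProduct.isBaseChange SP (SP ⊗[S] StM (S := S) (x0 x (Pi.single 0 1)) (A ⊗[R₂] N)) Ω)
    rw [h3, (torZero _ _).length_eq] at hfin
    have h4 := length_congr₂ e₁ e₂
    exact fun hc => hfin (h4.trans hc)

end main

end Vale.Agent.P177
end

section

/-!
The blow-up step with one bad point.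
-/

namespace Vale.Agent.P177

open IsLocalRing Function TensorProduct

universe u

section cond

variable {R₁ R₂ A : Type u} [CommRing R₁] [CommRing R₂] [CommRing A]
  [IsRegularLocalRing R₁] [IsRegularLocalRing R₂] [IsRegularLocalRing A]
  [Algebra R₁ A] [Algebra R₂ A]
  [IsLocalHom (algebraMap R₁ A)] [IsLocalHom (algebraMap R₂ A)] {r : ℕ}

/-- The generation condition for the chart `X_0 ≠ 0`. -/
theorem exists_chart_zero {x₁ : Fin (r + 1) → R₁} {x₂ : Fin (r + 1) → R₂} {x : Fin (r + 1) → A}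
    (hx : Ideal.span (Set.range x) = maximalIdeal A) (θ₁ θ₂ : Fin (r + 1) → Fin (r + 1) → A)
    (hθ₁ : ∀ i, algebraMap R₁ A (x₁ i) = ∑ l, θ₁ i l * x l)
    (hθ₂ : ∀ i, algebraMap R₂ A (x₂ i) = ∑ l, θ₂ i l * x l)
    (I : Ideal R₁) (J : Ideal R₂)
    (hN : ∀ (z : Ideal (MvPolynomial (Fin (r + 1)) (ResidueField A))) [z.IsPrime],
      (∀ f ∈ z, ∀ n, MvPolynomial.homogeneousComponent n f ∈ z) →
      MvPolynomial.X 0 ∈ z → (∃ i, MvPolynomial.X i ∉ z) →
      InForm x₁ I (z.comap (jMap R₁ θ₁)) →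
      InForm x₂ J (z.comap (jMap R₂ θ₂)) → False) :
    ∃ (n₀ : ℕ), maximalIdeal A ^ (n₀ + 1) ≤
      (I.map (algebraMap R₁ A) ⊓ maximalIdeal A ^ (n₀ + 1)) ⊔
      (J.map (algebraMap R₂ A) ⊓ maximalIdeal A ^ (n₀ + 1)) ⊔
      Ideal.span {x 0} * maximalIdeal A ^ n₀ := by
  have hs' : ∀ f ∈ inSet x₁ θ₁ I ∪ inSet x₂ θ₂ J ∪
        {(MvPolynomial.X 0 : MvPolynomial (Fin (r + 1)) (ResidueField A))}, ∃ n : ℕ,
        f.IsHomogeneous n := by
    rintro f ((⟨n, F, hF, -, rfl⟩ | ⟨n, F, hF, -, rfl⟩) | rfl)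
    · exact ⟨n, (tMap_isHomogeneous θ₁ hF).map _⟩
    · exact ⟨n, (tMap_isHomogeneous θ₂ hF).map _⟩
    · exact ⟨1, MvPolynomial.isHomogeneous_X _ _⟩
  have key : Ideal.span (Set.range MvPolynomial.X) ≤ (Ideal.span (inSet x₁ θ₁ I ∪
      inSet x₂ θ₂ J ∪
      {(MvPolynomial.X 0 : MvPolynomial (Fin (r + 1)) (ResidueField A))})).radical := by
    rw [← Ideal.sInf_minimalPrimes]
    refine le_sInf fun z hz => ?_
    rw [Ideal.span_le]
    by_contra hcon
    rw [Set.range_subset_iff] at hcon
    push Not at hcon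
    obtain ⟨i, hi⟩ := hcon
    have hzp : z.IsPrime := hz.1.1
    have hzh : HomId z := minimal_homId _ hs' rfl hz
    have hin₁ : InForm x₁ I (z.comap (jMap R₁ θ₁)) := inForm_of_le fun f hf =>
      hz.1.2 (Ideal.subset_span (Or.inl (Or.inl hf)))
    have hin₂ : InForm x₂ J (z.comap (jMap R₂ θ₂)) := inForm_of_le fun f hf =>
      hz.1.2 (Ideal.subset_span (Or.inl (Or.inr hf)))
    exact hN z hzh (hz.1.2 (Ideal.subset_span (Or.inr rfl))) ⟨i, hi⟩ hin₁ hin₂
  obtain ⟨n, hn⟩ := Ideal.exists_pow_le_of_le_radical_of_fg key (IsNoetherian.noetherian _)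
  have hc := (Ideal.pow_le_pow_right (Nat.le_succ n)).trans hn
  refine ⟨n, ?_⟩
  refine pow_le_of_liftable hx (W := fun n => (I.map (algebraMap R₁ A) ⊓ maximalIdeal A ^ n) ⊔
      (J.map (algebraMap R₂ A) ⊓ maximalIdeal A ^ n) ⊔
      Ideal.span {x 0} * maximalIdeal A ^ (n - 1)) ?_ (n + 1) hc
  rintro f ((⟨n, F, hF, hFI, rfl⟩ | ⟨n, F, hF, hFI, rfl⟩) | rfl)
  · refine ⟨n, tMap R₁ θ₁ F, tMap_isHomogeneous θ₁ hF, rfl, fun j b hb => ?_⟩
    have h1 := eval_mem_pow hx (tMap_isHomogeneous θ₁ hF)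
    refine Submodule.mem_sup_left (Submodule.mem_sup_left ⟨?_, ?_⟩)
    · rw [eval_tMap θ₁ hθ₁]
      exact Ideal.mul_mem_left _ _ (Ideal.mem_map_of_mem _ hFI)
    · rw [pow_add]
      exact Ideal.mul_mem_mul hb h1
  · refine ⟨n, tMap R₂ θ₂ F, tMap_isHomogeneous θ₂ hF, rfl, fun j b hb => ?_⟩
    have h1 := eval_mem_pow hx (tMap_isHomogeneous θ₂ hF)
    refine Submodule.mem_sup_left (Submodule.mem_sup_right ⟨?_, ?_⟩)
    · rw [eval_tMap θ₂ hθ₂]
      exact Ideal.mul_mem_left _ _ (Ideal.mem_map_of_mem _ hFI)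
    · rw [pow_add]
      exact Ideal.mul_mem_mul hb h1
  · refine ⟨1, MvPolynomial.X 0, MvPolynomial.isHomogeneous_X _ _, by rw [MvPolynomial.map_X],
      fun j b hb => ?_⟩
    refine Submodule.mem_sup_right ?_
    rw [MvPolynomial.eval_X, mul_comm b, Nat.add_sub_cancel]
    exact Ideal.mul_mem_mul (Ideal.mem_span_singleton_self _) hb

end cond

section step

variable {R₁ R₂ A : Type u} [CommRing R₁] [CommRing R₂] [CommRing A]
  [IsRegularLocalRing R₁] [IsRegularLocalRing R₂] [IsRegularLocalRing A]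
  [Algebra R₁ A] [Algebra R₂ A] [Module.Flat R₁ A] [Module.Flat R₂ A]
  [IsLocalHom (algebraMap R₁ A)] [IsLocalHom (algebraMap R₂ A)] {r : ℕ}

/-- The blow-up step. -/
theorem step_pos (hd₁ : ringKrullDim R₁ = ((r + 1 : ℕ) : WithBot ℕ∞))
    (hd₂ : ringKrullDim R₂ = ((r + 1 : ℕ) : WithBot ℕ∞))
    (hd : ringKrullDim A = ((r + 1 : ℕ) : WithBot ℕ∞))
    {x₁ : Fin (r + 1) → R₁} {x₂ : Fin (r + 1) → R₂} {x : Fin (r + 1) → A}
    (hx₁ : Ideal.span (Set.range x₁) = maximalIdeal R₁)
    (hx₂ : Ideal.span (Set.range x₂) = maximalIdeal R₂)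
    (hx : Ideal.span (Set.range x) = maximalIdeal A)
    (hxA : (maximalIdeal R₁).map (algebraMap R₁ A) = maximalIdeal A)
    (hyA : (maximalIdeal R₂).map (algebraMap R₂ A) = maximalIdeal A)
    (θ₁ θ₂ : Fin (r + 1) → Fin (r + 1) → A)
    (hθ₁ : ∀ i, algebraMap R₁ A (x₁ i) = ∑ l, θ₁ i l * x l)
    (hθ₂ : ∀ i, algebraMap R₂ A (x₂ i) = ∑ l, θ₂ i l * x l)
    (h₁0 : θ₁ 0 0 = 1) (h₁1 : ∀ i : Fin r, θ₁ i.succ 0 = 0)
    (h₂0 : θ₂ 0 0 = 1) (h₂1 : ∀ i : Fin r, θ₂ i.succ 0 = 0)
    (hf₁ : (eMap θ₁ hθ₁).Flat) (hf₂ : (eMap θ₂ hθ₂).Flat)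
    (M N : Type u) [AddCommGroup M] [Module R₁ M] [Module.Finite R₁ M]
    [AddCommGroup N] [Module R₂ N] [Module.Finite R₂ N]
    (hK : ∀ (z : Ideal (MvPolynomial (Fin (r + 1)) (ResidueField A))) [z.IsPrime],
      (∀ f ∈ z, ∀ n, MvPolynomial.homogeneousComponent n f ∈ z) →
      MvPolynomial.X 0 ∉ z → (∃ i : Fin r, MvPolynomial.X i.succ ∉ z) →
      (z.comap (jMap R₁ θ₁)).height + (z.comap (jMap R₂ θ₂)).height ≤ z.height + 1)
    (hN : ∀ (z : Ideal (MvPolynomial (Fin (r + 1)) (ResidueField A))) [z.IsPrime],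
      (∀ f ∈ z, ∀ n, MvPolynomial.homogeneousComponent n f ∈ z) →
      MvPolynomial.X 0 ∈ z → (∃ i, MvPolynomial.X i ∉ z) →
      InForm x₁ (Module.annihilator R₁ M) (z.comap (jMap R₁ θ₁)) →
      InForm x₂ (Module.annihilator R₂ N) (z.comap (jMap R₂ θ₂)) → False)
    (hbad : ∀ (Ω : Type u) [CommRing Ω] [IsRegularLocalRing Ω] (ρ : ERees x →+* Ω), ρ.Flat →
      ringKrullDim Ω = ((r + 1 : ℕ) : WithBot ℕ∞) → (maximalIdeal Ω).comap ρ = badPrime hx →
      (badPrime hx).map ρ = maximalIdeal Ω → ∀ (k₁ : BadRing hx₁ →+* Ω) (k₂ : BadRing hx₂ →+* Ω), IsLocalHom k₁ → IsLocalHom k₂ →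
      k₁.Flat → k₂.Flat → (∀ z, k₁ (algebraMap (ERees x₁) _ z) = ρ (eMap θ₁ hθ₁ z)) →
      (∀ z, k₂ (algebraMap (ERees x₂) _ z) = ρ (eMap θ₂ hθ₂ z)) →
      NonnegAlong k₁ k₂ (r + 1 + 1)
        (St (algebraMap (ERees x₁) (BadRing hx₁) (eT x₁)) (BadRing hx₁ ⊗[R₁] M))
        (St (algebraMap (ERees x₂) (BadRing hx₂) (eT x₂)) (BadRing hx₂ ⊗[R₂] N)))
    (hFP : FP R₁ R₂ A M N) :
    0 ≤ eulerTor A (r + 1 + 1) (A ⊗[R₁] M) (A ⊗[R₂] N) ∧
    (∀ e g : ℕ, (e : WithBot ℕ∞) ≤ Module.supportDim R₁ M →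
      (g : WithBot ℕ∞) ≤ Module.supportDim R₂ N → r + 1 ≤ e + g →
      0 < eulerTor A (r + 1 + 1) (A ⊗[R₁] M) (A ⊗[R₂] N)) := by
  rcases subsingleton_or_nontrivial M with hM | hM
  · have hM' : Subsingleton (A ⊗[R₁] M) := inferInstance
    refine ⟨(eulerTor_left_zero _ _ _ hM').ge, fun e g he _ _ => ?_⟩
    rw [Module.supportDim_eq_bot_of_subsingleton] at he
    exact absurd (le_bot_iff.1 he) (WithBot.coe_ne_bot)
  rcases subsingleton_or_nontrivial N with hN' | hN'
  · have hN' : Subsingleton (A ⊗[R₂] N) := inferInstance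
    refine ⟨(eulerTor_right_zero _ _ _ hN').ge, fun e g _ hg _ => ?_⟩
    rw [Module.supportDim_eq_bot_of_subsingleton] at hg
    exact absurd (le_bot_iff.1 hg) (WithBot.coe_ne_bot)
  have hff₁ : Module.FaithfullyFlat R₁ A := Module.FaithfullyFlat.of_flat_of_isLocalHom
  have hff₂ : Module.FaithfullyFlat R₂ A := Module.FaithfullyFlat.of_flat_of_isLocalHom
  have hM' : Nontrivial (A ⊗[R₁] M) := inferInstance
  have hN'' : Nontrivial (A ⊗[R₂] N) := inferInstance
  obtain ⟨n₀, hc⟩ := exists_chart_zero (x₁ := x₁) (x₂ := x₂) hx θ₁ θ₂ hθ₁ hθ₂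
    (Module.annihilator R₁ M) (Module.annihilator R₂ N) hN
  let c : Fin (r + 1) → A := Pi.single 0 1
  have hx00 : x0 x c = x 0 := x0_single x
  rw [← hx00] at hc
  have hS := chart_isStrict hd hx c
  have hx0 := x0_mem hx c
  obtain ⟨f, hf⟩ := exists_chart_away x c (Localization.Away (x0 x c))
      (IsLocalization.Away.algebraMap_isUnit (x0 x c))
  obtain ⟨p₁, p₂⟩ := pos_of_chart (A := A) (S := Chart x c) hd (M := A ⊗[R₁] M)
    (N := A ⊗[R₂] N) (fun i => hFP.length_ne_top i) hx0 (n₀ := n₀)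
    (I₁ := (Module.annihilator R₁ M).map (algebraMap R₁ A))
    (J₁ := (Module.annihilator R₂ N).map (algebraMap R₂ A))
    (map_smul_eq_zero M) (map_smul_eq_zero N) hc hS
    (stMap_isStrict (M := A ⊗[R₁] M) hS hx0 f hf)
    (stMap_isStrict (M := A ⊗[R₂] N) hS hx0 f hf)
    (fun m hm hlen => chart_local_nonneg_rel hd₁ hd₂ hd hx₁ hx₂ hx θ₁ θ₂ hθ₁ hθ₂ h₁0 h₁1 h₂0 h₂1
      hf₁ hf₂ m.asIdeal hm M N hK hbad (hlen 0 (Nat.succ_pos _)))
  refine ⟨p₁, fun e g he hg hle => p₂ e g ?_ ?_ hle⟩
  · exact he.trans (supportDim_le_baseChange R₁ A hxA M)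
  · exact hg.trans (supportDim_le_baseChange R₂ A hyA N)

end step

end Vale.Agent.P177
end

section

/-!
Height inequalities for a generic orthogonal transformation with one fixed variable.
-/

namespace Vale.Agent.P177

open IsLocalRing Function MvPolynomial

universe u

section orth

variable {k K : Type u} [Field k] [Field K]

/-- Linear substitution over an extension of fields. -/
noncomputable def jFun {d : ℕ} (κ : k →+* K) (Θ : Fin d → Fin d → K) :
    MvPolynomial (Fin d) k →+* MvPolynomial (Fin d) K :=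
  eval₂Hom (C.comp κ) (fun i => ∑ l, C (Θ i l) * X l)

@[simp]
theorem jFun_C {d : ℕ} (κ : k →+* K) (Θ : Fin d → Fin d → K) (a : k) :
    jFun κ Θ (C a) = C (κ a) := by
  unfold jFun
  simp

@[simp]
theorem jFun_X {d : ℕ} (κ : k →+* K) (Θ : Fin d → Fin d → K) (i : Fin d) :
    jFun κ Θ (X i) = ∑ l, C (Θ i l) * X l := by
  unfold jFun
  simp

theorem height_orth {r : ℕ} {κ : k →+* K} {θ : Fin r → Fin r → K} (h : OrthData κ θ)
    (z : Ideal (MvPolynomial (Fin r) K)) [z.IsPrime] (hz : ∃ i, X i ∉ z) :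
    (z.comap (MvPolynomial.map κ)).height + (z.comap (jFun κ θ)).height ≤ z.height + 1 := by
  classical
  obtain ⟨α, b, c, hα, hb, hθ⟩ := h
  let _ : Algebra k K := κ.toAlgebra
  have h1 := height_orthogonal (k := k) (K := K) α (by
    have : ((aeval α : MvPolynomial (Fin r × Fin r) k →ₐ[k] K) :
        MvPolynomial (Fin r × Fin r) k →+* K) = eval₂Hom κ α := rfl
    intro p q hpq
    exact hα hpq) b c θ hθ z (by
    by_contra hcon
    push Not at hcon
    obtain ⟨i, hi⟩ := hz
    apply hi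
    have h2 : (X i : MvPolynomial (Fin r) K) = ∑ l, C (κ ((Matrix.of b)⁻¹ i l)) *
        ∑ m, C (algebraMap k K (b l m)) * X m := by
      have h3 : (Matrix.of b)⁻¹ * Matrix.of b = 1 := Matrix.nonsing_inv_mul _ hb
      have h4 : ∀ m, ∑ l, (Matrix.of b)⁻¹ i l * b l m = if i = m then 1 else 0 := by
        intro m
        have := congrFun (congrFun h3 i) m
        rw [Matrix.mul_apply, Matrix.one_apply] at this
        exact this
      calc (X i : MvPolynomial (Fin r) K) = ∑ m, C (κ (if i = m then 1 else 0)) * X m := by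
            rw [Finset.sum_eq_single i]
            · simp
            · intro m _ hm
              simp [Ne.symm hm]
            · simp
        _ = ∑ m, ∑ l, C (κ ((Matrix.of b)⁻¹ i l)) * (C (κ (b l m)) * X m) := by
            refine Finset.sum_congr rfl fun m _ => ?_
            rw [← h4, map_sum, map_sum, Finset.sum_mul]
            refine Finset.sum_congr rfl fun l _ => ?_
            rw [map_mul, map_mul, mul_assoc]
        _ = _ := by
            rw [Finset.sum_comm]
            refine Finset.sum_congr rfl fun l _ => ?_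
            rw [Finset.mul_sum]
            rfl
    rw [h2]
    exact Ideal.sum_mem _ fun l _ => Ideal.mul_mem_left _ _ (hcon l))
  have e₁ : z.comap (aeval X : MvPolynomial (Fin r) k →ₐ[k] MvPolynomial (Fin r) K) =
      z.comap (MvPolynomial.map κ) := by
    have : ((aeval X : MvPolynomial (Fin r) k →ₐ[k] MvPolynomial (Fin r) K) :
        MvPolynomial (Fin r) k →+* MvPolynomial (Fin r) K) = MvPolynomial.map κ := by
      apply MvPolynomial.ringHom_ext
      · intro a
        rw [MvPolynomial.map_C]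
        exact aeval_C _ _
      · intro i
        rw [MvPolynomial.map_X]
        exact aeval_X _ _
    rw [← this]
    rfl
  have e₂ : z.comap (aeval (fun i => ∑ l, C (θ i l) * X l) :
      MvPolynomial (Fin r) k →ₐ[k] MvPolynomial (Fin r) K) = z.comap (jFun κ θ) := by
    have : ((aeval (fun i => ∑ l, C (θ i l) * X l) :
      MvPolynomial (Fin r) k →ₐ[k] MvPolynomial (Fin r) K) :
        MvPolynomial (Fin r) k →+* MvPolynomial (Fin r) K) = jFun κ θ := by
      apply MvPolynomial.ringHom_ext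
      · intro a
        rw [jFun_C]
        exact aeval_C _ _
      · intro i
        rw [jFun_X]
        exact aeval_X _ _
    rw [← this]
    rfl
  rw [e₁, e₂] at h1
  exact h1

end orth

section mat

variable {K : Type u} [CommRing K] {r : ℕ}

/-- The matrix `1 ⊕ θ`. -/
def extM (θ : Fin r → Fin r → K) : Fin (r + 1) → Fin (r + 1) → K :=
  Fin.cons (Fin.cons 1 fun _ => 0) (fun i => Fin.cons 0 (θ i))

@[simp] theorem extM_zero_zero (θ : Fin r → Fin r → K) : extM θ 0 0 = 1 := rfl
@[simp] theorem extM_zero_succ (θ : Fin r → Fin r → K) (l : Fin r) : extM θ 0 l.succ = 0 := rfl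
@[simp] theorem extM_succ_zero (θ : Fin r → Fin r → K) (i : Fin r) : extM θ i.succ 0 = 0 := rfl
@[simp] theorem extM_succ_succ (θ : Fin r → Fin r → K) (i l : Fin r) :
    extM θ i.succ l.succ = θ i l := rfl

end mat

section upper

theorem height_le_C_add_one {S : Type u} [CommRing S] [IsNoetherianRing S]
    (z : Ideal (Polynomial S)) [hz : z.IsPrime] :
    z.height ≤ (z.comap (Polynomial.C : S →+* Polynomial S)).height + 1 := by
  let e := MvPolynomial.uniqueAlgEquiv S PUnit.{1}
  let z' : Ideal (MvPolynomial PUnit.{1} S) :=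
    z.comap (e : MvPolynomial PUnit.{1} S →+* Polynomial S)
  have hz' : z'.IsPrime := Ideal.IsPrime.comap _
  have h1 := height_le_comap_C_add z'
  have h2 : z'.height = z.height := RingEquiv.height_comap e.toRingEquiv z
  have h3 : z'.comap C = z.comap (Polynomial.C : S →+* Polynomial S) := by
    ext a
    change e (C a) ∈ z ↔ Polynomial.C a ∈ z
    have : e (C a) = Polynomial.C a := by simp [e]
    rw [this]
  rw [h2, h3, Fintype.card_punit] at h1
  exact_mod_cast h1

theorem height_le_resX {k : Type u} [Field k] {r : ℕ}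
    (z : Ideal (MvPolynomial (Fin (r + 1)) k)) [hz : z.IsPrime] :
    z.height ≤ (resX z).height + 1 := by
  let e := MvPolynomial.finSuccEquiv k r
  let z' : Ideal (Polynomial (MvPolynomial (Fin r) k)) :=
    z.comap (e.symm : Polynomial (MvPolynomial (Fin r) k) →+* MvPolynomial (Fin (r + 1)) k)
  have hz' : z'.IsPrime := Ideal.IsPrime.comap _
  have h1 := height_le_C_add_one z'
  have h2 : z'.comap (Polynomial.C : MvPolynomial (Fin r) k →+* _) = resX z := by
    ext F
    change e.symm (Polynomial.C F) ∈ z ↔ MvPolynomial.rename Fin.succ F ∈ z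
    have h3 : e (MvPolynomial.rename Fin.succ F) = Polynomial.C F := by
      induction F using MvPolynomial.induction_on with
      | C a =>
        rw [MvPolynomial.rename_C, MvPolynomial.finSuccEquiv_apply]
        simp
      | add p q hp hq => rw [map_add, map_add, map_add, hp, hq]
      | mul_X p i hp =>
        rw [map_mul, map_mul, map_mul, hp, MvPolynomial.rename_X]
        congr 1
        exact MvPolynomial.finSuccEquiv_X_succ
    rw [← h3, AlgEquiv.symm_apply_apply]
  have h3 : z'.height = z.height := by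
    exact RingEquiv.height_comap e.symm.toRingEquiv z
  rw [h2, h3] at h1
  exact h1

variable {k K : Type u} [Field k] [Field K] {r : ℕ}

theorem resX_comap (κ : k →+* K) (Θ : Fin (r + 1) → Fin (r + 1) → K) (θ : Fin r → Fin r → K)
    (h0 : ∀ i : Fin r, Θ i.succ 0 = 0) (h1 : ∀ i l : Fin r, Θ i.succ l.succ = θ i l)
    (z : Ideal (MvPolynomial (Fin (r + 1)) K)) :
    resX (z.comap (jFun κ Θ)) = (resX z).comap (jFun κ θ) := by
  have h : (jFun κ Θ).comp ((rename (R := k) Fin.succ : MvPolynomial (Fin r) k →ₐ[k]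
        MvPolynomial (Fin (r + 1)) k) : MvPolynomial (Fin r) k →+* _) =
      ((rename (R := K) Fin.succ : MvPolynomial (Fin r) K →ₐ[K]
        MvPolynomial (Fin (r + 1)) K) : MvPolynomial (Fin r) K →+* _).comp (jFun κ θ) := by
    apply MvPolynomial.ringHom_ext
    · intro a
      simp
    · intro i
      simp only [RingHom.comp_apply, RingHom.coe_coe, rename_X, jFun_X, map_sum, map_mul, rename_C]
      rw [Fin.sum_univ_succ, h0, map_zero, zero_mul, zero_add]
      refine Finset.sum_congr rfl fun l _ => ?_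
      rw [h1]
  ext f
  have := RingHom.congr_fun h f
  change jFun κ Θ (rename Fin.succ f) ∈ z ↔ rename Fin.succ (jFun κ θ f) ∈ z
  rw [show jFun κ Θ (rename Fin.succ f) = rename Fin.succ (jFun κ θ f) from this]

theorem jFun_one {d : ℕ} (κ : k →+* K) :
    jFun κ (fun i l : Fin d => if i = l then (1 : K) else 0) = MvPolynomial.map κ := by
  apply MvPolynomial.ringHom_ext
  · intro a
    rw [jFun_C, MvPolynomial.map_C]
  · intro i
    rw [jFun_X, MvPolynomial.map_X, Finset.sum_eq_single i]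
    · simp
    · intro l _ hl
      simp [Ne.symm hl]
    · simp

/-- The height inequality for primes containing `X_0`. -/
theorem height_orth_mem {κ : k →+* K} {θ : Fin r → Fin r → K} (h : OrthData κ θ)
    (z : Ideal (MvPolynomial (Fin (r + 1)) K)) [z.IsPrime] (h0 : X 0 ∈ z)
    (hz : ∃ i : Fin r, X i.succ ∉ z) :
    (z.comap (jFun κ (fun i l => if i = l then (1 : K) else 0))).height +
      (z.comap (jFun κ (extM θ))).height ≤ z.height + 2 := by
  have p1 : (z.comap (jFun κ (fun i l => if i = l then (1 : K) else 0))).IsPrime :=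
    Ideal.IsPrime.comap _
  have p2 : (z.comap (jFun κ (extM θ))).IsPrime := Ideal.IsPrime.comap _
  have e1 := height_le_resX (z.comap (jFun κ (fun i l => if i = l then (1 : K) else 0)))
  have e2 := height_le_resX (z.comap (jFun κ (extM θ)))
  have e1' : resX (z.comap (jFun κ (fun i l => if i = l then (1 : K) else 0))) =
      (resX z).comap (MvPolynomial.map κ) := by
    rw [resX_comap κ _ (fun i l => if i = l then (1 : K) else 0)
      (fun i => by simp [Fin.succ_ne_zero]) (fun i l => by simp), jFun_one]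
  rw [e1'] at e1
  rw [resX_comap κ _ θ (fun i => rfl) (fun i l => rfl)] at e2
  have e3 := height_orth h (resX z) (by
    obtain ⟨i, hi⟩ := hz
    refine ⟨i, fun hmem => hi ?_⟩
    change rename Fin.succ (X i) ∈ z at hmem
    rwa [rename_X] at hmem)
  have e4 := height_resX_add_one_le z h0
  calc _ ≤ (((resX z).comap (MvPolynomial.map κ)).height + 1) +
        (((resX z).comap (jFun κ θ)).height + 1) := add_le_add e1 e2
    _ = (((resX z).comap (MvPolynomial.map κ)).height +
        ((resX z).comap (jFun κ θ)).height) + 2 := by ring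
    _ ≤ ((resX z).height + 1) + 2 := add_le_add_left e3 2
    _ ≤ z.height + 2 := add_le_add_left e4 2

end upper

end Vale.Agent.P177
end

section

/-!
The height inequality for homogeneous primes which do not contain `X_0`.
-/

namespace Vale.Agent.P177

open IsLocalRing Function MvPolynomial

universe u

attribute [local instance] MvPolynomial.algebraMvPolynomial

section gen

variable (k : Type u) [Field k] (r : ℕ)

/-- The variable `X_0` as a coefficient. -/
noncomputable def eXe : MvPolynomial (Fin (r + 1)) k ≃ₐ[k] MvPolynomial (Fin r) (Polynomial k) :=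
  (renameEquiv k (finSuccEquiv r)).trans (optionEquivRight k (Fin r))

theorem eXe_X_zero : eXe k r (X 0) = C Polynomial.X := by
  unfold eXe
  rw [AlgEquiv.trans_apply, renameEquiv_apply, rename_X, _root_.finSuccEquiv_zero,
    optionEquivRight_X_none]

theorem eXe_X_succ (i : Fin r) : eXe k r (X i.succ) = X i := by
  unfold eXe
  rw [AlgEquiv.trans_apply, renameEquiv_apply, rename_X, _root_.finSuccEquiv_succ,
    optionEquivRight_X_some]

theorem eXe_C (a : k) : eXe k r (C a) = C (Polynomial.C a) := by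
  unfold eXe
  rw [AlgEquiv.trans_apply, renameEquiv_apply, rename_C, optionEquivRight_C]

/-- The field of rational functions in `X_0`. -/
abbrev genField : Type u := FractionRing (Polynomial k)

/-- The map to polynomials over the field of rational functions. -/
noncomputable def genMap : MvPolynomial (Fin (r + 1)) k →+* MvPolynomial (Fin r) (genField k) :=
  (MvPolynomial.map (algebraMap (Polynomial k) (genField k))).comp
    (eXe k r : MvPolynomial (Fin (r + 1)) k →+* MvPolynomial (Fin r) (Polynomial k))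

theorem genMap_X_zero : genMap k r (X 0) =
    C (algebraMap (Polynomial k) (genField k) Polynomial.X) := by
  change MvPolynomial.map _ (eXe k r (X 0)) = _
  rw [eXe_X_zero, MvPolynomial.map_C]

theorem genMap_X_succ (i : Fin r) : genMap k r (X i.succ) = X i := by
  change MvPolynomial.map _ (eXe k r (X i.succ)) = _
  rw [eXe_X_succ, MvPolynomial.map_X]

theorem genMap_C (a : k) : genMap k r (C a) =
    C (algebraMap (Polynomial k) (genField k) (Polynomial.C a)) := by
  change MvPolynomial.map _ (eXe k r (C a)) = _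
  rw [eXe_C, MvPolynomial.map_C]

variable {k r}

theorem height_genMap (Z : Ideal (MvPolynomial (Fin r) (genField k))) [Z.IsPrime] :
    (Z.comap (genMap k r)).height = Z.height := by
  let M := (nonZeroDivisors (Polynomial k)).map (C (σ := Fin r))
  have h1 : (Z.under (MvPolynomial (Fin r) (Polynomial k))).height = Z.height :=
    IsLocalization.height_under M Z
  rw [← h1]
  have h2 : Z.comap (genMap k r) =
      (Z.under (MvPolynomial (Fin r) (Polynomial k))).comap
        ((eXe k r).toRingEquiv : MvPolynomial (Fin (r + 1)) k →+*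
          MvPolynomial (Fin r) (Polynomial k)) := rfl
  rw [h2]
  exact RingEquiv.height_comap (eXe k r).toRingEquiv _

theorem exists_genPrime (z : Ideal (MvPolynomial (Fin (r + 1)) k)) [hz : z.IsPrime]
    (h : ∀ g : Polynomial k, Polynomial.eval₂ C (X 0) g ∈ z → g = 0) :
    ∃ Z : Ideal (MvPolynomial (Fin r) (genField k)), Z.IsPrime ∧ Z.comap (genMap k r) = z := by
  let M := (nonZeroDivisors (Polynomial k)).map (C (σ := Fin r))
  let z' : Ideal (MvPolynomial (Fin r) (Polynomial k)) :=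
    z.comap ((eXe k r).symm.toRingEquiv : MvPolynomial (Fin r) (Polynomial k) →+* _)
  have hz' : z'.IsPrime := Ideal.IsPrime.comap _
  have hdisj : Disjoint (M : Set (MvPolynomial (Fin r) (Polynomial k))) z' := by
    rw [Set.disjoint_left]
    rintro _ ⟨g, hg, rfl⟩ hmem
    have h1 : (eXe k r).symm (C g) ∈ z := hmem
    have h2 : (eXe k r).symm (C g) = Polynomial.eval₂ C (X 0) g := by
      rw [AlgEquiv.symm_apply_eq]
      have h3 : (C : Polynomial k →+* MvPolynomial (Fin r) (Polynomial k)) =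
          ((eXe k r : MvPolynomial (Fin (r + 1)) k →+* MvPolynomial (Fin r) (Polynomial k))).comp
            (Polynomial.eval₂RingHom C (X 0)) := by
        apply Polynomial.ringHom_ext
        · intro a
          simp only [RingHom.comp_apply, Polynomial.coe_eval₂RingHom, Polynomial.eval₂_C,
            RingHom.coe_coe, eXe_C]
        · simp only [RingHom.comp_apply, Polynomial.coe_eval₂RingHom, Polynomial.eval₂_X,
            RingHom.coe_coe, eXe_X_zero]
      exact RingHom.congr_fun h3 g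
    rw [h2] at h1
    have h3 := h g h1
    rw [h3] at hg
    exact (nonZeroDivisors.ne_zero hg) rfl
  refine ⟨z'.map (algebraMap _ _), IsLocalization.isPrime_of_isPrime_disjoint M _ _ hz' hdisj, ?_⟩
  have h1 : (z'.map (algebraMap _ (MvPolynomial (Fin r) (genField k)))).under
      (MvPolynomial (Fin r) (Polynomial k)) = z' :=
    IsLocalization.under_map_of_isPrime_disjoint M _ hz' hdisj
  ext f
  change eXe k r f ∈ (z'.map (algebraMap _ (MvPolynomial (Fin r) (genField k)))).under
      (MvPolynomial (Fin r) (Polynomial k)) ↔ f ∈ z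
  rw [h1]
  change (eXe k r).symm (eXe k r f) ∈ z ↔ f ∈ z
  rw [AlgEquiv.symm_apply_apply]

end gen

section hom

variable {k : Type u} [Field k] {r : ℕ}

theorem eq_zero_of_hom (q : Ideal (MvPolynomial (Fin (r + 1)) k)) [hq : q.IsPrime]
    (hhom : ∀ f ∈ q, ∀ n, MvPolynomial.homogeneousComponent n f ∈ q)
    (h0 : MvPolynomial.X 0 ∉ q) (g : Polynomial k) (h1 : Polynomial.eval₂ C (X 0) g ∈ q) :
    g = 0 := by
  ext n
  rw [Polynomial.coeff_zero]
  by_contra hn
  have h2 := hhom _ h1 n
  have h3 : MvPolynomial.homogeneousComponent n (Polynomial.eval₂ MvPolynomial.C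
      (MvPolynomial.X (0 : Fin (r + 1))) g) =
      MvPolynomial.C (g.coeff n) * MvPolynomial.X (0 : Fin (r + 1)) ^ n := by
    rw [Polynomial.eval₂_eq_sum_range, map_sum]
    have h4 : ∀ i, MvPolynomial.homogeneousComponent n (MvPolynomial.C (g.coeff i) *
        (MvPolynomial.X (0 : Fin (r + 1)) : MvPolynomial (Fin (r + 1)) k) ^ i) =
        if n = i then MvPolynomial.C (g.coeff i) * MvPolynomial.X (0 : Fin (r + 1)) ^ i
        else 0 := by
      intro i
      have h5 : (MvPolynomial.C (g.coeff i) *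
        (MvPolynomial.X (0 : Fin (r + 1)) : MvPolynomial (Fin (r + 1)) k) ^ i).IsHomogeneous
          i := by
        have := (MvPolynomial.isHomogeneous_C (Fin (r + 1)) (g.coeff i)).mul
          (MvPolynomial.isHomogeneous_X_pow (R := k) (0 : Fin (r + 1)) i)
        rwa [zero_add] at this
      exact MvPolynomial.homogeneousComponent_of_mem
        ((MvPolynomial.mem_homogeneousSubmodule _ _).2 h5)
    rw [Finset.sum_congr rfl fun i _ => h4 i, Finset.sum_ite_eq]
    split_ifs with hmem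
    · rfl
    · rw [Finset.mem_range, not_lt] at hmem
      rw [Polynomial.coeff_eq_zero_of_natDegree_lt (by omega)]
      simp
  rw [h3] at h2
  rcases hq.mem_or_mem h2 with h4 | h4
  · exact hq.ne_top (Ideal.eq_top_of_isUnit_mem _ h4
      ((IsUnit.mk0 _ hn).map MvPolynomial.C))
  · exact h0 (hq.mem_of_pow_mem n h4)

variable {K : Type u} [Field K]

/-- The height inequality for homogeneous primes not containing `X_0`. -/
theorem height_orth_notMem {κ : k →+* K} {θ : Fin r → Fin r → K} (h : OrthData κ θ)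
    (z : Ideal (MvPolynomial (Fin (r + 1)) K)) [hz : z.IsPrime]
    (hhom : ∀ f ∈ z, ∀ n, MvPolynomial.homogeneousComponent n f ∈ z) (h0 : X 0 ∉ z)
    (hX : ∃ i : Fin r, X i.succ ∉ z) :
    (z.comap (jFun κ (fun i l => if i = l then (1 : K) else 0))).height +
      (z.comap (jFun κ (extM θ))).height ≤ z.height + 1 := by
  obtain ⟨Z, hZ, hZz⟩ := exists_genPrime z fun g hg => eq_zero_of_hom z hhom h0 g hg
  have hinj : Injective ((algebraMap (Polynomial K) (genField K)).comp
      (Polynomial.mapRingHom κ)) :=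
    (IsFractionRing.injective (Polynomial K) (genField K)).comp
      (Polynomial.map_injective κ κ.injective)
  let κ' : genField k →+* genField K := IsFractionRing.lift hinj
  have hκ' : ∀ g, κ' (algebraMap (Polynomial k) (genField k) g) =
      algebraMap (Polynomial K) (genField K) (Polynomial.mapRingHom κ g) := fun g =>
    IsFractionRing.lift_algebraMap hinj g
  have horth := h.ext κ' (algebraMap (Polynomial k) (genField k))
    (algebraMap (Polynomial K) (genField K)) (IsFractionRing.injective _ _)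
    (RingHom.ext hκ') (by
      intro a
      obtain ⟨g, s, hs, rfl⟩ := IsFractionRing.div_surjective (A := Polynomial k) a
      have hs0 : algebraMap (Polynomial k) (genField k) s ≠ 0 := by
        intro h1
        exact nonZeroDivisors.ne_zero hs
          ((injective_iff_map_eq_zero _).1 (IsFractionRing.injective (Polynomial k) (genField k)) _
            h1)
      exact ⟨g, s, hs0, div_mul_cancel₀ _ hs0⟩)
  have e1 := height_orth horth Z (by
    obtain ⟨i, hi⟩ := hX
    refine ⟨i, fun hmem => hi ?_⟩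
    rw [← hZz]
    change genMap K r (X i.succ) ∈ Z
    rw [genMap_X_succ]
    exact hmem)
  have c1 : (MvPolynomial.map κ').comp (genMap k r) = (genMap K r).comp
      (jFun κ (fun i l => if i = l then (1 : K) else 0)) := by
    rw [jFun_one]
    apply MvPolynomial.ringHom_ext
    · intro a
      rw [RingHom.comp_apply, RingHom.comp_apply, genMap_C, MvPolynomial.map_C, hκ',
        MvPolynomial.map_C, genMap_C]
      simp
    · intro i
      rw [RingHom.comp_apply, RingHom.comp_apply, MvPolynomial.map_X]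
      refine Fin.cases ?_ (fun i => ?_) i
      · rw [genMap_X_zero, MvPolynomial.map_C, hκ', genMap_X_zero]
        simp
      · rw [genMap_X_succ, MvPolynomial.map_X, genMap_X_succ]
  have c2 : (jFun κ' (fun i l => algebraMap (Polynomial K) (genField K)
      (Polynomial.C (θ i l)))).comp (genMap k r) = (genMap K r).comp (jFun κ (extM θ)) := by
    apply MvPolynomial.ringHom_ext
    · intro a
      rw [RingHom.comp_apply, RingHom.comp_apply, genMap_C, jFun_C, hκ', jFun_C, genMap_C]
      simp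
    · intro i
      rw [RingHom.comp_apply, RingHom.comp_apply, jFun_X, map_sum, Fin.sum_univ_succ]
      refine Fin.cases ?_ (fun i => ?_) i
      · rw [genMap_X_zero, jFun_C, hκ']
        simp only [extM_zero_zero, extM_zero_succ, map_one, one_mul, map_zero, zero_mul,
          Finset.sum_const_zero, add_zero]
        rw [genMap_X_zero]
        simp
      · rw [genMap_X_succ, jFun_X]
        simp only [extM_succ_zero, extM_succ_succ, map_zero, zero_mul, zero_add]
        refine Finset.sum_congr rfl fun l _ => ?_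
        rw [map_mul, genMap_X_succ, genMap_C]
  have d1 : z.comap (jFun κ (fun i l => if i = l then (1 : K) else 0)) =
      (Z.comap (MvPolynomial.map κ')).comap (genMap k r) := by
    rw [Ideal.comap_comap, c1, ← Ideal.comap_comap, hZz]
  have d2 : z.comap (jFun κ (extM θ)) = (Z.comap (jFun κ' (fun i l =>
      algebraMap (Polynomial K) (genField K) (Polynomial.C (θ i l))))).comap (genMap k r) := by
    rw [Ideal.comap_comap, c2, ← Ideal.comap_comap, hZz]
  have p1 : (Z.comap (MvPolynomial.map κ')).IsPrime := Ideal.IsPrime.comap _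
  have p2 : (Z.comap (jFun κ' (fun i l =>
      algebraMap (Polynomial K) (genField K) (Polynomial.C (θ i l))))).IsPrime :=
    Ideal.IsPrime.comap _
  rw [d1, d2, height_genMap, height_genMap]
  have d3 : z.height = Z.height := by rw [← hZz, height_genMap]
  rw [d3]
  exact e1

end hom

end Vale.Agent.P177
end

section

/-!
The local ring at the bad point.
-/

namespace Vale.Agent.P177

open IsLocalRing Function TensorProduct

universe u

theorem height_comap_hom {S T : Type u} [CommRing S] [CommRing T] [IsNoetherianRing S]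
    [IsNoetherianRing T] (f : S →+* T) (hf : f.Flat) (P : Ideal T) [P.IsPrime] :
    (P.comap f).height ≤ P.height := by
  let _ : Algebra S T := f.toAlgebra
  have : Module.Flat S T := RingHom.flat_algebraMap_iff.1 hf
  exact height_comap_le_of_flat P

section ring

variable {R : Type u} [CommRing R] [IsLocalRing R] {r : ℕ} {x : Fin (r + 1) → R}
    (hx : Ideal.span (Set.range x) = maximalIdeal R)

theorem mem_badPrime {z : ERees x} : z ∈ badPrime hx ↔ badHom (ResidueField R) r (eRes hx z) = 0 :=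
  Iff.rfl

theorem eT_mem_badPrime : eT x ∈ badPrime hx := by
  rw [mem_badPrime, eRes_eT, map_zero]

theorem eY_succ_mem_badPrime (i : Fin r) : eY x i.succ ∈ badPrime hx := by
  rw [mem_badPrime, eRes_eY, badHom_X_succ]

theorem eY_zero_notMem_badPrime : eY x 0 ∉ badPrime hx := by
  rw [mem_badPrime, eRes_eY, badHom_X_zero]
  exact Polynomial.X_ne_zero

theorem badPrime_eq : badPrime hx = Ideal.span {eT x} ⊔
    Ideal.span (Set.range fun i : Fin r => eY x i.succ) := by
  refine le_antisymm ?_ ?_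
  · intro z hz
    have h1 : eRes hx z ∈ zBad (ResidueField R) r := hz
    rw [zBad_eq_span] at h1
    have h2 : Ideal.span (Set.range fun i : Fin r =>
        (MvPolynomial.X i.succ : MvPolynomial (Fin (r + 1)) (ResidueField R))) =
        (Ideal.span (Set.range fun i : Fin r => eY x i.succ)).map (eRes hx) := by
      rw [Ideal.map_span, ← Set.range_comp]
      congr 1
      ext f
      simp
    rw [h2, Ideal.mem_map_iff_of_surjective _ (eRes_surjective hx)] at h1
    obtain ⟨w, hw, hwz⟩ := h1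
    have h3 : z - w ∈ RingHom.ker (eRes hx) := by
      rw [RingHom.mem_ker, map_sub, hwz, sub_self]
    rw [ker_eRes] at h3
    have h4 := Ideal.add_mem _ (Ideal.mem_sup_left (T := Ideal.span (Set.range fun i : Fin r =>
      eY x i.succ)) h3) (Ideal.mem_sup_right hw)
    rwa [sub_add_cancel] at h4
  · refine sup_le ?_ ?_
    · rw [Ideal.span_singleton_le_iff_mem]
      exact eT_mem_badPrime hx
    · rw [Ideal.span_le]
      rintro _ ⟨i, rfl⟩
      exact eY_succ_mem_badPrime hx i

/-- The system of parameters of the local ring at the bad point. -/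
noncomputable def xBad : Fin (r + 1) → BadRing hx :=
  Fin.cons (algebraMap (ERees x) (BadRing hx) (eT x))
    (fun i => algebraMap (ERees x) (BadRing hx) (eY x i.succ))

theorem xBad_zero : xBad hx 0 = algebraMap (ERees x) (BadRing hx) (eT x) := rfl

theorem xBad_succ (i : Fin r) :
    xBad hx i.succ = algebraMap (ERees x) (BadRing hx) (eY x i.succ) := rfl

theorem span_xBad : Ideal.span (Set.range (xBad hx)) = maximalIdeal (BadRing hx) := by
  rw [← IsLocalization.AtPrime.map_eq_maximalIdeal (badPrime hx) (BadRing hx), badPrime_eq,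
    Ideal.map_sup, Ideal.map_span, Ideal.map_span, Set.image_singleton, ← Set.range_comp,
    ← span_tail]
  rfl

theorem algebraMap_bad (c : R) : algebraMap R (BadRing hx) c =
    algebraMap (ERees x) (BadRing hx) (algebraMap R (ERees x) c) := rfl

theorem algebraMap_bad_x (i : Fin (r + 1)) : algebraMap R (BadRing hx) (x i) =
    xBad hx 0 * algebraMap (ERees x) (BadRing hx) (eY x i) := by
  rw [algebraMap_bad, algebraMap_rees, map_mul, xBad_zero]

theorem mem_max_bad {z : ERees x} : algebraMap (ERees x) (BadRing hx) z ∈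
    maximalIdeal (BadRing hx) ↔ z ∈ badPrime hx :=
  IsLocalization.AtPrime.to_map_mem_maximal_iff (BadRing hx) (badPrime hx) z

instance isLocalHom_bad : IsLocalHom (algebraMap R (BadRing hx)) := by
  refine ((IsLocalRing.local_hom_TFAE _).out 0 2).mpr ?_
  rw [← hx, Ideal.map_span, Ideal.span_le]
  rintro _ ⟨_, ⟨i, rfl⟩, rfl⟩
  simp only [SetLike.mem_coe]
  rw [algebraMap_bad_x]
  refine Ideal.mul_mem_right _ _ ?_
  rw [xBad_zero, mem_max_bad]
  exact eT_mem_badPrime hx

theorem isUnit_Y_zero : IsUnit (algebraMap (ERees x) (BadRing hx) (eY x 0)) := by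
  by_contra h
  exact eY_zero_notMem_badPrime hx ((mem_max_bad hx).1 h)

/-- The map from polynomials over the residue field. -/
noncomputable def badσ : Polynomial (ResidueField R) →+* ResidueField (BadRing hx) :=
  Polynomial.eval₂RingHom (ResidueField.map (algebraMap R (BadRing hx)))
    (residue _ (algebraMap (ERees x) (BadRing hx) (eY x 0)))

theorem residue_bad (z : ERees x) : residue _ (algebraMap (ERees x) (BadRing hx) z) =
    badσ hx (badHom (ResidueField R) r (eRes hx z)) := by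
  have h : (residue _).comp (algebraMap (ERees x) (BadRing hx)) =
      (badσ hx).comp ((badHom (ResidueField R) r).comp (eRes hx)) := by
    refine eRees_hom_ext (fun c => ?_) ?_ (fun i => ?_)
    · rw [RingHom.comp_apply, RingHom.comp_apply, RingHom.comp_apply, eRes_algebraMap, badHom_C,
        ← algebraMap_bad]
      simp [badσ]
    · rw [RingHom.comp_apply, RingHom.comp_apply, RingHom.comp_apply, eRes_eT, map_zero, map_zero,
        residue_eq_zero_iff, mem_max_bad]
      exact eT_mem_badPrime hx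
    · rw [RingHom.comp_apply, RingHom.comp_apply, RingHom.comp_apply, eRes_eY]
      refine Fin.cases ?_ (fun i => ?_) i
      · rw [badHom_X_zero]
        simp [badσ]
      · rw [badHom_X_succ, map_zero, residue_eq_zero_iff, mem_max_bad]
        exact eY_succ_mem_badPrime hx i
  exact RingHom.congr_fun h z

theorem bad_surj (a : ResidueField (BadRing hx)) :
    ∃ g s : Polynomial (ResidueField R), badσ hx s ≠ 0 ∧ a * badσ hx s = badσ hx g := by
  obtain ⟨a, rfl⟩ := residue_surjective a
  obtain ⟨⟨z, s⟩, hzs⟩ := IsLocalization.surj (badPrime hx).primeCompl a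
  refine ⟨badHom (ResidueField R) r (eRes hx z), badHom (ResidueField R) r (eRes hx s), ?_, ?_⟩
  · rw [← residue_bad, Ne, residue_eq_zero_iff, mem_max_bad]
    exact s.2
  · rw [← residue_bad, ← residue_bad, ← map_mul, hzs]

/-- The condition on valuations passes to the bad point. -/
theorem VCond.bad {I : Ideal R} {h : ℕ} (hV : VCond (x 0) (fun i : Fin r => x i.succ) I h)
    (J : Ideal (BadRing hx)) (hJ : ∀ a ∈ I, algebraMap R (BadRing hx) a ∈ J) :
    VCond (xBad hx 0) (fun i : Fin r => xBad hx i.succ) J h := by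
  intro O _ _ _ φ' _ j z' _ hJker hy hxj hdiv hz hh
  let φ : R →+* O := φ'.comp (algebraMap R (BadRing hx))
  have hφ : IsLocalHom φ := RingHom.isLocalHom_comp _ _
  let κ : ResidueField R →+* ResidueField (BadRing hx) :=
    ResidueField.map (algebraMap R (BadRing hx))
  let z : Ideal (MvPolynomial (Fin r) (ResidueField R)) := z'.comap (MvPolynomial.map κ)
  have hzp : z.IsPrime := Ideal.IsPrime.comap _
  have hle : z.height ≤ z'.height := by
    let _ : Algebra (ResidueField R) (ResidueField (BadRing hx)) := κ.toAlgebra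
    exact height_comap_hom (MvPolynomial.map κ) (flat_map_mvPolynomial (Fin r)) z'
  have hφx : ∀ i : Fin (r + 1), φ (x i) = φ' (xBad hx 0) *
      φ' (algebraMap (ERees x) (BadRing hx) (eY x i)) := fun i => by
    change φ' (algebraMap R _ (x i)) = _
    rw [algebraMap_bad_x, map_mul]
  have hφs : ∀ i : Fin r, φ (x i.succ) = φ' (xBad hx 0) * φ' (xBad hx i.succ) := fun i =>
    hφx i.succ
  obtain ⟨u, hu⟩ := (isUnit_Y_zero hx).map φ'
  obtain ⟨c, hc⟩ := hV O φ j z (fun a ha => hJker (hJ a ha)) (by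
      rw [hφx, ← hu]
      exact mul_ne_zero hy u.ne_zero) (by
      rw [hφs]
      exact mul_ne_zero hy hxj) (fun i => by
      rw [hφs, hφs]
      exact mul_dvd_mul_left _ (hdiv i)) (by
      intro n F hF
      have h1 : F.map (residue R) ∈ z ↔
          (F.map (algebraMap R (BadRing hx))).map (residue (BadRing hx)) ∈ z' := by
        change MvPolynomial.map κ (F.map (residue R)) ∈ z' ↔ _
        rw [MvPolynomial.map_map, MvPolynomial.map_map]
        have : κ.comp (residue R) = (residue (BadRing hx)).comp (algebraMap R (BadRing hx)) := by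
          ext a
          exact ResidueField.map_residue _ _
        rw [this]
      rw [h1, hz n _ (hF.map _)]
      have h2 : φ (MvPolynomial.eval (fun i : Fin r => x i.succ) F) = φ' (xBad hx 0) ^ n *
          φ' (MvPolynomial.eval (fun i : Fin r => xBad hx i.succ)
            (F.map (algebraMap R (BadRing hx)))) := by
        change φ' (algebraMap R _ (MvPolynomial.eval _ F)) = _
        rw [← map_pow, ← map_mul]
        congr 1
        rw [MvPolynomial.eval_map, ← MvPolynomial.aeval_def,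
          ← aeval_mul_of_isHomogeneous _ _ F n hF]
        refine (MvPolynomial.aeval_algebraMap_apply (BadRing hx)
          (fun i : Fin r => x i.succ) F).symm.trans ?_
        congr 2
        funext i
        exact algebraMap_bad_x hx i.succ
      rw [h2, hφs, mul_pow]
      constructor
      · rintro ⟨m, hm, h3⟩
        exact ⟨m, hm, by rw [h3, mul_assoc]⟩
      · rintro ⟨m, hm, h3⟩
        rw [mul_assoc] at h3
        exact ⟨m, hm, mul_left_cancel₀ (pow_ne_zero n hy) h3⟩)
    ((add_le_add_left hle 1).trans hh)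
  have hym : φ' (xBad hx 0) ∈ maximalIdeal O := by
    have h1 : xBad hx 0 ∈ maximalIdeal (BadRing hx) := by
      rw [xBad_zero, mem_max_bad]
      exact eT_mem_badPrime hx
    have hloc : IsLocalHom φ' := inferInstance
    have h2 := ((IsLocalRing.local_hom_TFAE φ').out 0 2).mp hloc
    exact h2 (Ideal.mem_map_of_mem _ h1)
  rw [hφs, hφx, ← hu] at hc
  rcases c with _ | c
  · exfalso
    rw [pow_zero] at hc
    have h1 : IsUnit (φ' (xBad hx 0) * φ' (xBad hx j.succ)) := by
      obtain ⟨w, hw⟩ := hc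
      exact IsUnit.of_mul_eq_one _ hw
    exact ((mem_maximalIdeal _).1 hym) (isUnit_of_mul_isUnit_left h1)
  · refine ⟨c, ?_⟩
    obtain ⟨w, hw⟩ := hc
    refine ⟨w * (u⁻¹) ^ (c + 1), ?_⟩
    have hvv : (u : O) * ((u⁻¹ : Oˣ) : O) = 1 := Units.mul_inv u
    apply mul_left_cancel₀ hy
    push_cast
    calc φ' (xBad hx 0) * (φ' (xBad hx j.succ) * ((w : O) * ((u⁻¹ : Oˣ) : O) ^ (c + 1)))
        = (φ' (xBad hx 0) * φ' (xBad hx j.succ) * (w : O)) * ((u⁻¹ : Oˣ) : O) ^ (c + 1) := by ring
      _ = φ' (xBad hx 0) * (φ' (xBad hx 0)) ^ c * ((u : O) * ((u⁻¹ : Oˣ) : O)) ^ (c + 1) := by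
        rw [hw]
        ring
      _ = _ := by rw [hvv, one_pow, mul_one]

end ring

end Vale.Agent.P177
end

section

/-!
Adjoining a root of a regular parameter.
-/

namespace Vale.Agent.P177

open IsLocalRing Function RingTheory.Sequence

universe u

section ring

variable {A : Type u} [CommRing A] (w : ℕ) (y : A)

/-- Adjoining a root of order `w` of `y`. -/
abbrev Root : Type u := AdjoinRoot (Polynomial.X ^ w - Polynomial.C y : Polynomial A)

/-- The root. -/
noncomputable def rt : Root w y := AdjoinRoot.root _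

theorem rt_pow : rt w y ^ w = algebraMap A (Root w y) y := by
  have h := AdjoinRoot.eval₂_root (Polynomial.X ^ w - Polynomial.C y : Polynomial A)
  rw [Polynomial.eval₂_sub, Polynomial.eval₂_X_pow, Polynomial.eval₂_C, sub_eq_zero] at h
  exact h

theorem root_mem (z : Root w y) : ∃ a c, z = algebraMap A (Root w y) a + rt w y * c := by
  induction z using AdjoinRoot.induction_on with
  | ih p =>
    refine ⟨p.coeff 0, AdjoinRoot.mk _ p.divX, ?_⟩
    conv_lhs => rw [← Polynomial.divX_mul_X_add p]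
    rw [map_add, map_mul, AdjoinRoot.mk_X, AdjoinRoot.mk_C, add_comm, mul_comm]
    rfl

variable {w y}

theorem root_finite (hw : w ≠ 0) : Module.Finite A (Root w y) :=
  (Polynomial.monic_X_pow_sub_C y hw).finite_adjoinRoot

theorem root_free (hw : w ≠ 0) : Module.Free A (Root w y) :=
  (Polynomial.monic_X_pow_sub_C y hw).free_adjoinRoot

theorem root_noetherian [IsNoetherianRing A] (hw : w ≠ 0) : IsNoetherianRing (Root w y) := by
  have := root_finite (y := y) hw
  have : IsNoetherian A (Root w y) := isNoetherian_of_isNoetherianRing_of_finite A _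
  exact isNoetherian_of_tower A this

theorem root_local [IsLocalRing A] (hw : w ≠ 0) (hy : y ∈ maximalIdeal A) :
    ∃ _ : IsLocalRing (Root w y), Ideal.span {rt w y} ⊔
      (maximalIdeal A).map (algebraMap A (Root w y)) = maximalIdeal (Root w y) := by
  let n : Ideal (Root w y) := Ideal.span {rt w y} ⊔
      (maximalIdeal A).map (algebraMap A (Root w y))
  let ε : Root w y →+* ResidueField A := AdjoinRoot.lift (residue A) 0 (by
    rw [Polynomial.eval₂_sub, Polynomial.eval₂_X_pow, Polynomial.eval₂_C, zero_pow hw,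
      (residue_eq_zero_iff y).2 hy, sub_zero])
  have hε1 : ∀ a, ε (algebraMap A _ a) = residue A a := fun a => AdjoinRoot.lift_of _
  have hε2 : ε (rt w y) = 0 := AdjoinRoot.lift_root _
  have hker : RingHom.ker ε = n := by
    refine le_antisymm ?_ ?_
    · intro z hz
      obtain ⟨a, c, rfl⟩ := root_mem w y z
      rw [RingHom.mem_ker, map_add, map_mul, hε2, zero_mul, add_zero, hε1,
        residue_eq_zero_iff] at hz
      exact Ideal.add_mem _ (Ideal.mem_sup_right (Ideal.mem_map_of_mem _ hz))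
        (Ideal.mem_sup_left (Ideal.mul_mem_right _ _ (Ideal.mem_span_singleton_self _)))
    · refine sup_le ?_ ?_
      · rw [Ideal.span_singleton_le_iff_mem]
        exact hε2
      · rw [Ideal.map_le_iff_le_comap]
        intro a ha
        change ε (algebraMap A _ a) = 0
        rw [hε1, residue_eq_zero_iff]
        exact ha
  have hmax : n.IsMaximal := by
    rw [← hker]
    refine RingHom.ker_isMaximal_of_surjective ε fun a => ?_
    obtain ⟨a, rfl⟩ := residue_surjective a
    exact ⟨_, hε1 a⟩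
  have hfin := root_finite (y := y) hw
  have h1 : IsLocalRing (Root w y) := IsLocalRing.of_unique_max_ideal ⟨n, hmax, fun M hM => by
    have h2 : (M.comap (algebraMap A (Root w y))).IsMaximal :=
      Ideal.isMaximal_comap_of_isIntegral_of_isMaximal M
    have h3 : M.comap (algebraMap A (Root w y)) = maximalIdeal A := IsLocalRing.eq_maximalIdeal h2
    have h4 : n ≤ M := by
      refine sup_le ?_ ?_
      · rw [Ideal.span_singleton_le_iff_mem]
        refine hM.isPrime.mem_of_pow_mem w ?_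
        rw [rt_pow, ← Ideal.mem_comap, h3]
        exact hy
      · rw [Ideal.map_le_iff_le_comap, h3]
    exact (hmax.eq_of_le hM.ne_top h4).symm⟩
  exact ⟨h1, IsLocalRing.eq_maximalIdeal hmax⟩

end ring

theorem ofList_ofFn {B : Type u} [CommRing B] {n : ℕ} (f : Fin n → B) :
    Ideal.ofList (List.ofFn f) = Ideal.span (Set.range f) := by
  rw [Ideal.ofList]
  congr 1
  ext z
  rw [Set.mem_ofPred_eq, List.mem_ofFn']

section regular

variable {A : Type u} [CommRing A] {r : ℕ} (w : ℕ) (x : Fin (r + 1) → A)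

/-- The parameters after adjoining the root. -/
noncomputable def xRoot : Fin (r + 1) → Root w (x 0) :=
  Fin.cons (rt w (x 0)) (fun i => algebraMap A _ (x i.succ))

theorem xRoot_zero : xRoot w x 0 = rt w (x 0) := rfl

theorem span_xRoot [IsLocalRing A] (hx : Ideal.span (Set.range x) = maximalIdeal A)
    (hw : w ≠ 0) : Ideal.span (Set.range (xRoot w x)) = Ideal.span {rt w (x 0)} ⊔
      (maximalIdeal A).map (algebraMap A (Root w (x 0))) := by
  rw [← span_tail, xRoot_zero, ← hx, ← span_tail x, Ideal.map_sup, Ideal.map_span, Ideal.map_span,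
    Set.image_singleton, ← Set.range_comp, ← sup_assoc]
  congr 1
  refine (sup_eq_left.2 ?_).symm
  rw [Ideal.span_singleton_le_span_singleton, ← rt_pow]
  exact dvd_pow_self _ hw

theorem exists_regular_root [IsRegularLocalRing A] (hw : w ≠ 0)
    (hd : ringKrullDim A = ((r + 1 : ℕ) : WithBot ℕ∞))
    (hx : Ideal.span (Set.range x) = maximalIdeal A) :
    ∃ _ : IsRegularLocalRing (Root w (x 0)),
      ringKrullDim (Root w (x 0)) = ((r + 1 : ℕ) : WithBot ℕ∞) ∧
      Ideal.span (Set.range (xRoot w x)) = maximalIdeal (Root w (x 0)) ∧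
      IsLocalHom (algebraMap A (Root w (x 0))) := by
  have hx0 : x 0 ∈ maximalIdeal A := by
    rw [← hx]
    exact Ideal.subset_span ⟨0, rfl⟩
  obtain ⟨hloc, hm⟩ := root_local hw hx0
  have hN : IsNoetherianRing (Root w (x 0)) := root_noetherian hw
  have hdom : IsDomain A := regular_isDomain A
  have hfin := root_finite (y := x 0) hw
  have hinj : Injective (algebraMap A (Root w (x 0))) :=
    AdjoinRoot.of.injective_of_degree_ne_zero (by
      rw [Polynomial.degree_X_pow_sub_C (Nat.pos_of_ne_zero hw)]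
      exact_mod_cast hw)
  have hdim : ringKrullDim A ≤ ringKrullDim (Root w (x 0)) := ringKrullDim_le_of_integral hinj
  have hs : Ideal.span (Set.range (xRoot w x)) = maximalIdeal (Root w (x 0)) := by
    rw [span_xRoot w x hx hw, hm]
  have hl : Ideal.ofList (List.ofFn (xRoot w x)) = maximalIdeal (Root w (x 0)) := by
    rw [ofList_ofFn, hs]
  obtain ⟨hreg, hdim'⟩ := isRegularLocalRing_of_list (List.ofFn (xRoot w x)) hl (by
    rw [List.length_ofFn, ← hd]
    exact hdim)
  refine ⟨hreg, ?_, hs, ?_⟩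
  · rw [hdim', List.length_ofFn]
  · refine ((IsLocalRing.local_hom_TFAE (algebraMap A (Root w (x 0)))).out 0 2).2 ?_
    rw [← hm]
    exact le_sup_right

end regular

section maps

variable {A B : Type u} [CommRing A] [CommRing B] (j : A →+* B) (w : ℕ) {y : A} {y' : B}
  (h : j y = y')

/-- The map induced by `j`. -/
noncomputable def jRoot : Root w y →+* Root w y' :=
  AdjoinRoot.lift ((algebraMap B (Root w y')).comp j) (rt w y') (by
    rw [Polynomial.eval₂_sub, Polynomial.eval₂_X_pow, Polynomial.eval₂_C, rt_pow,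
      RingHom.comp_apply, h, sub_self])

theorem jRoot_algebraMap (a : A) : jRoot j w h (algebraMap A _ a) = algebraMap B _ (j a) :=
  AdjoinRoot.lift_of _

theorem jRoot_rt : jRoot j w h (rt w y) = rt w y' := AdjoinRoot.lift_root _

theorem jRoot_comp : (jRoot j w h).comp (algebraMap A (Root w y)) =
    (algebraMap B (Root w y')).comp j := RingHom.ext fun a => jRoot_algebraMap j w h a

end maps

theorem flat_of_params {A B : Type u} [CommRing A] [CommRing B] [IsRegularLocalRing A]
    [IsRegularLocalRing B] (j : A →+* B) [IsLocalHom j] (d : ℕ) (hA : ringKrullDim A = d)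
    (hB : ringKrullDim B = d) (x : Fin d → A) (hx : Ideal.span (Set.range x) = maximalIdeal A)
    (hm : (maximalIdeal A).map j = maximalIdeal B) : j.Flat := by
  let _ : Algebra A B := j.toAlgebra
  have hl : IsLocalHom (algebraMap A B) := ‹IsLocalHom j›
  rw [← RingHom.algebraMap_toAlgebra j, RingHom.flat_algebraMap_iff]
  have h1 : Ideal.ofList (List.ofFn x) = maximalIdeal A := by
    rw [ofList_ofFn, hx]
  have h2 : Ideal.ofList ((List.ofFn x).map (algebraMap A B)) = maximalIdeal B := by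
    rw [← Ideal.map_ofList, h1]
    exact hm
  refine flat_of_weaklyRegular _ h1
    (isRegular_of_ofList_eq_maximalIdeal A _ h1 (by rw [hA, List.length_ofFn])).toIsWeaklyRegular
    (isRegular_of_ofList_eq_maximalIdeal B _ h2
      (by rw [hB, List.length_map, List.length_ofFn])).toIsWeaklyRegular

section side

variable {R R' W W' : Type u} [CommRing R] [CommRing R'] [CommRing W] [CommRing W'] [Algebra R W]
  [Algebra R' W'] [Algebra R R'] [Algebra W W'] [Algebra R W'] [IsScalarTower R W W']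
  [IsScalarTower R R' W']

open TensorProduct

theorem exists_baseChange_tower (N : Type u) [AddCommGroup N] [Module R N] (X : Type u)
    [AddCommGroup X] [Module W' X] [Module W X] [IsScalarTower W W' X]
    (e : X ≃ₗ[W'] W' ⊗[R'] (R' ⊗[R] N)) :
    ∃ φ : (W ⊗[R] N) →ₗ[W] X, IsBaseChange W' φ := by
  let _ : Module R' X := Module.compHom X (algebraMap R' W')
  let _ : Module R X := Module.compHom X (algebraMap R W')
  have t1 : IsScalarTower R' W' X := ⟨fun a b c => by
    rw [Algebra.smul_def, mul_smul]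
    rfl⟩
  have t2 : IsScalarTower R W' X := ⟨fun a b c => by
    rw [Algebra.smul_def, mul_smul]
    rfl⟩
  have t3 : IsScalarTower R R' X := ⟨fun a b c => by
    change algebraMap R' W' (a • b) • c = algebraMap R W' a • (algebraMap R' W' b • c)
    rw [Algebra.smul_def, map_mul, mul_smul, ← IsScalarTower.algebraMap_apply]⟩
  have t4 : IsScalarTower R W X := ⟨fun a b c => by
    rw [Algebra.smul_def, mul_smul, ← algebraMap_smul W' (algebraMap R W a) (b • c),
      ← IsScalarTower.algebraMap_apply]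
    rfl⟩
  let f₁ : N →ₗ[R] W ⊗[R] N := TensorProduct.mk R W N 1
  have hf₁ : IsBaseChange W f₁ := TensorProduct.isBaseChange R N W
  let g : N →ₗ[R] R' ⊗[R] N := TensorProduct.mk R R' N 1
  have hg : IsBaseChange R' g := TensorProduct.isBaseChange R N R'
  let g₀ : (R' ⊗[R] N) →ₗ[R'] W' ⊗[R'] (R' ⊗[R] N) := TensorProduct.mk R' W' (R' ⊗[R] N) 1
  have hg₀ : IsBaseChange W' g₀ := TensorProduct.isBaseChange R' (R' ⊗[R] N) W'
  let g' : (R' ⊗[R] N) →ₗ[R'] X := (e.symm.toLinearMap.restrictScalars R').comp g₀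
  have hg' : IsBaseChange W' g' :=
    (IsBaseChange.iff_of_equiv_comm (LinearEquiv.refl R' (R' ⊗[R] N)) e.symm
      (LinearMap.ext fun z => rfl)).1 hg₀
  have hc : IsBaseChange W' ((g'.restrictScalars R).comp g) := hg.comp hg'
  let φ : (W ⊗[R] N) →ₗ[W] X := hf₁.lift ((g'.restrictScalars R).comp g)
  refine ⟨φ, IsBaseChange.of_comp hf₁ ?_⟩
  have : (φ.restrictScalars R).comp f₁ = (g'.restrictScalars R).comp g := hf₁.lift_comp _
  rw [this]
  exact hc

end side

end Vale.Agent.P177
end

section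

/-!
The blow-up step for ring homomorphisms.
-/

namespace Vale.Agent.P177

open IsLocalRing Function TensorProduct

universe u

/-- Nonnegativity and positivity of the Euler characteristic along two maps. -/
def EulAlong {R₁ R₂ W : Type u} [CommRing R₁] [CommRing R₂] [CommRing W] (j₁ : R₁ →+* W)
    (j₂ : R₂ →+* W) (d : ℕ) (N M : Type u) [AddCommGroup N] [Module R₁ N] [AddCommGroup M]
    [Module R₂ M] : Prop :=
  let _ : Algebra R₁ W := j₁.toAlgebra
  let _ : Algebra R₂ W := j₂.toAlgebra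
  IsFiniteLength W ((W ⊗[R₁] N) ⊗[W] (W ⊗[R₂] M)) →
    0 ≤ eulerTor W (d + 1) (W ⊗[R₁] N) (W ⊗[R₂] M) ∧
    (∀ e g : ℕ, (e : WithBot ℕ∞) ≤ Module.supportDim R₁ N →
      (g : WithBot ℕ∞) ≤ Module.supportDim R₂ M → d ≤ e + g →
      0 < eulerTor W (d + 1) (W ⊗[R₁] N) (W ⊗[R₂] M))

/-- The data at the bad point. -/
structure BadData {R₁ R₂ A : Type u} [CommRing R₁] [CommRing R₂] [CommRing A]
    [IsRegularLocalRing R₁] [IsRegularLocalRing R₂] [IsRegularLocalRing A]
    (j₁ : R₁ →+* A) (j₂ : R₂ →+* A) {r : ℕ} {x₁ : Fin (r + 1) → R₁} {x₂ : Fin (r + 1) → R₂}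
    (hx₁ : Ideal.span (Set.range x₁) = maximalIdeal R₁)
    (hx₂ : Ideal.span (Set.range x₂) = maximalIdeal R₂) (θ : Fin r → Fin r → A)
    (Ω : Type u) [CommRing Ω] [IsRegularLocalRing Ω] where
  a : A →+* Ω
  a_local : IsLocalHom a
  k₁ : BadRing hx₁ →+* Ω
  k₂ : BadRing hx₂ →+* Ω
  l₁ : IsLocalHom k₁
  l₂ : IsLocalHom k₂
  f₁ : k₁.Flat
  f₂ : k₂.Flat
  dimΩ : ringKrullDim Ω = ((r + 1 : ℕ) : WithBot ℕ∞)
  comp₁ : ∀ c, k₁ (algebraMap R₁ _ c) = a (j₁ c)
  comp₂ : ∀ c, k₂ (algebraMap R₂ _ c) = a (j₂ c)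
  hT : k₁ (xBad hx₁ 0) = k₂ (xBad hx₂ 0)
  hY : k₁ (algebraMap (ERees x₁) _ (eY x₁ 0)) = k₂ (algebraMap (ERees x₂) _ (eY x₂ 0))
  hθ : ∀ i, k₂ (xBad hx₂ i.succ) = ∑ l : Fin r, a (θ i l) * k₁ (xBad hx₁ l.succ)
  m₁ : (maximalIdeal (BadRing hx₁)).map k₁ = maximalIdeal Ω
  m₂ : (maximalIdeal (BadRing hx₂)).map k₂ = maximalIdeal Ω
  inj : Injective (Polynomial.eval₂RingHom (ResidueField.map a)
    (residue Ω (k₁ (algebraMap (ERees x₁) _ (eY x₁ 0)))))

/-- The blow-up step for ring homomorphisms. -/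
theorem step_along {R₁ R₂ A : Type u} [CommRing R₁] [CommRing R₂] [CommRing A]
    [IsRegularLocalRing R₁] [IsRegularLocalRing R₂] [IsRegularLocalRing A]
    (j₁ : R₁ →+* A) (j₂ : R₂ →+* A) [hl₁ : IsLocalHom j₁] [hl₂ : IsLocalHom j₂]
    (hj₁ : j₁.Flat) (hj₂ : j₂.Flat) {r : ℕ}
    (hd₁ : ringKrullDim R₁ = ((r + 1 : ℕ) : WithBot ℕ∞))
    (hd₂ : ringKrullDim R₂ = ((r + 1 : ℕ) : WithBot ℕ∞))
    (hd : ringKrullDim A = ((r + 1 : ℕ) : WithBot ℕ∞))
    {x₁ : Fin (r + 1) → R₁} {x₂ : Fin (r + 1) → R₂}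
    (hx₁ : Ideal.span (Set.range x₁) = maximalIdeal R₁)
    (hx₂ : Ideal.span (Set.range x₂) = maximalIdeal R₂)
    (hxA : (maximalIdeal R₁).map j₁ = maximalIdeal A)
    (hyA : (maximalIdeal R₂).map j₂ = maximalIdeal A)
    (h0 : j₁ (x₁ 0) = j₂ (x₂ 0)) (θ : Fin r → Fin r → A)
    (hθ : ∀ i, j₂ (x₂ i.succ) = ∑ l, θ i l * j₁ (x₁ l.succ))
    (M N : Type u) [AddCommGroup M] [Module R₁ M] [Module.Finite R₁ M]
    [AddCommGroup N] [Module R₂ N] [Module.Finite R₂ N]
    (hK : ∀ (z : Ideal (MvPolynomial (Fin (r + 1)) (ResidueField A))) [z.IsPrime],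
      (∀ f ∈ z, ∀ n, MvPolynomial.homogeneousComponent n f ∈ z) →
      MvPolynomial.X 0 ∉ z → (∃ i : Fin r, MvPolynomial.X i.succ ∉ z) →
      (z.comap (jFun (ResidueField.map j₁)
          (fun i l => if i = l then (1 : ResidueField A) else 0))).height +
        (z.comap (jFun (ResidueField.map j₂) (extM fun i l => residue A (θ i l)))).height ≤
          z.height + 1)
    (hN : ∀ (z : Ideal (MvPolynomial (Fin (r + 1)) (ResidueField A))) [z.IsPrime],
      (∀ f ∈ z, ∀ n, MvPolynomial.homogeneousComponent n f ∈ z) →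
      MvPolynomial.X 0 ∈ z → (∃ i, MvPolynomial.X i ∉ z) →
      InForm x₁ (Module.annihilator R₁ M) (z.comap (jFun (ResidueField.map j₁)
          (fun i l => if i = l then (1 : ResidueField A) else 0))) →
      InForm x₂ (Module.annihilator R₂ N) (z.comap (jFun (ResidueField.map j₂)
        (extM fun i l => residue A (θ i l)))) → False)
    (hbad : ∀ (Ω : Type u) [CommRing Ω] [IsRegularLocalRing Ω]
      (D : BadData j₁ j₂ hx₁ hx₂ θ Ω),
      NonnegAlong D.k₁ D.k₂ (r + 1 + 1)
        (St (xBad hx₁ 0) (BadRing hx₁ ⊗[R₁] M)) (St (xBad hx₂ 0) (BadRing hx₂ ⊗[R₂] N))) :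
    EulAlong j₁ j₂ (r + 1) M N := by
  let _ : Algebra R₁ A := j₁.toAlgebra
  let _ : Algebra R₂ A := j₂.toAlgebra
  intro hlen
  have hff₁ : Module.Flat R₁ A := RingHom.flat_algebraMap_iff.1 hj₁
  have hff₂ : Module.Flat R₂ A := RingHom.flat_algebraMap_iff.1 hj₂
  have hll₁ : IsLocalHom (algebraMap R₁ A) := hl₁
  have hll₂ : IsLocalHom (algebraMap R₂ A) := hl₂
  let x : Fin (r + 1) → A := fun l => algebraMap R₁ A (x₁ l)
  have hx : Ideal.span (Set.range x) = maximalIdeal A := by
    rw [← hxA, ← hx₁, Ideal.map_span, ← Set.range_comp]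
    rfl
  have hy : Ideal.span (Set.range fun l => algebraMap R₂ A (x₂ l)) = maximalIdeal A := by
    rw [← hyA, ← hx₂, Ideal.map_span, ← Set.range_comp]
    rfl
  let θ₁ : Fin (r + 1) → Fin (r + 1) → A := fun i l => if i = l then 1 else 0
  have hθ₁ : ∀ i, algebraMap R₁ A (x₁ i) = ∑ l, θ₁ i l * x l := fun i =>
    (sum_ite_mul i x).symm
  let θ₂ : Fin (r + 1) → Fin (r + 1) → A := extM θ
  have hθ₂ : ∀ i, algebraMap R₂ A (x₂ i) = ∑ l, θ₂ i l * x l := by
    intro i
    rw [Fin.sum_univ_succ]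
    refine Fin.cases ?_ (fun i => ?_) i
    · simp only [θ₂, extM_zero_zero, extM_zero_succ, one_mul, zero_mul, Finset.sum_const_zero,
        add_zero]
      exact h0.symm
    · simp only [θ₂, extM_succ_zero, extM_succ_succ, zero_mul, zero_add]
      exact hθ i
  have hone : ∀ i l, ∑ m, θ₁ i m * θ₁ m l = if i = l then 1 else 0 := fun i l =>
    sum_ite_mul i fun m => θ₁ m l
  have hf₁ : (eMap θ₁ hθ₁).Flat := eMap_flat θ₁ hθ₁ θ₁ hθ₁ hone hone
  obtain ⟨θ', h1, h2, h3⟩ := exists_inverse hd hx hy θ₂ hθ₂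
  have hf₂ : (eMap θ₂ hθ₂).Flat := eMap_flat θ₂ hθ₂ θ' h1 h2 h3
  have hJ₁ : jMap R₁ θ₁ = jFun (ResidueField.map j₁)
      (fun i l => if i = l then (1 : ResidueField A) else 0) := by
    apply MvPolynomial.ringHom_ext
    · intro c
      rw [jMap_C, jFun_C]
      rfl
    · intro i
      rw [jMap_X, jFun_X]
      refine Finset.sum_congr rfl fun l _ => ?_
      congr 2
      simp only [θ₁]
      split_ifs <;> simp
  have hJ₂ : jMap R₂ θ₂ = jFun (ResidueField.map j₂) (extM fun i l => residue A (θ i l)) := by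
    apply MvPolynomial.ringHom_ext
    · intro c
      rw [jMap_C, jFun_C]
      rfl
    · intro i
      rw [jMap_X, jFun_X]
      refine Finset.sum_congr rfl fun l _ => ?_
      congr 2
      refine Fin.cases ?_ (fun i => ?_) i
      · refine Fin.cases ?_ (fun l => ?_) l
        · simp [θ₂]
        · simp [θ₂]
      · refine Fin.cases ?_ (fun l => ?_) l
        · simp [θ₂]
        · simp [θ₂]
  refine step_pos hd₁ hd₂ hd hx₁ hx₂ hx hxA hyA θ₁ θ₂ hθ₁ hθ₂ (by simp [θ₁])
    (fun i => by simp [θ₁, Fin.succ_ne_zero]) rfl (fun i => rfl) hf₁ hf₂ M N ?_ ?_ ?_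
    (fp_of_length (R₁ := R₁) (R₂ := R₂) (T := A) M N hlen)
  · intro z hz hhom hz0 hX
    rw [hJ₁, hJ₂]
    exact hK z hhom hz0 hX
  · intro z hz hhom hz0 hX
    rw [hJ₁, hJ₂]
    exact hN z hhom hz0 hX
  · intro Ω _ _ ρ hρf hΩ hcomap hmap k₁ k₂ hk₁ hk₂ hkf₁ hkf₂ hσ₁ hσ₂
    have e₁ : ∀ i, k₁ (algebraMap (ERees x₁) _ (eY x₁ i)) = ρ (eY x i) := by
      intro i
      rw [hσ₁, eMap_eY]
      congr 1
      rw [Finset.sum_eq_single i]
      · simp [θ₁]
      · intro l _ hl
        simp [θ₁, Ne.symm hl]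
      · simp
    have e₂ : ∀ i, k₂ (algebraMap (ERees x₂) _ (eY x₂ i)) =
        ∑ l, ρ (algebraMap A _ (θ₂ i l)) * ρ (eY x l) := by
      intro i
      rw [hσ₂, eMap_eY, map_sum]
      exact Finset.sum_congr rfl fun l _ => map_mul _ _ _
    let a : A →+* Ω := ρ.comp (algebraMap A (ERees x))
    have hcomap' : (maximalIdeal Ω).comap a = maximalIdeal A := by
      rw [← Ideal.comap_comap, hcomap]
      ext c
      change eRes hx (algebraMap A _ c) ∈ zBad (ResidueField A) r ↔ _
      rw [eRes_algebraMap, mem_zBad, badHom_C, Polynomial.C_eq_zero, residue_eq_zero_iff]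
    have hal : IsLocalHom a := ((IsLocalRing.local_hom_TFAE a).out 0 4).mpr hcomap'
    have hmΩ : Ideal.span {ρ (eT x)} ⊔ Ideal.span (Set.range fun i : Fin r => ρ (eY x i.succ)) =
        maximalIdeal Ω := by
      rw [← hmap, badPrime_eq, Ideal.map_sup, Ideal.map_span, Ideal.map_span,
        Set.image_singleton, ← Set.range_comp]
      rfl
    have hT₁ : k₁ (xBad hx₁ 0) = ρ (eT x) := by rw [xBad_zero, hσ₁, eMap_eT]
    have hT₂ : k₂ (xBad hx₂ 0) = ρ (eT x) := by rw [xBad_zero, hσ₂, eMap_eT]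
    have hY₂ : k₂ (algebraMap (ERees x₂) _ (eY x₂ 0)) = ρ (eY x 0) := by
      rw [e₂, Fin.sum_univ_succ]
      simp [θ₂]
    have hS₂ : ∀ i : Fin r, k₂ (xBad hx₂ i.succ) = ∑ l : Fin r, a (θ i l) * ρ (eY x l.succ) := by
      intro i
      rw [xBad_succ, e₂, Fin.sum_univ_succ]
      simp only [θ₂, extM_succ_zero, extM_succ_succ, map_zero, zero_mul, zero_add]
      rfl
    refine hbad Ω ⟨a, hal, k₁, k₂, hk₁, hk₂, hkf₁, hkf₂, hΩ, ?_, ?_, ?_, ?_, ?_, ?_, ?_, ?_⟩
    · intro c
      rw [algebraMap_bad, hσ₁, eMap_algebraMap]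
      rfl
    · intro c
      rw [algebraMap_bad, hσ₂, eMap_algebraMap]
      rfl
    · rw [hT₁, hT₂]
    · rw [e₁, hY₂]
    · intro i
      rw [hS₂]
      refine Finset.sum_congr rfl fun l _ => ?_
      rw [xBad_succ, e₁]
    · rw [← span_xBad, Ideal.map_span, ← Set.range_comp, ← span_tail]
      rw [← hmΩ]
      have e₃ : (k₁ ∘ xBad hx₁) 0 = ρ (eT x) := hT₁
      have e₄ : (fun i : Fin r => (k₁ ∘ xBad hx₁) i.succ) = fun i => ρ (eY x i.succ) := by
        funext i
        change k₁ (xBad hx₁ i.succ) = _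
        rw [xBad_succ, e₁]
      rw [e₃, e₄]
    · refine le_antisymm (((IsLocalRing.local_hom_TFAE k₂).out 0 2).mp hk₂) ?_
      rw [← hmΩ]
      have hxm : ∀ i, k₂ (xBad hx₂ i) ∈ (maximalIdeal (BadRing hx₂)).map k₂ := fun i =>
        Ideal.mem_map_of_mem _ (by
          rw [← span_xBad]
          exact Ideal.subset_span ⟨i, rfl⟩)
      refine sup_le ?_ ?_
      · rw [Ideal.span_singleton_le_iff_mem, ← hT₂]
        exact hxm 0
      · rw [Ideal.span_le]
        rintro _ ⟨i, rfl⟩
        simp only [SetLike.mem_coe]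
        have hz0 : θ' i.succ 0 = 0 := by
          have := h3 i.succ 0
          rw [Fin.sum_univ_succ] at this
          simpa [θ₂, Fin.succ_ne_zero] using this
        have h4 : ρ (eY x i.succ) = ∑ m : Fin r, a (θ' i.succ m.succ) * k₂ (xBad hx₂ m.succ) := by
          have h5 : ρ (eY x i.succ) = ∑ l, (if i.succ = l then (1 : Ω) else 0) * ρ (eY x l) := by
            rw [Finset.sum_eq_single i.succ]
            · simp
            · intro l _ hl
              simp [Ne.symm hl]
            · simp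
          have h6 : ∀ l, (if i.succ = l then (1 : Ω) else 0) =
              ∑ m, a (θ' i.succ m) * a (θ₂ m l) := by
            intro l
            have h7 := congrArg a (h3 i.succ l)
            rw [map_sum] at h7
            simp only [map_mul] at h7
            rw [h7]
            split_ifs <;> simp
          rw [h5]
          simp only [h6, Finset.sum_mul]
          rw [Finset.sum_comm]
          have h8 : ∀ m, ∑ l, a (θ' i.succ m) * a (θ₂ m l) * ρ (eY x l) =
              a (θ' i.succ m) * k₂ (algebraMap (ERees x₂) _ (eY x₂ m)) := by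
            intro m
            rw [e₂, Finset.mul_sum]
            exact Finset.sum_congr rfl fun l _ => mul_assoc _ _ _
          rw [Finset.sum_congr rfl fun m _ => h8 m, Fin.sum_univ_succ, hz0, map_zero, zero_mul,
            zero_add]
          rfl
        rw [h4]
        exact Ideal.sum_mem _ fun m _ => Ideal.mul_mem_left _ _ (hxm _)
    · rw [injective_iff_map_eq_zero]
      intro g hg
      obtain ⟨G, rfl⟩ := Polynomial.map_surjective (residue A) residue_surjective g
      have h4 : Polynomial.eval₂RingHom (ResidueField.map a)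
          (residue Ω (k₁ (algebraMap (ERees x₁) _ (eY x₁ 0)))) (G.map (residue A)) =
          residue Ω (ρ (Polynomial.eval₂ (algebraMap A (ERees x)) (eY x 0) G)) := by
        rw [Polynomial.coe_eval₂RingHom, Polynomial.eval₂_map, Polynomial.hom_eval₂,
          Polynomial.hom_eval₂, e₁]
        rfl
      rw [h4, residue_eq_zero_iff] at hg
      have h5 : Polynomial.eval₂ (algebraMap A (ERees x)) (eY x 0) G ∈ badPrime hx := by
        rw [← hcomap]
        exact hg
      rw [mem_badPrime, Polynomial.hom_eval₂, Polynomial.hom_eval₂, eRes_eY, badHom_X_zero] at h5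
      rw [← h5]
      have h6 : (badHom (ResidueField A) r).comp ((eRes hx).comp (algebraMap A (ERees x))) =
          Polynomial.C.comp (residue A) := by
        ext c : 1
        rw [RingHom.comp_apply, RingHom.comp_apply, eRes_algebraMap, badHom_C]
        rfl
      rw [h6, ← Polynomial.eval₂_map, Polynomial.eval₂_C_X]

end Vale.Agent.P177
end

section

/-!
The local theorem by iterated blow-ups at the bad point.
-/

namespace Vale.Agent.P177

open IsLocalRing Function TensorProduct

universe u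

section bad

variable {R : Type u} [CommRing R] [IsLocalRing R] {r : ℕ} {x : Fin (r + 1) → R}
    (hx : Ideal.span (Set.range x) = maximalIdeal R)
    (E : Type u) [AddCommGroup E] [Module R E]

/-- The strict transform at the bad point. -/
abbrev BadSt : Type u := St (xBad hx 0) (BadRing hx ⊗[R] E)

theorem badSt_reg (a : BadRing hx)
    (h : xBad hx 0 * a ∈ Module.annihilator (BadRing hx) (BadSt hx E)) :
    a ∈ Module.annihilator (BadRing hx) (BadSt hx E) := by
  rw [Module.mem_annihilator] at h ⊢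
  intro v
  refine St_reg _ ?_
  rw [← mul_smul]
  exact h v

theorem badSt_annihilator (a : R) (ha : a ∈ Module.annihilator R E) :
    algebraMap R (BadRing hx) a ∈ Module.annihilator (BadRing hx) (BadSt hx E) := by
  rw [Module.mem_annihilator]
  intro v
  obtain ⟨w, rfl⟩ := Submodule.mkQ_surjective _ v
  rw [← map_smul]
  have h1 : algebraMap R (BadRing hx) a • w = 0 :=
    map_smul_eq_zero E _ (Ideal.mem_map_of_mem _ ha) w
  rw [h1, map_zero]

theorem badSt_pow (k : ℕ) (h : x 0 ^ (k + 1) ∈ Module.annihilator R E ⊔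
      Ideal.span (Set.range fun i : Fin r => x i.succ)) :
    xBad hx 0 ^ k ∈ Module.annihilator (BadRing hx) (BadSt hx E) ⊔
      Ideal.span (Set.range fun i : Fin r => xBad hx i.succ) := by
  obtain ⟨f, hf, g, hg, hfg⟩ := Submodule.mem_sup.1 h
  obtain ⟨c, rfl⟩ := Ideal.mem_span_range_iff_exists_fun.1 hg
  obtain ⟨u, hu⟩ := isUnit_Y_zero hx
  have h0 : algebraMap R (BadRing hx) (x 0) = xBad hx 0 * u := by
    rw [algebraMap_bad_x, hu]
  have h1 : algebraMap R (BadRing hx) f = xBad hx 0 * (xBad hx 0 ^ k * (u : BadRing hx) ^ (k + 1) -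
      ∑ i : Fin r, algebraMap R (BadRing hx) (c i) * xBad hx i.succ) := by
    have h2 := congrArg (algebraMap R (BadRing hx)) hfg
    rw [map_add, map_pow, h0, ← eq_sub_iff_add_eq] at h2
    rw [h2, mul_sub, Finset.mul_sum, map_sum]
    congr 1
    · ring
    · refine Finset.sum_congr rfl fun i _ => ?_
      rw [map_mul, algebraMap_bad_x, xBad_succ]
      ring
  have h2 := badSt_annihilator hx E f hf
  rw [h1] at h2
  have h3 := badSt_reg hx E _ h2
  have h4 : xBad hx 0 ^ k * (u : BadRing hx) ^ (k + 1) ∈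
      Module.annihilator (BadRing hx) (BadSt hx E) ⊔
      Ideal.span (Set.range fun i : Fin r => xBad hx i.succ) := by
    have h5 := Ideal.add_mem _ (Ideal.mem_sup_left (T := Ideal.span
      (Set.range fun i : Fin r => xBad hx i.succ)) h3) (Ideal.mem_sup_right
      (Ideal.sum_mem _ fun i (_ : i ∈ Finset.univ) =>
        Ideal.mul_mem_left _ (algebraMap R (BadRing hx) (c i))
        (Ideal.subset_span (s := Set.range fun i : Fin r => xBad hx i.succ) ⟨i, rfl⟩)))
    rwa [sub_add_cancel] at h5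
  have h5 : xBad hx 0 ^ k = ((u⁻¹ : (BadRing hx)ˣ) : BadRing hx) ^ (k + 1) *
      (xBad hx 0 ^ k * (u : BadRing hx) ^ (k + 1)) := by
    have : ((u⁻¹ : (BadRing hx)ˣ) : BadRing hx) * u = 1 := Units.inv_mul u
    calc xBad hx 0 ^ k = xBad hx 0 ^ k * (((u⁻¹ : (BadRing hx)ˣ) : BadRing hx) * u) ^ (k + 1) := by
          rw [this, one_pow, mul_one]
      _ = _ := by ring
  rw [h5]
  exact Ideal.mul_mem_left _ _ h4

end bad

section data

variable {R A : Type u} [CommRing R] [CommRing A] [IsRegularLocalRing R] [IsRegularLocalRing A]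
    {j₁ j₂ : R →+* A} [IsLocalHom j₁] [IsLocalHom j₂] {r : ℕ} {x : Fin (r + 1) → R}
    {hx : Ideal.span (Set.range x) = maximalIdeal R} {θ : Fin r → Fin r → A}
    {Ω : Type u} [CommRing Ω] [IsRegularLocalRing Ω] (D : BadData j₁ j₂ hx hx θ Ω)

/-- The residue map in the coordinate `X_0`. -/
noncomputable def BadData.σ : Polynomial (ResidueField A) →+* ResidueField Ω :=
  let _ := D.a_local
  Polynomial.eval₂RingHom (ResidueField.map D.a)
    (residue Ω (D.k₁ (algebraMap (ERees x) _ (eY x 0))))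

omit [IsLocalHom j₂] in
theorem BadData.comp_σ₁ [IsLocalHom D.k₁] : (ResidueField.map D.k₁).comp (badσ hx) =
    D.σ.comp (Polynomial.mapRingHom (ResidueField.map j₁)) := by
  let _ := D.a_local
  apply Polynomial.ringHom_ext
  · intro c
    obtain ⟨c, rfl⟩ := residue_surjective c
    simp only [RingHom.comp_apply, badσ, BadData.σ, Polynomial.coe_eval₂RingHom,
      Polynomial.eval₂_C, Polynomial.coe_mapRingHom, Polynomial.map_C, ResidueField.map_residue,
      D.comp₁]
  · simp only [RingHom.comp_apply, badσ, BadData.σ, Polynomial.coe_eval₂RingHom,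
      Polynomial.eval₂_X, Polynomial.coe_mapRingHom, Polynomial.map_X, ResidueField.map_residue]

omit [IsLocalHom j₁] in
theorem BadData.comp_σ₂ [IsLocalHom D.k₂] : (ResidueField.map D.k₂).comp (badσ hx) =
    D.σ.comp (Polynomial.mapRingHom (ResidueField.map j₂)) := by
  let _ := D.a_local
  apply Polynomial.ringHom_ext
  · intro c
    obtain ⟨c, rfl⟩ := residue_surjective c
    simp only [RingHom.comp_apply, badσ, BadData.σ, Polynomial.coe_eval₂RingHom,
      Polynomial.eval₂_C, Polynomial.coe_mapRingHom, Polynomial.map_C, ResidueField.map_residue,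
      D.comp₂]
  · simp only [RingHom.comp_apply, badσ, BadData.σ, Polynomial.coe_eval₂RingHom,
      Polynomial.eval₂_X, Polynomial.coe_mapRingHom, Polynomial.map_X, ResidueField.map_residue,
      D.hY]

theorem BadData.res [IsLocalHom D.k₁] [IsLocalHom D.k₂]
    (h : ResidueField.map j₁ = ResidueField.map j₂) :
    ResidueField.map D.k₁ = ResidueField.map D.k₂ := by
  have h1 : (ResidueField.map D.k₁).comp (badσ hx) = (ResidueField.map D.k₂).comp (badσ hx) := by
    rw [D.comp_σ₁, D.comp_σ₂, h]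
  ext a
  obtain ⟨g, s, hs, hgs⟩ := bad_surj hx a
  have h2 := congrArg (ResidueField.map D.k₁) hgs
  have h3 := congrArg (ResidueField.map D.k₂) hgs
  rw [map_mul] at h2 h3
  have h4 := RingHom.congr_fun h1 g
  have h5 := RingHom.congr_fun h1 s
  rw [RingHom.comp_apply, RingHom.comp_apply] at h4 h5
  rw [h4, ← h3, h5] at h2
  exact mul_right_cancel₀ (by
    rw [Ne, map_eq_zero]
    exact hs) h2

omit [IsLocalHom j₂] in
theorem BadData.orth [IsLocalHom D.k₁]
    (h : OrthData (ResidueField.map j₁) (fun i l => residue A (θ i l))) :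
    OrthData (ResidueField.map D.k₁) (fun i l => residue Ω (D.a (θ i l))) := by
  let _ := D.a_local
  have h1 := h.ext (ResidueField.map D.k₁) (badσ hx) D.σ D.inj D.comp_σ₁ (bad_surj hx)
  have h2 : (fun i l => D.σ (Polynomial.C (residue A (θ i l)))) =
      fun i l => residue Ω (D.a (θ i l)) := by
    funext i l
    simp only [BadData.σ, Polynomial.coe_eval₂RingHom, Polynomial.eval₂_C,
      ResidueField.map_residue]
  rw [h2] at h1
  exact h1

end data

theorem eulAlong_of_left {R₁ R₂ W : Type u} [CommRing R₁] [CommRing R₂] [CommRing W]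
    (j₁ : R₁ →+* W) (j₂ : R₂ →+* W) (d : ℕ) (N M : Type u) [AddCommGroup N] [Module R₁ N]
    [AddCommGroup M] [Module R₂ M] [Subsingleton N] : EulAlong j₁ j₂ d N M := by
  let _ : Algebra R₁ W := j₁.toAlgebra
  let _ : Algebra R₂ W := j₂.toAlgebra
  intro _
  have hM' : Subsingleton (W ⊗[R₁] N) := inferInstance
  refine ⟨(eulerTor_left_zero _ _ _ hM').ge, fun e g he _ _ => ?_⟩
  rw [Module.supportDim_eq_bot_of_subsingleton] at he
  exact absurd (le_bot_iff.1 he) (WithBot.coe_ne_bot)

theorem eulAlong_of_right {R₁ R₂ W : Type u} [CommRing R₁] [CommRing R₂] [CommRing W]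
    (j₁ : R₁ →+* W) (j₂ : R₂ →+* W) (d : ℕ) (N M : Type u) [AddCommGroup N] [Module R₁ N]
    [AddCommGroup M] [Module R₂ M] [Subsingleton M] : EulAlong j₁ j₂ d N M := by
  let _ : Algebra R₁ W := j₁.toAlgebra
  let _ : Algebra R₂ W := j₂.toAlgebra
  intro _
  have hM' : Subsingleton (W ⊗[R₂] M) := inferInstance
  refine ⟨(eulerTor_right_zero _ _ _ hM').ge, fun e g _ he _ => ?_⟩
  rw [Module.supportDim_eq_bot_of_subsingleton] at he
  exact absurd (le_bot_iff.1 he) (WithBot.coe_ne_bot)

theorem subsingleton_of_pow_zero {R : Type u} [CommRing R] [IsLocalRing R] {r : ℕ}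
    {x : Fin (r + 1) → R} (hx : Ideal.span (Set.range x) = maximalIdeal R)
    (E : Type u) [AddCommGroup E] [Module R E]
    (h : x 0 ^ 0 ∈ Module.annihilator R E ⊔ Ideal.span (Set.range fun i : Fin r => x i.succ)) :
    Subsingleton E := by
  rw [pow_zero, ← Ideal.eq_top_iff_one] at h
  rw [← Module.annihilator_eq_top_iff (R := R)]
  by_contra hcon
  have h1 : Module.annihilator R E ≤ maximalIdeal R := le_maximalIdeal hcon
  have h2 : Ideal.span (Set.range fun i : Fin r => x i.succ) ≤ maximalIdeal R := by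
    rw [← hx]
    refine Ideal.span_mono ?_
    rintro _ ⟨i, rfl⟩
    exact ⟨_, rfl⟩
  have h3 := sup_le h1 h2
  rw [h] at h3
  exact (maximalIdeal.isMaximal R).ne_top (top_le_iff.1 h3)

/-- The local theorem by iterated blow-ups at the bad point. -/
theorem loc_rec (r h₁ h₂ : ℕ) (hh : r + 1 ≤ h₁ + h₂) (k : ℕ) :
    ∀ (R W : Type u) [CommRing R] [CommRing W] [IsRegularLocalRing R] [IsRegularLocalRing W]
      (j₁ j₂ : R →+* W) [IsLocalHom j₁] [IsLocalHom j₂], j₁.Flat → j₂.Flat →
      ringKrullDim R = ((r + 1 : ℕ) : WithBot ℕ∞) →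
      ringKrullDim W = ((r + 1 : ℕ) : WithBot ℕ∞) →
      ∀ (x : Fin (r + 1) → R), Ideal.span (Set.range x) = maximalIdeal R →
      (maximalIdeal R).map j₁ = maximalIdeal W → (maximalIdeal R).map j₂ = maximalIdeal W →
      j₁ (x 0) = j₂ (x 0) → ResidueField.map j₁ = ResidueField.map j₂ →
      ∀ (θ : Fin r → Fin r → W), (∀ i, j₂ (x i.succ) = ∑ l, θ i l * j₁ (x l.succ)) →
      OrthData (ResidueField.map j₁) (fun i l => residue W (θ i l)) →
      ∀ (E G : Type u) [AddCommGroup E] [Module R E] [Module.Finite R E] [AddCommGroup G]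
        [Module R G] [Module.Finite R G],
      (∀ a, x 0 * a ∈ Module.annihilator R E → a ∈ Module.annihilator R E) →
      (∀ a, x 0 * a ∈ Module.annihilator R G → a ∈ Module.annihilator R G) →
      VCond (x 0) (fun i : Fin r => x i.succ) (Module.annihilator R E) h₁ →
      VCond (x 0) (fun i : Fin r => x i.succ) (Module.annihilator R G) h₂ →
      (x 0 ^ k ∈ Module.annihilator R E ⊔ Ideal.span (Set.range fun i : Fin r => x i.succ) ∨
        x 0 ^ k ∈ Module.annihilator R G ⊔ Ideal.span (Set.range fun i : Fin r => x i.succ)) →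
      EulAlong j₁ j₂ (r + 1) E G := by
  induction k with
  | zero =>
    intro R W _ _ _ _ j₁ j₂ _ _ _ _ _ _ x hx _ _ _ _ _ _ _ E G _ _ _ _ _ _ _ _ _ _ hk
    rcases hk with hk | hk
    · have := subsingleton_of_pow_zero hx E hk
      exact eulAlong_of_left j₁ j₂ (r + 1) E G
    · have := subsingleton_of_pow_zero hx G hk
      exact eulAlong_of_right j₁ j₂ (r + 1) E G
  | succ k ih =>
    intro R W _ _ _ _ j₁ j₂ _ _ hf₁ hf₂ hdR hdW x hx hm₁ hm₂ h0 hres θ hθ horth E G _ _ _ _ _ _
      hE hG hVE hVG hk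
    refine step_along j₁ j₂ hf₁ hf₂ hdR hdR hdW hx hx hm₁ hm₂ h0 θ hθ E G ?_ ?_ ?_
    · intro z hz hhom hz0 hX
      rw [← hres]
      exact height_orth_notMem horth z hhom hz0 hX
    · intro z hz hhom hz0 hX hin₁ hin₂
      rw [← hres] at hin₂
      have p1 : (z.comap (jFun (ResidueField.map j₁)
        (fun i l => if i = l then (1 : ResidueField W) else 0))).IsPrime := Ideal.IsPrime.comap _
      have p2 : (z.comap (jFun (ResidueField.map j₁)
        (extM fun i l => residue W (θ i l)))).IsPrime := Ideal.IsPrime.comap _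
      obtain ⟨i, hi⟩ : ∃ i : Fin r, MvPolynomial.X i.succ ∉ z := by
        obtain ⟨i, hi⟩ := hX
        induction i using Fin.cases with
        | zero => exact absurd hz0 hi
        | succ i => exact ⟨i, hi⟩
      have e1 : ((h₁ : ℕ∞) + 1) ≤ (z.comap (jFun (ResidueField.map j₁)
          (fun i l => if i = l then (1 : ResidueField W) else 0))).height := by
        refine hVE.height_le hx hE _ ?_ ⟨i.succ, ?_⟩ hin₁
        · rw [jFun_one]
          change MvPolynomial.map _ (MvPolynomial.X 0) ∈ z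
          rw [MvPolynomial.map_X]
          exact hz0
        · rw [jFun_one]
          change MvPolynomial.map _ (MvPolynomial.X i.succ) ∉ z
          rw [MvPolynomial.map_X]
          exact hi
      have e2 : ((h₂ : ℕ∞) + 1) ≤ (z.comap (jFun (ResidueField.map j₁)
          (extM fun i l => residue W (θ i l)))).height := by
        refine hVG.height_le hx hG _ ?_ ?_ hin₂
        · change jFun _ _ (MvPolynomial.X 0) ∈ z
          rw [jFun_X, Fin.sum_univ_succ]
          simp only [extM_zero_zero, extM_zero_succ, map_one, one_mul, map_zero, zero_mul,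
            Finset.sum_const_zero, add_zero]
          exact hz0
        · by_contra hcon
          push Not at hcon
          apply hi
          -- the inverse matrix
          have hxW : Ideal.span (Set.range fun l => j₁ (x l)) = maximalIdeal W := by
            rw [← hm₁, ← hx, Ideal.map_span, ← Set.range_comp]
            rfl
          have hyW : Ideal.span (Set.range fun l => j₂ (x l)) = maximalIdeal W := by
            rw [← hm₂, ← hx, Ideal.map_span, ← Set.range_comp]
            rfl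
          obtain ⟨θ', -, -, q3⟩ := exists_inverse hdW hxW hyW (extM θ) (by
            intro i
            rw [Fin.sum_univ_succ]
            refine Fin.cases ?_ (fun i => ?_) i
            · simp only [extM_zero_zero, extM_zero_succ, one_mul, zero_mul,
                Finset.sum_const_zero, add_zero]
              exact h0.symm
            · simp only [extM_succ_zero, extM_succ_succ, zero_mul, zero_add]
              exact hθ i)
          have h6 : ∀ l, (if i.succ = l then (1 : ResidueField W) else 0) =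
              ∑ m, residue W (θ' i.succ m) * residue W (extM θ m l) := by
            intro l
            have h7 := congrArg (residue W) (q3 i.succ l)
            rw [map_sum] at h7
            simp only [map_mul] at h7
            rw [h7]
            split_ifs <;> simp
          have h7 : ∀ m l, residue W (extM θ m l) = extM (fun i l => residue W (θ i l)) m l := by
            intro m l
            refine Fin.cases ?_ (fun m => ?_) m
            · refine Fin.cases ?_ (fun l => ?_) l
              · simp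
              · simp
            · refine Fin.cases ?_ (fun l => ?_) l
              · simp
              · simp
          have h8 : (MvPolynomial.X i.succ : MvPolynomial (Fin (r + 1)) (ResidueField W)) =
              ∑ m, MvPolynomial.C (residue W (θ' i.succ m)) *
                jFun (ResidueField.map j₁) (extM fun i l => residue W (θ i l))
                  (MvPolynomial.X m) := by
            calc (MvPolynomial.X i.succ : MvPolynomial (Fin (r + 1)) (ResidueField W))
                = ∑ l, MvPolynomial.C (if i.succ = l then (1 : ResidueField W) else 0) *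
                  MvPolynomial.X l := by
                  rw [Finset.sum_eq_single i.succ]
                  · simp
                  · intro l _ hl
                    simp [Ne.symm hl]
                  · simp
              _ = _ := by
                  simp only [h6, h7, map_sum, Finset.sum_mul, jFun_X, Finset.mul_sum, map_mul]
                  rw [Finset.sum_comm]
                  refine Finset.sum_congr rfl fun m _ => Finset.sum_congr rfl fun l _ => ?_
                  rw [mul_assoc]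
          rw [h8]
          exact Ideal.sum_mem _ fun m _ => Ideal.mul_mem_left _ _ (hcon m)
      have e3 := height_orth_mem horth z hz0 ⟨i, hi⟩
      have e4 := height_lt_of_homogeneous z hhom ⟨i.succ, hi⟩
      have e5 : z.height ≠ ⊤ := by
        intro htop
        rw [htop] at e4
        exact absurd (top_le_iff.1 e4) (by simp)
      obtain ⟨m, hm⟩ := ENat.ne_top_iff_exists.1 e5
      rw [← hm] at e3 e4
      have e6 := (add_le_add e1 e2).trans e3
      have e7 : h₁ + 1 + (h₂ + 1) ≤ m + 2 := by exact_mod_cast e6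
      have e8 : m + 1 ≤ r + 1 := by exact_mod_cast e4
      omega
    · intro Ω _ _ D
      have l₁ := D.l₁
      have l₂ := D.l₂
      obtain ⟨hregB, hdB⟩ := badRing_regular hdR hx
      have h1 := ih (BadRing hx) Ω D.k₁ D.k₂ D.f₁ D.f₂ hdB D.dimΩ (xBad hx) (span_xBad hx) D.m₁
        D.m₂ D.hT (D.res hres) (fun i l => D.a (θ i l)) D.hθ (D.orth horth) (BadSt hx E)
        (BadSt hx G) (badSt_reg hx E) (badSt_reg hx G)
        (hVE.bad hx _ (badSt_annihilator hx E)) (hVG.bad hx _ (badSt_annihilator hx G))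
        (hk.imp (badSt_pow hx E k) (badSt_pow hx G k))
      exact fun hlen => (h1 hlen).1

end Vale.Agent.P177
end

section

/-!
Preparations for the descent along the root of the fixed parameter.
-/

namespace Vale.Agent.P177

open IsLocalRing Function TensorProduct

universe u

section vcond

theorem VCondW.mono {R : Type u} [CommRing R] [IsLocalRing R] {r : ℕ} {y : R} {x : Fin r → R}
    {I : Ideal R} {h w w' : ℕ} (hV : VCondW y x I h w) (hw : w ∣ w') : VCondW y x I h w' := by
  intro O _ _ _ φ _ j z _ hker hy hxj hdiv hz hh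
  obtain ⟨c, hc⟩ := hV O φ j z hker hy hxj hdiv hz hh
  obtain ⟨m, rfl⟩ := hw
  refine ⟨c * m, ?_⟩
  rw [pow_mul, pow_mul]
  exact hc.pow_pow

theorem VCondW.root {R R' : Type u} [CommRing R] [IsLocalRing R] [CommRing R'] [IsLocalRing R']
    [Algebra R R'] [IsLocalHom (algebraMap R R')] {r : ℕ} {x : Fin r → R} {y : R} {τ : R'} {w : ℕ}
    (hw : w ≠ 0) (hτ : τ ^ w = algebraMap R R' y) {I : Ideal R} {h : ℕ} (hV : VCondW y x I h w)
    (J : Ideal R') (hJ : ∀ a ∈ I, algebraMap R R' a ∈ J) :
    VCond τ (fun i => algebraMap R R' (x i)) J h := by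
  intro O _ _ _ φ' _ j z' _ hJker hτ0 hxj hdiv hz hh
  let φ : R →+* O := φ'.comp (algebraMap R R')
  have hφ : IsLocalHom φ := RingHom.isLocalHom_comp _ _
  let κ : ResidueField R →+* ResidueField R' := ResidueField.map (algebraMap R R')
  let z : Ideal (MvPolynomial (Fin r) (ResidueField R)) := z'.comap (MvPolynomial.map κ)
  have hzp : z.IsPrime := Ideal.IsPrime.comap _
  have hle : z.height ≤ z'.height := by
    let _ : Algebra (ResidueField R) (ResidueField R') := κ.toAlgebra
    exact height_comap_hom (MvPolynomial.map κ) (flat_map_mvPolynomial (Fin r)) z'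
  have hφy : φ y = φ' τ ^ w := by
    change φ' (algebraMap R R' y) = _
    rw [← hτ, map_pow]
  obtain ⟨c, hc⟩ := hV O φ j z (fun a ha => hJker (hJ a ha)) (by
      rw [hφy]
      exact pow_ne_zero _ hτ0) hxj hdiv (by
      intro n F hF
      have h1 : F.map (residue R) ∈ z ↔
          (F.map (algebraMap R R')).map (residue R') ∈ z' := by
        change MvPolynomial.map κ (F.map (residue R)) ∈ z' ↔ _
        rw [MvPolynomial.map_map, MvPolynomial.map_map]
        have : κ.comp (residue R) = (residue R').comp (algebraMap R R') := by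
          ext a
          exact ResidueField.map_residue _ _
        rw [this]
      rw [h1, hz n _ (hF.map _)]
      have h2 : φ (MvPolynomial.eval x F) =
          φ' (MvPolynomial.eval (fun i : Fin r => algebraMap R R' (x i))
            (F.map (algebraMap R R'))) := by
        change φ' (algebraMap R _ (MvPolynomial.eval _ F)) = _
        congr 1
        rw [MvPolynomial.eval_map, ← MvPolynomial.aeval_def]
        exact (MvPolynomial.aeval_algebraMap_apply R' x F).symm
      rw [h2]
      rfl) ((add_le_add_left hle 1).trans hh)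
  refine ⟨c, ?_⟩
  have hc' : Associated ((φ' (algebraMap R R' (x j))) ^ w) ((φ' τ ^ c) ^ w) := by
    rw [← pow_mul, mul_comm c w, pow_mul, ← hφy]
    exact hc
  exact associated_of_dvd_dvd ((IsIntegrallyClosed.pow_dvd_pow_iff hw).1 hc'.dvd)
    ((IsIntegrallyClosed.pow_dvd_pow_iff hw).1 hc'.symm.dvd)

end vcond

section orth

theorem OrthData.transfer {k K k' K' : Type u} [Field k] [Field K] [Field k'] [Field K'] {r : ℕ}
    {κ : k →+* K} {θ : Fin r → Fin r → K} (h : OrthData κ θ) (κ' : k' →+* K') (σ : k →+* k')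
    (hσ : Surjective σ) (τ : K →+* K') (hc : κ'.comp σ = τ.comp κ) :
    OrthData κ' (fun i l => τ (θ i l)) := by
  obtain ⟨α, b, c, hinj, hb, hrel⟩ := h
  have hc' : ∀ a, κ' (σ a) = τ (κ a) := fun a => RingHom.congr_fun hc a
  refine ⟨fun p => τ (α p), fun i j => σ (b i j), fun i j => σ (c i j), ?_, ?_, ?_⟩
  · rw [injective_iff_map_eq_zero]
    intro F hF
    obtain ⟨F, rfl⟩ := MvPolynomial.map_surjective (σ := Fin r × Fin r) σ hσ F
    have h1 : ((MvPolynomial.eval₂Hom κ' fun p => τ (α p)).comp (MvPolynomial.map σ)) =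
        τ.comp (MvPolynomial.eval₂Hom κ α) := by
      apply MvPolynomial.ringHom_ext
      · intro a
        simp [hc']
      · intro p
        simp
    have h2 := RingHom.congr_fun h1 F
    rw [RingHom.comp_apply, hF, RingHom.comp_apply] at h2
    have h3 := (map_eq_zero_iff τ τ.injective).1 h2.symm
    rw [(map_eq_zero_iff _ hinj).1 h3, map_zero]
  · have h1 : Matrix.det (Matrix.of fun i j => σ (b i j)) = σ (Matrix.det (Matrix.of b)) := by
      rw [RingHom.map_det]
      rfl
    rw [h1]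
    exact hb.map σ
  · intro i m
    have h1 := congrArg τ (hrel i m)
    rw [map_sub, map_sum] at h1
    simp only [map_mul, map_sub, map_add, map_sum] at h1
    have hite : ∀ a b : Fin r, τ (if a = b then (1 : K) else 0) = if a = b then 1 else 0 := by
      intro a b
      split_ifs
      · exact map_one τ
      · exact map_zero τ
    simp only [hite, ← hc'] at h1
    exact h1

theorem res_eq_of_comp {A B A' B' : Type u} [CommRing A] [CommRing B] [CommRing A'] [CommRing B']
    [IsLocalRing A] [IsLocalRing B] [IsLocalRing A'] [IsLocalRing B'] (j₁ j₂ : A →+* B)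
    [IsLocalHom j₁] [IsLocalHom j₂] (k₁ k₂ : A' →+* B') [IsLocalHom k₁] [IsLocalHom k₂]
    (a : A →+* A') [IsLocalHom a] (b : B →+* B') [IsLocalHom b] (h₁ : k₁.comp a = b.comp j₁)
    (h₂ : k₂.comp a = b.comp j₂) (hs : Surjective (ResidueField.map a))
    (h : ResidueField.map j₁ = ResidueField.map j₂) :
    ResidueField.map k₁ = ResidueField.map k₂ := by
  ext z
  obtain ⟨z, rfl⟩ := hs z
  obtain ⟨z, rfl⟩ := residue_surjective z
  have e1 : k₁ (a z) = b (j₁ z) := RingHom.congr_fun h₁ z
  have e2 : k₂ (a z) = b (j₂ z) := RingHom.congr_fun h₂ z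
  have e3 : residue B (j₁ z) = residue B (j₂ z) := by
    have := RingHom.congr_fun h (residue A z)
    rwa [ResidueField.map_residue, ResidueField.map_residue] at this
  rw [ResidueField.map_residue, ResidueField.map_residue, ResidueField.map_residue, e1, e2,
    ← ResidueField.map_residue b, ← ResidueField.map_residue b, e3]

end orth

section powers

theorem pow_mem_sup {R : Type u} [CommRing R] [IsLocalRing R] [IsNoetherianRing R] (y : R)
    (X : Ideal R) (hyX : Ideal.span {y} ⊔ X = maximalIdeal R) (P : Ideal R) (hP : ¬ P ≤ X) :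
    ∃ k : ℕ, y ^ k ∈ P ⊔ X := by
  obtain ⟨p, hp, hpX⟩ := SetLike.not_le_iff_exists.1 hP
  have hXle : X ≤ maximalIdeal R := hyX ▸ le_sup_right
  have hX : X ≠ ⊤ := fun h => (maximalIdeal.isMaximal R).ne_top (top_le_iff.1 (h ▸ hXle))
  have hnt : Nontrivial (R ⧸ X) := Ideal.Quotient.nontrivial_iff.2 hX
  have hloc : IsLocalRing (R ⧸ X) :=
    IsLocalRing.of_surjective' (Ideal.Quotient.mk X) Ideal.Quotient.mk_surjective
  have hl : IsLocalHom (Ideal.Quotient.mk X) :=
    IsLocalHom.of_surjective _ Ideal.Quotient.mk_surjective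
  have hm : maximalIdeal (R ⧸ X) = Ideal.span {Ideal.Quotient.mk X y} := by
    have h1 : (maximalIdeal (R ⧸ X)).comap (Ideal.Quotient.mk X) = maximalIdeal R :=
      ((IsLocalRing.local_hom_TFAE (Ideal.Quotient.mk X)).out 0 4).mp hl
    rw [← Ideal.map_comap_of_surjective _ Ideal.Quotient.mk_surjective (maximalIdeal (R ⧸ X)), h1,
      ← hyX, Ideal.map_sup, Ideal.map_span, Set.image_singleton, Ideal.map_quotient_self,
      sup_bot_eq]
  have hp0 : Ideal.Quotient.mk X p ≠ 0 := fun h => hpX (Ideal.Quotient.eq_zero_iff_mem.1 h)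
  have hex : ∃ n : ℕ, Ideal.Quotient.mk X p ∉ maximalIdeal (R ⧸ X) ^ n := by
    by_contra hcon
    push Not at hcon
    have h1 := Ideal.iInf_pow_eq_bot_of_isLocalRing (maximalIdeal (R ⧸ X))
      (maximalIdeal.isMaximal _).ne_top
    have h2 : Ideal.Quotient.mk X p ∈ ⨅ n : ℕ, maximalIdeal (R ⧸ X) ^ n := by
      rw [Ideal.mem_iInf]
      exact hcon
    rw [h1, Ideal.mem_bot] at h2
    exact hp0 h2
  classical
  have hn := Nat.find_spec hex
  set n := Nat.find hex with hn'
  obtain ⟨k, hk⟩ : ∃ k, n = k + 1 := by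
    refine Nat.exists_eq_succ_of_ne_zero fun h0 => ?_
    rw [h0, pow_zero, Ideal.one_eq_top] at hn
    exact hn Submodule.mem_top
  have hk1 : Ideal.Quotient.mk X p ∈ maximalIdeal (R ⧸ X) ^ k := by
    by_contra hcon
    have := Nat.find_min' hex hcon
    omega
  rw [hm, Ideal.span_singleton_pow, Ideal.mem_span_singleton] at hk1
  obtain ⟨a, ha⟩ := hk1
  have hau : IsUnit a := by
    by_contra hcon
    have h1 : a ∈ maximalIdeal (R ⧸ X) := hcon
    rw [hm, Ideal.mem_span_singleton] at h1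
    obtain ⟨b, rfl⟩ := h1
    apply hn
    rw [hk, hm, Ideal.span_singleton_pow, Ideal.mem_span_singleton]
    exact ⟨b, by rw [ha]; ring⟩
  obtain ⟨u, hu⟩ := hau
  obtain ⟨v, hv⟩ := Ideal.Quotient.mk_surjective ((u⁻¹ : (R ⧸ X)ˣ) : R ⧸ X)
  refine ⟨k, ?_⟩
  have h1 : y ^ k - v * p ∈ X := by
    rw [← Ideal.Quotient.eq_zero_iff_mem, map_sub, map_mul, map_pow, hv, ha, ← hu]
    have : ((u⁻¹ : (R ⧸ X)ˣ) : R ⧸ X) * u = 1 := Units.inv_mul u
    linear_combination (-(Ideal.Quotient.mk X) y ^ k) * this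
  have h2 := Ideal.add_mem _ (Ideal.mem_sup_right (S := P) h1)
    (Ideal.mem_sup_left (T := X) (P.mul_mem_left v hp))
  rwa [sub_add_cancel] at h2

theorem exists_pow_mem {R W : Type u} [CommRing R] [CommRing W] [IsRegularLocalRing R]
    [IsRegularLocalRing W] (j₁ j₂ : R →+* W) (r : ℕ)
    (hdW : ringKrullDim W = ((r + 1 : ℕ) : WithBot ℕ∞)) (y : R) (x : Fin r → R)
    (hyx : Ideal.span {y} ⊔ Ideal.span (Set.range x) = maximalIdeal R)
    (hm₁ : (maximalIdeal R).map j₁ = maximalIdeal W)
    (θ : Fin r → Fin r → W) (hθ : ∀ i, j₂ (x i) = ∑ l, θ i l * j₁ (x l))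
    (P Q : Ideal R) (hrad : maximalIdeal W ≤ (P.map j₁ ⊔ Q.map j₂).radical) :
    ∃ k : ℕ, y ^ k ∈ P ⊔ Ideal.span (Set.range x) ∨ y ^ k ∈ Q ⊔ Ideal.span (Set.range x) := by
  by_cases h1 : P ≤ Ideal.span (Set.range x)
  swap
  · obtain ⟨k, hk⟩ := pow_mem_sup y _ hyx P h1
    exact ⟨k, Or.inl hk⟩
  by_cases h2 : Q ≤ Ideal.span (Set.range x)
  swap
  · obtain ⟨k, hk⟩ := pow_mem_sup y _ hyx Q h2
    exact ⟨k, Or.inr hk⟩
  exfalso
  let I : Ideal W := Ideal.span (Set.range fun l => j₁ (x l))
  have h3 : P.map j₁ ≤ I := by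
    refine (Ideal.map_mono h1).trans ?_
    rw [Ideal.map_span, ← Set.range_comp]
    exact le_rfl
  have h4 : Q.map j₂ ≤ I := by
    refine (Ideal.map_mono h2).trans ?_
    rw [Ideal.map_span, ← Set.range_comp, Ideal.span_le]
    rintro _ ⟨i, rfl⟩
    change j₂ (x i) ∈ I
    rw [hθ]
    exact Ideal.sum_mem _ fun l _ => Ideal.mul_mem_left _ _ (Ideal.subset_span ⟨l, rfl⟩)
  have h5 : maximalIdeal W ≤ I.radical := hrad.trans (Ideal.radical_mono (sup_le h3 h4))
  have h6 : I ≤ maximalIdeal W := by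
    rw [← hm₁, Ideal.span_le]
    rintro _ ⟨i, rfl⟩
    refine Ideal.mem_map_of_mem _ ?_
    rw [← hyx]
    exact Ideal.mem_sup_right (Ideal.subset_span ⟨i, rfl⟩)
  have h7 : maximalIdeal W ∈ I.minimalPrimes := by
    refine ⟨⟨inferInstance, h6⟩, ?_⟩
    intro q hq _
    exact h5.trans (hq.1.radical_le_iff.2 hq.2)
  have h8 := Ideal.height_le_spanRank_toENat_of_mem_minimalPrimes I (maximalIdeal W) h7
  have h9 : I.spanRank ≤ (r : Cardinal) := by
    refine (Submodule.spanRank_span_le_card _).trans ?_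
    have h := Cardinal.mk_range_le_lift (f := fun l => j₁ (x l))
    rw [Cardinal.mk_fin, Cardinal.lift_natCast, Cardinal.lift_id'.{0, u}] at h
    exact h
  have h10 : (maximalIdeal W).height = ((r + 1 : ℕ) : ℕ∞) := by
    have h1 := IsLocalRing.maximalIdeal_height_eq_ringKrullDim (R := W)
    rw [hdW] at h1
    exact_mod_cast h1
  rw [h10] at h8
  have h11 : Cardinal.toENat I.spanRank ≤ (r : ℕ∞) := by
    have := Cardinal.toENat.monotone' h9
    simpa using this
  have h12 : r + 1 ≤ r := by exact_mod_cast h8.trans h11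
  omega

end powers

section fibre

theorem length_root_fibre {A : Type u} [CommRing A] [IsLocalRing A] [IsNoetherianRing A] {w : ℕ}
    (hw : w ≠ 0) {y : A} (hy : y ∈ maximalIdeal A) [IsLocalRing (Root w y)] :
    Module.length (Root w y)
      (Root w y ⧸ (maximalIdeal A).map (algebraMap A (Root w y))) ≠ ⊤ := by
  have hN : IsNoetherianRing (Root w y) := root_noetherian hw
  obtain ⟨_, hm⟩ := root_local hw hy
  have h1 : maximalIdeal (Root w y) ≤
      ((maximalIdeal A).map (algebraMap A (Root w y))).radical := by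
    rw [← hm]
    refine sup_le ?_ Ideal.le_radical
    rw [Ideal.span_singleton_le_iff_mem]
    refine ⟨w, ?_⟩
    rw [rt_pow]
    exact Ideal.mem_map_of_mem _ hy
  rw [Module.length_ne_top_iff]
  obtain ⟨k, hk⟩ := Ideal.exists_pow_le_of_le_radical_of_fg h1 (IsNoetherian.noetherian _)
  refine isFiniteLength_of_pow_smul_eq_zero k fun a ha z => ?_
  obtain ⟨z, rfl⟩ := Ideal.Quotient.mk_surjective z
  change Ideal.Quotient.mk _ (a * z) = 0
  rw [Ideal.Quotient.eq_zero_iff_mem]
  exact Ideal.mul_mem_right _ _ (hk ha)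

theorem residue_root_surjective {A : Type u} [CommRing A] [IsLocalRing A] {w : ℕ}
    (hw : w ≠ 0) {y : A} (hy : y ∈ maximalIdeal A) [IsLocalRing (Root w y)]
    [IsLocalHom (algebraMap A (Root w y))] :
    Surjective (ResidueField.map (algebraMap A (Root w y))) := by
  intro z
  obtain ⟨z, rfl⟩ := residue_surjective z
  obtain ⟨a, c, rfl⟩ := root_mem w y z
  obtain ⟨_, hm⟩ := root_local hw hy
  have h1 : rt w y ∈ maximalIdeal (Root w y) := by
    rw [← hm]
    exact Ideal.mem_sup_left (Ideal.mem_span_singleton_self _)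
  refine ⟨residue A a, ?_⟩
  rw [ResidueField.map_residue, map_add, map_mul, (residue_eq_zero_iff _).2 h1, zero_mul, add_zero]

end fibre

end Vale.Agent.P177
end

section

/-!
The local theorem with one fixed parameter.
-/

namespace Vale.Agent.P177

open IsLocalRing Function TensorProduct

universe u

theorem PosAlong.of_eulAlong {R₁ R₂ R₁' R₂' W W' : Type u} [CommRing R₁] [CommRing R₂]
    [CommRing R₁'] [CommRing R₂'] [CommRing W] [CommRing W'] [IsRegularLocalRing W]
    [IsRegularLocalRing W']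
    [Algebra R₁ R₁'] [Algebra R₂ R₂'] [Algebra W W'] [Module.Flat W W']
    [IsLocalHom (algebraMap W W')] [Module.FaithfullyFlat R₁ R₁'] [Module.FaithfullyFlat R₂ R₂']
    (hfib : Module.length W' (W' ⧸ (maximalIdeal W).map (algebraMap W W')) ≠ ⊤)
    (j₁ : R₁ →+* W) (j₂ : R₂ →+* W) (k₁ : R₁' →+* W') (k₂ : R₂' →+* W')
    (c₁ : k₁.comp (algebraMap R₁ R₁') = (algebraMap W W').comp j₁)
    (c₂ : k₂.comp (algebraMap R₂ R₂') = (algebraMap W W').comp j₂) (d : ℕ)
    (N M : Type u) [AddCommGroup N] [Module R₁ N] [Module.Finite R₁ N] [AddCommGroup M]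
    [Module R₂ M] [Module.Finite R₂ M]
    (hrad : maximalIdeal W ≤
      ((Module.annihilator R₁ N).map j₁ ⊔ (Module.annihilator R₂ M).map j₂).radical)
    (hdim : ∀ e g : ℕ, (e : WithBot ℕ∞) ≤ Module.supportDim R₁ N →
      (g : WithBot ℕ∞) ≤ Module.supportDim R₂ M → e + g ≤ d)
    (h : EulAlong k₁ k₂ d (R₁' ⊗[R₁] N) (R₂' ⊗[R₂] M)) : PosAlong j₁ j₂ d N M := by
  let _ : Algebra R₁ W := j₁.toAlgebra
  let _ : Algebra R₂ W := j₂.toAlgebra
  let _ : Algebra R₁' W' := k₁.toAlgebra
  let _ : Algebra R₂' W' := k₂.toAlgebra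
  let _ : Algebra R₁ W' := ((algebraMap W W').comp j₁).toAlgebra
  let _ : Algebra R₂ W' := ((algebraMap W W').comp j₂).toAlgebra
  have t₁ : IsScalarTower R₁ W W' := IsScalarTower.of_algebraMap_eq fun _ => rfl
  have t₂ : IsScalarTower R₂ W W' := IsScalarTower.of_algebraMap_eq fun _ => rfl
  have t₃ : IsScalarTower R₁ R₁' W' :=
    IsScalarTower.of_algebraMap_eq fun a => (RingHom.congr_fun c₁ a).symm
  have t₄ : IsScalarTower R₂ R₂' W' :=
    IsScalarTower.of_algebraMap_eq fun a => (RingHom.congr_fun c₂ a).symm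
  obtain ⟨X, _, _, ⟨eX⟩⟩ : ∃ (X : Type u) (_ : AddCommGroup X) (_ : Module W' X),
      Nonempty (X ≃ₗ[W'] W' ⊗[R₁'] (R₁' ⊗[R₁] N)) :=
    ⟨_, inferInstance, inferInstance, ⟨LinearEquiv.refl W' _⟩⟩
  obtain ⟨Y, _, _, ⟨eY⟩⟩ : ∃ (Y : Type u) (_ : AddCommGroup Y) (_ : Module W' Y),
      Nonempty (Y ≃ₗ[W'] W' ⊗[R₂'] (R₂' ⊗[R₂] M)) :=
    ⟨_, inferInstance, inferInstance, ⟨LinearEquiv.refl W' _⟩⟩
  let _ : Module W X := Module.compHom X (algebraMap W W')
  let _ : Module W Y := Module.compHom Y (algebraMap W W')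
  have s₁ : IsScalarTower W W' X := ⟨fun a b c => by
    rw [Algebra.smul_def, mul_smul]
    rfl⟩
  have s₂ : IsScalarTower W W' Y := ⟨fun a b c => by
    rw [Algebra.smul_def, mul_smul]
    rfl⟩
  obtain ⟨φ, hφ⟩ := exists_baseChange_tower (R := R₁) (R' := R₁') (W := W) (W' := W') N X eX
  obtain ⟨ψ, hψ⟩ := exists_baseChange_tower (R := R₂) (R' := R₂') (W := W) (W' := W') M Y eY
  have hFP : FP R₁ R₂ W N M := hrad
  have hlen0 : Module.length W ((W ⊗[R₁] N) ⊗[W] (W ⊗[R₂] M)) ≠ ⊤ := by
    rw [← (torZero (R := W) (W ⊗[R₁] N) (W ⊗[R₂] M)).length_eq]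
    exact hFP.length_ne_top 0
  have hlen1 := length_tensor_ne_top_of_fibre hfib (W ⊗[R₁] N) (W ⊗[R₂] M) hlen0
  have e3 : (W' ⊗[W] (W ⊗[R₁] N)) ⊗[W'] (W' ⊗[W] (W ⊗[R₂] M)) ≃ₗ[W'] X ⊗[W'] Y :=
    TensorProduct.congr hφ.equiv hψ.equiv
  have hlen2 : Module.length W' (X ⊗[W'] Y) ≠ ⊤ := by
    intro h3
    apply hlen1
    rw [← h3]
    exact LinearEquiv.length_eq e3
  obtain ⟨h1, h2⟩ := h (Module.length_ne_top_iff.1 (by
    rw [← (TensorProduct.congr eX eY).length_eq]
    exact hlen2))
  have heq := eulerTor_baseChange (R := W) (C := W') hφ hψ (d + 1)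
  have hpos : 0 < ((Module.length W' (W' ⧸ (maximalIdeal W).map (algebraMap W W'))).toNat : ℤ) := by
    have := length_fibre_pos (R := W) (C := W')
    have h3 := ENat.toNat_pos this.ne' hfib
    exact_mod_cast h3
  rw [← eulerTor_congr eX eY, heq] at h1
  refine ⟨hdim, nonneg_of_mul_nonneg_right h1 hpos, fun e g he hg hd => ?_⟩
  have h3 := h2 e g (he.trans (supportDim_le_baseChange_of_faithfullyFlat N))
    (hg.trans (supportDim_le_baseChange_of_faithfullyFlat M)) hd
  rw [← eulerTor_congr eX eY, heq] at h3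
  exact (mul_pos_iff_of_pos_left hpos).1 h3

theorem map_max_root {A B : Type u} [CommRing A] [CommRing B] [IsLocalRing A] [IsLocalRing B]
    (j : A →+* B) {w : ℕ} (hw : w ≠ 0) {y : A} {y' : B} (h : j y = y')
    (hy : y ∈ maximalIdeal A) (hy' : y' ∈ maximalIdeal B)
    (hm : (maximalIdeal A).map j = maximalIdeal B) [IsLocalRing (Root w y)]
    [IsLocalRing (Root w y')] :
    (maximalIdeal (Root w y)).map (jRoot j w h) = maximalIdeal (Root w y') := by
  obtain ⟨_, h1⟩ := root_local hw hy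
  obtain ⟨_, h2⟩ := root_local hw hy'
  rw [← h1, ← h2, Ideal.map_sup, Ideal.map_span, Set.image_singleton, jRoot_rt, Ideal.map_map,
    jRoot_comp, ← Ideal.map_map, hm]

theorem locStmtRel : LocStmtRel.{u} := by
  intro R W _ _ _ _ j₁ j₂ _ _ hf₁ hf₂ r hdR hdW y x hyx hm₁ hm₂ hy hres θ hθ horth P Q _ _ hyP hyQ
    hrad hdim
  obtain ⟨zs₁, -, -, hl₁, hh₁, hd₁, -⟩ := exists_ci hdR P
  obtain ⟨zs₂, -, -, hl₂, hh₂, hd₂, -⟩ := exists_ci hdR Q
  have hsum : r + 1 ≤ zs₁.length + zs₂.length := by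
    have := hdim _ _ hd₁.ge hd₂.ge
    omega
  have hy0 : y ∈ maximalIdeal R := by
    rw [← hyx]
    exact Ideal.mem_sup_left (Ideal.mem_span_singleton_self y)
  have hx0 : ∀ i, x i ∈ maximalIdeal R := fun i => by
    rw [← hyx]
    exact Ideal.mem_sup_right (Ideal.subset_span ⟨i, rfl⟩)
  obtain ⟨w₁, hw₁, hV₁⟩ := exists_VCondW r hdR y x hy0 hx0 P hyP _ hh₁
  obtain ⟨w₂, hw₂, hV₂⟩ := exists_VCondW r hdR y x hy0 hx0 Q hyQ _ hh₂
  obtain ⟨w, hw, hwd₁, hwd₂⟩ : ∃ w, w ≠ 0 ∧ w₁ ∣ w ∧ w₂ ∣ w :=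
    ⟨w₁ * w₂, by positivity, Dvd.intro _ rfl, Dvd.intro_left _ rfl⟩
  obtain ⟨k, hk⟩ := exists_pow_mem j₁ j₂ r hdW y x hyx hm₁ θ hθ P Q hrad
  let X : Fin (r + 1) → R := Fin.cons y x
  have hX : Ideal.span (Set.range X) = maximalIdeal R := by
    rw [← span_tail]
    exact hyx
  let XW : Fin (r + 1) → W := fun i => j₁ (X i)
  have hXW : Ideal.span (Set.range XW) = maximalIdeal W := by
    rw [← hm₁, ← hX, Ideal.map_span, ← Set.range_comp]
    rfl
  have hyW0 : j₁ y ∈ maximalIdeal W := by
    rw [← hm₁]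
    exact Ideal.mem_map_of_mem _ hy0
  obtain ⟨hR', hdR', hsR', hlR'⟩ := exists_regular_root w X hw hdR hX
  obtain ⟨hW', hdW', hsW', hlW'⟩ := exists_regular_root w XW hw hdW hXW
  let k₁ : Root w (X 0) →+* Root w (XW 0) := jRoot j₁ w (y := X 0) (y' := XW 0) rfl
  let k₂ : Root w (X 0) →+* Root w (XW 0) := jRoot j₂ w (y := X 0) (y' := XW 0) hy.symm
  have hmk₁ : (maximalIdeal (Root w (X 0))).map k₁ = maximalIdeal (Root w (XW 0)) :=
    map_max_root j₁ hw (y := X 0) (y' := XW 0) rfl hy0 hyW0 hm₁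
  have hmk₂ : (maximalIdeal (Root w (X 0))).map k₂ = maximalIdeal (Root w (XW 0)) :=
    map_max_root j₂ hw (y := X 0) (y' := XW 0) hy.symm hy0 hyW0 hm₂
  have hlk₁ : IsLocalHom k₁ := ((IsLocalRing.local_hom_TFAE k₁).out 0 2).2 hmk₁.le
  have hlk₂ : IsLocalHom k₂ := ((IsLocalRing.local_hom_TFAE k₂).out 0 2).2 hmk₂.le
  have hfk₁ : k₁.Flat := flat_of_params k₁ (r + 1) hdR' hdW' _ hsR' hmk₁
  have hfk₂ : k₂.Flat := flat_of_params k₂ (r + 1) hdR' hdW' _ hsR' hmk₂
  have hc₁ : k₁.comp (algebraMap R (Root w (X 0))) = (algebraMap W (Root w (XW 0))).comp j₁ :=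
    jRoot_comp j₁ w (y := X 0) (y' := XW 0) rfl
  have hc₂ : k₂.comp (algebraMap R (Root w (X 0))) = (algebraMap W (Root w (XW 0))).comp j₂ :=
    jRoot_comp j₂ w (y := X 0) (y' := XW 0) hy.symm
  have hsurj : Surjective (ResidueField.map (algebraMap R (Root w (X 0)))) :=
    residue_root_surjective (y := X 0) hw hy0
  have hres' : ResidueField.map k₁ = ResidueField.map k₂ :=
    res_eq_of_comp j₁ j₂ k₁ k₂ _ _ hc₁ hc₂ hsurj hres
  have hfree := root_free (y := X 0) hw
  have hfin := root_finite (y := X 0) hw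
  have hff : Module.FaithfullyFlat R (Root w (X 0)) :=
    Module.FaithfullyFlat.of_flat_of_isLocalHom
  have hfreeW := root_free (y := XW 0) hw
  have hkx : ∀ i : Fin r, k₁ (xRoot w X i.succ) = algebraMap W _ (j₁ (x i)) := fun i =>
    jRoot_algebraMap j₁ w (y := X 0) (y' := XW 0) rfl (x i)
  have hkx' : ∀ i : Fin r, k₂ (xRoot w X i.succ) = algebraMap W _ (j₂ (x i)) := fun i =>
    jRoot_algebraMap j₂ w (y := X 0) (y' := XW 0) hy.symm (x i)
  have hτ : (rt w (X 0)) ^ w = algebraMap R (Root w (X 0)) y := rt_pow w (X 0)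
  have hreg : ∀ (I : Ideal R) [I.IsPrime], y ∉ I → ∀ a, xRoot w X 0 * a ∈
      Module.annihilator (Root w (X 0)) (Root w (X 0) ⊗[R] (R ⧸ I)) →
      a ∈ Module.annihilator (Root w (X 0)) (Root w (X 0) ⊗[R] (R ⧸ I)) := by
    intro I _ hyI a ha
    rw [Module.mem_annihilator] at ha ⊢
    intro v
    have h1 : rt w (X 0) • (a • v) = 0 := by
      rw [smul_smul]
      exact ha v
    have h2 : y • (a • v) = 0 := by
      have hpw : rt w (X 0) ^ w = rt w (X 0) ^ (w - 1) * rt w (X 0) :=
        (pow_sub_one_mul hw _).symm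
      rw [← algebraMap_smul (Root w (X 0)) y, ← hτ, hpw, mul_smul, h1, smul_zero]
    have h3 : IsSMulRegular (R ⧸ I) y := by
      rw [isSMulRegular_iff_right_eq_zero_of_smul]
      intro b hb
      obtain ⟨b, rfl⟩ := Ideal.Quotient.mk_surjective b
      have hb' : Ideal.Quotient.mk I (y * b) = 0 := hb
      rw [Ideal.Quotient.eq_zero_iff_mem] at hb' ⊢
      exact ((inferInstance : I.IsPrime).mem_or_mem hb').resolve_left hyI
    have h4 : IsSMulRegular (Root w (X 0) ⊗[R] (R ⧸ I)) y := by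
      exact h3.lTensor (Root w (X 0))
    exact (isSMulRegular_iff_right_eq_zero_of_smul.1 h4) _ h2
  have hann : ∀ (I : Ideal R), ∀ a ∈ I, algebraMap R (Root w (X 0)) a ∈
      Module.annihilator (Root w (X 0)) (Root w (X 0) ⊗[R] (R ⧸ I)) := by
    intro I a ha
    rw [Module.mem_annihilator]
    intro v
    refine map_smul_eq_zero (R ⧸ I) _ (Ideal.mem_map_of_mem _ ?_) v
    rwa [Ideal.annihilator_quotient]
  have hpow : ∀ (I : Ideal R), y ^ k ∈ I ⊔ Ideal.span (Set.range x) →
      xRoot w X 0 ^ (w * k) ∈ Module.annihilator (Root w (X 0)) (Root w (X 0) ⊗[R] (R ⧸ I)) ⊔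
        Ideal.span (Set.range fun i : Fin r => xRoot w X i.succ) := by
    intro I hI
    have h1 := Ideal.mem_map_of_mem (algebraMap R (Root w (X 0))) hI
    rw [Ideal.map_sup, Ideal.map_span, ← Set.range_comp, map_pow, ← hτ, ← pow_mul] at h1
    have h2 : I.map (algebraMap R (Root w (X 0))) ≤
        Module.annihilator (Root w (X 0)) (Root w (X 0) ⊗[R] (R ⧸ I)) := by
      rw [Ideal.map_le_iff_le_comap]
      intro a ha
      exact hann I a ha
    exact sup_le_sup_right h2 _ h1
  have key := loc_rec r zs₁.length zs₂.length hsum (w * k) (Root w (X 0)) (Root w (XW 0)) k₁ k₂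
    hfk₁ hfk₂ hdR' hdW' (xRoot w X) hsR' hmk₁ hmk₂
    ((jRoot_rt j₁ w (y := X 0) (y' := XW 0) rfl).trans
      (jRoot_rt j₂ w (y := X 0) (y' := XW 0) hy.symm).symm) hres'
    (fun i l => algebraMap W _ (θ i l)) (by
      intro i
      rw [hkx', hθ, map_sum]
      refine Finset.sum_congr rfl fun l _ => ?_
      rw [map_mul, hkx]) (by
      have h1 := horth.transfer (ResidueField.map k₁) (ResidueField.map (algebraMap R _)) hsurj
        (ResidueField.map (algebraMap W (Root w (XW 0)))) (by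
          ext a
          obtain ⟨a, rfl⟩ := residue_surjective a
          rw [RingHom.comp_apply, RingHom.comp_apply, ResidueField.map_residue,
            ResidueField.map_residue, ResidueField.map_residue, ResidueField.map_residue]
          exact congrArg _ (RingHom.congr_fun hc₁ a))
      simp only [ResidueField.map_residue] at h1
      exact h1)
    (Root w (X 0) ⊗[R] (R ⧸ P)) (Root w (X 0) ⊗[R] (R ⧸ Q)) (hreg P hyP) (hreg Q hyQ)
    (VCondW.root hw hτ (hV₁.mono hwd₁) _ (hann P)) (VCondW.root hw hτ (hV₂.mono hwd₂) _ (hann Q))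
    (hk.imp (hpow P) (hpow Q))
  refine PosAlong.of_eulAlong (length_root_fibre (y := XW 0) hw hyW0) j₁ j₂ k₁ k₂ hc₁ hc₂ (r + 1) _ _ ?_ hdim
    key
  rw [Ideal.annihilator_quotient, Ideal.annihilator_quotient]
  exact hrad

end Vale.Agent.P177
end

section

/-!
Positivity for essentially smooth algebras over a regular local ring of arbitrary dimension, for
pairs of modules one of which has fibres of codimension at most one over the primes of height at
least five.
-/

namespace Vale.Agent.P177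

open CategoryTheory TensorProduct Function IsLocalRing RingTheory.Sequence Pointwise

universe u

/-- Every component of the fibre over `q` of every irreducible component of the support of `X` has
codimension at most one in that component. -/
def FibreCodimLeOne (A R X : Type u) [CommRing A] [CommRing R] [Algebra A R] [AddCommGroup X]
    [Module R X] (q : Ideal A) : Prop :=
  ∀ p ∈ (Module.annihilator R X).minimalPrimes,
    ∀ P ∈ (p ⊔ q.map (algebraMap A R)).minimalPrimes, P.comap (algebraMap A R) = q →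
      ∀ p' : Ideal R, p'.IsPrime → p < p' → ¬ p' < P

section

variable {A R₁ R₂ : Type u} [CommRing A] [CommRing R₁] [CommRing R₂] [Algebra A R₁]
  [Algebra A R₂]

theorem comap_mem_minimalPrimes_left (I₁ : Ideal R₁) (I₂ : Ideal R₂) (Q : Ideal (R₁ ⊗[A] R₂))
    [Q.IsPrime] (hQ : Q ∈ (I₁.map (algebraMap R₁ (R₁ ⊗[A] R₂)) ⊔
      I₂.map (Algebra.TensorProduct.includeRight : R₂ →ₐ[A] R₁ ⊗[A] R₂)).minimalPrimes) :
    Q.comap (algebraMap R₁ (R₁ ⊗[A] R₂)) ∈
      (I₁ ⊔ (Q.comap (algebraMap A (R₁ ⊗[A] R₂))).map (algebraMap A R₁)).minimalPrimes := by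
  let e : R₂ ⊗[A] R₁ ≃ₐ[A] R₁ ⊗[A] R₂ := Algebra.TensorProduct.comm A R₂ R₁
  have hs : Surjective (e : R₂ ⊗[A] R₁ →+* R₁ ⊗[A] R₂) := e.surjective
  have h1 := Ideal.comap_minimalPrimes_eq_of_surjective hs
    (I₁.map (algebraMap R₁ (R₁ ⊗[A] R₂)) ⊔
      I₂.map (Algebra.TensorProduct.includeRight : R₂ →ₐ[A] R₁ ⊗[A] R₂))
  have hcom : (I₁.map (algebraMap R₁ (R₁ ⊗[A] R₂)) ⊔
      I₂.map (Algebra.TensorProduct.includeRight : R₂ →ₐ[A] R₁ ⊗[A] R₂)).comap
        (e : R₂ ⊗[A] R₁ →+* R₁ ⊗[A] R₂) = I₂.map (algebraMap R₂ (R₂ ⊗[A] R₁)) ⊔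
      I₁.map (Algebra.TensorProduct.includeRight : R₁ →ₐ[A] R₂ ⊗[A] R₁) := by
    have h2 : (I₂.map (algebraMap R₂ (R₂ ⊗[A] R₁)) ⊔
      I₁.map (Algebra.TensorProduct.includeRight : R₁ →ₐ[A] R₂ ⊗[A] R₁)).map
        (e : R₂ ⊗[A] R₁ →+* R₁ ⊗[A] R₂) = I₁.map (algebraMap R₁ (R₁ ⊗[A] R₂)) ⊔
      I₂.map (Algebra.TensorProduct.includeRight : R₂ →ₐ[A] R₁ ⊗[A] R₂) := by
      rw [Ideal.map_sup, sup_comm]
      congr 1
      · rw [← Ideal.map_coe (Algebra.TensorProduct.includeRight : R₁ →ₐ[A] R₂ ⊗[A] R₁),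
          Ideal.map_map]
        congr 1
      · rw [← Ideal.map_coe (Algebra.TensorProduct.includeRight : R₂ →ₐ[A] R₁ ⊗[A] R₂),
          Ideal.map_map]
        congr 1
    rw [← h2]
    exact Ideal.comap_map_of_bijective _ e.bijective
  have hQ' : (Q.comap (e : R₂ ⊗[A] R₁ →+* R₁ ⊗[A] R₂)) ∈
      (I₂.map (algebraMap R₂ (R₂ ⊗[A] R₁)) ⊔
      I₁.map (Algebra.TensorProduct.includeRight : R₁ →ₐ[A] R₂ ⊗[A] R₁)).minimalPrimes := by
    rw [← hcom, h1]
    exact ⟨Q, hQ, rfl⟩
  have : (Q.comap (e : R₂ ⊗[A] R₁ →+* R₁ ⊗[A] R₂)).IsPrime := Ideal.IsPrime.comap _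
  have h3 := comap_mem_minimalPrimes I₂ I₁ (Q.comap (e : R₂ ⊗[A] R₁ →+* R₁ ⊗[A] R₂)) hQ'
  have h4 : (Q.comap (e : R₂ ⊗[A] R₁ →+* R₁ ⊗[A] R₂)).comap
      (Algebra.TensorProduct.includeRight : R₁ →ₐ[A] R₂ ⊗[A] R₁) =
      Q.comap (algebraMap R₁ (R₁ ⊗[A] R₂)) := by
    ext x
    change Algebra.TensorProduct.comm A R₂ R₁ (1 ⊗ₜ x) ∈ Q ↔ _
    rw [Algebra.TensorProduct.comm_tmul]
    rfl
  have h5 : (Q.comap (e : R₂ ⊗[A] R₁ →+* R₁ ⊗[A] R₂)).comap (algebraMap A (R₂ ⊗[A] R₁)) =
      Q.comap (algebraMap A (R₁ ⊗[A] R₂)) := by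
    ext x
    change e (algebraMap A _ x) ∈ Q ↔ _
    rw [AlgEquiv.commutes]
    rfl
  rw [h4, h5] at h3
  exact h3

end

/-- A bound for the dimension of a localized module from a chain condition. -/
theorem supportDim_loc_le_one {R : Type u} [CommRing R] (P : Ideal R) [P.IsPrime] (L : Type u)
    [CommRing L] [Algebra R L] [IsLocalization.AtPrime L P] (X : Type u) [AddCommGroup X]
    [Module R X] (h : ∀ p₀ p₁ : Ideal R, p₀.IsPrime → p₁.IsPrime → Module.annihilator R X ≤ p₀ →
      p₀ < p₁ → ¬ p₁ < P) :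
    Module.supportDim L (L ⊗[R] X) ≤ ((1 : ℕ) : WithBot ℕ∞) := by
  by_contra hcon
  rw [not_le] at hcon
  have h2 := succ_le_of_lt_withBot hcon
  unfold Module.supportDim at h2
  obtain ⟨l, hl⟩ := Order.le_krullDim_iff.1 h2
  have hlt : ∀ i j : Fin (l.length + 1), i < j → (l i).1.asIdeal < (l j).1.asIdeal :=
    fun i j hij => l.strictMono hij
  have hl' : l.length = 2 := hl
  have hcl : ∀ q q' : Ideal L, q.IsPrime → q'.IsPrime → q < q' →
      q.comap (algebraMap R L) < q'.comap (algebraMap R L) := by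
    intro q q' _ _ hqq
    refine lt_of_le_of_ne (Ideal.comap_mono hqq.le) fun heq => hqq.ne ?_
    rw [← IsLocalization.map_under P.primeCompl L q, ← IsLocalization.map_under P.primeCompl L q',
      Ideal.under, Ideal.under, heq]
  refine h ((l ⟨0, by omega⟩).1.asIdeal.comap (algebraMap R L))
    ((l ⟨1, by omega⟩).1.asIdeal.comap (algebraMap R L)) (Ideal.IsPrime.comap _)
    (Ideal.IsPrime.comap _) ?_ ?_ ?_
  · rw [← Ideal.map_le_iff_le_comap]
    refine (map_annihilator_le X).trans ?_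
    exact Module.annihilator_le_of_mem_support (l ⟨0, by omega⟩).2
  · exact hcl _ _ (l ⟨0, by omega⟩).1.isPrime (l ⟨1, by omega⟩).1.isPrime
      (hlt _ _ (Fin.mk_lt_mk.2 (by omega)))
  · have h3 := hcl _ _ (l ⟨1, by omega⟩).1.isPrime (l ⟨2, by omega⟩).1.isPrime
      (hlt ⟨1, by omega⟩ ⟨2, by omega⟩ (Fin.mk_lt_mk.2 (by omega)))
    refine lt_of_lt_of_le h3 ?_
    have hdisj := (IsLocalization.isPrime_iff_isPrime_disjoint P.primeCompl L
      (l ⟨2, by omega⟩).1.asIdeal).1 (l ⟨2, by omega⟩).1.isPrime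
    intro x hx
    by_contra hxP
    exact Set.disjoint_left.1 hdisj.2 hxP hx

/-- The chain condition at a minimal prime of the fibre. -/
theorem chain_of_fibre {A R X : Type u} [CommRing A] [CommRing R] [Algebra A R] [AddCommGroup X]
    [Module R X] (q : Ideal A) (h : FibreCodimLeOne A R X q) (I : Ideal R)
    (hI : Module.annihilator R X ≤ I) (hI' : I = Module.annihilator R X ∨
      I ∈ (Module.annihilator R X).minimalPrimes) (P : Ideal R)
    (hP : P ∈ (I ⊔ q.map (algebraMap A R)).minimalPrimes) (hPq : P.comap (algebraMap A R) = q)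
    (p₀ p₁ : Ideal R) (h₀ : p₀.IsPrime) (h₁ : p₁.IsPrime) (hp₀ : I ≤ p₀) (h01 : p₀ < p₁) :
    ¬ p₁ < P := by
  intro hlt
  rcases hI' with rfl | hI'
  · obtain ⟨p, hp, hpp⟩ := Ideal.exists_minimalPrimes_le hp₀
    refine h p hp P ⟨⟨hP.1.1, sup_le ?_ (le_sup_right.trans hP.1.2)⟩, ?_⟩ hPq p₁ h₁
      (lt_of_le_of_lt hpp h01) hlt
    · exact hpp.trans (h01.le.trans hlt.le)
    · rintro P' ⟨hP', hle'⟩ hle
      exact hP.2 ⟨hP', (sup_le_sup_right hp.1.2 _).trans hle'⟩ hle
  · exact h I hI' P hP hPq p₁ h₁ (lt_of_le_of_lt hp₀ h01) hlt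

section

variable {A R₁ R₂ T : Type u} [CommRing A] [IsNoetherianRing A] [CommRing R₁] [CommRing R₂]
  [Algebra A R₁] [Algebra A R₂]
  [CommRing T] [IsRegularLocalRing R₁] [IsRegularLocalRing R₂] [IsRegularLocalRing T]
  [Module.Flat A R₁] [Module.Flat A R₂] [IsNoetherianRing (R₁ ⊗[A] R₂)]
  [Algebra R₁ T] [Algebra R₂ T] [Module.Flat R₁ T] [Module.Flat R₂ T]
  [Algebra (R₁ ⊗[A] R₂) T]

omit [Module.Flat A R₁] in
theorem locPosAt_essSmooth (S : Submonoid (R₁ ⊗[A] R₂)) [IsLocalization S T]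
    (hT₁ : algebraMap R₁ T = (algebraMap (R₁ ⊗[A] R₂) T).comp (algebraMap R₁ (R₁ ⊗[A] R₂)))
    (hT₂ : algebraMap R₂ T = (algebraMap (R₁ ⊗[A] R₂) T).comp
      ((Algebra.TensorProduct.includeRight : R₂ →ₐ[A] R₁ ⊗[A] R₂) : R₂ →+* R₁ ⊗[A] R₂))
    (M N M' N' : Type u) [AddCommGroup M] [Module R₂ M] [Module.Finite R₂ M] [AddCommGroup N]
    [Module R₁ N] [Module.Finite R₁ N] [AddCommGroup M'] [Module R₂ M'] [Module.Finite R₂ M']
    [AddCommGroup N'] [Module R₁ N'] [Module.Finite R₁ N']
    (hM' : Module.annihilator R₂ M ≤ Module.annihilator R₂ M')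
    (hM'' : Module.annihilator R₂ M' = Module.annihilator R₂ M ∨
      Module.annihilator R₂ M' ∈ (Module.annihilator R₂ M).minimalPrimes)
    (hN' : Module.annihilator R₁ N ≤ Module.annihilator R₁ N')
    (hN'' : Module.annihilator R₁ N' = Module.annihilator R₁ N ∨
      Module.annihilator R₁ N' ∈ (Module.annihilator R₁ N).minimalPrimes)
    (hcond : ∀ q : Ideal A, q.IsPrime → 5 ≤ q.height →
      FibreCodimLeOne A R₂ M q ∨ FibreCodimLeOne A R₁ N q)
    (Q : Ideal T) [Q.IsPrime]
    (hQ : Q ∈ ((Module.annihilator R₁ N').map (algebraMap R₁ T) ⊔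
      (Module.annihilator R₂ M').map (algebraMap R₂ T)).minimalPrimes) :
    LocPosAt (T := T) R₁ R₂ N' M' Q := by
  let Q' : Ideal (R₁ ⊗[A] R₂) := Q.comap (algebraMap (R₁ ⊗[A] R₂) T)
  have hQ' : Q'.IsPrime := Ideal.IsPrime.comap _
  have hQm : Q' ∈ ((Module.annihilator R₁ N').map (algebraMap R₁ (R₁ ⊗[A] R₂)) ⊔
      (Module.annihilator R₂ M').map
        (Algebra.TensorProduct.includeRight : R₂ →ₐ[A] R₁ ⊗[A] R₂)).minimalPrimes := by
    have h1 := IsLocalization.minimalPrimes_map S T
      ((Module.annihilator R₁ N').map (algebraMap R₁ (R₁ ⊗[A] R₂)) ⊔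
      (Module.annihilator R₂ M').map
        (Algebra.TensorProduct.includeRight : R₂ →ₐ[A] R₁ ⊗[A] R₂))
    rw [Ideal.map_sup, Ideal.map_map, ← hT₁,
      ← Ideal.map_coe (Algebra.TensorProduct.includeRight : R₂ →ₐ[A] R₁ ⊗[A] R₂), Ideal.map_map,
      ← hT₂] at h1
    rw [h1] at hQ
    exact hQ
  let q : Ideal A := Q'.comap (algebraMap A (R₁ ⊗[A] R₂))
  have hq : q.IsPrime := Ideal.IsPrime.comap _
  have e₁ : Q.comap (algebraMap R₁ T) = Q'.comap (algebraMap R₁ (R₁ ⊗[A] R₂)) := by
    rw [hT₁, ← Ideal.comap_comap]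
  have e₂ : Q.comap (algebraMap R₂ T) = Q'.comap
      (Algebra.TensorProduct.includeRight : R₂ →ₐ[A] R₁ ⊗[A] R₂) := by
    rw [hT₂, ← Ideal.comap_comap]
    rfl
  by_cases h5 : 5 ≤ q.height
  · intro L₁ L₂ _ _ _ _ _ _ D₁ D₂ r₁ r₂ t b h₁ h₂ ht hrb hFP
    have i0 : IsRegularLocalRing (Localization.AtPrime Q) :=
      isRegularLocalRing_localization T Q (Localization.AtPrime Q)
    have i1 := D₁.reg
    have i2 := D₂.reg
    have i3 := D₁.flat
    have i4 := D₂.flat
    have i5 := D₁.loc
    have i6 := D₂.loc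
    have i7 := D₁.isloc
    have i8 := D₂.isloc
    have hpos : Pos L₁ L₂ (Localization.AtPrime Q) t b (L₁ ⊗[R₁] N') (L₂ ⊗[R₂] M') := by
      rcases hcond q hq h5 with hc | hc
      · have h6 : Module.supportDim L₂ (L₂ ⊗[R₂] M') ≤ ((1 : ℕ) : WithBot ℕ∞) := by
          refine supportDim_loc_le_one (Q.comap (algebraMap R₂ T)) L₂ M' ?_
          intro p₀ p₁ k₀ k₁ k2 k3
          refine chain_of_fibre q hc (Module.annihilator R₂ M') hM' hM'' _ ?_ ?_ p₀ p₁ k₀ k₁ k2 k3
          · rw [e₂]
            exact comap_mem_minimalPrimes _ _ Q' hQm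
          · rw [e₂]
            ext x
            change (Algebra.TensorProduct.includeRight : R₂ →ₐ[A] R₁ ⊗[A] R₂)
              (algebraMap A R₂ x) ∈ Q' ↔ algebraMap A (R₁ ⊗[A] R₂) x ∈ Q'
            rw [AlgHom.commutes]
        exact (pos_dim_le_one h₂ h₁ ht (by omega) (L₁ ⊗[R₁] N') (L₂ ⊗[R₂] M') h6 hFP.symm).symm
      · have h6 : Module.supportDim L₁ (L₁ ⊗[R₁] N') ≤ ((1 : ℕ) : WithBot ℕ∞) := by
          refine supportDim_loc_le_one (Q.comap (algebraMap R₁ T)) L₁ N' ?_
          intro p₀ p₁ k₀ k₁ k2 k3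
          refine chain_of_fibre q hc (Module.annihilator R₁ N') hN' hN'' _ ?_ ?_ p₀ p₁ k₀ k₁ k2 k3
          · rw [e₁]
            exact comap_mem_minimalPrimes_left _ _ Q' hQm
          · rw [e₁, Ideal.comap_comap, ← IsScalarTower.algebraMap_eq]
        exact pos_dim_le_one h₁ h₂ ht hrb (L₂ ⊗[R₂] M') (L₁ ⊗[R₁] N') h6 hFP
    exact ⟨hpos.dim_le, hpos.nonneg, hpos.pos⟩
  · refine locPosAt_of_locPos 4 locPos_four N' M' Q ?_
    intro r₁ r₂ t h₁ h₂ ht
    have h7 := height_bound Q'
    have h8 : Q'.height = t := by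
      rw [← ht]
      exact IsLocalization.height_under S Q
    rw [e₁] at h₁
    rw [e₂] at h₂
    have h9 : q.height ≤ ((4 : ℕ) : ℕ∞) := by
      rw [not_le] at h5
      exact Order.le_of_lt_add_one h5
    rw [h8, h₁, h₂] at h7
    have h12 : ((r₁ : ℕ∞) + r₂) ≤ t + (4 : ℕ) := h7.trans (by gcongr)
    exact_mod_cast h12

end


section

variable {A R₁ R₂ : Type u} [CommRing A] [IsRegularLocalRing A] [CommRing R₁] [IsLocalRing R₁]
  [Algebra A R₁] [Algebra.EssFiniteType A R₁] [Algebra.FormallySmooth A R₁] [CommRing R₂]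
  [IsLocalRing R₂] [Algebra A R₂] [Algebra.EssFiniteType A R₂] [Algebra.FormallySmooth A R₂]

theorem serre_essSmooth_loc₂ (θ : R₂ ≃ₐ[A] R₁) (d : ℕ) (hd : ringKrullDim R₁ = d)
    (M N : Type u) [AddCommGroup M] [Module R₂ M] [Module.Finite R₂ M]
    [AddCommGroup N] [Module R₁ N] [Module R₂ N] [Module.Finite R₁ N]
    (hcond : ∀ q : Ideal A, q.IsPrime → 5 ≤ q.height →
      FibreCodimLeOne A R₂ M q ∨ FibreCodimLeOne A R₁ N q)
    (hN : ∀ (s : R₂) (t : N), s • t = θ s • t)
    (hlen : Module.length R₂ (M ⊗[R₂] N) ≠ ⊤) :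
    0 ≤ eulerTor R₂ (d + 1) M N ∧ ∀ m n : ℕ, (m : WithBot ℕ∞) ≤ Module.supportDim R₂ M →
      (n : WithBot ℕ∞) ≤ Module.supportDim R₁ N →
      (m + n ≤ d) ∧ (d ≤ m + n → 0 < eulerTor R₂ (d + 1) M N) := by
  obtain ⟨hR₁, hflat₁⟩ := regular_flat_of_essSmooth A R₁
  obtain ⟨hR₂, hflat₂⟩ := regular_flat_of_essSmooth A R₂
  let μ₀ : R₁ ⊗[A] R₂ →ₐ[R₁] R₁ := Algebra.TensorProduct.lift (AlgHom.id R₁ R₁)
    (θ : R₂ →ₐ[A] R₁) (fun x y => mul_comm _ _)
  have hμ₀ : ∀ x y, μ₀ (x ⊗ₜ y) = x * θ y := fun x y => Algebra.TensorProduct.lift_tmul _ _ _ _ _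
  let 𝔐 : Ideal (R₁ ⊗[A] R₂) := (maximalIdeal R₁).comap μ₀
  have h𝔐 : 𝔐.IsPrime := Ideal.IsPrime.comap _
  let T := Localization.AtPrime 𝔐
  have hunit : ∀ y : 𝔐.primeCompl, IsUnit (μ₀ y) := by
    intro y
    by_contra hcon
    exact y.2 ((mem_maximalIdeal _).2 hcon)
  let μ : T →ₐ[R₁] R₁ := IsLocalization.liftAlgHom (M := 𝔐.primeCompl)
    (S := T) (f := μ₀) hunit
  have hμ : ∀ x, μ (algebraMap _ _ x) = μ₀ x := by
    intro x
    exact IsLocalization.lift_eq (S := T) (g := (μ₀ : _ →+* R₁)) hunit x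
  have hμs : Surjective μ := fun s => ⟨algebraMap R₁ _ s, μ.commutes s⟩
  have f1 : Algebra.FormallySmooth (R₁ ⊗[A] R₂) T :=
    Algebra.FormallySmooth.of_isLocalization 𝔐.primeCompl
  have f2 : Algebra.FormallySmooth R₁ T :=
    Algebra.FormallySmooth.comp R₁ (R₁ ⊗[A] R₂) T
  obtain ⟨hT, hTflat⟩ := regular_flat_of_essSmooth R₁ T
  obtain ⟨-, z, hz1, hz2⟩ := exists_regular_list_of_formallySmooth R₁ T R₁ μ
    hμs
  have hN1 : IsNoetherianRing (R₁ ⊗[A] R₂) :=
    Algebra.EssFiniteType.isNoetherianRing R₁ (R₁ ⊗[A] R₂)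
  let i₂ : R₂ →+* T := (algebraMap (R₁ ⊗[A] R₂) T).comp
      ((Algebra.TensorProduct.includeRight : R₂ →ₐ[A] R₁ ⊗[A] R₂) : R₂ →+* R₁ ⊗[A] R₂)
  let _ : Algebra R₂ T := i₂.toAlgebra
  have hflat2 : Module.Flat R₂ T := by
    have : i₂.Flat := by
      refine (flat_includeRight A R₁ R₂).comp ?_
      rw [RingHom.flat_algebraMap_iff]
      exact IsLocalization.flat _ 𝔐.primeCompl
    exact this
  have hT₁ : algebraMap R₁ T = (algebraMap (R₁ ⊗[A] R₂) T).comp
      (algebraMap R₁ (R₁ ⊗[A] R₂)) := IsScalarTower.algebraMap_eq _ _ _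
  have hT₂ : algebraMap R₂ T = (algebraMap (R₁ ⊗[A] R₂) T).comp
      ((Algebra.TensorProduct.includeRight : R₂ →ₐ[A] R₁ ⊗[A] R₂) : R₂ →+* R₁ ⊗[A] R₂) := rfl
  refine global_pos_of_loc (μ : T →+* R₁) (fun s => μ.commutes s) z hz1.symm hz2
    (θ : R₂ ≃+* R₁) ?_ d hd M N ?_ ?_ hN hlen
  · intro s
    change μ (algebraMap (R₁ ⊗[A] R₂) _ (1 ⊗ₜ s)) = θ s
    rw [hμ, hμ₀, one_mul]
  · intro Q _ hQ
    exact locPosAt_essSmooth 𝔐.primeCompl hT₁ hT₂ M N M N le_rfl (Or.inl rfl) le_rfl (Or.inl rfl)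
      hcond Q hQ
  · intro p₁ p₂ hp₁ hp₂ Q _ hQ
    have k₁ : Module.annihilator R₁ (R₁ ⧸ p₁.asIdeal) = p₁.asIdeal := Ideal.annihilator_quotient
    have k₂ : Module.annihilator R₂ (R₂ ⧸ p₂.asIdeal) = p₂.asIdeal := Ideal.annihilator_quotient
    refine locPosAt_essSmooth 𝔐.primeCompl hT₁ hT₂ M N (R₂ ⧸ p₂.asIdeal) (R₁ ⧸ p₁.asIdeal)
      ?_ ?_ ?_ ?_ hcond Q ?_
    · rw [k₂]; exact hp₂.1.2
    · rw [k₂]; exact Or.inr hp₂
    · rw [k₁]; exact hp₁.1.2
    · rw [k₁]; exact Or.inr hp₁
    · rw [k₁, k₂]; exact hQ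

end

theorem serre_essSmooth_loc (A R : Type u) [CommRing A]
    [IsRegularLocalRing A] [CommRing R] [IsLocalRing R] [Algebra A R]
    [Algebra.EssFiniteType A R] [Algebra.FormallySmooth A R] (d : ℕ) (hd : ringKrullDim R = d)
    (M N : Type u) [AddCommGroup M] [Module R M] [Module.Finite R M]
    [AddCommGroup N] [Module R N] [Module.Finite R N]
    (hcond : ∀ q : Ideal A, q.IsPrime → 5 ≤ q.height →
      FibreCodimLeOne A R M q ∨ FibreCodimLeOne A R N q)
    (hlen : Module.length R (M ⊗[R] N) ≠ ⊤) :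
    0 ≤ eulerTor R (d + 1) M N ∧ ∀ m n : ℕ, (m : WithBot ℕ∞) ≤ Module.supportDim R M →
      (n : WithBot ℕ∞) ≤ Module.supportDim R N →
      (m + n ≤ d) ∧ (d ≤ m + n → 0 < eulerTor R (d + 1) M N) :=
  serre_essSmooth_loc₂ (AlgEquiv.refl : R ≃ₐ[A] R) d hd M N hcond (fun _ _ => rfl) hlen

end Vale.Agent.P177
end

section

/-!
The cases of Serre's positivity conjecture.
-/

namespace Vale.Agent.P177

open CategoryTheory TensorProduct Function IsLocalRing RingTheory.Sequence Serre

universe u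

/-! ### Flat maps with closed fibre of finite length -/

theorem isLocalHom_of_fibre {R C : Type u} [CommRing R] [IsLocalRing R] [CommRing C]
    [IsLocalRing C] (φ : R →+* C) (h : (maximalIdeal R).map φ ≤ maximalIdeal C) :
    IsLocalHom φ := ((local_hom_TFAE φ).out 0 2).2 h

theorem length_fibre_ne_top {R C : Type u} [CommRing R] [IsLocalRing R] [CommRing C]
    [IsLocalRing C] [IsNoetherianRing C] (φ : R →+* C) {k : ℕ}
    (h : maximalIdeal C ^ k ≤ (maximalIdeal R).map φ) :
    Module.length C (C ⧸ (maximalIdeal R).map φ) ≠ ⊤ := by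
  rw [Module.length_ne_top_iff]
  refine isFiniteLength_of_pow_smul_eq_zero k ?_
  intro a ha x
  obtain ⟨c, rfl⟩ := Ideal.Quotient.mk_surjective x
  change Ideal.Quotient.mk _ (a * c) = 0
  rw [Ideal.Quotient.eq_zero_iff_mem]
  exact Ideal.mul_mem_right _ _ (h ha)

theorem ringKrullDim_eq_of_flat_fibre {R C : Type u} [CommRing R] [CommRing C]
    [IsRegularLocalRing R] [IsLocalRing C] [IsNoetherianRing C] [Algebra R C] [Module.Flat R C]
    (hle : (maximalIdeal R).map (algebraMap R C) ≤ maximalIdeal C) {k : ℕ}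
    (hk : maximalIdeal C ^ k ≤ (maximalIdeal R).map (algebraMap R C)) :
    ringKrullDim C = ringKrullDim R := by
  obtain ⟨rs, hrs, hlen⟩ := exists_list_maximalIdeal R
  have hreg := isRegular_of_ofList_eq_maximalIdeal R rs hrs hlen
  have h1 : IsWeaklyRegular C (rs.map (algebraMap R C)) := hreg.toIsWeaklyRegular.of_flat
  have h2 := length_le_height (maximalIdeal C) _ (fun z hz => by
    rw [List.mem_map] at hz
    obtain ⟨y, hy, rfl⟩ := hz
    refine hle (Ideal.mem_map_of_mem _ ?_)
    rw [← hrs]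
    exact Ideal.subset_span hy) h1
  rw [List.length_map] at h2
  have h3 : (rs.length : WithBot ℕ∞) ≤ ringKrullDim C := by
    refine le_trans ?_ (Ideal.height_le_ringKrullDim_of_isPrime (I := maximalIdeal C))
    exact_mod_cast h2
  have hmin : maximalIdeal C ∈ ((maximalIdeal R).map (algebraMap R C)).minimalPrimes := by
    refine ⟨⟨inferInstance, hle⟩, ?_⟩
    rintro J ⟨hJ, hJle⟩ -
    exact hJ.le_of_pow_le (hk.trans hJle)
  have h4 : ringKrullDim C ≤ (rs.length : WithBot ℕ∞) := by
    rw [← IsLocalRing.maximalIdeal_height_eq_ringKrullDim]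
    have h5 := Ideal.height_le_spanRank_toENat_of_mem_minimalPrimes _ _ hmin
    have h6 : ((maximalIdeal R).map (algebraMap R C)).spanRank.toENat ≤ (rs.length : ℕ∞) := by
      classical
      have h7 : {x | x ∈ rs.map (algebraMap R C)} =
          ((rs.map (algebraMap R C)).toFinset : Set C) := by
        ext x
        simp
      rw [← hrs, Ideal.map_ofList, Ideal.ofList, h7]
      refine Cardinal.toENat_le_natCast.2 ?_
      refine (Submodule.spanRank_span_le_card _).trans ?_
      simp only [Finset.coe_sort_coe, Cardinal.mk_coe_finset]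
      have h8 := List.toFinset_card_le (rs.map (algebraMap R C))
      rw [List.length_map] at h8
      exact_mod_cast h8
    exact_mod_cast h5.trans h6
  rw [← hlen]
  exact le_antisymm h4 h3

theorem serreAll_of_fibre {R C : Type u} [CommRing R] [CommRing C]
    [IsRegularLocalRing R] [IsLocalRing C] [IsNoetherianRing C] (φ : R →+* C)
    (hφ : FlatFiniteFibre φ) (d : ℕ)
    (hd : ringKrullDim R = d) (h : ∀ d' : ℕ, ringKrullDim C = d' → SerreAll C d') :
    SerreAll R d := by
  obtain ⟨hflat, hle, k, hk⟩ := hφ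
  let _ : Algebra R C := φ.toAlgebra
  have : Module.Flat R C := hflat
  have : IsLocalHom (algebraMap R C) := isLocalHom_of_fibre φ hle
  refine SerreAll.descend_finite (length_fibre_ne_top φ hk) (h d ?_)
  rw [ringKrullDim_eq_of_flat_fibre hle hk, hd]

/-! ### The cases -/

theorem serreHolds_of_sp {R : Type u} [CommRing R] [IsRegularLocalRing R] {d : ℕ}
    (hd : ringKrullDim R = d) {M N : Type u} [AddCommGroup M] [Module R M] [Module.Finite R M]
    [AddCommGroup N] [Module R N] [Module.Finite R N] (hlen : Module.length R (M ⊗[R] N) ≠ ⊤)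
    (h : Good R d M N) : SerreHolds R d M N := by
  refine ⟨fun i => tor_length_ne_top i M N hlen,
    fun i hi => regular_tor_vanish R d hd M N i hi, h.1, ?_⟩
  intro hdim
  obtain ⟨m, n, hm, hn, hmn⟩ := exists_nat_of_sum_eq _ _ d hdim
  exact h.2 m n hm.ge hn.ge hmn.ge

theorem SP.good {R : Type u} [CommRing R] {d : ℕ} {M N : Type u} [AddCommGroup M] [Module R M]
    [AddCommGroup N] [Module R N] (h : SP R d M N) : Good R d M N :=
  ⟨h.1, fun a b ha hb hab => (h.2 a b ha hb).2 hab⟩

theorem mvPowerSeries_regular_fin' (A : Type u) [CommRing A] [IsRegularLocalRing A] (n : ℕ) :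
    IsRegularLocalRing (MvPowerSeries (Fin n) A) := by
  obtain ⟨a', ha'⟩ : ∃ a' : ℕ, ringKrullDim A = a' := by
    obtain ⟨rs, -, hlen⟩ := exists_list_maximalIdeal A
    exact ⟨_, hlen.symm⟩
  exact (mvPowerSeries_regular n (Equiv.refl (Fin n)) ha').1

theorem flatFiniteFibre_comp {R C D : Type u} [CommRing R] [IsLocalRing R] [CommRing C]
    [IsLocalRing C] [CommRing D] [IsLocalRing D] {φ : R →+* C} (h : FlatFiniteFibre φ)
    {ψ : C →+* D} (hψ : ψ.Flat) (he : (maximalIdeal C).map ψ = maximalIdeal D) :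
    FlatFiniteFibre (ψ.comp φ) := by
  obtain ⟨h1, h2, k, h3⟩ := h
  refine ⟨h1.comp hψ, ?_, k, ?_⟩
  · rw [← Ideal.map_map, ← he]
    exact Ideal.map_mono h2
  · rw [← Ideal.map_map, ← he, ← Ideal.map_pow]
    exact Ideal.map_mono h3

/-- Tame rings are regular and satisfy Serre's positivity conjecture. -/
theorem tame_serreAll {R : Type u} [hR : CommRing R] (h : Tame R) :
    IsRegularLocalRing R ∧ ∀ d : ℕ, ringKrullDim R = d → SerreAll R d := by
  induction h with
  | @smooth A R _ _ _ _ _ _ _ hA =>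
    exact ⟨(regular_flat_of_essSmooth A R).1,
      fun d hd => serreAll_essSmooth 4 locPos_four A R hA d hd⟩
  | @powerSeries A _ _ n hA =>
    exact ⟨mvPowerSeries_regular_fin' A n,
      fun d hd => serreAll_powerSeries 4 locPos_four A hA n d hd⟩
  | @quadric R _ _ h =>
    obtain ⟨r, s, z, c, hs, hd, hz, hu, hc⟩ := h
    refine ⟨inferInstance, fun d hd' => ?_⟩
    have h1 : r + s = d := by
      rw [hd] at hd'
      exact_mod_cast hd'
    subst h1
    exact serreAll_of_uniformizing locStmtRel hs hd z c hz hu hc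
  | @descend R C _ _ _ _ φ hφ _ ih =>
    obtain ⟨hreg, ih⟩ := ih
    exact ⟨inferInstance, fun d hd => serreAll_of_fibre φ hφ d hd ih⟩

/-! ### Devissage -/

section dev

variable {R : Type u} [CommRing R] [IsRegularLocalRing R] {d : ℕ} (hd : ringKrullDim R = d)

include hd in
theorem Good.of_exact' {M' M M'' N : Type u} [AddCommGroup M'] [Module R M']
    [AddCommGroup M] [Module R M] [AddCommGroup M''] [Module R M''] [Module.Finite R M']
    [Module.Finite R M] [Module.Finite R M'']
    [AddCommGroup N] [Module R N] [Module.Finite R N]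
    (f : M' →ₗ[R] M) (g : M →ₗ[R] M'') (hf : Injective f) (hg : Surjective g) (h : Exact f g)
    (hlen : Module.length R (M ⊗[R] N) ≠ ⊤) (h1 : Good R d M' N) (h3 : Good R d M'' N) :
    Good R d M N := by
  have hlen' : Module.length R (M' ⊗[R] N) ≠ ⊤ :=
    length_tensor_ne_top_of_annihilator_le M M' N hlen (LinearMap.annihilator_le_of_injective f hf)
  have hv : Module.length R (TorM R (d + 1) M'' N) = 0 := by
    have := regular_tor_vanish R d hd M'' N (d + 1) le_rfl
    exact Module.length_eq_zero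
  have hadd := eulerTor_add_aux f g hf hg h N (fun i => tor_length_ne_top i M' N hlen')
    (fun i => tor_length_ne_top i M N hlen) (d + 1) hv
  unfold Good
  rw [hadd]
  refine ⟨add_nonneg h1.1 h3.1, fun a b ha hb hab => ?_⟩
  rcases le_supportDim_of_exact f g hf hg h a ha with ha' | ha'
  · exact add_pos_of_pos_of_nonneg (h1.2 a b ha' hb hab) h3.1
  · exact add_pos_of_nonneg_of_pos h1.1 (h3.2 a b ha' hb hab)

theorem Good.of_subsingleton {M N : Type u} [AddCommGroup M] [Module R M] [AddCommGroup N]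
    [Module R N] (h : Subsingleton M) : Good R d M N := (SP.of_subsingleton h).good

theorem Good.congr {M N M' : Type u} [AddCommGroup M] [Module R M] [AddCommGroup N]
    [Module R N] [AddCommGroup M'] [Module R M'] (e : M ≃ₗ[R] M') (h : Good R d M N) :
    Good R d M' N := by
  unfold Good at h ⊢
  rw [← eulerTor_congr e (LinearEquiv.refl R N), ← Module.supportDim_eq_of_equiv e]
  exact h

include hd in
/-- Devissage to prime cyclic modules in the first variable. -/
theorem good_dev (M N : Type u) [AddCommGroup M] [Module R M] [Module.Finite R M]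
    [AddCommGroup N] [Module R N] [Module.Finite R N]
    (hlen : Module.length R (M ⊗[R] N) ≠ ⊤)
    (h : ∀ P : Ideal R, P.IsPrime → Module.annihilator R M ≤ P → Good R d (R ⧸ P) N) :
    Good R d M N := by
  refine IsNoetherianRing.induction_on_isQuotientEquivQuotientPrime R (M := M) inferInstance
    (motive := fun X => Module.annihilator R M ≤ Module.annihilator R X → Good R d X N)
    ?_ ?_ ?_ le_rfl
  · intro X _ _ _ hX _
    exact Good.of_subsingleton hX
  · intro X _ _ _ q e hle
    refine Good.congr e.symm (h q.1 q.2 ?_)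
    rw [e.annihilator_eq, Ideal.annihilator_quotient] at hle
    exact hle
  · intro X₁ _ _ _ X₂ _ _ _ X₃ _ _ _ i g hi hg hex h1 h3 hle
    refine Good.of_exact' hd i g hi hg hex ?_ (h1 ?_) (h3 ?_)
    · exact length_tensor_ne_top_of_annihilator_le M X₂ N hlen hle
    · exact hle.trans (LinearMap.annihilator_le_of_injective i hi)
    · exact hle.trans (LinearMap.annihilator_le_of_surjective g hg)

include hd in
/-- Devissage to prime cyclic modules in both variables. -/
theorem good_dev₂ (M N : Type u) [AddCommGroup M] [Module R M] [Module.Finite R M]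
    [AddCommGroup N] [Module R N] [Module.Finite R N]
    (hlen : Module.length R (M ⊗[R] N) ≠ ⊤)
    (h : ∀ P Q : Ideal R, P.IsPrime → Q.IsPrime → Module.annihilator R M ≤ P →
      Module.annihilator R N ≤ Q → Module.length R ((R ⧸ P) ⊗[R] (R ⧸ Q)) ≠ ⊤ →
      Good R d (R ⧸ P) (R ⧸ Q)) :
    Good R d M N := by
  refine good_dev hd M N hlen fun P hP hle => ?_
  have h1 : Module.length R ((R ⧸ P) ⊗[R] N) ≠ ⊤ :=
    length_tensor_ne_top_of_annihilator_le M (R ⧸ P) N hlen (by
      rw [Ideal.annihilator_quotient]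
      exact hle)
  have h2 : Module.length R (N ⊗[R] (R ⧸ P)) ≠ ⊤ := by
    rw [(TensorProduct.comm R N (R ⧸ P)).length_eq]
    exact h1
  refine (good_dev hd N (R ⧸ P) h2 fun Q hQ hleQ => ?_).symm
  have h3 : Module.length R ((R ⧸ Q) ⊗[R] (R ⧸ P)) ≠ ⊤ :=
    length_tensor_ne_top_of_annihilator_le N (R ⧸ Q) (R ⧸ P) h2 (by
      rw [Ideal.annihilator_quotient]
      exact hleQ)
  refine (h P Q hP hQ hle hleQ ?_).symm
  rw [(TensorProduct.comm R (R ⧸ P) (R ⧸ Q)).length_eq]
  exact h3

end dev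

/-! ### Good pairs -/

/-- A prime cyclic module over a tame regular quotient. -/
theorem sp_of_tame {R R' : Type u} [CommRing R] [IsRegularLocalRing R] {d : ℕ}
    (hd : ringKrullDim R = d) [CommRing R'] (ψ : R →+* R') (hψ : Surjective ψ) (ht : Tame R')
    (P : Ideal R) (hP : RingHom.ker ψ ≤ P) (N : Type u) [AddCommGroup N] [Module R N]
    [Module.Finite R N] (hlen : Module.length R ((R ⧸ P) ⊗[R] N) ≠ ⊤) : SP R d (R ⧸ P) N := by
  obtain ⟨hreg, hall⟩ := tame_serreAll ht
  obtain ⟨d', hd'⟩ := exists_nat_eq_ringKrullDim R'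
  exact sp_of_quotient hd hd' ψ hψ (hall d' hd') P hP N hlen

theorem sp_of_transversal {R C : Type u} [CommRing R] [IsRegularLocalRing R] {d : ℕ}
    (hd : ringKrullDim R = d) [CommRing C] [IsRegularLocalRing C] (φ₁ : R →+* C)
    (hφ₁ : FlatFiniteFibre φ₁) {P₀ Q₀ : Ideal R} (h : Transversal φ₁ P₀ Q₀) (P Q : Ideal R)
    (hP : P₀ ≤ P) (hQ : Q₀ ≤ Q) (hlen : Module.length R ((R ⧸ P) ⊗[R] (R ⧸ Q)) ≠ ⊤) :
    SP R d (R ⧸ P) (R ⧸ Q) := by
  obtain ⟨r, x, c, hr, hx, hu, htr⟩ := h
  have hdC : ringKrullDim C = d := by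
    obtain ⟨hflat, hle, k, hk⟩ := hφ₁
    let _ : Algebra R C := φ₁.toAlgebra
    have i1 : Module.Flat R C := hflat
    rw [ringKrullDim_eq_of_flat_fibre (R := R) (C := C) hle hk, hd]
  have hrd : r = d := by
    rw [hr] at hdC
    exact_mod_cast hdC
  subst hrd
  obtain ⟨V, _, _, ϖ, hϖ, hV, c', hloc, φ₂, v, hflat₂, hm₂, hX, hv, hC⟩ :=
    exists_presentation_of_uniformizing hdC x hx c hu
  obtain ⟨hreg, -, -⟩ := quadRing_regular V ϖ hϖ hV r c'
  have hφ := flatFiniteFibre_comp hφ₁ hflat₂ hm₂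
  have htr' := TransTo.map φ₂ hm₂ htr
  rw [Ideal.map_map, Ideal.map_map, Ideal.map_span, ← Set.range_comp] at htr'
  obtain ⟨hflat, hle, k, hk⟩ := hφ
  let _ : Algebra R (QuadRing V ϖ r c') := (φ₂.comp φ₁).toAlgebra
  have i1 : Module.Flat R (QuadRing V ϖ r c') := hflat
  have i2 : IsLocalHom (algebraMap R (QuadRing V ϖ r c')) := isLocalHom_of_fibre _ hle
  have hfin : Module.length (QuadRing V ϖ r c') (QuadRing V ϖ r c' ⧸
      (maximalIdeal R).map (algebraMap R (QuadRing V ϖ r c'))) ≠ ⊤ :=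
    length_fibre_ne_top _ hk
  refine serrePair_descend_finite hfin (R ⧸ P) (R ⧸ Q) ?_
  refine serrePair_of_transTo V ϖ hϖ hV r c' (QuadRing V ϖ r c' ⊗[R] (R ⧸ P))
    (QuadRing V ϖ r c' ⊗[R] (R ⧸ Q)) (length_tensor_ne_top_of_fibre hfin _ _ hlen) ?_
  have hann : ∀ I : Ideal R, I.map (φ₂.comp φ₁) ≤
      Module.annihilator (QuadRing V ϖ r c') (QuadRing V ϖ r c' ⊗[R] (R ⧸ I)) := by
    intro I
    refine le_trans ?_ (map_annihilator_le (R ⧸ I))
    rw [Ideal.annihilator_quotient]
    exact le_rfl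
  refine htr'.mono ((Ideal.map_mono hP).trans (hann P)) ((Ideal.map_mono hQ).trans (hann Q)) ?_
  rw [Ideal.span_le]
  rintro _ ⟨i, rfl⟩
  obtain ⟨v', rfl⟩ := hv
  have h1 : (φ₂ ∘ fun i => ∑ j, (c i j + c j i) * x j) i = (↑v'⁻¹ : QuadRing V ϖ r c') *
      ∑ m, Ideal.Quotient.mk (Ideal.span {quadEq V ϖ r c'})
        ((c' i m + c' m i) * MvPowerSeries.X m) := by
    rw [Function.comp_apply, map_sum, Finset.mul_sum]
    refine Finset.sum_congr rfl fun j _ => ?_
    rw [map_mul, map_mul, map_add, map_add, ← hC, ← hC, hX, ← mul_add, ← mul_assoc, ← mul_assoc,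
      Units.inv_mul, one_mul]
  rw [SetLike.mem_coe, h1]
  exact Ideal.mul_mem_left _ _ (Ideal.subset_span ⟨i, rfl⟩)

theorem good_of_hypersurface {R S A C : Type u} [CommRing R] [IsRegularLocalRing R] {d : ℕ}
    (hd : ringKrullDim R = d) [CommRing S] [CommRing A] [IsLocalRing A] [CommRing C]
    [IsLocalRing C] (α : R →+* A) (β : S →+* C) (φ : A →+* C) {P Q : Ideal R}
    (h : OnHypersurface α β P Q) (hφ : FlatFiniteFibre φ)
    (M N : Type u) [AddCommGroup M] [Module R M] [Module.Finite R M]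
    [AddCommGroup N] [Module R N] [Module.Finite R N]
    (hM : P ≤ Module.annihilator R M) (hN : Q ≤ Module.annihilator R N)
    (hlen : Module.length R (M ⊗[R] N) ≠ ⊤) : Good R d M N := by
  obtain ⟨hdS', ht, hα, hβ, ⟨f, hf, hf0, hα'⟩, g, hg0, hβ'⟩ := h
  have hdS : ringKrullDim S = d := hdS'.trans hd
  obtain ⟨hregS, hall⟩ := tame_serreAll ht
  obtain ⟨e, -⟩ : ∃ e : (R ⧸ Ideal.span {f}) ≃+* A, True :=
    ⟨(Ideal.quotEquivOfEq hα'.symm).trans (RingHom.quotientKerEquivOfSurjective hα), trivial⟩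
  have hlA : IsLocalRing (R ⧸ Ideal.span {f}) := e.symm.isLocalRing
  have hφ' : FlatFiniteFibre (φ.comp (e : (R ⧸ Ideal.span {f}) →+* A)) := by
    obtain ⟨h1, h2, k, h3⟩ := hφ
    have he : (maximalIdeal (R ⧸ Ideal.span {f})).map (e : (R ⧸ Ideal.span {f}) →+* A) =
        maximalIdeal A := map_maximalIdeal_of_surjective _ e.surjective
    refine ⟨(RingHom.Flat.of_bijective e.bijective).comp h1, ?_, k, ?_⟩
    · rw [← Ideal.map_map, he]
      exact h2
    · rw [← Ideal.map_map, he]
      exact h3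
  obtain ⟨hflat, hle, k, hk⟩ := hφ'
  let _ : Algebra (R ⧸ Ideal.span {f}) C := (φ.comp (e : (R ⧸ Ideal.span {f}) →+* A)).toAlgebra
  let _ : Algebra S C := β.toAlgebra
  have hnC : IsNoetherianRing C := isNoetherianRing_of_surjective S C β hβ
  have i1 : Module.Flat (R ⧸ Ideal.span {f}) C := hflat
  have i2 : IsLocalHom (algebraMap (R ⧸ Ideal.span {f}) C) := isLocalHom_of_fibre _ hle
  exact good_power_torsion' R d hd f hf0 S hdS (hall d hdS) g
    hg0 C (length_fibre_ne_top _ hk) hβ hβ' M N 1 1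
    (fun x => by rw [pow_one]; exact Module.mem_annihilator.1 (hM hf.1) x)
    (fun x => by rw [pow_one]; exact Module.mem_annihilator.1 (hN hf.2) x) hlen

theorem good_of_goodPair {R : Type u} [CommRing R] [IsRegularLocalRing R] {d : ℕ}
    (hd : ringKrullDim R = d) {P₀ Q₀ : Ideal R} (h : GoodPair P₀ Q₀) (P Q : Ideal R)
    (hPp : P.IsPrime) (hP : P₀ ≤ P) (hQ : Q₀ ≤ Q)
    (hlen : Module.length R ((R ⧸ P) ⊗[R] (R ⧸ Q)) ≠ ⊤) : Good R d (R ⧸ P) (R ⧸ Q) := by
  have hlen' : Module.length R ((R ⧸ Q) ⊗[R] (R ⧸ P)) ≠ ⊤ := by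
    rw [(TensorProduct.comm R (R ⧸ Q) (R ⧸ P)).length_eq]
    exact hlen
  cases h with
  | tame ψ hψ hker ht =>
    rcases hker with hker | hker
    · exact (sp_of_tame hd ψ hψ ht P (hker.trans hP) _ hlen).good
    · exact (sp_of_tame hd ψ hψ ht Q (hker.trans hQ) _ hlen').symm.good
  | transversal φ hφ h => exact (sp_of_transversal hd φ hφ h P Q hP hQ hlen).good
  | hypersurface α β φ h hφ =>
    refine good_of_hypersurface hd α β φ h hφ (R ⧸ P) (R ⧸ Q) ?_ ?_ hlen
    · rw [Ideal.annihilator_quotient]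
      exact hP
    · rw [Ideal.annihilator_quotient]
      exact hQ
  | residual p hp hp0 hmem =>
    have : Fact p.Prime := ⟨hp⟩
    refine good_p_power R d hd p hp0 (IsLocalRing.le_maximalIdeal hPp.ne_top (hP hmem.1))
      (R ⧸ P) (R ⧸ Q) 1 1 (fun x => ?_) (fun x => ?_) hlen
    · rw [pow_one]
      refine Module.mem_annihilator.1 ?_ x
      rw [Ideal.annihilator_quotient]
      exact hP hmem.1
    · rw [pow_one]
      refine Module.mem_annihilator.1 ?_ x
      rw [Ideal.annihilator_quotient]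
      exact hQ hmem.2

theorem goodCase : GoodCase.{u} := by
  intro R _ _ d hd M N _ _ _ _ _ _ h hlen
  refine serreHolds_of_sp hd hlen ?_
  refine good_dev₂ hd M N hlen fun P Q hP hQ hle hleQ hl => ?_
  obtain ⟨P₀, hP₀, hPP⟩ := Ideal.exists_minimalPrimes_le hle
  obtain ⟨Q₀, hQ₀, hQQ⟩ := Ideal.exists_minimalPrimes_le hleQ
  exact good_of_goodPair hd (h P₀ hP₀ Q₀ hQ₀) P Q hP hPP hQQ hl

theorem essSmoothCase : EssSmoothCase.{u} := by
  intro A R _ _ _ _ _ _ _ d hd M N _ _ _ _ _ _ hfib hlen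
  have hreg := (regular_flat_of_essSmooth A R).1
  have h := serre_essSmooth_loc A R d hd M N hfib hlen
  exact ⟨hreg, serreHolds_of_sp hd hlen ⟨h.1, fun a b ha hb hab => (h.2 a b ha hb).2 hab⟩⟩

end Vale.Agent.P177
end
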